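import Crest.Agent.T223.BrDef_13

/-!
# Row 223 (S0345), bridge, the target statement (helper13)

`YauImm n` : `YauStmt n` with the (automatic) non-degeneracy of the differential in the conclusion.
-/

set_option autoImplicit false

namespace Crest.Agent.T223.Br

open Crest.Agent.R275.Geo Crest.Agent.R273.Kah_333 Crest.Agent.R273.RMan4_798

/-- **the intrinsic statement**, with injective differential -/
def YauImm (n : ℕ) : Prop :=
  ∀ (M : Type) [TopologicalSpace M] [T2Space M] [ConnectedSpace M] [SecondCountableTopology M]
    [NoncompactSpace M] (A : Atl n M) (K : Kah A), ProperSpace (ofKah K).M → (∃ ρ, Exh K ρ) →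
    BKpos K → ∃ F : M → Cn n, Function.Bijective F ∧
      (∀ i, DifferentiableOn ℂ (fun z => F ((A.e i).symm z)) (A.e i).target) ∧
      ∀ i, ∀ z ∈ (A.e i).target, Function.Injective (fderiv ℂ (fun z => F ((A.e i).symm z)) z)

end Crest.Agent.T223.Br
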