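import Crest.Agent.R273.RMan4_798

/-!
# Row 223 (S0345), bridge (helper13): maps with `|dι| ≤ 1` in the charts are `1`-Lipschitz

`lip_ratl` for Riemannian chart data `RAtl`, `lip_kah` for Kaehler metrics.
-/

set_option autoImplicit false

open Set Filter Topology Manifold Bundle
open scoped ContDiff Manifold

namespace Crest.Agent.T223.Br

open Crest.Agent.R275.Geo Crest.Agent.R273.Kah_333 Crest.Agent.R273.RMan4_798
open Crest.Agent.R273.Ric_798 Crest.Agent.R273.RMan_798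

noncomputable section

variable {F : Type} [NormedAddCommGroup F] [InnerProductSpace ℝ F]

theorem lip_ratl {d : ℕ} {X : Type} [TopologicalSpace X] [T2Space X] [ConnectedSpace X]
    (R : RAtl d X) (ι : X → F)
    (hs : ∀ i, ContDiffOn ℝ 1 (fun y => ι ((R.c i).symm y)) (R.c i).target)
    (hn : ∀ i, ∀ y ∈ (R.c i).target, ∀ v,
      ‖fderiv ℝ (fun y => ι ((R.c i).symm y)) y v‖ ^ 2 ≤ R.bil i y v v) (x y : R.M) :
    dist (ι x) (ι y) ≤ dist x y := by
  set f : R.M → F := ι with hf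
  have hc : ∀ x : R.M, ContDiffAt ℝ 1 (fun y => ι ((R.c (R.idx x)).symm y)) (R.c (R.idx x) x) :=
    fun x => (hs _).contDiffAt ((R.c (R.idx x)).open_target.mem_nhds (R.mem_target x))
  have hco : ∀ x : R.M, ContinuousAt f x := by
    intro x
    have h1 : ContinuousAt (fun z : R.M => ι ((R.c (R.idx x)).symm (R.ch (R.idx x) z))) x :=
      ContinuousAt.comp (f := R.ch (R.idx x)) (hc x).continuousAt
        ((R.ch (R.idx x)).continuousAt (R.idx_mem x))
    refine h1.congr ?_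
    filter_upwards [(R.ch (R.idx x)).open_source.mem_nhds (R.idx_mem x)] with z hz
    exact congrArg ι ((R.ch (R.idx x)).left_inv hz)
  have hm : ContMDiff (𝓡 d) 𝓘(ℝ, F) 1 f := by
    intro x
    rw [contMDiffAt_iff]
    refine ⟨hco x, ?_⟩
    simp only [modelWithCornersSelf_coe, range_id, contDiffWithinAt_univ]
    exact hc x
  have hd : ∀ (x : R.M) (v : TangentSpace (𝓡 d) x), ‖mfderiv (𝓡 d) 𝓘(ℝ, F) f x v‖ₑ ≤ ‖v‖ₑ := by
    intro x v
    have h1 : HasMFDerivAt (𝓡 d) 𝓘(ℝ, F) f x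
        (fderiv ℝ (fun y => ι ((R.c (R.idx x)).symm y)) (R.c (R.idx x) x)) :=
      ⟨hco x, ((hc x).differentiableAt (by simp)).hasFDerivAt.hasFDerivWithinAt⟩
    have h2 : ‖fderiv ℝ (fun y => ι ((R.c (R.idx x)).symm y)) (R.c (R.idx x) x) (v : EE d)‖
        ≤ ‖v‖ := by
      rw [← sq_le_sq₀ (norm_nonneg _) (norm_nonneg _), ← real_inner_self_eq_norm_sq v]
      exact hn _ _ (R.mem_target x) v
    rw [h1.mfderiv, enorm_tangentSpace_vectorSpace, ← ofReal_norm v]
    exact (ofReal_norm _).symm.trans_le (ENNReal.ofReal_le_ofReal h2)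
  have h1 : riemannianEDist 𝓘(ℝ, F) (f x) (f y) ≤ riemannianEDist (𝓡 d) x y := by
    refine le_of_forall_gt fun r hr => ?_
    obtain ⟨γ, h0, h1, hs, hl⟩ := exists_lt_of_riemannianEDist_lt hr
    refine lt_of_le_of_lt ?_ hl
    have hs' : ContMDiffOn 𝓘(ℝ, ℝ) 𝓘(ℝ, F) 1 (f ∘ γ) (Icc 0 1) := hm.comp_contMDiffOn hs
    refine (riemannianEDist_le_pathELength hs' (by simp [h0]) (by simp [h1]) zero_le_one).trans ?_
    rw [pathELength_eq_lintegral_mfderivWithin_Icc, pathELength_eq_lintegral_mfderivWithin_Icc]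
    refine MeasureTheory.setLIntegral_mono' measurableSet_Icc fun t ht => ?_
    have h2 : mfderivWithin 𝓘(ℝ, ℝ) 𝓘(ℝ, F) (f ∘ γ) (Icc 0 1) t =
        (mfderiv (𝓡 d) 𝓘(ℝ, F) f (γ t)).comp (mfderivWithin 𝓘(ℝ, ℝ) (𝓡 d) γ (Icc 0 1) t) := by
      apply mfderiv_comp_mfderivWithin
      · exact (hm (γ t)).mdifferentiableAt (by simp)
      · exact hs.mdifferentiableOn (by simp) t ht
      · rw [uniqueMDiffWithinAt_iff_uniqueDiffWithinAt]
        exact uniqueDiffOn_Icc zero_lt_one t ht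
    rw [h2]
    exact hd _ _
  rw [← IsRiemannianManifold.out (I := 𝓘(ℝ, F)) (f x) (f y),
    ← IsRiemannianManifold.out (I := 𝓡 d) x y, edist_dist, edist_dist] at h1
  exact (ENNReal.ofReal_le_ofReal_iff dist_nonneg).1 h1

/-- a `C¹` map with `|dι v|² ≤ g(v, v)` in the holomorphic charts is `1`-Lipschitz for the
Riemannian distance of the Kaehler metric -/
theorem lip_kah {n : ℕ} {M : Type} [TopologicalSpace M] [T2Space M] [ConnectedSpace M]
    {A : Atl n M} (K : Kah A) (ι : M → F)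
    (hs : ∀ i, ContDiffOn ℝ 1 (fun z => ι ((A.e i).symm z)) (A.e i).target)
    (hn : ∀ i, ∀ z ∈ (A.e i).target, ∀ v,
      ‖fderiv ℝ (fun z => ι ((A.e i).symm z)) z v‖ ^ 2 ≤ G (KK K i) z v v)
    (x y : (ofKah K).M) : dist (ι x) (ι y) ≤ dist x y := by
  refine lip_ratl (ofKah K) ι (fun i => ?_) (fun i y hy v => ?_) x y
  · exact (hs i).comp (eR n).symm.contDiff.contDiffOn
      fun y hy => (Set.ext_iff.1 (cR_target (A := A) i) y).1 hy
  · have hy' : (eR n).symm y ∈ (A.e i).target := (Set.ext_iff.1 (cR_target (A := A) i) y).1 hy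
    have h1 : fderiv ℝ (fun y => ι (((ofKah K).c i).symm y)) y =
        (fderiv ℝ (fun z => ι ((A.e i).symm z)) ((eR n).symm y)).comp
          ((eR n).symm : EE (2 * n) →L[ℝ] Cn n) :=
      (eR n).symm.comp_right_fderiv (f := fun z => ι ((A.e i).symm z))
    rw [h1, RAtl.bil_apply]
    refine (hn i _ hy' _).trans (le_of_eq ?_)
    exact (sum_hm (eR n) ((kd K i).pd _ hy').1 v v).symm

end

end Crest.Agent.T223.Br
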