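import Crest.Agent.T223.Br3_13
import Crest.Agent.T223.BrLip_13
import Crest.Agent.T223.BrDef2_13

/-!
# Row 223 (S0345), bridge, part 4 (helper13): the Kaehler manifold of an extrinsic Kaehler
structure, and the reduction `s0345_of` of the statement to `YauImm`
-/

set_option autoImplicit false

open Set Filter Topology Complex
open scoped ContDiff RealInnerProductSpace Matrix ComplexConjugate
open Crest.GeometryTopology.Submanifold

namespace Crest.Agent.T223.Br

open Crest.Agent.R241.Geo Crest.Agent.R275.Geo Crest.Agent.R273.RMan4_798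
open Crest.Agent.R273.Kah_333 Crest.Agent.R275.EDR890 Crest.Agent.N222.D
open Crest.Agent.R273.Ric_798 Crest.Agent.R275.Core144

noncomputable section

variable {n N : ℕ} {S : Set (Euc N)} {p p' : Euc N} {f f' : Euc (2 * n) → Euc N}
  {V V' : Set (Euc (2 * n))} {J : Euc N → Euc N →L[ℝ] Euc N}

theorem diffC {τ : Cn n → Cn n} {z : Cn n} (h : DifferentiableAt ℝ τ z)
    (hI : ∀ u, fderiv ℝ τ z (I • u) = I • fderiv ℝ τ z u) : DifferentiableAt ℂ τ z := by
  let L : Cn n →L[ℂ] Cn n :=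
    { toFun := fderiv ℝ τ z
      map_add' := map_add _
      map_smul' := fun c u => by
        rw [RingHom.id_apply, csmul_eq c u, csmul_eq c (fderiv ℝ τ z u), map_add, map_smul,
          map_smul, hI]
      cont := (fderiv ℝ τ z).continuous }
  exact (hasFDerivAt_of_restrictScalars ℝ (f' := L) h.hasFDerivAt (by ext1; rfl)).differentiableAt

theorem wdM_congr {g g' : Cn n → Matrix (Fin n) (Fin n) ℂ} {z : Cn n} (h : g =ᶠ[𝓝 z] g')
    (s : WI n) : wdM s g z = wdM s g' z := by
  ext a b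
  refine wd_congr ?_ s
  filter_upwards [h] with w hw
  rw [hw]

theorem bis_congr {g g' : Cn n → Matrix (Fin n) (Fin n) ℂ} {z : Cn n} (h : g =ᶠ[𝓝 z] g')
    (v w : Cn n) : bis g z v w = bis g' z v w := by
  have h1 : ∀ s, wdM s g =ᶠ[𝓝 z] wdM s g' := fun s =>
    h.eventually_nhds.mono fun y hy => wdM_congr hy s
  simp only [bis, Rm, wdM_congr h, wdM_congr (h1 _), h.self_of_nhds]

/-- the centre of the unit cube -/
def ctr (n : ℕ) : Cn n := cc (fun _ => 1 / 2)

/-- the affine identification of the parameter space with `ℂⁿ` -/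
def aff (n : ℕ) : Euc (2 * n) ≃ₜ Cn n where
  toFun y := (eR n).symm y + ctr n
  invFun z := eR n (z - ctr n)
  left_inv y := by simp
  right_inv z := by simp
  continuous_toFun := by fun_prop
  continuous_invFun := by fun_prop

theorem cd_aff : ContDiff ℝ ∞ (aff n) := (eR n).symm.contDiff.add contDiff_const

theorem cd_aff_symm : ContDiff ℝ ∞ (aff n).symm :=
  (eR n).contDiff.comp (contDiff_id.sub contDiff_const)

theorem fd_aff {F : Type} [NormedAddCommGroup F] [NormedSpace ℝ F] (k : Euc (2 * n) → F)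
    (z u : Cn n) :
    fderiv ℝ (fun z => k ((aff n).symm z)) z u = fderiv ℝ k ((aff n).symm z) (eR n u) := by
  have h1 : fderiv ℝ (fun z => k ((aff n).symm z)) z = fderiv ℝ (k ∘ eR n) (z - ctr n) :=
    fderiv_comp_sub (f := k ∘ eR n) (ctr n)
  rw [h1, (eR n).comp_right_fderiv]
  rfl

/-- the holomorphic chart of a holomorphic parametrisation -/
def hch (H : HP S J p f V) : OpenPartialHomeomorph S (Cn n) :=
  (subChart H.lp).transHomeomorph (aff n)

/-- the parametrisation read on `ℂⁿ` -/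
def hpar (f : Euc (2 * n) → Euc N) (z : Cn n) : Euc N := f ((aff n).symm z)

theorem hch_symm (H : HP S J p f V) {z : Cn n} (hz : z ∈ (hch H).target) :
    (((hch H).symm z : S) : Euc N) = hpar f z := subChart_symm H.lp hz

theorem hch_mem (H : HP S J p f V) {z : Cn n} (hz : z ∈ (hch H).target) : (aff n).symm z ∈ V := hz

theorem fd_hpar (f : Euc (2 * n) → Euc N) (z u : Cn n) :
    fderiv ℝ (hpar f) z u = fderiv ℝ f ((aff n).symm z) (eR n u) := fd_aff f z u

theorem hpar_cd (H : HP S J p f V) {z : Cn n} (hz : z ∈ (hch H).target) :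
    ContDiffAt ℝ ∞ (hpar f) z :=
  ContDiffAt.comp (g := f) z (lp_contDiffAt H.lp hz) cd_aff_symm.contDiffAt

theorem d2_hpar (H : HP S J p f V) {z : Cn n} (hz : z ∈ (hch H).target) (a b : Cn n) :
    d2 (hpar f) z a b = fderiv ℝ (fderiv ℝ f) ((aff n).symm z) (eR n a) (eR n b) := by
  rw [d2, ← fd_apply (hpar_cd H hz), ← fd_apply (lp_contDiffAt H.lp (hch_mem H hz)),
    ← fd_aff (fun x => fderiv ℝ f x (eR n b))]
  simp only [fd_hpar]

theorem hpar_hol (H : HP S J p f V) {z : Cn n} (hz : z ∈ (hch H).target) (v : Cn n) :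
    J (hpar f z) (fderiv ℝ (hpar f) z v) = fderiv ℝ (hpar f) z (I • v) := by
  rw [fd_hpar, fd_hpar]
  exact H.hol _ hz v

theorem HP.ki (hJ : IsKahlerStructure (2 * n) N S J) (H : HP S J p f V) :
    KI (hpar f) (hch H).target where
  op := (hch H).open_target
  sm _ hz := (hpar_cd H hz).contDiffWithinAt
  inj z hz u v huv := by
    rw [fd_hpar, fd_hpar] at huv
    exact (eR n).injective (H.lp.injective_fderiv _ hz huv)
  orth z hz u v := by
    rw [← hpar_hol H hz, ← hpar_hol H hz, fd_hpar, fd_hpar]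
    exact J_orth hJ H.lp hz _ _
  par z hz w v u := by
    have e1 : (fun x => J (f x) (fderiv ℝ f x (eR n v))) =ᶠ[𝓝 ((aff n).symm z)]
        fun x => fderiv ℝ f x (eR n (I • v)) := by
      filter_upwards [H.lp.isOpen.mem_nhds hz] with x hx
      exact H.hol x hx v
    have h := J_par hJ H.lp (hch_mem H hz) (eR n w) (eR n v) (eR n u)
    rw [e1.fderiv_eq, fd_apply (lp_contDiffAt H.lp (hch_mem H hz)), H.hol _ (hch_mem H hz)] at h
    rw [d2_hpar H hz, d2_hpar H hz, fd_hpar, fd_hpar]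
    exact h

/-- a holomorphic chart read in an arbitrary parametrisation -/
def sig (hf : IsLocalParam (2 * n) N S p f V) (H : HP S J p' f' V') (x : Euc (2 * n)) : Cn n :=
  hch H ((subChart hf).symm x)

section Sig

variable (hf : IsLocalParam (2 * n) N S p f V) (H : HP S J p' f' V') {y : Euc (2 * n)} (hy : y ∈ V)
  (hy' : (subChart hf).symm y ∈ (hch H).source)
include hy hy'

theorem sig_cd : ContDiffAt ℝ ∞ (sig hf H) y := by
  refine ContDiffAt.comp (g := aff n) y cd_aff.contDiffAt (subChart_tr hf H.lp hy ?_)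
  rw [← subChart_symm hf hy]
  exact hy'

theorem sig_ev : ∀ᶠ x in 𝓝 y, x ∈ V ∧ (subChart hf).symm x ∈ (hch H).source :=
  Filter.Eventually.and (p := fun x => x ∈ V) (hf.isOpen.mem_nhds hy)
    (((subChart hf).continuousAt_symm hy).preimage_mem_nhds ((hch H).open_source.mem_nhds hy'))

theorem sig_val : hpar f' (sig hf H y) = f y := by
  rw [sig, ← hch_symm H ((hch H).map_source hy'), (hch H).left_inv hy', subChart_symm hf hy]

theorem sig_fd (u : Euc (2 * n)) :
    fderiv ℝ (hpar f') (sig hf H y) (fderiv ℝ (sig hf H) y u) = fderiv ℝ f y u := by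
  have e1 : f =ᶠ[𝓝 y] fun x => hpar f' (sig hf H x) :=
    (sig_ev hf H hy hy').mono fun x hx => (sig_val hf H hx.1 hx.2).symm
  rw [e1.fderiv_eq, fderiv_fun_comp y (cd_diff (hpar_cd H ((hch H).map_source hy')))
    (cd_diff (sig_cd hf H hy hy'))]
  rfl

theorem sig_J (hJ : IsKahlerStructure (2 * n) N S J) {a a' : Euc (2 * n)}
    (h : fderiv ℝ f y a' = J (f y) (fderiv ℝ f y a)) :
    fderiv ℝ (sig hf H) y a' = I • fderiv ℝ (sig hf H) y a := by
  have ht : sig hf H y ∈ (hch H).target := (hch H).map_source hy'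
  apply (H.ki hJ).inj _ ht
  rw [sig_fd hf H hy hy', ← hpar_hol H ht, sig_fd hf H hy hy', sig_val hf H hy hy', h]

end Sig

theorem tr_diff (hJ : IsKahlerStructure (2 * n) N S J) (H : HP S J p f V) (H' : HP S J p' f' V')
    {z : Cn n} (hz : z ∈ (hch H).target) (hz' : (hch H).symm z ∈ (hch H').source) :
    DifferentiableAt ℂ (fun w => hch H' ((hch H).symm w)) z := by
  have h1 : ContDiffAt ℝ ∞ (fun w => sig H.lp H' ((aff n).symm w)) z :=
    ContDiffAt.comp (g := sig H.lp H') z (sig_cd H.lp H' hz hz') cd_aff_symm.contDiffAt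
  refine diffC (τ := fun w => sig H.lp H' ((aff n).symm w)) (cd_diff h1) fun u => ?_
  rw [fd_aff, fd_aff]
  exact sig_J H.lp H' hz hz' hJ (H.hol _ hz u).symm

/-- the index type of the holomorphic atlas -/
def HIx (n N : ℕ) (S : Set (Euc N)) (J : Euc N → Euc N →L[ℝ] Euc N) : Type :=
  {q : Euc N × (Euc (2 * n) → Euc N) × Set (Euc (2 * n)) // HP S J q.1 q.2.1 q.2.2}

/-- the holomorphic atlas -/
def atl (hS : IsSubmanifold (2 * n) N S) (hJ : IsKahlerStructure (2 * n) N S J) : Atl n S where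
  ι := HIx n N S J
  e q := hch q.2
  cover x := by
    obtain ⟨f, V, H⟩ := exists_hp hS hJ x.2
    exact ⟨⟨(x.1, f, V), H⟩, 0, H.lp.zero_mem, H.lp.map_zero⟩
  cube q z hz r := by
    have h1 : ‖z - ctr n‖ < 1 / 2 := by
      have := q.2.small _ hz
      change ‖(eR n).symm (eR n (z - ctr n))‖ < 1 / 2 at this
      rwa [ContinuousLinearEquiv.symm_apply_apply] at this
    have h2 : ‖(z - ctr n) r.1‖ < 1 / 2 := (PiLp.norm_apply_le _ _).trans_lt h1
    have h3 := abs_lt.1 ((abs_re_le_norm _).trans_lt h2)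
    have h4 := abs_lt.1 ((abs_im_le_norm _).trans_lt h2)
    simp only [PiLp.sub_apply, ctr, cc_apply, sub_re, add_re, ofReal_re, mul_re, I_re, mul_zero,
      ofReal_im, I_im, mul_one, sub_self, add_zero, sub_im, add_im, mul_im, zero_add] at h3 h4
    unfold rc
    split_ifs
    · constructor <;> linarith [h3.1, h3.2]
    · constructor <;> linarith [h4.1, h4.2]
  holo q r z hz := (tr_diff hJ q.2 r.2 hz.1 hz.2).differentiableWithinAt

theorem gm_ev (H : HP S J p f V) {z : Cn n} (hz : z ∈ (hch H).target) :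
    (fun w => gm (hpar f) (hch H ((hch H).symm w))) =ᶠ[𝓝 z] gm (hpar f) := by
  filter_upwards [(hch H).open_target.mem_nhds hz] with w hw
  rw [(hch H).right_inv hw]

theorem gm_ev' (H : HP S J p f V) {z : Cn n} (hz : z ∈ (hch H).target) (a b : Fin n) :
    (fun w => gm (hpar f) (hch H ((hch H).symm w)) a b) =ᶠ[𝓝 z] fun w => gm (hpar f) w a b :=
  (gm_ev H hz).mono fun _ hw => congrArg (fun m : Matrix (Fin n) (Fin n) ℂ => m a b) hw

/-- the Kaehler metric -/
def kah (hS : IsSubmanifold (2 * n) N S) (hJ : IsKahlerStructure (2 * n) N S J) :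
    Kah (atl hS hJ) where
  g q x := gm (hpar q.1.2.1) (hch q.2 x)
  sm q a b := ((q.2.ki hJ).gm_sm a b).congr fun _ hz => (gm_ev' q.2 hz a b).self_of_nhds
  pos q x hx := ((q.2.ki hJ).orth _ ((hch q.2).map_source hx)).posDef
    ((q.2.ki hJ).inj _ ((hch q.2).map_source hx))
  tr q r x hx := by
    have hz : hch q.2 x ∈ (hch q.2).target := (hch q.2).map_source hx.1
    have hl : (hch q.2).symm (hch q.2 x) = x := (hch q.2).left_inv hx.1
    have hz' : (hch q.2).symm (hch q.2 x) ∈ (hch r.2).source := by rw [hl]; exact hx.2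
    have hd := tr_diff hJ q.2 r.2 hz hz'
    refine gL_tr ((r.2.ki hJ).orth _ ((hch r.2).map_source hx.2))
      (fderiv ℂ (fun w => hch r.2 ((hch q.2).symm w)) (hch q.2 x)) (fun u => ?_) _ fun b a => rfl
    have h1 : fderiv ℂ (fun w => hch r.2 ((hch q.2).symm w)) (hch q.2 x) u =
        fderiv ℝ (fun w => sig q.2.lp r.2 ((aff n).symm w)) (hch q.2 x) u := by
      have := hd.fderiv_restrictScalars ℝ
      exact (congrArg (fun L => L u) this).symm
    have h2 : sig q.2.lp r.2 ((aff n).symm (hch q.2 x)) = hch r.2 x := congrArg (hch r.2) hl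
    rw [h1, fd_aff, fd_hpar, ← h2]
    exact (sig_fd q.2.lp r.2 hz hz' _).symm
  closed q z hz a b c := by
    refine (wd_congr (gm_ev' q.2 hz a b) _).trans (Eq.trans ?_ (wd_congr (gm_ev' q.2 hz c b) _).symm)
    exact (q.2.ki hJ).closed hz a b c
  closed' q z hz a b c := by
    refine (wd_congr (gm_ev' q.2 hz a b) _).trans (Eq.trans ?_ (wd_congr (gm_ev' q.2 hz a c) _).symm)
    exact (q.2.ki hJ).closed' hz a b c

section Props

variable (hS : IsSubmanifold (2 * n) N S) (hJ : IsKahlerStructure (2 * n) N S J)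

theorem kah_G (q : HIx n N S J) {z : Cn n} (hz : z ∈ (hch q.2).target) (u v : Cn n) :
    G (KK (kah hS hJ) q) z u v = ⟪fderiv ℝ (hpar q.1.2.1) z u, fderiv ℝ (hpar q.1.2.1) z v⟫ :=
  ((q.2.ki hJ).orth z hz).G_eq (congrArg Matrix.transpose (gm_ev q.2 hz).self_of_nhds) u v

theorem val_ev (H : HP S J p f V) {z : Cn n} (hz : z ∈ (hch H).target) :
    (fun w => (((hch H).symm w : S) : Euc N)) =ᶠ[𝓝 z] hpar f := by
  filter_upwards [(hch H).open_target.mem_nhds hz] with w hw
  exact hch_symm H hw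

theorem kah_bk (hpos : ∀ p ∈ S, ∀ (f : Euc (2 * n) → Euc N) (V : Set (Euc (2 * n))),
    IsLocalParam (2 * n) N S p f V → ∀ X ∈ tangentAt f 0, ∀ Y ∈ tangentAt f 0, X ≠ 0 → Y ≠ 0 →
      0 < riem4 f 0 X (J p X) (J p Y) Y) : BKpos (kah hS hJ) := by
  rintro ⟨⟨p, f, V⟩, H⟩ z hz v w hv hw
  have H' : HP S J p f V := H
  have hz' : z ∈ (hch H').target := hz
  have K := H'.ki hJ
  set y := (aff n).symm z with hy
  have hyV : y ∈ V := hz'
  have ht := lp_translate H'.lp hyV
  have hc := lp_contDiffAt ht ht.zero_mem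
  have hi := ht.injective_fderiv 0 ht.zero_mem
  have e0 : ∀ u, fderiv ℝ (hpar f) z u = fderiv ℝ (fun x => f (x + y)) 0 (eR n u) := by
    intro u
    rw [fd_hpar, fd_tr]
  have hne : ∀ u : Cn n, u ≠ 0 → fderiv ℝ (fun x => f (x + y)) 0 (eR n u) ≠ 0 := by
    intro u hu h0
    rw [← e0] at h0
    exact hu (K.inj z hz' (by rw [h0, map_zero]))
  have hJv : ∀ u : Cn n, J (f y) (fderiv ℝ (fun x => f (x + y)) 0 (eR n u))
      = fderiv ℝ (fun x => f (x + y)) 0 (eR n (I • u)) := by
    intro u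
    rw [fd_tr]
    exact H'.hol y hyV u
  have h := hpos _ (lp_mem H'.lp hyV) _ _ ht _ (mem_tan _ 0 (eR n v)) _ (mem_tan _ 0 (eR n w))
    (hne v hv) (hne w hw)
  rw [hJv, hJv, riem4, sffVec_fd hc hi, sffVec_fd hc hi, sffVec_fd hc hi, sffVec_fd hc hi,
    fd2_tr, ← d2_hpar H' hz', ← d2_hpar H' hz', ← d2_hpar H' hz', ← d2_hpar H' hz'] at h
  have h1 : bis (gc (kah hS hJ) ⟨(p, f, V), H⟩) z v w = bis (gm (hpar f)) z v w :=
    bis_congr (gm_ev H' hz') v w
  rw [h1, K.bis_eq hz' (fun X => (tangentAt (fun x => f (x + y)) 0).starProjection X)]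
  · linarith
  · intro X
    obtain ⟨a, ha⟩ := of_mem_tan ((tangentAt (fun x => f (x + y)) 0).starProjection_apply_mem X)
    exact ⟨(eR n).symm a, by rw [e0, ContinuousLinearEquiv.apply_symm_apply, ha]⟩
  · intro X u
    rw [e0]
    exact Submodule.starProjection_inner_eq_zero X _ (mem_tan _ 0 _)

theorem kah_proper [ConnectedSpace S] (hc : IsClosed S) : ProperSpace (ofKah (kah hS hJ)).M := by
  have hl := lip_kah (kah hS hJ) (fun x : S => (x : Euc N))
    (fun q z hz => (((hpar_cd q.2 hz).congr_of_eventuallyEq (val_ev q.2 hz)).of_le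
      (by simp)).contDiffWithinAt)
    (fun q z hz v => by
      have e : fderiv ℝ (fun w => (((hch q.2).symm w : S) : Euc N)) z
        = fderiv ℝ (hpar q.1.2.1) z := (val_ev q.2 hz).fderiv_eq
      refine le_of_eq (Eq.trans ?_ (kah_G hS hJ q hz v v).symm)
      rw [real_inner_self_eq_norm_sq, ← e]
      rfl)
  refine ⟨fun x r => ?_⟩
  have h1 : IsCompact (X := (ofKah (kah hS hJ)).M)
      ((fun x : S => (x : Euc N)) ⁻¹' Metric.closedBall (x : S).1 r) :=
    hc.isClosedEmbedding_subtypeVal.isCompact_preimage (isCompact_closedBall _ _)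
  exact h1.of_isClosed_subset Metric.isClosed_closedBall fun y hy => (hl y x).trans hy

theorem kah_exh (hc : IsClosed S) :
    Exh (kah hS hJ) (fun x : S => Real.sqrt (1 + ⟪(x : Euc N), (x : Euc N)⟫)) := by
  have hpos : ∀ X : Euc N, 0 < 1 + ⟪X, X⟫ := fun X => by
    have := real_inner_self_nonneg (x := X)
    linarith
  have hev : ∀ (q : HIx n N S J), ∀ z ∈ (hch q.2).target,
      (fun w => Real.sqrt (1 + ⟪(((hch q.2).symm w : S) : Euc N), (((hch q.2).symm w : S) : Euc N)⟫))
        =ᶠ[𝓝 z] fun w => Real.sqrt (1 + ⟪hpar q.1.2.1 w, hpar q.1.2.1 w⟫) := by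
    intro q z hz
    filter_upwards [val_ev q.2 hz] with w hw
    rw [hw]
  refine ⟨fun q z hz => ?_, fun c => ?_, fun q z hz v => ?_⟩
  · have h1 := hpar_cd q.2 hz
    exact (((contDiffAt_const.add (h1.inner ℝ h1)).sqrt (hpos _).ne').congr_of_eventuallyEq
      (hev q z hz)).contDiffWithinAt
  · refine (hc.isClosedEmbedding_subtypeVal.isCompact_preimage
      (isCompact_closedBall (0 : Euc N) c)).of_isClosed_subset
      (isClosed_le (by fun_prop) continuous_const) fun x hx => ?_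
    refine mem_closedBall_zero_iff.2 (le_trans ?_ hx)
    refine Real.le_sqrt_of_sq_le ?_
    rw [real_inner_self_eq_norm_sq]
    linarith
  · have h1 := cd_diff (hpar_cd q.2 hz)
    have e : fderiv ℝ (fun w => Real.sqrt (1 + ⟪(((hch q.2).symm w : S) : Euc N),
        (((hch q.2).symm w : S) : Euc N)⟫)) z = fderiv ℝ
        (fun w => Real.sqrt (1 + ⟪hpar q.1.2.1 w, hpar q.1.2.1 w⟫)) z := (hev q z hz).fderiv_eq
    refine le_of_eq_of_le (congrArg (fun L : Cn n →L[ℝ] ℝ => (L v) ^ 2) e) ?_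
    refine le_of_le_of_eq ?_ (kah_G hS hJ q hz v v).symm
    rw [fderiv_sqrt ((differentiableAt_const _).fun_add (h1.inner ℝ h1)) (hpos _).ne',
      fderiv_const_add]
    simp only [_root_.smul_apply, smul_eq_mul]
    rw [fderiv_inner_apply ℝ h1 h1]
    set X := hpar q.1.2.1 z
    set Y := fderiv ℝ (hpar q.1.2.1) z v
    have h2 := real_inner_mul_inner_self_le X Y
    have h3 := real_inner_self_nonneg (x := Y)
    have h4 := hpos X
    rw [real_inner_comm X Y, mul_pow, div_pow, mul_pow, Real.sq_sqrt h4.le, div_mul_eq_mul_div,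
      div_le_iff₀ (by positivity)]
    nlinarith

end Props

/-- **the bridge** -/
theorem s0345_of (H : ∀ n, 1 ≤ n → YauImm n)
    (n N : ℕ) (hn : 1 ≤ n) (S : Set (EuclideanSpace ℝ (Fin N))) (hS : IsSubmanifold (2 * n) N S)
    (hclosed : IsClosed S) (hconn : IsConnected S) (hnc : ¬ IsCompact S)
    (J : EuclideanSpace ℝ (Fin N) → (EuclideanSpace ℝ (Fin N) →L[ℝ] EuclideanSpace ℝ (Fin N)))
    (hJ : IsKahlerStructure (2 * n) N S J)
    (hpos : ∀ p ∈ S, ∀ (f : EuclideanSpace ℝ (Fin (2 * n)) → EuclideanSpace ℝ (Fin N))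
      (V : Set (EuclideanSpace ℝ (Fin (2 * n)))), IsLocalParam (2 * n) N S p f V →
      ∀ X ∈ tangentAt f 0, ∀ Y ∈ tangentAt f 0, X ≠ 0 → Y ≠ 0 →
        0 < riem4 f 0 X (J p X) (J p Y) Y) :
    ∃ Φ : EuclideanSpace ℝ (Fin N) → EuclideanSpace ℂ (Fin n),
      IsHolomorphicOnto (2 * n) N n S J Φ := by
  classical
  have : ConnectedSpace S := isConnected_iff_connectedSpace.1 hconn
  have : NoncompactSpace S := not_compactSpace_iff.1 fun h => hnc (isCompact_iff_compactSpace.2 h)
  obtain ⟨F, hF, hhol, hinj⟩ := H n hn S (atl hS hJ) (kah hS hJ) (kah_proper hS hJ hclosed)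
    ⟨_, kah_exh hS hJ hclosed⟩ (kah_bk hS hJ hpos)
  let Φ : Euc N → Cn n := fun x => if hx : x ∈ S then F ⟨x, hx⟩ else 0
  have hΦ : ∀ x : S, Φ x = F x := fun x => dif_pos x.2
  have key : ∀ (p : Euc N) (f : Euc (2 * n) → Euc N) (V : Set (Euc (2 * n)))
      (hf : IsLocalParam (2 * n) N S p f V), ∀ y ∈ V, ContDiffAt ℝ ∞ (fun x => Φ (f x)) y ∧
        Function.Injective (fderiv ℝ (fun x => Φ (f x)) y) ∧ ∀ a a',
        fderiv ℝ f y a' = J (f y) (fderiv ℝ f y a) →
        fderiv ℝ (fun x => Φ (f x)) y a' = I • fderiv ℝ (fun x => Φ (f x)) y a := by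
    intro p f V hf y hy
    obtain ⟨q, hq⟩ := (atl hS hJ).cover ((subChart hf).symm y)
    have hq' : (subChart hf).symm y ∈ (hch q.2).source := hq
    have ht : sig hf q.2 y ∈ (hch q.2).target := (hch q.2).map_source hq'
    set Fq : Cn n → Cn n := fun z => F ((hch q.2).symm z) with hFq
    have hd : DifferentiableOn ℂ Fq (hch q.2).target := hhol q
    have h1 : ContDiffAt ℝ ∞ Fq (sig hf q.2 y) :=
      (((R266.SCV.contDiffOn_omega_of_differentiableOn (hch q.2).open_target hd).restrict_scalars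
        ℝ).of_le le_top).contDiffAt ((hch q.2).open_target.mem_nhds ht)
    have h2 : fderiv ℝ Fq (sig hf q.2 y) = (fderiv ℂ Fq (sig hf q.2 y)).restrictScalars ℝ :=
      (hd.differentiableAt ((hch q.2).open_target.mem_nhds ht)).fderiv_restrictScalars ℝ
    have e1 : (fun x => Φ (f x)) =ᶠ[𝓝 y] fun x => Fq (sig hf q.2 x) := by
      filter_upwards [sig_ev hf q.2 hy hq'] with x hx
      rw [← subChart_symm hf hx.1, hΦ, hFq, sig]
      simp only
      rw [(hch q.2).left_inv hx.2]
    have hs := sig_cd hf q.2 hy hq'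
    have e2 : ∀ a, fderiv ℝ (fun x => Φ (f x)) y a
        = fderiv ℂ Fq (sig hf q.2 y) (fderiv ℝ (sig hf q.2) y a) := by
      intro a
      rw [e1.fderiv_eq, fderiv_fun_comp y (cd_diff h1) (cd_diff hs), h2]
      rfl
    refine ⟨(ContDiffAt.comp (g := Fq) y h1 hs).congr_of_eventuallyEq e1, fun a b hab => ?_,
      fun a a' h => ?_⟩
    · rw [e2, e2] at hab
      apply hf.injective_fderiv y hy
      rw [← sig_fd hf q.2 hy hq', ← sig_fd hf q.2 hy hq', hinj q _ ht hab]
    · rw [e2, e2, sig_J hf q.2 hy hq' hJ h, map_smul]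
  refine ⟨Φ, fun p _ f V hf y hy => (key p f V hf y hy).1.contDiffWithinAt,
    fun p _ f V hf => (key p f V hf 0 hf.zero_mem).2.1, fun p _ f V hf v hv => ?_, ?_⟩
  · obtain ⟨a, rfl⟩ := of_mem_tan hv
    obtain ⟨a', ha'⟩ := J_maps hJ hf hf.zero_mem a
    have h := (key p f V hf 0 hf.zero_mem).2.2 a a' ha'
    rw [hf.map_zero] at ha'
    rw [← ha', coordVec_fd (hf.injective_fderiv 0 hf.zero_mem),
      coordVec_fd (hf.injective_fderiv 0 hf.zero_mem), h]
  · refine ⟨mapsTo_univ _ _, fun x hx y hy hxy => ?_, fun z _ => ?_⟩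
    · have h := (hΦ ⟨x, hx⟩).symm.trans (hxy.trans (hΦ ⟨y, hy⟩))
      exact congrArg Subtype.val (hF.1 h)
    · obtain ⟨x, hx⟩ := hF.2 z
      exact ⟨x, x.2, (hΦ x).trans hx⟩

end

end Crest.Agent.T223.Br
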