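import Crest.Agent.T223.Fr_38
import Crest.Agent.T223.EvLA_41
import Crest.Agent.T223.TrEnd_90

/-!
# Row 223 (helper90): Jacobi's formula, `ric = tr Rm`, `BKpos → RicPos`
-/

set_option autoImplicit false
set_option linter.unusedVariables false
set_option linter.unusedSectionVars false

open Set Filter Topology Metric
open scoped ContDiff ComplexConjugate Matrix ComplexOrder

namespace Crest.Agent.T223.Tr

open Crest.Agent.R275.Geo Crest.Agent.R275.EDR890 Crest.Agent.R273.Kah_333
open Crest.Agent.R273.Hess_333 Crest.Agent.R273.HessB_333 Crest.Agent.T223.Br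

noncomputable section

variable {n : ℕ} {g P Q : Cn n → Mat n} {z : Cn n}

theorem wdM_congr (h : P =ᶠ[𝓝 z] Q) (s : WI n) : wdM s P z = wdM s Q z := by
  ext a b
  exact wd_congr (h.mono fun w hw => by simp only [hw]) s

theorem wdM_mul (hP : ∀ a b, DifferentiableAt ℝ (fun w => P w a b) z)
    (hQ : ∀ a b, DifferentiableAt ℝ (fun w => Q w a b) z) (s : WI n) :
    wdM s (fun w => P w * Q w) z = wdM s P z * Q z + P z * wdM s Q z := by
  ext a b
  simp only [wdM, Matrix.of_apply, Matrix.mul_apply, Matrix.add_apply]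
  rw [wd_sum (f := fun c w => P w a c * Q w c b) _ fun c _ => (hP a c).mul (hQ c b),
    ← Finset.sum_add_distrib]
  exact Finset.sum_congr rfl fun c _ => wd_mul (hP a c) (hQ c b) s

theorem wdM_const (C : Mat n) (s : WI n) : wdM s (fun _ => C) z = 0 := by
  ext a b
  exact wd_const _ _ _

theorem wd_trace (hP : ∀ a b, DifferentiableAt ℝ (fun w => P w a b) z) (s : WI n) :
    wd s (fun w => (P w).trace) z = (wdM s P z).trace := by
  simp only [Matrix.trace, Matrix.diag_apply]
  exact wd_sum _ (fun a _ => hP a a) s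

theorem contDiffAt_det (h : ∀ a b, ContDiffAt ℝ ∞ (fun w => g w a b) z) :
    ContDiffAt ℝ ∞ (fun w => (g w).det) z := by
  simp only [Matrix.det_apply']
  exact ContDiffAt.sum fun σ _ => contDiffAt_const.mul (contDiffAt_prod fun a _ => h _ _)

theorem contDiffAt_inv (h : ∀ a b, ContDiffAt ℝ ∞ (fun w => g w a b) z) (h0 : (g z).det ≠ 0)
    (a b : Fin n) : ContDiffAt ℝ ∞ (fun w => (g w)⁻¹ a b) z := by
  have h1 : (fun w => (g w)⁻¹ a b) = fun w => ((g w).det)⁻¹ *
      ((g w).updateRow b (Pi.single a 1)).det := by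
    funext w
    rw [Matrix.inv_def, Ring.inverse_eq_inv', Matrix.smul_apply, smul_eq_mul,
      Matrix.adjugate_apply]
  rw [h1]
  refine ((contDiffAt_det h).inv h0).mul (contDiffAt_det fun c d => ?_)
  by_cases hc : c = b
  · subst hc
    simp only [Matrix.updateRow_self]
    exact contDiffAt_const
  · simp only [Matrix.updateRow_ne hc]
    exact h c d

theorem wdM_inv (h : ∀ a b, ContDiffAt ℝ ∞ (fun w => g w a b) z) (h0 : (g z).det ≠ 0) (s : WI n) :
    wdM s (fun w => (g w)⁻¹) z = -((g z)⁻¹ * wdM s g z * (g z)⁻¹) := by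
  have h1 : (fun w => (g w)⁻¹ * g w) =ᶠ[𝓝 z] fun _ => 1 := by
    filter_upwards [(contDiffAt_det h).continuousAt.eventually_ne h0] with w hw
    exact Matrix.nonsing_inv_mul _ (isUnit_iff_ne_zero.2 hw)
  have h2 := wdM_congr h1 s
  rw [wdM_mul (fun a b => (contDiffAt_inv h h0 a b).differentiableAt (by simp))
    (fun a b => (h a b).differentiableAt (by simp)), wdM_const] at h2
  have h3 : wdM s (fun w => (g w)⁻¹) z * g z = -((g z)⁻¹ * wdM s g z) := eq_neg_of_add_eq_zero_left h2
  calc _ = wdM s (fun w => (g w)⁻¹) z * g z * (g z)⁻¹ := by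
        rw [mul_assoc, Matrix.mul_nonsing_inv _ (isUnit_iff_ne_zero.2 h0), mul_one]
    _ = _ := by rw [h3, neg_mul]

theorem fderiv_det' (h : ∀ a b, ContDiffAt ℝ ∞ (fun w => g w a b) z) (h0 : (g z).det ≠ 0)
    (u : Cn n) : fderiv ℝ (fun w => (g w).det) z u =
      (g z).det * ((g z)⁻¹ * Matrix.of fun a b => fderiv ℝ (fun w => g w a b) z u).trace := by
  have hd : ∀ a b, DifferentiableAt ℝ (fun w => g w a b) z := fun a b =>
    (h a b).differentiableAt (by simp)
  have hdet : DifferentiableAt ℝ (fun w => (g w).det) z :=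
    (contDiffAt_det h).differentiableAt (by simp)
  have hline : HasDerivAt (fun t : ℝ => z + t • u) u 0 := by
    simpa using ((hasDerivAt_id (0 : ℝ)).smul_const u).const_add z
  have hu : IsUnit (g z).det := isUnit_iff_ne_zero.2 h0
  have h1 : HasDerivAt (fun t : ℝ => ((g z)⁻¹ * g (z + t • u)).det)
      ((g z)⁻¹ * Matrix.of fun a b => fderiv ℝ (fun w => g w a b) z u).trace 0 := by
    refine Crest.Agent.R264.D8d.hasDerivAt_detM (A := fun t : ℝ => (g z)⁻¹ * g (z + t • u)) ?_ ?_
    · intro i j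
      simp only [Matrix.mul_apply]
      apply HasDerivAt.fun_sum
      intro c _
      apply HasDerivAt.const_mul
      have h2 : HasFDerivAt (fun w => g w c j) (fderiv ℝ (fun w => g w c j) z)
          (z + (0 : ℝ) • u) := by
        simpa using (hd c j).hasFDerivAt
      exact h2.comp_hasDerivAt (0 : ℝ) hline
    · simp [Matrix.nonsing_inv_mul _ hu]
  have h2 : HasDerivAt (fun t : ℝ => (g (z + t • u)).det)
      (fderiv ℝ (fun w => (g w).det) z u) 0 := by
    have h3 : HasFDerivAt (fun w => (g w).det) (fderiv ℝ (fun w => (g w).det) z)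
        (z + (0 : ℝ) • u) := by
      simpa using hdet.hasFDerivAt
    exact h3.comp_hasDerivAt (0 : ℝ) hline
  have h4 : (fun t : ℝ => (g (z + t • u)).det) =
      fun t : ℝ => (g z).det * ((g z)⁻¹ * g (z + t • u)).det := by
    funext t
    rw [← Matrix.det_mul, ← mul_assoc, Matrix.mul_nonsing_inv _ hu, one_mul]
  rw [h4] at h2
  exact h2.unique (h1.const_mul _)

theorem wd_det (h : ∀ a b, ContDiffAt ℝ ∞ (fun w => g w a b) z) (h0 : (g z).det ≠ 0) (s : WI n) :
    wd s (fun w => (g w).det) z = (g z).det * ((g z)⁻¹ * wdM s g z).trace := by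
  have h1 : wdM s g z = (1 / 2 : ℂ) • ((Matrix.of fun a b => fderiv ℝ (fun w => g w a b) z
      (EuclideanSpace.single s.2 1)) + cI s.1 • Matrix.of fun a b =>
        fderiv ℝ (fun w => g w a b) z (EuclideanSpace.single s.2 Complex.I)) := by
    ext a b; rfl
  rw [wd, wdL, fderiv_det' h h0, fderiv_det' h h0, h1, Matrix.mul_smul, Matrix.mul_add,
    Matrix.mul_smul, Matrix.trace_smul, Matrix.trace_add, Matrix.trace_smul]
  simp only [smul_eq_mul]; ring

/-- Jacobi's formula -/
theorem wd_ldet (h : ∀ a b, ContDiffAt ℝ ∞ (fun w => g w a b) z)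
    (hp : ∀ᶠ w in 𝓝 z, (g w).PosDef) (s : WI n) :
    wd s (cu (ldet g)) z = ((g z)⁻¹ * wdM s g z).trace := by
  have hz := hp.self_of_nhds.det_pos
  have h0 : (g z).det ≠ 0 := hz.ne'
  have h1 : cu (ldet g) =ᶠ[𝓝 z] fun w => Complex.log (g w).det := by
    filter_upwards [hp] with w hw
    have h2 := Complex.pos_iff.1 hw.det_pos
    have h3 : (g w).det = ((g w).det.re : ℂ) := Complex.ext (by simp) (by simp [← h2.2])
    rw [h3, ← Complex.ofReal_log h2.1.le]
    simp [cu, ldet]
  have hs : (g z).det ∈ Complex.slitPlane := Or.inl (Complex.pos_iff.1 hz).1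
  have hdet : DifferentiableAt ℝ (fun w => (g w).det) z :=
    (contDiffAt_det h).differentiableAt (by simp)
  have h2 : HasFDerivAt (fun w => Complex.log (g w).det)
      (((g z).det)⁻¹ • fderiv ℝ (fun w => (g w).det) z) z := by
    refine (((Complex.hasDerivAt_log hs).hasFDerivAt.restrictScalars ℝ).comp z
      hdet.hasFDerivAt).congr_fderiv ?_
    ext u
    simp [mul_comm]
  rw [wd_congr h1, wd, h2.fderiv, wdL_smul]
  change ((g z).det)⁻¹ * wd s (fun w => (g w).det) z = _
  rw [wd_det h h0, ← mul_assoc, inv_mul_cancel₀ h0, one_mul]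

/-- the Ricci form is the trace of the curvature tensor -/
theorem ric_eq_trace (h : ∀ᶠ w in 𝓝 z, ∀ a b, ContDiffAt ℝ ∞ (fun y => g y a b) w)
    (hp : ∀ᶠ w in 𝓝 z, (g w).PosDef) (c d : Fin n) :
    ric g z c d = ((g z)⁻¹ * Rm g z c d).trace := by
  have hz := h.self_of_nhds
  have h0 : (g z).det ≠ 0 := hp.self_of_nhds.det_pos.ne'
  have h1 : wd (true, d) (cu (ldet g)) =ᶠ[𝓝 z] fun w => ((g w)⁻¹ * wdM (true, d) g w).trace := by
    filter_upwards [h, hp.eventually_nhds] with w hw hw'
    exact wd_ldet hw hw' _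
  have hi : ∀ a b, DifferentiableAt ℝ (fun w => (g w)⁻¹ a b) z := fun a b =>
    (contDiffAt_inv hz h0 a b).differentiableAt (by simp)
  have hw : ∀ a b, DifferentiableAt ℝ (fun w => wdM (true, d) g w a b) z := fun a b =>
    (contDiffAt_wd (hz a b) _).differentiableAt (by simp)
  have hm : ∀ a b, DifferentiableAt ℝ (fun w => ((g w)⁻¹ * wdM (true, d) g w) a b) z := by
    intro a b
    simp only [Matrix.mul_apply]
    exact DifferentiableAt.fun_sum fun c _ => (hi a c).mul (hw c b)
  rw [ric, Matrix.neg_apply, hess_apply, wd_congr h1, wd_trace hm, wdM_mul hi hw, wdM_inv hz h0,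
    Rm, ← Matrix.trace_neg]
  congr 1
  noncomm_ring

theorem exists_frame_ric (h : ∀ᶠ w in 𝓝 z, ∀ a b, ContDiffAt ℝ ∞ (fun y => g y a b) w)
    (hp : ∀ᶠ w in 𝓝 z, (g w).PosDef) :
    ∃ e : Fin n → Cn n, (∀ i, nq (g z) (e i) = 1) ∧
      ∀ w, nq (ric g z) w = ∑ i, bis g z (e i) w := by
  obtain ⟨T, d, h1, h2, -⟩ := Ev.exists_diag hp.self_of_nhds hp.self_of_nhds.isHermitian
  have key : ∀ (B : Mat n) i, (Tᴴ * B * T) i i = ∑ a, ∑ b, B a b * conj (T a i) * T b i := by
    intro B i
    simp only [Matrix.mul_apply, Matrix.conjTranspose_apply, RCLike.star_def, Finset.sum_mul]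
    rw [Finset.sum_comm]
    refine Finset.sum_congr rfl fun a _ => Finset.sum_congr rfl fun b _ => ?_
    ring
  refine ⟨fun i => WithLp.toLp 2 fun a => conj (T a i), fun i => ?_, fun w => ?_⟩
  · have := key (g z) i
    rw [h1] at this
    unfold nq
    simp only [Complex.conj_conj]
    rw [← this]; simp
  · unfold nq bis
    rw [← Complex.re_sum]
    congr 1
    simp only [ric_eq_trace h hp, Ev.trg_frame h2]
    simp only [Matrix.trace, Matrix.diag_apply, key, Complex.conj_conj, Finset.sum_mul]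
    calc ∑ c, ∑ d, ∑ i, ∑ a, ∑ b, Rm g z c d a b * conj (T a i) * T b i * w c * conj (w d)
        = ∑ c, ∑ i, ∑ a, ∑ b, ∑ d, Rm g z c d a b * conj (T a i) * T b i * w c * conj (w d) := by
          refine Finset.sum_congr rfl fun c _ => ?_
          rw [Finset.sum_comm]
          refine Finset.sum_congr rfl fun i _ => ?_
          rw [Finset.sum_comm]
          refine Finset.sum_congr rfl fun a _ => ?_
          rw [Finset.sum_comm]
      _ = _ := by
          rw [Finset.sum_comm]
          refine Finset.sum_congr rfl fun i _ => ?_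
          rw [Finset.sum_comm]
          refine Finset.sum_congr rfl fun a _ => ?_
          rw [Finset.sum_comm]

theorem ric_ge_of_BKge (h : KahAt g z) {l : ℝ} (hl : BKge g z l) (w : Cn n) :
    -(n * l * nq (g z) w) ≤ nq (ric g z) w := by
  obtain ⟨e, h1, h2⟩ := exists_frame_ric h.smE h.pos
  rw [h2]
  calc _ = ∑ _i : Fin n, -(l * nq (g z) w) := by simp; ring
    _ ≤ _ := Finset.sum_le_sum fun i _ => by simpa [h1 i] using hl (e i) w

theorem ric_le_of_BKle (h : KahAt g z) {K : ℝ} (hl : BKle g z K) (w : Cn n) :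
    nq (ric g z) w ≤ n * K * nq (g z) w := by
  obtain ⟨e, h1, h2⟩ := exists_frame_ric h.smE h.pos
  rw [h2]
  calc _ ≤ ∑ _i : Fin n, K * nq (g z) w :=
        Finset.sum_le_sum fun i _ => by simpa [h1 i] using hl (e i) w
    _ = _ := by simp; ring

theorem contDiffAt_ldet (h : ∀ a b, ContDiffAt ℝ ∞ (fun w => g w a b) z) (hp : (g z).PosDef) :
    ContDiffAt ℝ ∞ (ldet g) z :=
  (Complex.reCLM.contDiff.contDiffAt.comp z (contDiffAt_det h)).log (det_re_pos hp).ne'

theorem ric_herm (h : ∀ a b, ContDiffAt ℝ ∞ (fun w => g w a b) z) (hp : (g z).PosDef) :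
    (ric g z).IsHermitian := (hess_herm (contDiffAt_ldet h hp)).neg

theorem posDef_of_nq {G : Mat n} (hG : G.IsHermitian) (h : ∀ v : Cn n, v ≠ 0 → 0 < nq G v) :
    G.PosDef := by
  refine Matrix.PosDef.of_dotProduct_mulVec_pos hG fun x hx => ?_
  have h0 : (WithLp.toLp 2 (fun a => conj (x a)) : Cn n) ≠ 0 := by
    intro h1
    apply hx
    funext a
    have := congrArg (fun v : Cn n => v a) h1
    simpa using this
  have h1 := h _ h0
  rw [nq_eq_dot] at h1
  simp only [Complex.conj_conj] at h1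
  refine Complex.lt_def.2 ⟨h1, ?_⟩
  have := hG.im_star_dotProduct_mulVec_self x
  simpa using this.symm

variable {M : Type} [TopologicalSpace M] {A : Atl n M}

theorem ric_posDef_of_BKpos {K : Kah A} (hK : BKpos K) (i : A.ι) {z : Cn n}
    (hz : z ∈ (A.e i).target) : (ric (gc K i) z).PosDef := by
  have hs : ∀ᶠ w in 𝓝 z, ∀ a b, ContDiffAt ℝ ∞ (fun y => gc K i y a b) w := by
    filter_upwards [(A.e i).open_target.mem_nhds hz] with w hw a b
    exact contDiffAt_g K i hw a b
  have hp : ∀ᶠ w in 𝓝 z, (gc K i w).PosDef := by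
    filter_upwards [(A.e i).open_target.mem_nhds hz] with w hw
    exact K.pos i _ ((A.e i).map_target hw)
  refine posDef_of_nq (ric_herm hs.self_of_nhds hp.self_of_nhds) fun w hw => ?_
  obtain ⟨e, h1, h2⟩ := exists_frame_ric hs hp
  rw [h2]
  have hne : (Finset.univ : Finset (Fin n)).Nonempty := by
    by_contra hc
    apply hw
    ext a
    exact absurd ⟨a, Finset.mem_univ a⟩ hc
  refine Finset.sum_pos (fun j _ => hK i z hz _ _ (fun h0 => ?_) hw) hne
  have := h1 j
  rw [h0] at this
  simp [nq] at this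

theorem ricPos_of_BKpos {K : Kah A} (hK : BKpos K) : RicPos K := by
  intro i z hz
  have h := ric_posDef_of_BKpos hK i hz
  rw [ric, ← hess_neg (contDiffAt_ldet (g := gc K i) (fun a b => contDiffAt_g K i hz a b)
    (K.pos i _ ((A.e i).map_target hz)))] at h
  exact h

end

end Crest.Agent.T223.Tr
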