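import Crest.Agent.T223.GeoDef2_76
import Crest.Agent.T223.TrRic_90

/-!
# Row 223 (helper90): `traceStmt : Hn.TraceStmt n`, `pathStmt : Hn.PathStmt n`
-/

set_option autoImplicit false
set_option linter.unusedVariables false
set_option linter.unusedSectionVars false

open Set Filter Topology Metric
open scoped ContDiff ComplexConjugate Matrix ComplexOrder

namespace Crest.Agent.T223.Tr

open Crest.Agent.R275.Geo Crest.Agent.R275.EDR890 Crest.Agent.R273.Kah_333
open Crest.Agent.R273.Hess_333 Crest.Agent.R273.HessB_333 Crest.Agent.T223.Br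

noncomputable section

variable {n : ℕ}

section gen

variable {X : Type*} [NormedAddCommGroup X] [NormedSpace ℝ X] {g : X → Mat n} {z : X}

theorem cdAt_det (h : ∀ a b, ContDiffAt ℝ ∞ (fun w => g w a b) z) :
    ContDiffAt ℝ ∞ (fun w => (g w).det) z := by
  simp only [Matrix.det_apply']
  exact ContDiffAt.sum fun σ _ => contDiffAt_const.mul (contDiffAt_prod fun a _ => h _ _)

theorem cdAt_inv (h : ∀ a b, ContDiffAt ℝ ∞ (fun w => g w a b) z) (h0 : (g z).det ≠ 0)
    (a b : Fin n) : ContDiffAt ℝ ∞ (fun w => (g w)⁻¹ a b) z := by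
  have h1 : (fun w => (g w)⁻¹ a b) = fun w => ((g w).det)⁻¹ *
      ((g w).updateRow b (Pi.single a 1)).det := by
    funext w
    rw [Matrix.inv_def, Ring.inverse_eq_inv', Matrix.smul_apply, smul_eq_mul,
      Matrix.adjugate_apply]
  rw [h1]
  refine ((cdAt_det h).inv h0).mul (cdAt_det fun c d => ?_)
  by_cases hc : c = b
  · subst hc
    simp only [Matrix.updateRow_self]
    exact contDiffAt_const
  · simp only [Matrix.updateRow_ne hc]
    exact h c d

end gen

/-- Wirtinger derivatives of time slices are jointly smooth -/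
theorem cdAt_wd_slice {f : ℝ → Cn n → ℂ} {q : ℝ × Cn n}
    (h : ContDiffAt ℝ ∞ (fun q : ℝ × Cn n => f q.1 q.2) q) (s : WI n) :
    ContDiffAt ℝ ∞ (fun q : ℝ × Cn n => wd s (f q.1) q.2) q := by
  have h1 : ContDiffAt ℝ ∞ (fun q : ℝ × Cn n => fderiv ℝ (f q.1) q.2) q := by
    refine ContDiffAt.fderiv (n := ∞) (f := fun (q : ℝ × Cn n) (y : Cn n) => f q.1 y)
      (g := fun q => q.2) ?_ contDiffAt_snd (by simp)
    exact ContDiffAt.comp (g := fun q : ℝ × Cn n => f q.1 q.2)
      (f := fun x : (ℝ × Cn n) × Cn n => (x.1.1, x.2)) (q, q.2) h (by fun_prop)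
  exact (wdLc (W := ℂ) s).contDiff.contDiffAt.comp q h1

variable {g : ℝ → Cn n → Mat n} {t : ℝ} {z : Cn n}

theorem cdAt_ric (h : KRFat g t z) (a b : Fin n) :
    ContDiffAt ℝ ∞ (fun q : ℝ × Cn n => ric (g q.1) q.2 a b) (t, z) := by
  have h1 : ContDiffAt ℝ ∞ (fun q : ℝ × Cn n => ldet (g q.1) q.2) (t, z) :=
    (Complex.reCLM.contDiff.contDiffAt.comp (t, z)
      (cdAt_det (g := fun q : ℝ × Cn n => g q.1 q.2) h.sm)).log
      (det_re_pos h.pos.self_of_nhds).ne'
  have h2 : ContDiffAt ℝ ∞ (fun q : ℝ × Cn n => cu (ldet (g q.1)) q.2) (t, z) :=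
    Complex.ofRealCLM.contDiff.contDiffAt.comp _ h1
  exact (cdAt_wd_slice (f := fun s => wd (true, b) (cu (ldet (g s))))
    (cdAt_wd_slice (f := fun s => cu (ldet (g s))) h2 _) _).neg

theorem cdAt_scal (h : KRFat g t z) :
    ContDiffAt ℝ ∞ (fun q : ℝ × Cn n => scal (g q.1) q.2) (t, z) := by
  refine Complex.reCLM.contDiff.contDiffAt.comp (t, z)
    (f := fun q : ℝ × Cn n => ((g q.1 q.2)⁻¹ * ric (g q.1) q.2).trace) ?_
  simp only [Matrix.trace, Matrix.diag_apply, Matrix.mul_apply]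
  exact ContDiffAt.sum fun a _ => ContDiffAt.sum fun b _ =>
    (cdAt_inv (g := fun q : ℝ × Cn n => g q.1 q.2) h.sm h.pos.self_of_nhds.det_pos.ne' a b).mul
      (cdAt_ric h b a)

theorem cdAt_time {F : Type*} [NormedAddCommGroup F] [NormedSpace ℝ F] {f : ℝ × Cn n → F}
    (h : ContDiffAt ℝ ∞ f (t, z)) : ContDiffAt ℝ ∞ (fun s => f (s, z)) t :=
  ContDiffAt.comp (f := fun s : ℝ => (s, z)) t h (contDiffAt_id.prodMk contDiffAt_const)

theorem hasDerivAt_g (h : KRFat g t z) (a b : Fin n) :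
    HasDerivAt (fun s => g s z a b) (-(ric (g t) z a b)) t := by
  have := h.flow.self_of_nhds a b
  simpa [ric] using this

theorem hasDerivAt_ric (h : KRFat g t z) (a b : Fin n) :
    HasDerivAt (fun s => ric (g s) z a b) (ricT g t z a b) t :=
  ((cdAt_time (cdAt_ric h a b)).differentiableAt (by simp)).hasDerivAt

theorem hasDerivAt_mul {P Q : ℝ → Mat n} {P' Q' : Mat n}
    (hP : ∀ a b, HasDerivAt (fun s => P s a b) (P' a b) t)
    (hQ : ∀ a b, HasDerivAt (fun s => Q s a b) (Q' a b) t) (a b : Fin n) :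
    HasDerivAt (fun s => (P s * Q s) a b) ((P' * Q t + P t * Q') a b) t := by
  simp only [Matrix.mul_apply, Matrix.add_apply, ← Finset.sum_add_distrib]
  exact HasDerivAt.fun_sum fun c _ => (hP a c).mul (hQ c b)

theorem hasDerivAt_det {G : ℝ → Mat n} {G' : Mat n}
    (hG : ∀ a b, HasDerivAt (fun s => G s a b) (G' a b) t) (h0 : (G t).det ≠ 0) :
    HasDerivAt (fun s => (G s).det) ((G t).det * ((G t)⁻¹ * G').trace) t := by
  have hu : IsUnit (G t).det := isUnit_iff_ne_zero.2 h0
  have h1 : HasDerivAt (fun s : ℝ => ((G t)⁻¹ * G (s + t)).det) ((G t)⁻¹ * G').trace 0 := by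
    refine Crest.Agent.R264.D8d.hasDerivAt_detM (A := fun s : ℝ => (G t)⁻¹ * G (s + t)) ?_ ?_
    · intro i j
      simp only [Matrix.mul_apply]
      refine HasDerivAt.fun_sum fun c _ => HasDerivAt.const_mul _ ?_
      exact HasDerivAt.comp_add_const 0 t (by simpa using hG c j)
    · simp [Matrix.nonsing_inv_mul _ hu]
  have h2 : HasDerivAt (fun s : ℝ => ((G t)⁻¹ * G (s - t + t)).det) ((G t)⁻¹ * G').trace t :=
    HasDerivAt.comp_sub_const (f := fun s : ℝ => ((G t)⁻¹ * G (s + t)).det) t t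
      (by rw [sub_self]; exact h1)
  have h4 : (fun s : ℝ => (G s).det) =
      fun s : ℝ => (G t).det * ((G t)⁻¹ * G (s - t + t)).det := by
    funext s
    rw [← Matrix.det_mul, ← mul_assoc, Matrix.mul_nonsing_inv _ hu, one_mul, sub_add_cancel]
  rw [h4]
  exact h2.const_mul _

theorem hasDerivAt_inv (h : KRFat g t z) (a b : Fin n) :
    HasDerivAt (fun s => (g s z)⁻¹ a b) (((g t z)⁻¹ * ric (g t) z * (g t z)⁻¹) a b) t := by
  have h0 : (g t z).det ≠ 0 := h.pos.self_of_nhds.det_pos.ne'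
  have hs : ∀ a b, ContDiffAt ℝ ∞ (fun s => g s z a b) t := fun a b => cdAt_time (h.sm a b)
  set D : Mat n := Matrix.of fun a b => deriv (fun s => (g s z)⁻¹ a b) t with hD
  have hd : ∀ a b, HasDerivAt (fun s => (g s z)⁻¹ a b) (D a b) t := fun a b =>
    ((cdAt_inv (g := fun s => g s z) hs h0 a b).differentiableAt (by simp)).hasDerivAt
  have h1 : D * g t z + (g t z)⁻¹ * (-ric (g t) z) = 0 := by
    ext a b
    have h2 := hasDerivAt_mul (P := fun s => (g s z)⁻¹) (Q := fun s => g s z)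
      (Q' := -ric (g t) z) hd (hasDerivAt_g h) a b
    have h3 : (fun s => ((g s z)⁻¹ * g s z) a b) =ᶠ[𝓝 t] fun _ => (1 : Mat n) a b := by
      filter_upwards [(cdAt_det (g := fun s => g s z) hs).continuousAt.eventually_ne h0] with s hs
      rw [Matrix.nonsing_inv_mul _ (isUnit_iff_ne_zero.2 hs)]
    exact h2.unique ((hasDerivAt_const t _).congr_of_eventuallyEq h3)
  have h4 : D = (g t z)⁻¹ * ric (g t) z * (g t z)⁻¹ := by
    have h5 : D * g t z = (g t z)⁻¹ * ric (g t) z := by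
      rw [mul_neg] at h1; exact add_neg_eq_zero.1 h1
    rw [← h5, mul_assoc, Matrix.mul_nonsing_inv _ (isUnit_iff_ne_zero.2 h0), mul_one]
  rw [← h4]; exact hd a b

theorem hasDerivAt_scal (h : KRFat g t z) :
    HasDerivAt (fun s => scal (g s) z)
      (trg (g t z) (ricT g t z + ric (g t) z * (g t z)⁻¹ * ric (g t) z)) t := by
  have h1 := hasDerivAt_mul (P := fun s => (g s z)⁻¹) (Q := fun s => ric (g s) z)
    (hasDerivAt_inv h) (hasDerivAt_ric h)
  have h2 : HasDerivAt (fun s => ((g s z)⁻¹ * ric (g s) z).trace)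
      ((g t z)⁻¹ * ric (g t) z * (g t z)⁻¹ * ric (g t) z + (g t z)⁻¹ * ricT g t z).trace t :=
    HasDerivAt.fun_sum fun a _ => h1 a a
  have h3 := Complex.reCLM.hasFDerivAt.comp_hasDerivAt t h2
  refine HasDerivAt.congr_deriv h3 ?_
  simp only [trg, Complex.reCLM_apply]
  congr 2
  noncomm_ring

theorem hasDerivAt_ldet (h : KRFat g t z) :
    HasDerivAt (fun s => ldet (g s) z) (-scal (g t) z) t := by
  have hp := h.pos.self_of_nhds
  have h1 := hasDerivAt_det (G := fun s => g s z) (G' := -ric (g t) z) (hasDerivAt_g h)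
    hp.det_pos.ne'
  have h2 := (Complex.reCLM.hasFDerivAt.comp_hasDerivAt t h1).log (det_re_pos hp).ne'
  refine HasDerivAt.congr_deriv h2 ?_
  have h3 := (Complex.pos_iff.1 hp.det_pos).2
  have h4 := (det_re_pos hp).ne'
  simp only [scal, trg, Function.comp, Complex.reCLM_apply, Complex.mul_re, ← h3, mul_neg,
    Matrix.trace_neg, Complex.neg_re, zero_mul, sub_zero]
  field_simp

/-- a unitary frame computes traces -/
theorem exists_frame {G : Mat n} (hp : G.PosDef) :
    ∃ e : Fin n → Cn n, ∀ B : Mat n, (G⁻¹ * B).trace = ∑ i, hC B (e i) := by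
  obtain ⟨T, d, h1, h2, -⟩ := Ev.exists_diag hp hp.isHermitian
  refine ⟨fun i => WithLp.toLp 2 fun a => conj (T a i), fun B => ?_⟩
  rw [Ev.trg_frame h2]
  refine Finset.sum_congr rfl fun i _ => ?_
  simp only [hC, Matrix.diag_apply, Matrix.mul_apply, Matrix.conjTranspose_apply, RCLike.star_def,
    Finset.sum_mul, Complex.conj_conj]
  rw [Finset.sum_comm]
  refine Finset.sum_congr rfl fun a _ => Finset.sum_congr rfl fun b _ => ?_
  ring

/-- the curvature tensor contracted in the last two slots -/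
def RmW (g : Cn n → Mat n) (z w : Cn n) : Mat n := ∑ c, ∑ d, (w c * conj (w d)) • Rm g z c d

theorem bis_eq_nq (g : Cn n → Mat n) (z v w : Cn n) : bis g z v w = nq (RmW g z w) v := by
  unfold bis nq RmW
  congr 1
  refine Finset.sum_congr rfl fun a _ => Finset.sum_congr rfl fun b _ => ?_
  simp only [Matrix.sum_apply, Matrix.smul_apply, smul_eq_mul, Finset.sum_mul]
  refine Finset.sum_congr rfl fun c _ => Finset.sum_congr rfl fun d _ => ?_
  ring

theorem trg_RmW {g : Cn n → Mat n} (h : KahAt g z) (w : Cn n) :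
    trg (g z) (RmW g z w) = nq (ric g z) w := by
  unfold trg nq RmW
  congr 1
  simp only [Matrix.mul_sum, Matrix.trace_sum, Matrix.mul_smul, Matrix.trace_smul, smul_eq_mul,
    ric_eq_trace h.smE h.pos]
  refine Finset.sum_congr rfl fun c _ => Finset.sum_congr rfl fun d _ => ?_
  ring

theorem nq_conjTranspose (B : Mat n) (v : Cn n) : nq Bᴴ v = nq B v := by
  unfold nq
  rw [← Complex.conj_re, Finset.sum_comm]
  congr 1
  simp only [map_sum, map_mul, Matrix.conjTranspose_apply, RCLike.star_def, Complex.conj_conj]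
  refine Finset.sum_congr rfl fun a _ => Finset.sum_congr rfl fun b _ => ?_
  ring

theorem nq_add (B C : Mat n) (v : Cn n) : nq (B + C) v = nq B v + nq C v := Ev.nq_add B C v

theorem trg_eq_sum {G : Mat n} {e : Fin n → Cn n}
    (he : ∀ B : Mat n, (G⁻¹ * B).trace = ∑ i, hC B (e i)) (B : Mat n) :
    trg G B = ∑ i, nq B (e i) := by
  rw [trg, he, Complex.re_sum]; rfl

theorem trg_nonneg_of_nq {G B : Mat n} (hp : G.PosDef) (h : ∀ v, 0 ≤ nq B v) : 0 ≤ trg G B := by
  obtain ⟨e, he⟩ := exists_frame hp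
  rw [trg_eq_sum he]
  exact Finset.sum_nonneg fun i _ => h _

theorem nq_le_trg_of_nq {G B : Mat n} (hp : G.PosDef) (h : ∀ v, 0 ≤ nq B v) (v : Cn n) :
    nq B v ≤ trg G B * nq G v := by
  obtain ⟨e, he⟩ := exists_frame hp
  have h1 : ∀ v, nq (B + Bᴴ) v = 2 * nq B v := fun v => by rw [nq_add, nq_conjTranspose]; ring
  have h2 : trg G (B + Bᴴ) = 2 * trg G B := by
    simp only [trg_eq_sum he, h1, Finset.mul_sum]
  obtain ⟨d, d1, -, d2, d3⟩ := Ev.exists_eig hp (Matrix.isHermitian_add_transpose_self B)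
  have hd : ∀ i, 0 ≤ d i := fun i => by
    obtain ⟨w, hw, -⟩ := d3 i
    rw [← hw]
    change 0 ≤ nq (B + Bᴴ) w
    rw [h1]; linarith [h w]
  obtain ⟨y, y0, y1, y2⟩ := d2 v
  change nq (B + Bᴴ) v = _ at y1
  change nq G v = _ at y2
  change trg G (B + Bᴴ) = _ at d1
  have h3 : ∑ i, d i * y i ≤ (∑ i, d i) * ∑ i, y i := by
    rw [Finset.sum_mul]
    exact Finset.sum_le_sum fun i _ => mul_le_mul_of_nonneg_left
      (Finset.single_le_sum (fun j _ => y0 j) (Finset.mem_univ i)) (hd i)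
  rw [← y1, ← y2, ← d1, h1, h2] at h3
  linarith

theorem trace_real {G B : Mat n} (hG : G.IsHermitian) (hB : B.IsHermitian) :
    ((trg G B : ℝ) : ℂ) = (G⁻¹ * B).trace := by
  refine Complex.conj_eq_iff_re.1 ?_
  rw [← Complex.star_def, ← Matrix.trace_conjTranspose, Matrix.conjTranspose_mul, hB.eq,
    hG.inv.eq, Matrix.trace_mul_comm]

theorem wd_scal {g : Cn n → Mat n} (h : KahAt g z) (k : Fin n) :
    wd (false, k) (cu (scal g)) z = ((g z)⁻¹ * nabRic g z k).trace := by
  have h0 : (g z).det ≠ 0 := h.pos.self_of_nhds.det_pos.ne'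
  have h1 : cu (scal g) =ᶠ[𝓝 z] fun w => ((g w)⁻¹ * ric g w).trace := by
    filter_upwards [h.smE, h.pos] with w hw hw'
    exact trace_real hw'.isHermitian (ric_herm hw hw')
  have hi : ∀ a b, DifferentiableAt ℝ (fun w => (g w)⁻¹ a b) z := fun a b =>
    (contDiffAt_inv h.sm h0 a b).differentiableAt (by simp)
  have hw : ∀ a b, DifferentiableAt ℝ (fun w => ric g w a b) z := fun a b =>
    (contDiffAt_hess (contDiffAt_ldet h.sm h.pos.self_of_nhds) a b).neg.differentiableAt (by simp)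
  have hm : ∀ a b, DifferentiableAt ℝ (fun w => ((g w)⁻¹ * ric g w) a b) z := by
    intro a b
    simp only [Matrix.mul_apply]
    exact DifferentiableAt.fun_sum fun c _ => (hi a c).mul (hw c b)
  rw [wd_congr h1, wd_trace hm, wdM_mul hi hw, wdM_inv h.sm h0, nabRic]
  congr 1
  noncomm_ring

theorem fderiv_eq_wd {u : Cn n → ℝ} (hu : DifferentiableAt ℝ u z) (v : Cn n) :
    fderiv ℝ u z v = 2 * (∑ k, v k * wd (false, k) (cu u) z).re := by
  have h1 : fderiv ℝ (cu u) z = Complex.ofRealCLM.comp (fderiv ℝ u z) :=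
    (Complex.ofRealCLM.hasFDerivAt.comp z hu.hasFDerivAt).fderiv
  have h2 := R275.EDR890.apply_eq_sum (fderiv ℝ (cu u) z) v
  rw [Fintype.sum_prod_type, Fintype.sum_bool] at h2
  have h3 : ∑ k, ze (true, k) v • wdL (true, k) (fderiv ℝ (cu u) z) =
      conj (∑ k, v k * wd (false, k) (cu u) z) := by
    rw [map_sum]
    refine Finset.sum_congr rfl fun k _ => ?_
    rw [map_mul, conj_wd_real _ hu]
    rfl
  rw [h3] at h2
  have h4 := congrArg Complex.re h2
  rw [h1] at h4
  simp only [ContinuousLinearMap.comp_apply, Complex.ofRealCLM_apply, Complex.ofReal_re,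
    Complex.add_re, Complex.conj_re] at h4
  rw [h4, two_mul, ← h1]
  rfl

theorem bis_zero (g : Cn n → Mat n) (z v : Cn n) : bis g z v 0 = 0 := by simp [bis]

theorem nq_lyh (hl : ∀ (c : ℂ) (a v : Cn n), 0 ≤ lyh g t t z c a v) (v : Cn n) :
    0 ≤ nq (ricT g t z + ric (g t) z * (g t z)⁻¹ * ric (g t) z +
      ((t⁻¹ : ℝ) : ℂ) • ric (g t) z) v := by
  simpa [lyh, bis_zero] using hl 1 0 v

theorem traceStmt (n : ℕ) : Hn.TraceStmt n := by
  intro g t z ht h hl hb
  have hk := h.kahAt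
  have hp := hk.pos.self_of_nhds
  have hric : ∀ w, 0 ≤ nq (ric (g t) z) w := fun w => by simpa using ric_ge_of_BKge hk hb w
  have hsc : 0 ≤ scal (g t) z := trg_nonneg_of_nq hp hric
  set Z := ricT g t z + ric (g t) z * (g t z)⁻¹ * ric (g t) z + ((t⁻¹ : ℝ) : ℂ) • ric (g t) z
    with hZ
  have hP : deriv (fun s => scal (g s) z) t + scal (g t) z / t = trg (g t z) Z := by
    rw [(hasDerivAt_scal h).deriv, hZ]
    have h1 := Ev.trg_add (g t z) (ricT g t z + ric (g t) z * (g t z)⁻¹ * ric (g t) z)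
      (((t⁻¹ : ℝ) : ℂ) • ric (g t) z)
    rw [Ev.trg_smul] at h1
    refine Eq.trans ?_ h1.symm
    rw [div_eq_inv_mul]; rfl
  have hP0 : 0 ≤ trg (g t z) Z := trg_nonneg_of_nq hp (nq_lyh hl)
  have hrs : ∀ w, nq (ric (g t) z) w ≤ scal (g t) z * nq (g t z) w := nq_le_trg_of_nq hp hric
  refine ⟨cdAt_scal h, posSemidef_of_nq (ric_herm hk.sm hp) hric, hsc, fun v w => ?_,
    hasDerivAt_ldet h, by rw [hP]; exact hP0, fun v => ?_⟩
  · rw [bis_eq_nq]
    have h1 := nq_le_trg_of_nq hp (B := RmW (g t) z w)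
      (fun v => by rw [← bis_eq_nq]; simpa using hb v w) v
    rw [trg_RmW hk] at h1
    calc _ ≤ nq (ric (g t) z) w * nq (g t z) v := h1
      _ ≤ scal (g t) z * nq (g t z) w * nq (g t z) v :=
          mul_le_mul_of_nonneg_right (hrs w) (nq_nonneg hp.posSemidef v)
      _ = _ := by ring
  · rw [hP]
    obtain ⟨e, he⟩ := exists_frame hp
    have hd : DifferentiableAt ℝ (scal (g t)) z :=
      (ContDiffAt.comp (f := fun w : Cn n => (t, w)) z (cdAt_scal h)
        (contDiffAt_const.prodMk contDiffAt_id)).differentiableAt (by simp)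
    set D := fderiv ℝ (scal (g t)) z v with hD
    have key : ∀ x : ℝ, 0 ≤ trg (g t z) Z * (x * x) + D * x + nq (ric (g t) z) v := by
      intro x
      have h1 : 0 ≤ ∑ i, lyh g t t z x v (e i) := Finset.sum_nonneg fun i _ => hl _ _ _
      refine h1.trans_eq ?_
      simp only [lyh, Finset.sum_add_distrib, ← Finset.mul_sum]
      rw [← hZ, ← trg_eq_sum he, ← trg_RmW hk, trg_eq_sum he (RmW _ _ _), hD, fderiv_eq_wd hd]
      simp only [bis_eq_nq, wd_scal hk, he, Complex.conj_ofReal, Complex.re_ofReal_mul,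
        ← Finset.mul_sum, ← Complex.re_sum, Complex.norm_real, Real.norm_eq_abs, sq_abs]
      rw [Finset.sum_comm]
      simp only [← Finset.mul_sum]
      ring
    have h2 := discrim_le_zero key
    rw [discrim] at h2
    have h3 := mul_le_mul_of_nonneg_left (hrs v) hP0
    nlinarith

theorem pathStmt (n : ℕ) : Hn.PathStmt n := by
  intro M _ _ _ A K0 p F i z hz
  have hK := fun t ht => F.krf t ht i z hz
  have hp : ∀ t, 0 < t → (gc (F.K t) i z).PosDef := fun t ht => (hK t ht).pos.self_of_nhds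
  have hh : ∀ t, 0 < t → (ric (gc (F.K t) i) z).IsHermitian := fun t ht =>
    ric_herm (hK t ht).kahAt.sm (hp t ht)
  refine ⟨hp, fun a b t ht => (cdAt_time ((hK t ht).sm a b)).contDiffWithinAt,
    fun t ht => hasDerivAt_g (hK t ht), fun t ht => hasDerivAt_ric (hK t ht), fun t ht => ?_,
    fun t ht => ?_⟩
  · exact posSemidef_of_nq (hh t ht) fun w => by
      simpa using ric_ge_of_BKge (hK t ht).kahAt (F.bk t ht i z hz) w
  · refine posSemidef_of_nq ?_ (nq_lyh (g := fun s => gc (F.K s) i) (F.lyh t ht i z hz))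
    refine Matrix.IsHermitian.add (Matrix.IsHermitian.add ?_ ?_) ?_
    · ext a b
      have h1 := (hasDerivAt_ric (hK t ht) b a).star
      have h2 : (fun s => ric (gc (F.K s) i) z a b) =ᶠ[𝓝 t]
          fun s => star (ric (gc (F.K s) i) z b a) := by
        filter_upwards [Ioi_mem_nhds ht] with s hs
        exact ((hh s hs).apply a b).symm
      exact (h1.congr_of_eventuallyEq h2).unique (hasDerivAt_ric (hK t ht) a b)
    · have := Matrix.isHermitian_conjTranspose_mul_mul (ric (gc (F.K t) i) z)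
        (hp t ht).isHermitian.inv
      rwa [(hh t ht).eq] at this
    · unfold Matrix.IsHermitian
      rw [Matrix.conjTranspose_smul, (hh t ht).eq]
      simp

end

end Crest.Agent.T223.Tr
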