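import Crest.Agent.T223.OsDef_21

/-!
# Row 223, leaf (a) of OSG (helper10): the pointwise null-vector inequality as a `Prop`
-/

set_option autoImplicit false

open Set Filter Topology Metric
open scoped ContDiff ComplexConjugate Matrix ComplexOrder

namespace Crest.Agent.T223.Os

open Crest.Agent.R275.Geo Crest.Agent.R273.Kah_333 Crest.Agent.R273.Hess_333
open Crest.Agent.T223.Br Crest.Agent.T223.Tr

/-- (LYHpt), scale invariant form: if the Harnack form touches the barrier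
`-φ (|a|² + q |c|²) |v|²` from above at `(t, z)` and everything is of size `K q` at the point,
then `box φ ≤ C q φ`. -/
def LyhPtStmt (n : ℕ) : Prop :=
  ∀ K : ℝ, 1 ≤ K → ∃ C : ℝ, ∀ (g : ℝ → Cn n → Mat n) (φ : ℝ → Cn n → ℝ) (t T0 q : ℝ) (z : Cn n),
    KRFat g t z → ContDiffAt ℝ ∞ (fun p : ℝ × Cn n => φ p.1 p.2) (t, z) →
    0 < q → 1 ≤ (t - T0) * q → 0 < φ t z → φ t z ≤ K * q →
    gsq (g t) (φ t) z ≤ K * q * φ t z ^ 2 →
    BKge (g t) z (K * q) → BKle (g t) z (K * q) →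
    (∀ (c : ℂ) (a v : Cn n), |lyhS (g t) (t - T0) z c a v| ≤
      K * q * (nq (g t z) a + q * ‖c‖ ^ 2) * nq (g t z) v) →
    (∀ᶠ p in past t z, ∀ (c : ℂ) (a v : Cn n), 0 ≤ lyhS (g p.1) (p.1 - T0) p.2 c a v +
      φ p.1 p.2 * (nq (g p.1 p.2) a + q * ‖c‖ ^ 2) * nq (g p.1 p.2) v) →
    ∀ (c : ℂ) (a v : Cn n), v ≠ 0 → (a ≠ 0 ∨ c ≠ 0) →
      lyhS (g t) (t - T0) z c a v + φ t z * (nq (g t z) a + q * ‖c‖ ^ 2) * nq (g t z) v = 0 →
      box g φ t z ≤ C * q * φ t z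

end Crest.Agent.T223.Os
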