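import Crest.Agent.T223.CnZ_87
import Crest.Agent.T223.EvC_41
import Crest.Agent.T223.OsLaDef_10

/-!
# Row 223 (helper87), CONE module, part W: the null vector inequality in a chart

`lyhP` (past version, sharp constants), `lyhPtStmt : Os.LyhPtStmt n`.
-/

set_option autoImplicit false
set_option linter.unusedSectionVars false

open Set Filter Topology
open scoped ContDiff ComplexConjugate ComplexOrder Matrix

namespace Crest.Agent.T223.Cn

open Crest.Agent.R275.Geo Crest.Agent.R275.EDR890 Crest.Agent.R273.Hess_333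
open Crest.Agent.T223.Br Crest.Agent.T223.Tr Crest.Agent.T223.Ev
open Crest.Agent.T223.Os (lyhS)

noncomputable section

variable {n : ℕ} {p : ℝ × Cn n}

theorem smP_θ (p : ℝ × Cn n) (T0 : ℝ) : SmP p fun t _ => ((t - T0 : ℝ) : ℂ) :=
  (smP_time (a := fun t => t - T0) (contDiffAt_id.sub contDiffAt_const)).ofReal

theorem smP_θi {T0 : ℝ} (h : T0 < p.1) : SmP p fun t _ => (((t - T0)⁻¹ : ℝ) : ℂ) :=
  (smP_time (a := fun t => (t - T0)⁻¹)
    ((contDiffAt_id.sub contDiffAt_const).inv (sub_pos.2 h).ne')).ofReal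

/-- the time function `t - T₀` -/
def tmG {T0 : ℝ} (h : T0 < p.1) : Tm (gdr p) where
  θ := mk (smP_θ p T0)
  θi := mk (smP_θi h)
  τ := p.1 - T0
  mul := ((smP_θ p T0).rep.mul (smP_θi h).rep).ext Rep.one (by
    have : ∀ᶠ q : ℝ × Cn n in 𝓝 p, T0 < q.1 := continuousAt_fst.eventually (lt_mem_nhds h)
    filter_upwards [nhdsWithin_le_nhds this] with q hq
    rw [← Complex.ofReal_mul, mul_inv_cancel₀ (sub_pos.2 hq).ne', Complex.ofReal_one])
  cj := (smP_θ p T0).rep.cj_real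
  d k := ((smP_θ p T0).rep.d k).ext Rep.zero (Eventually.of_forall fun q => wd_const _ _ _)
  D := (smP_θ p T0).rep.D_eq Rep.one (Eventually.of_forall fun q =>
    ((hasDerivAt_id q.1).sub_const T0).ofReal_comp.hasDerivWithinAt)
  ev := (smP_θ p T0).rep.ev
  pos := sub_pos.2 h

/-- a vector field from its components -/
def vf (u : Fin n → ℝ → Cn n → ℂ) (t : ℝ) (z : Cn n) : Cn n := WithLp.toLp 2 fun i => u i t z

variable {g : ℝ → Cn n → Mat n} {v a : Fin n → Gm p} {V A : Fin n → ℝ → Cn n → ℂ}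

theorem RepM.hC {Φ : Matrix (Fin n) (Fin n) (Gm p)} {f : ℝ → Cn n → Mat n} (h : RepM Φ f)
    (hv : ∀ i, Rep (v i) (V i)) : Rep ((gdr p).bf Φ v v) fun t z => hC (f t z) (vf V t z) :=
  h.bf hv hv

theorem KahP.rep_nq (h : KahP g p) (hv : ∀ i, Rep (v i) (V i)) :
    Rep ((gdr p).bf h.km.g v v) fun t z => (nq (g t z) (vf V t z) : ℂ) :=
  (h.rep_g.hC hv).re_of_cj (by rw [cj_bf, h.km.herm, Matrix.transpose_transpose])

theorem KahP.rep_th (h : KahP g p) (hv : ∀ i, Rep (v i) (V i)) (ha : ∀ i, Rep (a i) (A i))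
    (hol : ∀ k, (gdr p).Hol (a k)) : ∃ F, Rep (h.km.th v a 0) F ∧
      ∀ t z, (F t z).re = bis (g t) z (vf V t z) (vf A t z) := by
  rw [KM.th, KM.Th_dv hol]
  simp only [bf_sum, DR.bf_smul]
  refine ⟨_, Rep.sum Finset.univ fun c => Rep.sum Finset.univ fun d =>
    ((ha c).mul (ha d).cj).mul ((h.rep_Th c d).hC hv), fun t z => ?_⟩
  unfold bis T223.hC
  congr 1
  simp only [Finset.mul_sum]
  calc _ = ∑ c, ∑ i, ∑ d, ∑ j, A c t z * conj (A d t z) *
        (Rm (g t) z c d i j * vf V t z i * conj (vf V t z j)) :=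
        Finset.sum_congr rfl fun _ _ => Finset.sum_comm
    _ = ∑ i, ∑ c, ∑ d, ∑ j, A c t z * conj (A d t z) *
        (Rm (g t) z c d i j * vf V t z i * conj (vf V t z j)) := Finset.sum_comm
    _ = ∑ i, ∑ c, ∑ j, ∑ d, A c t z * conj (A d t z) *
        (Rm (g t) z c d i j * vf V t z i * conj (vf V t z j)) :=
        Finset.sum_congr rfl fun _ _ => Finset.sum_congr rfl fun _ _ => Finset.sum_comm
    _ = ∑ i, ∑ j, ∑ c, ∑ d, A c t z * conj (A d t z) *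
        (Rm (g t) z c d i j * vf V t z i * conj (vf V t z j)) :=
        Finset.sum_congr rfl fun _ _ => Finset.sum_comm
    _ = _ := Finset.sum_congr rfl fun _ _ => Finset.sum_congr rfl fun _ _ =>
        Finset.sum_congr rfl fun _ _ => Finset.sum_congr rfl fun _ _ => by
          simp only [vf]; ring

theorem KRFp.rep_ly (h : KRFp g p) {u e : Gm p} {τ : ℝ → ℝ} {E : ℝ → Cn n → ℂ}
    (hu : Rep u fun t _ => (((τ t)⁻¹ : ℝ) : ℂ)) (he : Rep e E) (hv : ∀ i, Rep (v i) (V i))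
    (ha : ∀ i, Rep (a i) (A i)) (hol : ∀ k, (gdr p).Hol (a k)) :
    ∃ F, Rep (h.toKahP.km.ly u v a e) F ∧
      ∀ t z, (F t z).re = lyhS (g t) (τ t) z (E t z) (vf A t z) (vf V t z) := by
  obtain ⟨F, hF, eF⟩ := h.toKahP.rep_th hv ha hol
  have h1 := ((h.rep_ricT.add ((h.toKahP.rep_ric.mul h.toKahP.rep_gi).mul h.toKahP.rep_ric)).add
    (RepM.smul hu h.toKahP.rep_ric)).hC hv
  have h2 := he.cj.mul (Rep.sum Finset.univ fun k => (ha k).mul ((h.toKahP.rep_nabRic k).hC hv))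
  refine ⟨_, (((he.mul he.cj).mul h1).add (h2.add h2.cj)).add hF, fun t z => ?_⟩
  simp only [Complex.add_re, eF, Complex.conj_re, Complex.mul_conj, Complex.re_ofReal_mul,
    Complex.normSq_eq_norm_sq]
  rw [← two_mul]
  rfl

theorem rep_cst (x : Cn n) (i : Fin n) : Rep (cst (fun i => x i) i : Gm p) fun _ _ => x i :=
  Rep.const _

/-- **null vector inequality for the Harnack form**, past version -/
theorem lyhP (h : KRFp g p) {φ : ℝ → Cn n → ℝ} (hφ : SmP p φ) {T0 q Kc K' : ℝ} (hT : T0 < p.1)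
    (hq : 0 < q) (hp : 0 < φ p.1 p.2) (hK : 0 ≤ Kc) (hK' : 0 ≤ K') (h1 : BKge (g p.1) p.2 Kc)
    (h2 : BKle (g p.1) p.2 Kc)
    (hC : ∀ᶠ x in past p, ∀ (c : ℂ) (a v : Cn n), 0 ≤ lyhS (g x.1) (x.1 - T0) x.2 c a v +
      φ x.1 x.2 * (nq (g x.1 x.2) a + q * ‖c‖ ^ 2) * nq (g x.1 x.2) v)
    {c : ℂ} {a v : Cn n} (hv : v ≠ 0) (hac : a ≠ 0 ∨ c ≠ 0)
    (h3 : ∀ w, lyhS (g p.1) (p.1 - T0) p.2 c a w ≤
      K' * (nq (g p.1 p.2) a + q * ‖c‖ ^ 2) * nq (g p.1 p.2) w)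
    (h0 : lyhS (g p.1) (p.1 - T0) p.2 c a v +
      φ p.1 p.2 * (nq (g p.1 p.2) a + q * ‖c‖ ^ 2) * nq (g p.1 p.2) v = 0) :
    boxp g φ p.1 p.2 ≤ φ p.1 p.2 * (n * Kc + (n + 1) * (K' + φ p.1 p.2) +
      (n + 2) * ((p.1 - T0)⁻¹ + n * Kc) ^ 2 / q + Kc + 2 * φ p.1 p.2) +
      gsq (g p.1) (φ p.1) p.2 / φ p.1 p.2 := by
  have hτ := sub_pos.2 hT
  have hk := h.toKahP
  have rφ := hφ.ofReal.rep
  have rθ : Rep (tmG hT).θ fun t _ => ((t - T0 : ℝ) : ℂ) := (smP_θ p T0).rep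
  have rθi : Rep (tmG hT).θi fun t _ => (((t - T0)⁻¹ : ℝ) : ℂ) := (smP_θi hT).rep
  obtain ⟨c0, hc0⟩ : ∃ c0 : ℂ, c0 * ((p.1 - T0 : ℝ) : ℂ) = c :=
    ⟨_, div_mul_cancel₀ c (Complex.ofReal_ne_zero.2 hτ.ne')⟩
  have re := (Rep.const (p := p) c0).mul rθ
  have hn : ∀ t : ℝ, ‖c0 * ((t - T0 : ℝ) : ℂ)‖ ^ 2 = Complex.normSq c0 * (t - T0) ^ 2 := fun t => by
    rw [← Complex.normSq_eq_norm_sq, map_mul, Complex.normSq_ofReal, sq]
  have main : ∀ {v a : Fin n → Gm p} {V A : Fin n → ℝ → Cn n → ℂ}, (∀ i, Rep (v i) (V i)) →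
      (∀ i, Rep (a i) (A i)) → (∀ k, (gdr p).Hol (a k)) →
      ∃ F, Rep (hk.km.ly (tmG hT).θi v a (kk c0 * (tmG hT).θ) + mk hφ.ofReal *
        ((gdr p).bf hk.km.g a a + kk q * (kk (c0 * conj c0) * ((tmG hT).θ * (tmG hT).θ))) *
          (gdr p).bf hk.km.g v v) F ∧ ∀ t z, (F t z).re =
        lyhS (g t) (t - T0) z (c0 * ((t - T0 : ℝ) : ℂ)) (vf A t z) (vf V t z) + φ t z *
          (nq (g t z) (vf A t z) + q * ‖c0 * ((t - T0 : ℝ) : ℂ)‖ ^ 2) * nq (g t z) (vf V t z) := by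
    intro v a V A hv ha hol
    obtain ⟨F, hF, eF⟩ := h.rep_ly (τ := fun t => t - T0) rθi re hv ha hol
    refine ⟨_, hF.add ((rφ.mul ((hk.rep_nq ha).add ((Rep.const (q : ℂ)).mul
      ((Rep.const (c0 * conj c0)).mul (rθ.mul rθ))))).mul (hk.rep_nq hv)), fun t z => ?_⟩
    rw [Complex.add_re, eF, hn, Complex.mul_conj, sq]
    simp only [← Complex.ofReal_mul, ← Complex.ofReal_add, Complex.ofReal_re]
  have eq : ∀ {v : Fin n → Gm p} {V : Fin n → ℝ → Cn n → ℂ}, (∀ i, Rep (v i) (V i)) →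
      ((gdr p).ev ((gdr p).bf hk.km.g v v)).re = nq (g p.1 p.2) (vf V p.1 p.2) := fun hv => by
    rw [(hk.rep_nq hv).ev, Complex.ofReal_re]
  have hN : 0 < nq (g p.1 p.2) a + q * ‖c‖ ^ 2 := by
    rcases hac with ha | hc
    · exact add_pos_of_pos_of_nonneg (nq_pos hk.pd ha) (by positivity)
    · exact add_pos_of_nonneg_of_pos (Ev.nq_nonneg hk.pd.posSemidef a) (by positivity)
  have key := KM.lyh_ring (tmG hT) h.flow0 rφ.cj_real rφ.ev hp hq (c := c0)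
    (fun v a hol => by
      choose V hV using fun i => exists_rep (v i)
      choose A hA using fun i => exists_rep (a i)
      obtain ⟨F, hF, eF⟩ := main hV hA hol
      exact hF.pos (hC.mono fun x hx => by rw [eF]; exact hx _ _ _))
    (v := cst fun i => v i) (a := cst fun i => a i) (hol_cst _)
    (by rw [eq (rep_cst v)]; exact (nq_pos hk.pd hv).ne')
    (by
      obtain ⟨F, hF, eF⟩ := main (rep_cst v) (rep_cst a) (hol_cst _)
      rw [hF.ev, eF, hc0]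
      exact h0)
    hK hK'
    (fun v a hol => by
      choose V hV using fun i => exists_rep (v i)
      choose A hA using fun i => exists_rep (a i)
      obtain ⟨F, hF, eF⟩ := hk.rep_th hV hA hol
      rw [hF.ev, eF, eq hV, eq hA, mul_right_comm]
      exact abs_le.2 ⟨h1 _ _, h2 _ _⟩)
    (eq (rep_cst a)) (Ev.nq_nonneg hk.pd.posSemidef a) (N := nq (g p.1 p.2) a + q * ‖c‖ ^ 2)
    (by rw [← hc0, hn]; rfl) hN (G := gsq (g p.1) (φ p.1) p.2)
    (by rw [(hk.rep_gsq rφ).ev, Complex.ofReal_re]) (gsq_nonneg hk.pd)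
    (fun v => by
      choose V hV using fun i => exists_rep (v i)
      obtain ⟨F, hF, eF⟩ := h.rep_ly (τ := fun t => t - T0) rθi re hV (rep_cst a) (hol_cst _)
      rw [hF.ev, eF, eq hV, hc0]
      exact h3 _)
  rwa [hk.ev_bx rφ, Complex.ofReal_re] at key

/-- **(LYHpt)** -/
theorem lyhPtStmt (n : ℕ) : Os.LyhPtStmt n := by
  intro K hK
  refine ⟨(3 * n + 6) * K + (n + 2) * (1 + n * K) ^ 2, ?_⟩
  intro g φ t T0 q z hg hφ hq hτ hp hpK hG h1 h2 h3 hC c a v hv hac h0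
  have hT : 0 < t - T0 := (mul_pos_iff_of_pos_right hq).1 (zero_lt_one.trans_le hτ)
  have hKq : 0 ≤ K * q := by positivity
  have key := lyhP (p := (t, z)) hg.krfp (SmP.of_contDiffAt hφ) (sub_pos.1 hT) hq hp hKq hKq h1 h2
    hC hv hac (fun w => (abs_le.1 (h3 c a w)).2) h0
  rw [boxp_eq_box' (hφ.differentiableAt (by simp))] at key
  simp only at key
  have u1 : gsq (g t) (φ t) z / φ t z ≤ K * q * φ t z := by
    rw [div_le_iff₀ hp]; nlinarith
  have u2 : (t - T0)⁻¹ ≤ q := by rw [inv_le_iff_one_le_mul₀' hT]; exact hτ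
  have u3 : (n + 2) * ((t - T0)⁻¹ + n * (K * q)) ^ 2 / q ≤ (n + 2) * (1 + n * K) ^ 2 * q := by
    rw [div_le_iff₀ hq]
    have : ((t - T0)⁻¹ + n * (K * q)) ^ 2 ≤ ((1 + n * K) * q) ^ 2 :=
      pow_le_pow_left₀ (by positivity) (by linarith) 2
    nlinarith [mul_le_mul_of_nonneg_left this (show (0 : ℝ) ≤ n + 2 by positivity)]
  have u4 : n * (K * q) + (n + 1) * (K * q + φ t z) +
      (n + 2) * ((t - T0)⁻¹ + n * (K * q)) ^ 2 / q + K * q + 2 * φ t z ≤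
      ((3 * n + 5) * K + (n + 2) * (1 + n * K) ^ 2) * q := by
    nlinarith [mul_le_mul_of_nonneg_left hpK (show (0 : ℝ) ≤ n + 3 by positivity)]
  nlinarith [mul_le_mul_of_nonneg_left u4 hp.le]

end

end Crest.Agent.T223.Cn
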