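import Crest.Agent.T223.TrTr_90

/-!
# Row 223, FIN-CVX (helper85): `s ↦ log (y* g(eˢ)⁻¹ y)` is convex along a `PathLYH`
-/

set_option autoImplicit false

open Set Filter Topology
open scoped ContDiff Matrix ComplexOrder

namespace Crest.Agent.T223

namespace Cvx85

variable {n : ℕ}

/-- the quadratic form -/
noncomputable def qf (y : Fin n → ℂ) (B : Mat n) : ℝ := (star y ⬝ᵥ B *ᵥ y).re

variable {y : Fin n → ℂ}

theorem qf_add (B C : Mat n) : qf y (B + C) = qf y B + qf y C := by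
  simp [qf, Matrix.add_mulVec, dotProduct_add]

theorem qf_smul (c : ℝ) (B : Mat n) : qf y ((c : ℂ) • B) = c * qf y B := by
  simp [qf, Matrix.smul_mulVec, dotProduct_smul]

theorem qf_nonneg {B : Mat n} (h : B.PosSemidef) : 0 ≤ qf y B :=
  (Complex.nonneg_iff.1 (h.dotProduct_mulVec_nonneg y)).1

theorem qf_pos {B : Mat n} (h : B.PosDef) (hy : y ≠ 0) : 0 < qf y B :=
  (Complex.pos_iff.1 (h.dotProduct_mulVec_pos hy)).1

theorem hasDerivAt_qf {P : ℝ → Mat n} {P' : Mat n} {t : ℝ}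
    (h : ∀ a b, HasDerivAt (fun s => P s a b) (P' a b) t) :
    HasDerivAt (fun s => qf y (P s)) (qf y P') t := by
  have h1 : HasDerivAt (fun s => star y ⬝ᵥ P s *ᵥ y) (star y ⬝ᵥ P' *ᵥ y) t := by
    simp only [dotProduct, Matrix.mulVec]
    exact HasDerivAt.fun_sum fun a _ =>
      (HasDerivAt.fun_sum fun b _ => (h a b).mul_const _).const_mul _
  exact Complex.reCLM.hasFDerivAt.comp_hasDerivAt t h1

theorem cs {G R : Mat n} (hG : G.PosDef) (hR : R.IsHermitian) :
    qf y (G * R * G) ^ 2 ≤ qf y G * qf y (G * R * G * R * G) := by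
  have h : ∀ x : ℝ, 0 ≤ qf y G * (x * x) + 2 * qf y (G * R * G) * x +
      qf y (G * R * G * R * G) := by
    intro x
    have h1 := qf_nonneg (y := y)
      (hG.posSemidef.conjTranspose_mul_mul_same ((x : ℂ) • (1 : Mat n) + R * G))
    have h2 : ((x : ℂ) • (1 : Mat n) + R * G)ᴴ * G * ((x : ℂ) • (1 : Mat n) + R * G) =
        ((x * x : ℝ) : ℂ) • G + ((2 * x : ℝ) : ℂ) • (G * R * G) + G * R * G * R * G := by
      rw [Matrix.conjTranspose_add, Matrix.conjTranspose_smul, Matrix.conjTranspose_mul, hR.eq,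
        hG.isHermitian.eq, Matrix.conjTranspose_one, Complex.star_def, Complex.conj_ofReal]
      simp only [add_mul, mul_add, smul_mul_assoc, mul_smul_comm, one_mul, mul_one, mul_assoc]
      push_cast
      module
    rw [h2, qf_add, qf_add, qf_smul, qf_smul] at h1
    linarith
  have := discrim_le_zero h
  rw [discrim] at this
  nlinarith

variable {g r rT : ℝ → Mat n}

theorem hasDerivAt_inv (h : Hn.PathLYH g r rT) {t : ℝ} (ht : 0 < t) (a b : Fin n) :
    HasDerivAt (fun s => (g s)⁻¹ a b) (((g t)⁻¹ * r t * (g t)⁻¹) a b) t := by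
  have h0 : (g t).det ≠ 0 := (h.pos t ht).det_pos.ne'
  have hs : ∀ a b, ContDiffAt ℝ ∞ (fun s => g s a b) t := fun a b =>
    (h.sm a b).contDiffAt (Ioi_mem_nhds ht)
  set D : Mat n := Matrix.of fun a b => deriv (fun s => (g s)⁻¹ a b) t with hD
  have hd : ∀ a b, HasDerivAt (fun s => (g s)⁻¹ a b) (D a b) t := fun a b =>
    ((Tr.cdAt_inv hs h0 a b).differentiableAt (by simp)).hasDerivAt
  have h1 : D * g t + (g t)⁻¹ * (-r t) = 0 := by
    ext a b
    have h2 := Tr.hasDerivAt_mul (P := fun s => (g s)⁻¹) (Q := g) (Q' := -r t) hd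
      (h.dg t ht) a b
    have h3 : (fun s => ((g s)⁻¹ * g s) a b) =ᶠ[𝓝 t] fun _ => (1 : Mat n) a b := by
      filter_upwards [Ioi_mem_nhds ht] with s hs
      rw [Matrix.nonsing_inv_mul _ (isUnit_iff_ne_zero.2 (h.pos s hs).det_pos.ne')]
    exact h2.unique ((hasDerivAt_const t _).congr_of_eventuallyEq h3)
  have h4 : D = (g t)⁻¹ * r t * (g t)⁻¹ := by
    have h5 : D * g t = (g t)⁻¹ * r t := by
      rw [mul_neg] at h1; exact add_neg_eq_zero.1 h1
    rw [← h5, mul_assoc, Matrix.mul_nonsing_inv _ (isUnit_iff_ne_zero.2 h0), mul_one]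
  rw [← h4]; exact hd a b

theorem key (h : Hn.PathLYH g r rT) {t : ℝ} (ht : 0 < t) :
    (qf y ((g t)⁻¹ * r t * (g t)⁻¹) * t) ^ 2 ≤
      (qf y (((g t)⁻¹ * r t * (g t)⁻¹ * r t + (g t)⁻¹ * rT t) * (g t)⁻¹ +
        (g t)⁻¹ * r t * ((g t)⁻¹ * r t * (g t)⁻¹)) * t * t +
        qf y ((g t)⁻¹ * r t * (g t)⁻¹) * t) * qf y (g t)⁻¹ := by
  have hG := (h.pos t ht).inv
  have hl := h.lyh t ht
  have h1 := cs (y := y) hG (h.psd t ht).isHermitian
  generalize (g t)⁻¹ = G at hG hl h1 ⊢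
  have h2 := qf_nonneg (y := y) (hl.conjTranspose_mul_mul_same G)
  have h3 : (G * r t * G * r t + G * rT t) * G + G * r t * (G * r t * G) +
      ((t⁻¹ : ℝ) : ℂ) • (G * r t * G) =
      Gᴴ * (rT t + r t * G * r t + ((t⁻¹ : ℝ) : ℂ) • r t) * G + G * r t * G * r t * G := by
    rw [hG.isHermitian.eq]
    simp only [add_mul, mul_add, smul_mul_assoc, mul_smul_comm, mul_assoc]
    abel
  have h4 := congrArg (qf y) h3
  rw [qf_add _ (((t⁻¹ : ℝ) : ℂ) • (G * r t * G)), qf_smul, qf_add _ (G * r t * G * r t * G)] at h4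
  have h5 := qf_nonneg (y := y) hG.posSemidef
  generalize qf y ((G * r t * G * r t + G * rT t) * G + G * r t * (G * r t * G)) = f2 at h4 ⊢
  generalize qf y (Gᴴ * (rT t + r t * G * r t + ((t⁻¹ : ℝ) : ℂ) • r t) * G) = w at h2 h4
  generalize qf y (G * r t * G * r t * G) = u at h1 h4
  generalize qf y (G * r t * G) = f1 at h1 h4 ⊢
  generalize qf y G = f at h1 h5 ⊢
  have h6 : f2 * t * t + f1 * t = (w + u) * t ^ 2 := by
    rw [← h4]; field_simp
  rw [h6, mul_pow]
  have h7 : f1 ^ 2 ≤ (w + u) * f := by nlinarith [mul_nonneg h2 h5]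
  nlinarith [mul_le_mul_of_nonneg_right h7 (sq_nonneg t)]

end Cvx85

open Cvx85 in
theorem Fin95.cvxPath {n : ℕ} {g r rT : ℝ → Mat n} (h : Hn.PathLYH g r rT) (y : Fin n → ℂ)
    (hy : y ≠ 0) :
    ConvexOn ℝ Set.univ (fun s : ℝ => Real.log (star y ⬝ᵥ (g (Real.exp s))⁻¹ *ᵥ y).re) := by
  have hp : ∀ s, 0 < qf y (g (Real.exp s))⁻¹ := fun s =>
    qf_pos (h.pos _ (Real.exp_pos s)).inv hy
  have hf : ∀ s, HasDerivAt (fun s => qf y (g (Real.exp s))⁻¹)
      (qf y ((g (Real.exp s))⁻¹ * r (Real.exp s) * (g (Real.exp s))⁻¹) * Real.exp s) s :=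
    fun s => (hasDerivAt_qf (P := fun t => (g t)⁻¹) (hasDerivAt_inv h (Real.exp_pos s))).comp s
      (Real.hasDerivAt_exp s)
  have hf1 := fun s => (((hasDerivAt_qf (y := y) (P := fun t => (g t)⁻¹ * r t * (g t)⁻¹)
    (Tr.hasDerivAt_mul (P := fun t => (g t)⁻¹ * r t) (Q := fun t => (g t)⁻¹)
      (Tr.hasDerivAt_mul (P := fun t => (g t)⁻¹) (Q := r) (hasDerivAt_inv h (Real.exp_pos s))
        (h.dr _ (Real.exp_pos s))) (hasDerivAt_inv h (Real.exp_pos s)))).comp s
      (Real.hasDerivAt_exp s)).mul (Real.hasDerivAt_exp s)).div (hf s) (hp s).ne'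
  have hF := fun s => (hf s).log (hp s).ne'
  refine Monotone.convexOn_univ_of_deriv (fun s => (hF s).differentiableAt) ?_
  have hd : deriv (fun s => Real.log (qf y (g (Real.exp s))⁻¹)) = _ := funext fun s => (hF s).deriv
  change Monotone (deriv (fun s => Real.log (qf y (g (Real.exp s))⁻¹)))
  rw [hd]
  refine monotone_of_hasDerivAt_nonneg hf1 fun s => ?_
  refine div_nonneg ?_ (sq_nonneg _)
  have := key (y := y) h (Real.exp_pos s)
  simp only [Function.comp, Pi.mul_apply]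
  nlinarith

end Crest.Agent.T223
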