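import Crest.Agent.T223.FinB_95
import Crest.Agent.T223.FinCvx_85

/-!
# Row 223, FIN (helper95): `finStmt : GeoStmt n → NAStmt n → FinStmt n`
-/

namespace Crest.Agent.T223.Fin95

theorem finStmt {n : ℕ} (hG : Hn.GeoStmt n) (hN : Na.NAStmt n) : FinStmt n :=
  finStmt_of (fun _ _ _ h y hy => cvxPath h y hy) hG hN

end Crest.Agent.T223.Fin95
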