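import Crest.Agent.T223.GeoA_38

/-!
# Row 223, HARN + PINCH (helper38): `geoStmt : QCStmt n → PinchStmt n → GeoStmt n` for `1 ≤ n`
-/

set_option autoImplicit false
set_option linter.unusedVariables false
set_option linter.unusedSectionVars false

open Set Filter Topology Metric
open scoped ContDiff ComplexConjugate Matrix ComplexOrder

namespace Crest.Agent.T223.Hn38

open Crest.Agent.R275.Geo Crest.Agent.R273.Kah_333 Crest.Agent.R273.RMan4_798
open Crest.Agent.T223.Br Crest.Agent.T223.Tr Crest.Agent.T223.Hn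

noncomputable section

variable {n : ℕ} {M : Type} [TopologicalSpace M] {A : Atl n M}

theorem nq_csmul (G : Mat n) (c : ℝ) (v : Cn n) : nq G ((c : ℂ) • v) = c ^ 2 * nq G v := by
  unfold nq
  rw [← Complex.re_ofReal_mul]
  congr 1
  simp only [Finset.mul_sum, PiLp.smul_apply, smul_eq_mul, map_mul, Complex.conj_ofReal]
  refine Finset.sum_congr rfl fun a _ => Finset.sum_congr rfl fun b _ => ?_
  push_cast
  ring

theorem exists_unit {v : Cn n} (hv : v ≠ 0) :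
    ∃ e : Cn n, ‖e‖ = 1 ∧ ∀ G : Mat n, nq G v = ‖v‖ ^ 2 * nq G e := by
  have h0 : 0 < ‖v‖ := norm_pos_iff.2 hv
  refine ⟨((‖v‖⁻¹ : ℝ) : ℂ) • v, ?_, fun G => ?_⟩
  · rw [norm_smul, Complex.norm_real, Real.norm_eq_abs, abs_of_pos (inv_pos.2 h0),
      inv_mul_cancel₀ h0.ne']
  · rw [nq_csmul]
    field_simp

theorem nq_zero (G : Mat n) : nq G 0 = 0 := by simp [nq]

theorem continuous_nq (G : Mat n) : Continuous (nq G) := by
  unfold nq
  fun_prop

/-- a direction of (almost) maximal length -/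
theorem exists_max (hn : 1 ≤ n) {G : Mat n} (hG : G.PosDef) :
    ∃ e : Cn n, ‖e‖ = 1 ∧ Real.log G.det.re ≤ n * Real.log (nq G e) := by
  have hne : (sphere (0 : Cn n) 1).Nonempty :=
    ⟨EuclideanSpace.single ⟨0, hn⟩ 1, by simp⟩
  obtain ⟨e, he, hm⟩ := (isCompact_sphere (0 : Cn n) 1).exists_isMaxOn hne
    (continuous_nq G).continuousOn
  have he1 : ‖e‖ = 1 := by simpa using he
  have h1 : ∀ v, nq G v ≤ nq G e * nq 1 v := by
    intro v
    rw [nq_one]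
    by_cases hv : v = 0
    · simp [hv, nq_zero]
    obtain ⟨e', h1, h2⟩ := exists_unit hv
    rw [h2, mul_comm]
    exact mul_le_mul_of_nonneg_right (hm (by simpa using h1)) (by positivity)
  have h2 : 0 < nq G e := by
    by_contra h
    have h3 : e ≠ 0 := by rintro rfl; simp at he1
    have h4 := hG.dotProduct_mulVec_pos (x := fun a => conj (e a)) (by
      intro h5
      apply h3
      ext a
      simpa using congrFun h5 a)
    rw [nq_eq_dot] at h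
    exact h (Complex.lt_def.1 h4).1
  refine ⟨e, he1, ?_⟩
  have h3 := Lo.logdet_le hG Matrix.PosDef.one h2 h1
  simpa using h3

theorem posDef_of_lower {G : Mat n} (hG : G.IsHermitian) {m : ℝ} (hm : 0 < m)
    (h : ∀ v, m * ‖v‖ ^ 2 ≤ nq G v) : G.PosDef :=
  posDef_of_nq hG fun v hv => lt_of_lt_of_le (by have := norm_pos_iff.2 hv; positivity) (h v)

variable [T2Space M] [ConnectedSpace M]

/-- quasi-charts from a curvature bound on a ball -/
theorem qc_ball (hQ : QCStmt n) : ∃ ε0 N : ℝ, 0 < ε0 ∧ 0 < N ∧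
    ∀ (K : Kah A) (x : M) (r : ℝ), 0 < r → ProperSpace (ofKah K).M →
      (∀ i, ∀ z ∈ (A.e i).target, BKge (gc K i) z 0 ∧ BKle (gc K i) z (scal (gc K i) z)) →
      (∀ y, dK K x y ≤ N * r → RK K y ≤ ε0 / r ^ 2) →
      ∃ ψ : Cn n → M, Imm A ψ (ball 0 1) ∧ ψ 0 = x ∧
        pbm K ψ 0 = ((r ^ 2 : ℝ) : ℂ) • (1 : Mat n) ∧
        (∀ w ∈ ball (0 : Cn n) 1, ∀ v, r ^ 2 / 2 * ‖v‖ ^ 2 ≤ nq (pbm K ψ w) v) ∧
        ∀ w ∈ ball (0 : Cn n) 1, ∀ v, nq (pbm K ψ w) v ≤ 2 * r ^ 2 * ‖v‖ ^ 2 := by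
  obtain ⟨ε0, N, h0, hN, H⟩ := hQ (1 / 2) (by norm_num)
  refine ⟨ε0, N, h0, hN, fun K x r hr hP hb hR => ?_⟩
  have hx : dK K x x = 0 := dist_self (α := (ofKah K).M) x
  obtain ⟨ψ, hψ⟩ := H M A (gc K) univ (dK K x) 1 r (N * r) isOpen_univ (kahOn_gc K univ) one_pos hr
    (U0.lipOn_dK K x) (by simpa using compact_dK K hP x (N * r)) (fun i y hy _ hd => by
      have hz := (A.e i).map_source hy
      have hp := (kahAt_gc K i hz).posDef.posSemidef
      obtain ⟨b1, b2⟩ := hb i _ hz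
      refine ⟨fun v w => le_trans ?_ (b1 v w), fun v w => (b2 v w).trans ?_⟩
      · have := nq_nonneg hp v
        have := nq_nonneg hp w
        rw [zero_mul, zero_mul, neg_zero, neg_nonpos]
        positivity
      · have := nq_nonneg hp v
        have := nq_nonneg hp w
        rw [RK_eq K hy]
        have := hR y hd
        gcongr) x (mem_univ _) (by rw [hx]; simp)
  refine ⟨ψ, hψ.imm, hψ.zero, by rw [← pull_gc]; exact hψ.ctr, fun w hw v => ?_, fun w hw v => ?_⟩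
  · have := hψ.lo w hw v
    rw [pull_gc] at this
    linarith
  · have := hψ.hi w hw v
    rw [pull_gc] at this
    have h1 : 0 ≤ r ^ 2 * ‖v‖ ^ 2 := by positivity
    linarith

variable {K0 : Kah A} {p : M} (F : Flow K0 p)

theorem bk_at {t : ℝ} (ht : 0 < t) : ∀ i, ∀ z ∈ (A.e i).target,
    BKge (gc (F.K t) i) z 0 ∧ BKle (gc (F.K t) i) z (scal (gc (F.K t) i) z) :=
  fun i z hz => ⟨F.bk t ht i z hz, (tr_at F ht i hz).2.2.2.1⟩

/-- the flow is not flat -/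
theorem R_pos (hn : 1 ≤ n) (hQ : QCStmt n) (hP : PinchStmt n) (H : Hyp K0) :
    ∃ t0, 1 ≤ t0 ∧ 0 < RK (F.K t0) p := by
  by_contra h
  push Not at h
  have h2 : RK (F.K 2) p = 0 := le_antisymm (h 2 (by norm_num)) (R_nonneg F two_pos p)
  have hflat : ∀ y, RK (F.K 1) y ≤ 0 := fun y => by
    have h3 := harn F one_pos one_lt_two (x := y) (y := p) le_rfl
    rw [h2] at h3
    simpa using h3
  obtain ⟨ε0, N, h0, hN, HQ⟩ := qc_ball (A := A) hQ
  obtain ⟨c, c2, hc, hc2, HP⟩ := hP M A K0 H.bk {p} isCompact_singleton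
  have hi := ch_mem A p
  set B := trg ((F.K 1).g (ch A p) p) (K0.g (ch A p) p) with hB
  have hBle : ∀ v, nq (K0.g (ch A p) p) v ≤ B * nq ((F.K 1).g (ch A p) p) v := fun v =>
    nq_le_trg_of_nq ((F.K 1).pos _ _ hi) (nq_nonneg (K0.pos _ _ hi).posSemidef) v
  -- a large radius
  obtain ⟨r, hr, hrc⟩ : ∃ r : ℝ, 0 < r ∧ Real.log (2 * B) < c * Real.log (c2 * (r ^ 2 / 2)) := by
    refine ⟨Real.sqrt (2 * Real.exp (Real.log (2 * B) / c + 1) / c2), by positivity, ?_⟩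
    rw [Real.sq_sqrt (by positivity), show c2 * (2 * Real.exp (Real.log (2 * B) / c + 1) / c2 / 2) =
      Real.exp (Real.log (2 * B) / c + 1) by field_simp, Real.log_exp, mul_add,
      mul_div_cancel₀ _ hc.ne']
    linarith
  obtain ⟨ψ, a1, a2, a3, a4, a5⟩ := HQ (F.K 1) p r hr (F.proper 1 one_pos) (bk_at F one_pos)
    fun y _ => (hflat y).trans (by positivity)
  have hm : 0 < r ^ 2 / 2 := by positivity
  have hlo : ∀ w ∈ ball (0 : Cn n) 1, ∀ v, r ^ 2 / 2 * ‖v‖ ^ 2 ≤ nq (pbm K0 ψ w) v :=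
    fun w hw v => (a4 w hw v).trans (by simpa using (F.le0 1 one_pos).pbm ψ w v)
  set e : Cn n := EuclideanSpace.single ⟨0, hn⟩ 1 with he
  have he1 : ‖e‖ = 1 := by simp [he]
  have h3 := HP ψ _ a1 hm hlo 0 (mem_ball_self (by norm_num)) (by simp [a2]) e e he1 he1
  have h4 := hlo 0 (mem_ball_self one_pos) e
  rw [he1, one_pow, mul_one] at h4
  have hi' : ψ 0 ∈ (A.e (ch A p)).source := by rwa [a2]
  have h5 : nq (pbm K0 ψ 0) e ≤ B * r ^ 2 := by
    have h6 : nq (pbm (F.K 1) ψ 0) e = r ^ 2 := by rw [a3, nq_smul, nq_one, he1]; ring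
    rw [← h6, nq_pbm K0 a1.1 (mem_ball_self one_pos) hi',
      nq_pbm (F.K 1) a1.1 (mem_ball_self one_pos) hi', a2]
    exact hBle _
  have hB0 : 0 < B := by
    by_contra h6
    have : B * r ^ 2 ≤ 0 := mul_nonpos_of_nonpos_of_nonneg (not_lt.1 h6) (by positivity)
    linarith
  have h6 : Real.log (nq (pbm K0 ψ 0) e) ≤ Real.log (r ^ 2 / 2) + Real.log (2 * B) := by
    rw [← Real.log_mul hm.ne' (by positivity)]
    exact Real.log_le_log (hm.trans_le h4) (by linarith)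
  have h7 : Real.log (c2 * (r ^ 2 / 2)) ≤ Real.log (c2 * nq (pbm K0 ψ 0) e) :=
    Real.log_le_log (by positivity) (by gcongr)
  have h8 := mul_le_mul_of_nonneg_left h7 hc.le
  linarith

theorem sg_top (hn : 1 ≤ n) (hQ : QCStmt n) (hP : PinchStmt n) (H : Hyp K0) :
    Tendsto (fun t => LV K0 (F.K t) p) atTop atTop := by
  obtain ⟨t0, h0, h1⟩ := R_pos F hn hQ hP H
  have h2 : 0 < t0 := by linarith
  have h3 : Tendsto (fun t => LV K0 (F.K t0) p + t0 * RK (F.K t0) p * (Real.log t - Real.log t0))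
      atTop atTop :=
    tendsto_atTop_add_const_left _ _ (Tendsto.const_mul_atTop (by positivity)
      (tendsto_atTop_add_const_right _ _ Real.tendsto_log_atTop))
  refine tendsto_atTop_mono' _ ?_ h3
  filter_upwards [eventually_ge_atTop t0] with t ht
  exact LV_log F h2 ht p

/-- unit scale charts -/
theorem charts (hQ : QCStmt n) : ∃ r : ℝ, 0 < r ∧ ∀ t, 1 ≤ t →
    ∃ ψ : Cn n → M, Imm A ψ (ball 0 1) ∧ ψ 0 = p ∧
      pbm (F.K t) ψ 0 = ((r ^ 2 : ℝ) : ℂ) • (1 : Mat n) ∧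
      (∀ w ∈ ball (0 : Cn n) 1, ∀ v, r ^ 2 / 2 * ‖v‖ ^ 2 ≤ nq (pbm (F.K t) ψ w) v) ∧
      ∀ w ∈ ball (0 : Cn n) 1, ∀ v, nq (pbm (F.K t) ψ w) v ≤ 2 * r ^ 2 * ‖v‖ ^ 2 := by
  obtain ⟨ε0, N, h0, hN, HQ⟩ := qc_ball (A := A) hQ
  obtain ⟨C, hC0, hC⟩ := R_le F
  set r := min N⁻¹ (Real.sqrt (ε0 / (2 * C * Real.exp 1))) with hr
  have hr0 : 0 < r := lt_min (inv_pos.2 hN) (by positivity)
  have hr1 : N * r ≤ 1 := by
    have := min_le_left N⁻¹ (Real.sqrt (ε0 / (2 * C * Real.exp 1)))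
    calc N * r ≤ N * N⁻¹ := by gcongr
      _ = 1 := mul_inv_cancel₀ hN.ne'
  have hr2 : r ^ 2 ≤ ε0 / (2 * C * Real.exp 1) := by
    rw [← Real.sq_sqrt (by positivity : 0 ≤ ε0 / (2 * C * Real.exp 1))]
    exact pow_le_pow_left₀ hr0.le (min_le_right _ _) 2
  refine ⟨r, hr0, fun t ht => HQ (F.K t) p r hr0 (F.proper t (by linarith))
    (bk_at F (by linarith)) fun y hy => ?_⟩
  have ht0 : 0 < t := by linarith
  have h1 := harn F ht0 (t2 := t + 1) (by linarith) (x := y) (y := p) (D := 1)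
    ((dist_comm (α := (ofKah (F.K t)).M) y p).le.trans (hy.trans hr1))
  rw [show t + 1 - t = 1 by ring, one_pow, div_one] at h1
  have h2 := hC (t + 1) (by linarith)
  have h3 := R_nonneg F (t := t + 1) (by linarith) p
  have h4 : t * RK (F.K t) y ≤ t * (2 * C * Real.exp 1) :=
    calc _ ≤ (t + 1) * RK (F.K (t + 1)) p * Real.exp 1 := h1
      _ ≤ (2 * t) * C * Real.exp 1 := by gcongr; linarith
      _ = _ := by ring
  refine (le_of_mul_le_mul_left h4 ht0).trans ?_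
  rw [le_div_iff₀ (by positivity)]
  rw [le_div_iff₀ (by positivity)] at hr2
  linarith

theorem pinch (hn : 1 ≤ n) (hP : PinchStmt n) (H : Hyp K0) {m : ℝ} (hm : 0 < m) (Q : Set M)
    (hQ : IsCompact Q) : ∃ ε C' : ℝ, 0 < ε ∧ ∀ t, 1 ≤ t → ∀ ψ : Cn n → M, Imm A ψ (ball 0 1) →
      (∀ w ∈ ball (0 : Cn n) 1, ∀ v, m * ‖v‖ ^ 2 ≤ nq (pbm (F.K t) ψ w) v) →
      ∀ w ∈ ball (0 : Cn n) (1 / 2), ψ w ∈ Q → ∀ v,
        Real.exp (ε * LV K0 (F.K t) p - C') * ‖v‖ ^ 2 ≤ nq (pbm K0 ψ w) v := by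
  obtain ⟨c, c2, hc, hc2, HP⟩ := hP M A K0 H.bk Q hQ
  obtain ⟨D, hD⟩ : ∃ D, ∀ x ∈ Q, dK K0 p x ≤ D := by
    have h1 : Continuous fun y : (ofKah K0).M => dist (α := (ofKah K0).M) p y :=
      continuous_const.dist continuous_id
    have h2 : Continuous fun y : M => dK K0 p y := h1
    obtain ⟨D, hD⟩ := hQ.bddAbove_image h2.continuousOn
    exact ⟨D, fun x hx => hD (mem_image_of_mem _ hx)⟩
  obtain ⟨θ, C, hθ, hC⟩ := LV_ge F D
  have hn0 : (0 : ℝ) < n := by exact_mod_cast hn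
  refine ⟨c * θ / n, c * C / n - Real.log m - c * Real.log c2 - c * Real.log m, by positivity,
    fun t ht ψ hψ hlo w hw hwQ v => ?_⟩
  have ht0 : 0 < t := by linarith
  have hw1 : w ∈ ball (0 : Cn n) 1 := ball_subset_ball (by norm_num) hw
  have hlo0 : ∀ w ∈ ball (0 : Cn n) 1, ∀ v, m * ‖v‖ ^ 2 ≤ nq (pbm K0 ψ w) v :=
    fun w hw v => (hlo w hw v).trans (by simpa using (F.le0 t ht0).pbm ψ w v)
  by_cases hv : v = 0
  · simp [hv, nq_zero]
  obtain ⟨e0, he0, hv0⟩ := exists_unit hv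
  have hpd : (pbm K0 ψ w).PosDef := posDef_of_lower (pbm_herm _ _ _) hm (hlo0 w hw1)
  obtain ⟨e, he, hdet⟩ := exists_max hn hpd
  have h1 := HP ψ m hψ hm hlo0 w hw hwQ e0 e he0 he
  have h2 := hlo0 w hw1 e0
  have h3 := hlo0 w hw1 e
  rw [he0, one_pow, mul_one] at h2
  rw [he, one_pow, mul_one] at h3
  -- the determinant
  have hi := ch_mem A (ψ w)
  have hJ : 0 < ‖(fderiv ℂ (rd A (ch A (ψ w)) ψ) w).det‖ ^ 2 := by
    have := (det_ne_zero_iff _).2 (hψ.2 w hw1 _ hi)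
    positivity
  have h4 : Real.log (pbm K0 ψ w).det.re =
      LV K0 (F.K t) (ψ w) + Real.log (pbm (F.K t) ψ w).det.re := by
    rw [det_pbm K0 hψ.1 hw1 hi, det_pbm (F.K t) hψ.1 hw1 hi, LV_eq' K0 _ hi,
      Real.log_mul hJ.ne' (det_re_pos (K0.pos _ _ hi)).ne',
      Real.log_mul hJ.ne' (det_re_pos ((F.K t).pos _ _ hi)).ne']
    ring
  have h5 : n * Real.log m ≤ Real.log (pbm (F.K t) ψ w).det.re := by
    have h6 := Lo.logdet_le (G := (1 : Mat n)) Matrix.PosDef.one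
      (posDef_of_lower (pbm_herm (F.K t) ψ w) hm (hlo w hw1)) (inv_pos.2 hm) fun v => by
        rw [nq_one, ← div_eq_inv_mul, le_div_iff₀ hm, mul_comm]
        exact hlo w hw1 v
    rw [Real.log_inv] at h6
    simp only [Matrix.det_one, Complex.one_re, Real.log_one] at h6
    linarith
  have h6 := hC t ht _ (hD _ hwQ)
  have h7 : (θ * LV K0 (F.K t) p - C) / n + Real.log m ≤ Real.log (nq (pbm K0 ψ w) e) := by
    rw [div_add' _ _ _ hn0.ne', div_le_iff₀ hn0]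
    linarith
  rw [Real.log_mul hc2.ne' (hm.trans_le h3).ne'] at h1
  have h8 := mul_le_mul_of_nonneg_left h7 hc.le
  rw [hv0, mul_comm]
  refine mul_le_mul_of_nonneg_left ?_ (by positivity)
  rw [← Real.le_log_iff_exp_le (hm.trans_le h2)]
  have h9 : c * θ / n * LV K0 (F.K t) p - c * C / n = c * ((θ * LV K0 (F.K t) p - C) / n) := by
    ring
  linarith

end

theorem geoStmt {n : ℕ} (hn : 1 ≤ n) (hQ : QCStmt n) (hP : PinchStmt n) : GeoStmt n := by
  intro M _ _ _ A K0 p H F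
  obtain ⟨r, hr, hch⟩ := charts F hQ
  have hch' : ∀ t : ℝ, ∃ ψ : Cn n → M, 1 ≤ t → Imm A ψ (ball 0 1) ∧ ψ 0 = p ∧
      pbm (F.K t) ψ 0 = ((r ^ 2 : ℝ) : ℂ) • (1 : Mat n) ∧
      (∀ w ∈ ball (0 : Cn n) 1, ∀ v, r ^ 2 / 2 * ‖v‖ ^ 2 ≤ nq (pbm (F.K t) ψ w) v) ∧
      ∀ w ∈ ball (0 : Cn n) 1, ∀ v, nq (pbm (F.K t) ψ w) v ≤ 2 * r ^ 2 * ‖v‖ ^ 2 := by
    intro t
    by_cases ht : 1 ≤ t
    · obtain ⟨ψ, hψ⟩ := hch t ht
      exact ⟨ψ, fun _ => hψ⟩
    · exact ⟨fun _ => p, fun h => absurd h ht⟩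
  choose ψ hψ using hch'
  obtain ⟨C, hC0, hC⟩ := R_le F
  have hr2 : 0 < r ^ 2 := by positivity
  have hΛ : (2 : ℝ) ≤ max 2 (r ^ 2)⁻¹ := le_max_left _ _
  refine ⟨
    { τ := r ^ 2
      Λ := max 2 (r ^ 2)⁻¹
      ψ := ψ
      sg := fun t => LV K0 (F.K t) p
      R := fun t => RK (F.K t) p
      C := C
      one_le := by linarith
      τ_lo := ?_
      qc := fun t ht => ⟨(hψ t ht).1, fun w hw v => ?_, fun w hw v => ?_⟩
      zero := fun t ht => (hψ t ht).2.1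
      ctr := fun t ht => (hψ t ht).2.2.1
      anti := fun s t hs hst => anti F hs hst
      sg_eq := fun t ht i hi => LV_eq K0 _ hi
      R_eq := fun t ht i hi => RK_eq _ hi
      sg_deriv := fun t ht => hasDerivAt_LV F ht p
      sg_nonneg := fun t ht => LV_nonneg (F.le0 t ht) p
      sg_top := sg_top F hn hQ hP H
      R_nonneg := fun t ht => R_nonneg F ht p
      R_mono := R_mono F p
      R_le := hC
      R_pos := R_pos F hn hQ hP H
      pinch := fun Q hQc => ?_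
      ricpos := ricPos_of_BKpos H.bk }⟩
  · calc (1 : ℝ) = (r ^ 2)⁻¹ * r ^ 2 := (inv_mul_cancel₀ hr2.ne').symm
      _ ≤ _ := by gcongr; exact le_max_right _ _
  · have h1 := (hψ t ht).2.2.2.1 w hw v
    have h2 := nq_pbm_nonneg (F.K t) (ψ t) w v
    nlinarith
  · refine ((hψ t ht).2.2.2.2 w hw v).trans ?_
    gcongr
  · obtain ⟨ε, C', hε, h⟩ := pinch F hn hP H (m := r ^ 2 / 2) (by positivity) Q hQc
    exact ⟨ε, C', hε, fun t ht w hw hwQ v => h t ht (ψ t) (hψ t ht).1 (hψ t ht).2.2.2.1 w hw hwQ v⟩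

end Crest.Agent.T223.Hn38
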