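import Crest.Agent.T223.Hm4_77
import Crest.Agent.R271.H5_361

/-!
# Row 223, module HOER (helper85): the Hilbert space argument
-/

set_option autoImplicit false
set_option linter.unusedSectionVars false

open Set Filter Topology Complex Matrix MeasureTheory
open scoped ContDiff Matrix ComplexConjugate ComplexOrder ENNReal

namespace Crest.Agent.T223.Hm

open Crest.Agent.R275 Crest.Agent.R275.Geo Crest.Agent.R275.Core144
open Crest.Agent.R273.Defs_333 Crest.Agent.R273.Kah_333 Crest.Agent.R273.Vm_333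

noncomputable section

namespace H85

theorem norm_sq_Lp {X W : Type*} [MeasurableSpace X] {μ : Measure X} [NormedAddCommGroup W]
    [InnerProductSpace ℂ W] (f : Lp W 2 μ) : ‖f‖ ^ 2 = ∫ x, ‖f x‖ ^ 2 ∂μ := by
  rw [← inner_self_eq_norm_sq (𝕜 := ℂ) f, L2.inner_def]
  simp only [inner_self_eq_norm_sq_to_K]
  have : ∀ x, ((‖f x‖ : ℝ) : ℂ) ^ 2 = ((‖f x‖ ^ 2 : ℝ) : ℂ) := fun x => by push_cast; rfl
  simp only [Complex.coe_algebraMap, this, integral_complex_ofReal]
  rfl

theorem cs_int {X : Type*} [MeasurableSpace X] {μ : Measure X} {φ κ Θ : X → ℝ}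
    (h1 : Integrable φ μ) (h2 : Integrable κ μ) (h3 : Integrable Θ μ) (hκ : ∀ x, 0 ≤ κ x)
    (hΘ : ∀ x, 0 ≤ Θ x) (h : ∀ᵐ x ∂μ, φ x ^ 2 ≤ κ x * Θ x) :
    (∫ x, φ x ∂μ) ^ 2 ≤ (∫ x, κ x ∂μ) * ∫ x, Θ x ∂μ := by
  have key : ∀ t : ℝ, 0 ≤ (∫ x, κ x ∂μ) * (t * t) + (-2 * ∫ x, φ x ∂μ) * t + ∫ x, Θ x ∂μ := by
    intro t
    have h4 : ∫ x, 2 * t * φ x ∂μ ≤ ∫ x, (t * t * κ x + Θ x) ∂μ := by
      refine integral_mono_ae (h1.const_mul _) ((h2.const_mul _).add h3) ?_
      filter_upwards [h] with x hx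
      have h5 : 0 ≤ t * t * κ x + Θ x := add_nonneg (mul_nonneg (mul_self_nonneg t) (hκ x)) (hΘ x)
      refine (abs_le.1 (abs_le_of_sq_le_sq ?_ h5)).2
      nlinarith [sq_nonneg (t * t * κ x - Θ x), mul_le_mul_of_nonneg_left hx (mul_self_nonneg t)]
    rw [integral_add (h2.const_mul _) h3, integral_const_mul, integral_const_mul] at h4
    linarith
  have := discrim_le_zero key
  rw [discrim] at this
  linarith

variable {n : ℕ} {M : Type} [TopologicalSpace M] {A : Atl n M} {N : LB A} [Countable A.ι]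
  [T2Space M] [MeasurableSpace M] [BorelSpace M]

/-- test fields -/
def TF (N : LB A) : Submodule ℂ (A.ι → M → Fin n → ℂ) where
  carrier := {v | IsF N v ∧ Cs v}
  add_mem' hv hv' := ⟨hv.1.add hv'.1, hv.2.add hv'.2⟩
  zero_mem' := ⟨isF_zero, cs_zero⟩
  smul_mem' c _ hv := ⟨hv.1.smul c, hv.2.smul c⟩

variable (h : HM ((KB A)⁻¹ * N)) (vol : HM (KB A)⁻¹) (K : Kah A)

/-- the graph element in `L²` -/
def RL : TF N →ₗ[ℂ] Lp (EW n) 2 (vm vol) where
  toFun v := (memLp_RR h vol K v.2.1 v.2.2).toLp _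
  map_add' v v' := by
    rw [← MemLp.toLp_add]
    exact MemLp.toLp_congr _ _ (Eventually.of_forall (congrFun (RR_add h vol K v.2.1 v'.2.1)))
  map_smul' c v := by
    rw [RingHom.id_apply, ← MemLp.toLp_const_smul]
    exact MemLp.toLp_congr _ _ (Eventually.of_forall (congrFun (RR_smul h vol K v.2.1 c)))

variable {W : Type} [NormedAddCommGroup W] [NormedSpace ℂ W]

/-- a component of the graph element -/
def PL (π : EW n →L[ℂ] W) : TF N →ₗ[ℂ] Lp W 2 (vm vol) :=
  (π.compLpL 2 (vm vol)).toLinearMap ∘ₗ RL h vol K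

theorem PL_ae (π : EW n →L[ℂ] W) (v : TF N) :
    PL h vol K π v =ᵐ[vm vol] fun x => π (RR h vol K v.1 x) := by
  filter_upwards [π.coeFn_compLpL (RL h vol K v), (memLp_RR h vol K v.2.1 v.2.2).coeFn_toLp]
    with x h1 h2
  exact h1.trans (congrArg π h2)

theorem inner_sh (v : A.ι → M → Fin n → ℂ) (s : A.ι → M → ℂ) (x : M) :
    inner ℂ (r2 h vol K v x) (r2 h vol K (sh K s) x) =
      gl vol (fun i y => (h.w i y : ℂ) * (star (v i y) ⬝ᵥ dbs s i y)) x := by
  rw [r2, r2, inner_t2 h vol K (ix_mem x), gl, ← lw_sh K s (ix_mem x), lw, Complex.real_smul,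
    Complex.ofReal_inv]

theorem conj_r1 (s' s : A.ι → M → ℂ) (x : M) : conj (r1 h vol s' x) * r1 h vol s x =
    gl vol (fun i y => (h.w i y : ℂ) * (conj (s' i y) * s i y)) x := by
  have := o1_conj h vol (ix_mem x)
  rw [r1, r1, map_mul, mul_mul_mul_comm, this, gl, Complex.real_smul]
  push_cast
  ring

/-- the three projections -/
abbrev p1 (n : ℕ) : EW n →L[ℂ] E2 n := ContinuousLinearMap.fst ℂ _ _

/-- the three projections -/
abbrev p2 (n : ℕ) : EW n →L[ℂ] ℂ :=
  (ContinuousLinearMap.fst ℂ _ _).comp (ContinuousLinearMap.snd ℂ _ _)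

/-- the three projections -/
abbrev p3 (n : ℕ) : EW n →L[ℂ] E3 n :=
  (ContinuousLinearMap.snd ℂ _ _).comp (ContinuousLinearMap.snd ℂ _ _)

theorem inner_p1 (v : TF N) (g : Lp (E2 n) 2 (vm vol)) :
    inner ℂ (PL h vol K (p1 n) v) g = ∫ x, inner ℂ (r2 h vol K v.1 x) (g x) ∂(vm vol) := by
  rw [L2.inner_def]
  refine integral_congr_ae ?_
  filter_upwards [PL_ae h vol K (p1 n) v] with x hx
  rw [hx]; rfl

theorem inner_p2 (v : TF N) (t : Lp ℂ 2 (vm vol)) :
    inner ℂ (PL h vol K (p2 n) v) t = -∫ x, conj (r1 h vol (dv h v.1) x) * t x ∂(vm vol) := by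
  rw [L2.inner_def, ← integral_neg]
  refine integral_congr_ae ?_
  filter_upwards [PL_ae h vol K (p2 n) v] with x hx
  rw [hx, RCLike.inner_apply']
  show conj (-r1 h vol (dv h v.1) x) * _ = _
  rw [map_neg, neg_mul]

theorem dual (P : Part A) {s : A.ι → M → ℂ} (hs : IsS N s) (hc : Cs s) (v : TF N) :
    inner ℂ (PL h vol K (p1 n) v) ((memLp_sh h vol K hs hc).toLp _) =
      inner ℂ (PL h vol K (p2 n) v) ((memLp_r1s h vol hs hc).toLp _) := by
  rw [inner_p1, inner_p2]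
  refine Eq.trans (integral_congr_ae ?_) (((bkn1 n M A P K N h vol v.1 v.2.1 v.2.2).1 s hs).trans
    (congrArg _ (integral_congr_ae ?_)))
  · filter_upwards [(memLp_sh h vol K hs hc).coeFn_toLp] with x hx
    rw [hx, inner_sh]
  · filter_upwards [(memLp_r1s h vol hs hc).coeFn_toLp] with x hx
    rw [hx, conj_r1]

theorem apriori (P : Part A) (hp : h.Semipos) {G : A.ι → M → ℂ} (hG : IsS N G) (hc : Cs G)
    {κ : M → ℝ} (hi : Integrable κ (vm vol)) (h0 : ∀ x, 0 ≤ κ x)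
    (hb : ∀ i, ∀ x ∈ (A.e i).source, ∀ v : Fin n → ℂ,
      h.w i x * ‖star v ⬝ᵥ dbs G i x‖ ^ 2 ≤ κ x * vol.w i x * hq (cur h i x) v) (v : TF N) :
    ‖inner ℂ ((memLp_sh h vol K hG hc).toLp _) (PL h vol K (p1 n) v)‖ ^ 2 ≤
      (∫ x, κ x ∂(vm vol)) * ‖PL h vol K (p2 n) v‖ ^ 2 +
        (∫ x, κ x ∂(vm vol)) * ‖PL h vol K (p3 n) v‖ ^ 2 := by
  obtain ⟨C, hC, hz⟩ := v.2.2
  have hΘ : Integrable (gl vol fun i y => h.w i y * hq (cur h i y) (v.1 i y)) (vm vol) := by
    have := (integral_gl_re (vol := vol) P (isD_form h (cur_smooth h)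
      (fun _ _ _ hx => cur_tr h hx) v.2.1 v.2.1) hC (fun i x _ hx => by simp [hz i x hx])
      subset_rfl).1
    simpa only [Complex.re_ofReal_mul, hq] using this
  have hΘ0 : ∀ x, 0 ≤ gl vol (fun i y => h.w i y * hq (cur h i y) (v.1 i y)) x := fun x =>
    mul_nonneg (inv_pos.2 (vol.pos _ _ (ix_mem x))).le (mul_nonneg (h.pos _ _ (ix_mem x)).le
      (Complex.le_def.1 ((cur_posSemidef hp _ (ix_mem x)).transpose.dotProduct_mulVec_nonneg _)).1)
  rw [norm_inner_symm, L2.inner_def, ← mul_add]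
  refine (pow_le_pow_left₀ (norm_nonneg _) (norm_integral_le_integral_norm _) 2).trans
    ((cs_int (L2.integrable_inner _ _).norm hi hΘ h0 hΘ0 ?_).trans
      (mul_le_mul_of_nonneg_left (((bkn1 n M A P K N h vol v.1 v.2.1 v.2.2).2).trans (le_of_eq ?_))
        (integral_nonneg h0)))
  · filter_upwards [PL_ae h vol K (p1 n) v, (memLp_sh h vol K hG hc).coeFn_toLp] with x h1 h2
    have h3 := hb _ x (ix_mem x) (v.1 (ix A x) x)
    have h4 := vol.pos _ _ (ix_mem x)
    have h5 := h.pos _ _ (ix_mem x)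
    rw [h1, h2]
    show ‖inner ℂ (r2 h vol K v.1 x) _‖ ^ 2 ≤ _
    rw [inner_sh, gl, gl, norm_smul, norm_mul, Complex.norm_real, Real.norm_of_nonneg h5.le,
      Real.norm_of_nonneg (inv_pos.2 h4).le, smul_eq_mul]
    have h6 := mul_le_mul_of_nonneg_left h3 (show 0 ≤ (vol.w (ix A x) x)⁻¹ ^ 2 * h.w (ix A x) x by
      positivity)
    refine le_trans (le_of_eq (by ring)) (h6.trans (le_of_eq ?_))
    field_simp
  · rw [norm_sq_Lp, norm_sq_Lp]
    congr 1
    · refine integral_congr_ae ?_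
      filter_upwards [PL_ae h vol K (p2 n) v] with x hx
      rw [hx, ← norm_r1, ← norm_neg]; rfl
    · refine integral_congr_ae ?_
      filter_upwards [PL_ae h vol K (p3 n) v] with x hx
      rw [hx, ← norm_r3]; rfl

end H85

open H85

/-- **Hoermander's theorem** from density and regularity -/
theorem hoer_of (hD : DensStmt) (hR : RegStmt) : HoerStmt := by
  intro n M _ _ _ _ A _ P K hcut N h hp vol G hG hc κ hκ h0 hb
  by_cases htop : ∫⁻ x, ENNReal.ofReal (κ x) ∂(vm vol) = ⊤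
  · refine ⟨0, ⟨fun i => contDiffOn_const (c := 0), fun i j x _ => by simp⟩,
      fun i => differentiableOn_const 0, ?_⟩
    rw [htop]; exact le_top
  have hi : Integrable κ (vm vol) :=
    ⟨hκ.aestronglyMeasurable, (hasFiniteIntegral_iff_ofReal (Eventually.of_forall h0)).2
      (lt_top_iff_ne_top.2 htop)⟩
  have hmem : ∀ (s : A.ι → M → ℂ) (hs : IsS N s) (hc : Cs s), (memLp_sh h vol K hs hc).toLp _ ∈
      ((LinearMap.ker (PL h vol K (p2 n))).map (PL h vol K (p1 n)))ᗮ := by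
    intro s hs hc
    rw [Submodule.mem_orthogonal]
    rintro _ ⟨v, hv, rfl⟩
    rw [dual h vol K P hs hc, LinearMap.mem_ker.1 hv, inner_zero_left]
  refine (R271.H361.exists_solution (V := {s : A.ι → M → ℂ // IsS N s ∧ Cs s})
    (PL h vol K (p1 n)) (PL h vol K (p2 n)) (PL h vol K (p3 n))
    (fun s => (memLp_r1s h vol s.2.1 s.2.2).toLp _) (fun s => (memLp_sh h vol K s.2.1 s.2.2).toLp _)
    _ (Submodule.isClosed_orthogonal _) (fun s => hmem s.1 s.2.1 s.2.2)
    (fun s v => by rw [← inner_conj_symm, dual h vol K P s.2.1 s.2.2, inner_conj_symm])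
    ?_ _ (hmem G hG hc) (integral_nonneg h0)
    (apriori h vol K P hp hG hc hi h0 hb)).elim fun u ⟨hu, hu'⟩ => ?_
  rotate_left
  · obtain ⟨F, hF, hF', hq⟩ := hR n M A N h vol ((memLp_r1s h vol hG hc).toLp _ - u : Lp ℂ 2 _)
      (Lp.memLp _) fun v hv hv' => by
        rw [← neg_eq_zero, ← inner_p2 h vol K ⟨v, hv, hv'⟩, inner_sub_right,
          ← dual h vol K P hG hc, ← inner_conj_symm _ u, hu', inner_conj_symm, sub_self]
    refine ⟨F, hF, hF', ?_⟩
    have h1 : ∀ᵐ x ∂(vm vol), gl vol (fun i y => h.w i y * ‖F i y - G i y‖ ^ 2) x = ‖u x‖ ^ 2 := by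
      filter_upwards [hq, Lp.coeFn_sub ((memLp_r1s h vol hG hc).toLp _) u,
        (memLp_r1s h vol hG hc).coeFn_toLp] with x e1 e2 e3
      rw [e2, Pi.sub_apply, e3] at e1
      have e4 : r1 h vol (F - G) x = -u x := by
        rw [r1, Pi.sub_apply, Pi.sub_apply, mul_sub]
        change r1 h vol F x - r1 h vol G x = _
        rw [← e1]; ring
      rw [← norm_neg, ← e4, norm_r1]; rfl
    rw [lintegral_congr_ae (h1.mono fun x hx => congrArg ENNReal.ofReal hx),
      ← ofReal_integral_eq_lintegral_ofReal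
        ((memLp_two_iff_integrable_sq_norm (Lp.aestronglyMeasurable u)).1 (Lp.memLp u))
        (Eventually.of_forall fun _ => sq_nonneg _), ← norm_sq_Lp,
      ← ofReal_integral_eq_lintegral_ofReal hi (Eventually.of_forall h0)]
    exact ENNReal.ofReal_le_ofReal hu
  · intro g t hg hgt
    have key := hD n M A P K hcut N h vol g t (Lp.memLp g) (Lp.memLp t) (fun v hv hv' hz => by
        rw [← inner_p1 h vol K ⟨v, hv, hv'⟩]
        refine (Submodule.mem_orthogonal _ _).1 hg _ ⟨_, LinearMap.mem_ker.2 (Lp.ext ?_), rfl⟩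
        filter_upwards [PL_ae h vol K (p2 n) ⟨v, hv, hv'⟩, Lp.coeFn_zero ℂ 2 (vm vol)] with x e1 e2
        rw [e1, e2]
        show -r1 h vol (dv h v) x = 0
        rw [r1, hz _ x (ix_mem x), mul_zero, neg_zero])
      fun s hs hs' => by
        have := hgt ⟨s, hs, hs'⟩
        rw [L2.inner_def, L2.inner_def] at this
        refine Eq.trans (integral_congr_ae ?_) (this.trans (integral_congr_ae ?_))
        · filter_upwards [(memLp_sh h vol K hs hs').coeFn_toLp] with x hx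
          rw [hx]
        · filter_upwards [(memLp_r1s h vol hs hs').coeFn_toLp] with x hx
          rw [hx, RCLike.inner_apply']
    choose f f1 f2 f3 using fun k : ℕ => key ((k : ℝ≥0∞))⁻¹ (ENNReal.inv_pos.2 (by simp))
    have hm : MemLp (fun x => ((g x, t x, 0) : EW n)) 2 (vm vol) :=
      MemLp.of_fst_snd ⟨Lp.memLp g, MemLp.of_fst_snd ⟨Lp.memLp t, MemLp.zero⟩⟩
    have hlim : Tendsto (fun k => RL h vol K ⟨f k, f1 k, f2 k⟩) atTop (𝓝 (hm.toLp _)) :=
      (Lp.tendsto_Lp_iff_tendsto_eLpNorm'' _ (fun k => memLp_RR h vol K (f1 k) (f2 k)) _ hm).2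
        (tendsto_of_tendsto_of_tendsto_of_le_of_le tendsto_const_nhds
          ENNReal.tendsto_inv_nat_nhds_zero (fun _ => zero_le) f3)
    have e : ∀ {W : Type} [NormedAddCommGroup W] [NormedSpace ℂ W] (π : EW n →L[ℂ] W)
        (w : Lp W 2 (vm vol)), (∀ᵐ x ∂(vm vol), π (g x, t x, 0) = w x) →
        Tendsto (fun k => PL h vol K π ⟨f k, f1 k, f2 k⟩) atTop (𝓝 w) := by
      intro W _ _ π w hw
      have h1 : π.compLpL 2 (vm vol) (hm.toLp _) = w := by
        refine Lp.ext ?_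
        filter_upwards [π.coeFn_compLpL (hm.toLp _), hm.coeFn_toLp, hw] with x e1 e2 e3
        rw [e1, e2, e3]
      exact h1 ▸ ((π.compLpL 2 (vm vol)).continuous.tendsto _).comp hlim
    exact ⟨fun k => ⟨f k, f1 k, f2 k⟩, e _ g (Eventually.of_forall fun _ => rfl),
      e _ t (Eventually.of_forall fun _ => rfl),
      e _ 0 ((Lp.coeFn_zero (E3 n) 2 (vm vol)).mono fun _ hx => hx.symm)⟩

end

end Crest.Agent.T223.Hm
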