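import Crest.Agent.T223.Hm4_77
import Crest.Agent.R271.Weyl_399

/-!
# Row 223, module HOER (helper61): weakly holomorphic `L²` sections are holomorphic
-/

set_option autoImplicit false
set_option linter.unusedSectionVars false

open Set Filter Topology Complex Matrix MeasureTheory
open scoped ContDiff Matrix ComplexConjugate ComplexOrder ENNReal

namespace Crest.Agent.T223.Hm

open Crest.Agent.R275 Crest.Agent.R275.Geo Crest.Agent.R275.Core144
open Crest.Agent.R275.OmT75 (dl)
open Crest.Agent.R273.Defs_333 Crest.Agent.R273.Kah_333 Crest.Agent.R273.Vm_333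
open Crest.Agent.R271

noncomputable section

variable {n : ℕ} {M : Type} [TopologicalSpace M] {A : Atl n M} {N : LB A} [Countable A.ι]
  [T2Space M] [MeasurableSpace M] [BorelSpace M] (h : HM ((KB A)⁻¹ * N)) (vol : HM (KB A)⁻¹)

/-- the flat coefficient of an `L²` section -/
def qf61 (q : M → ℂ) (i : A.ι) (z : Fin n → ℂ) : ℂ := (o1 h vol i (sz A i z))⁻¹ * q (sz A i z)

theorem qf61_loc {q : M → ℂ} (hq : MemLp q 2 (vm vol)) (i : A.ι) :
    LocallyIntegrableOn (qf61 h vol q i) (Tz A i) := by
  rw [locallyIntegrableOn_iff (isOpen_Tz i).isLocallyClosed]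
  intro C hs hC
  have hm : AEStronglyMeasurable (qf61 h vol q i) (volume.restrict (Tz A i)) :=
    aesm_flat vol (f := fun x => (o1 h vol i x)⁻¹ * q x)
      ((aesm_o1 h vol i _).aemeasurable.inv.aestronglyMeasurable.mul hq.1.restrict)
  have hm' : AEStronglyMeasurable (qf61 h vol q i) (volume.restrict C) :=
    hm.mono_measure (Measure.restrict_mono hs le_rfl)
  obtain ⟨B, hB⟩ := hC.exists_bound_of_continuousOn (f := fun z => (h.w i (sz A i z))⁻¹)
    (((smAt_flat (h.sm i)).continuousOn.inv₀ fun z hz => (h.pos i _ (sz_mem hz)).ne').mono hs)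
  have h1 := flat_le vol (i := i) hq.1 (F := C.indicator (qf61 h vol q i)) (c := |B| + 1)
    (by positivity) (fun z hz => indicator_of_notMem (fun h' => hz (hs h')) _) fun z hz => by
      have h2 := vol.pos i _ (sz_mem hz)
      by_cases hzC : z ∈ C
      · have h3 : (h.w i (sz A i z))⁻¹ ≤ (|B| + 1) ^ 2 := by
          have h4 := (le_abs_self _).trans ((hB z hzC).trans (le_abs_self B))
          nlinarith [abs_nonneg B]
        rw [indicator_of_mem hzC, qf61, norm_mul, mul_pow, norm_inv, inv_pow,
          o1_sq h vol (sz_mem hz), inv_div, div_eq_inv_mul, mul_assoc]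
        gcongr
      · rw [indicator_of_notMem hzC, norm_zero, zero_pow two_ne_zero]
        positivity
  rw [eLpNorm_indicator_eq_eLpNorm_restrict hC.measurableSet] at h1
  have : IsFiniteMeasure ((volume : Measure (Fin n → ℂ)).restrict C) :=
    isFiniteMeasure_restrict.2 hC.measure_lt_top.ne
  have h2 : MemLp (qf61 h vol q i) 2 (volume.restrict C) :=
    ⟨hm', h1.trans_lt (ENNReal.mul_lt_top ENNReal.ofReal_lt_top hq.2)⟩
  exact h2.integrable one_le_two

theorem qf61_weak {q : M → ℂ} (hq : MemLp q 2 (vm vol))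
    (h0 : ∀ v, IsF N v → Cs v → ∫ x, conj (r1 h vol (dv h v) x) * q x ∂(vm vol) = 0) (i : A.ι) :
    Weyl399.WeakHol (qf61 h vol q i) (Tz A i) := by
  intro j φ hφ hc hs
  set Φ : (Fin n → ℂ) → Fin n → ℂ :=
    fun z a => ((h.w i (sz A i z) : ℂ))⁻¹ * (if a = j then conj (φ z) else 0) with hΦ
  have hz : ∀ z ∉ tsupport φ, Φ z = 0 := fun z hz => by
    funext a
    simp [hΦ, image_eq_zero_of_notMem_tsupport hz]
  have hT : ∀ a, Tst A i fun z => Φ z a := fun a => by
    refine ⟨ContDiffOn.mul ?_ ?_, _, hc, hs, fun z hz' => congrFun (hz z hz') a⟩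
    · exact (Complex.ofRealCLM.contDiff.comp_contDiffOn (smAt_flat (h.sm i))).inv
        fun z hz => w_ne h (sz_mem hz)
    · split_ifs
      · exact (Complex.conjCLE.contDiff.comp hφ).contDiffOn
      · exact contDiffOn_const
  have hv := extF_isF (N := N) hT
  have hoff : ∀ k, ∀ x ∉ sz A i '' tsupport φ, extF N i Φ k x = 0 := fun k x hx => by
    by_cases hi : x ∈ (A.e i).source
    · rw [extF, if_pos hi, hz _ (cz_notMem hi hx), Matrix.mulVec_zero, smul_zero]
    · exact extF_off hi k
  have hd : ∀ z ∈ Tz A i, dv h (extF N i Φ) i (sz A i z) =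
      ((h.w i (sz A i z) : ℂ))⁻¹ * conj (Weyl399.dbar j φ z) := fun z hz => by
    rw [dv, Finset.sum_eq_single j]
    · rw [dl_flat, cz_sz hz, wF_congrOn (Ψ := fun w => conj (φ w)) hz fun w hw => by
        rw [extF_self (sz_mem hw), cz_sz hw, hΦ]
        simp only [if_true]
        rw [mul_inv_cancel_left₀ (w_ne h (sz_mem hw))], wF_conj, map_neg, Complex.conj_I, neg_neg]
      rfl
    · intro a _ ha
      rw [dl_flat, cz_sz hz, wF_congrOn (Ψ := fun _ => 0) hz fun w hw => by
        rw [extF_self (sz_mem hw), hΦ]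
        simp [ha]]
      simp [wF]
    · simp
  have h1 := h0 _ hv ⟨_, isCompact_sz hc hs, hoff⟩
  have hm : AEStronglyMeasurable (fun x => conj (r1 h vol (dv h (extF N i Φ)) x) * q x) (vm vol) :=
    (Complex.continuous_conj.comp_aestronglyMeasurable
      (aesm_r1 h vol (dv_isS h hv).sm _)).mul hq.1
  rw [← setIntegral_eq_integral_of_forall_compl_eq_zero (s := (A.e i).source) fun x hx => by
      rw [r1, dv_off h (isCompact_sz hc hs) hoff (ix_mem x) fun ⟨w, hw, hw'⟩ =>
        hx (hw' ▸ sz_mem (hs hw))]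
      simp, integral_chart vol hm.restrict] at h1
  rw [← setIntegral_eq_integral_of_forall_compl_eq_zero (s := Tz A i) fun z hz => by
      rw [show Weyl399.dbar j φ z = 0 from wF_zero_off (s := I) fun h' => hz (hs h'), mul_zero],
    ← h1]
  refine setIntegral_congr_fun (isOpen_Tz i).measurableSet fun z hz => ?_
  have h2 := o1_conj h vol (sz_mem hz)
  have h3 := o1_ne h vol i (sz A i z)
  have h4 := w_ne h (sz_mem hz)
  have h5 := w_ne vol (sz_mem hz)
  have h6 : conj (o1 h vol i (sz A i z)) =
      (h.w i (sz A i z) : ℂ) / vol.w i (sz A i z) * (o1 h vol i (sz A i z))⁻¹ := by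
    rw [← Complex.ofReal_div, ← h2, mul_inv_cancel_right₀ h3]
  simp only [r1_eq h vol (dv_isS h hv).tr (sz_mem hz), hd z hz, qf61, map_mul, h6, map_inv₀,
    Complex.conj_ofReal, Complex.conj_conj, Complex.real_smul]
  field_simp

/-- **leaf REG** -/
theorem reg : RegStmt := by
  intro n M _ _ _ _ A _ N h vol q hq h0
  choose H hH hae using fun i =>
    Weyl399.weyl (isOpen_Tz i) (qf61_loc h vol hq i) (qf61_weak h vol hq h0 i)
  have hol : ∀ i, HolAt A i univ fun x => H i (cz A i x) := fun i => by
    have h1 : DifferentiableOn ℂ (fun z : Cn n => H i (WithLp.ofLp z)) (A.e i).target :=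
      (hH i).comp (PiLp.continuousLinearEquiv 2 ℂ (fun _ : Fin n => ℂ)).differentiableOn
        fun _ hz => hz
    refine (h1.mono inter_subset_left).congr fun z hz => ?_
    simp only [cz, (A.e i).right_inv hz.1]
  have ha : ∀ i, ∀ᵐ x ∂(vm vol), x ∈ (A.e i).source → q x = o1 h vol i x * H i (cz A i x) :=
    fun i => by
      rw [← ae_restrict_iff' (A.e i).open_source.measurableSet]
      refine ae_of_flat vol ?_
      filter_upwards [hae i, ae_restrict_mem (isOpen_Tz i).measurableSet] with z hz hz'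
      rw [cz_sz hz', ← hz, qf61, mul_inv_cancel_left₀ (o1_ne h vol i _)]
  have hc : ∀ i, ContinuousOn (fun x => H i (cz A i x)) (A.e i).source := fun i => by
    simpa using contOn_holAt (hol i)
  refine ⟨fun i x => H i (cz A i x), ⟨fun i => ?_, fun i j => ?_⟩, hol, ?_⟩
  · simpa [Atl.SmAt] using (hol i).contDiffOn isOpen_univ
  · have := isOpenPos_vm vol
    have ho := (A.e i).open_source.inter (A.e j).open_source
    refine Measure.eqOn_open_of_ae_eq (μ := vm vol) (f := fun x => H i (cz A i x))
      (g := fun x => N.g i j x * H j (cz A j x)) ?_ ho ((hc i).mono inter_subset_left)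
      ((contOn_Ng N i j).mul ((hc j).mono inter_subset_right))
    rw [EventuallyEq, ae_restrict_iff' ho.measurableSet]
    filter_upwards [ha i, ha j] with x h1 h2 hx
    refine mul_left_cancel₀ (o1_ne h vol i x) ?_
    rw [← h1 hx.1, h2 hx.2, o1_law h vol hx, mul_assoc]
  · filter_upwards [ae_all_iff.2 ha] with x hx using hx _ (ix_mem x)

end

end Crest.Agent.T223.Hm
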