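import Crest.Agent.T223.Hm8_77
import Crest.Agent.T223.HmR_61
import Crest.Agent.T223.HmH_85

/-!
# Row 223, module HOER (helper77), part 9: Hoermander's theorem on a complete Kaehler manifold
-/

namespace Crest.Agent.T223.Hm

theorem hoer : HoerStmt := hoer_of dens reg

end Crest.Agent.T223.Hm
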