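import Crest.Agent.T223.HnP3_76

/-!
# Row 223, PINCH, part 4 (helper76): `pinchStmt : PinchStmt n`
-/

set_option autoImplicit false
set_option linter.unusedVariables false
set_option linter.unusedSectionVars false

open Set Filter Topology Metric
open scoped ContDiff ComplexConjugate Matrix ComplexOrder InnerProductSpace

namespace Crest.Agent.T223.Hn

open Crest.Agent.R275.Geo Crest.Agent.R275.EDR890 Crest.Agent.R273.Kah_333
open Crest.Agent.R273.Hess_333 Crest.Agent.R273.HessB_333 Crest.Agent.R273.Defs_333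
open Crest.Agent.T223.Br Crest.Agent.T223.Tr

noncomputable section

variable {n : ℕ} {M : Type} [TopologicalSpace M] [T2Space M] {A : Atl n M}

/-- lower barrier for `- log λ_min (ψ^* g₀)` -/
theorem metric_barrier (K0 : Kah A) {ψ : Cn n → M} (hψ : Imm A ψ (ball 0 1)) {w1 e1 : Cn n}
    (hw : w1 ∈ ball (0 : Cn n) 1) (he : ‖e1‖ = 1) {j : A.ι} (hj : ψ w1 ∈ (A.e j).source) :
    ∃ Φ : Cn n → ℝ, ContDiffAt ℝ ∞ Φ w1 ∧ Φ w1 = -Real.log (nq (pbm K0 ψ w1) e1) ∧
      (∀ᶠ w in 𝓝 w1, ∃ e', ‖e'‖ = 1 ∧ Φ w ≤ -Real.log (nq (pbm K0 ψ w) e')) ∧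
      ∃ s0, 0 < nq (gc K0 j (rd A j ψ w1)) s0 ∧ ∀ v, nq (hess Φ w1) v =
        bis (gc K0 j) (rd A j ψ w1) s0 (fderiv ℂ (rd A j ψ) w1 v) /
          nq (gc K0 j (rd A j ψ w1)) s0 := by
  set T := rd A j ψ with hT
  have hev := hψ.1.eventually isOpen_ball hw hj
  have hTd : ∀ᶠ w in 𝓝 w1, DifferentiableAt ℂ T w := hev.mono fun _ h => h.2.2
  have hz : T w1 ∈ (A.e j).target := (A.e j).map_source hj
  have he0 : e1 ≠ 0 := by rintro rfl; simp at he
  set s0 := fderiv ℂ T w1 e1 with hs0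
  have hs00 : s0 ≠ 0 := fun h => he0 (hψ.2 w1 hw j hj (by rw [map_zero]; exact h))
  obtain ⟨s, hsd, hs1, hNc, hNh⟩ := exists_field (gc_sm K0 j hz) (gc_herm K0 j hz) (gc_pos K0 j hz) s0
  set N : Cn n → ℝ := fun z => nq (gc K0 j z) (s z) with hN
  have hN0 : N (T w1) = nq (gc K0 j (T w1)) s0 := by simp only [hN, hs1]
  have hpos : 0 < nq (gc K0 j (T w1)) s0 := nq_pos_76 (gc_pos K0 j hz) hs00
  set N0 := nq (gc K0 j (T w1)) s0 with hN0d
  -- the holomorphic section in the quasi-chart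
  set st : Cn n → Cn n := fun w => (fderiv ℂ T w).inverse (s (T w)) with hst
  have hinv : ∀ᶠ w in 𝓝 w1, fderiv ℂ T w (st w) = s (T w) ∧ DifferentiableAt ℂ st w := by
    filter_upwards [hev, hTd.eventually_nhds] with w h h'
    have hi := hψ.2 w h.1 j h.2.1
    have e1 : fderiv ℂ T w = (eqvOf _ hi : Cn n ≃L[ℂ] Cn n) := (eqvOf_coe _ hi).symm
    constructor
    · simp only [hst]
      conv_lhs => rw [e1]
      rw [ContinuousLinearMap.inverse_equiv]
      exact (eqvOf _ hi).apply_symm_apply _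
    · have h1 : ContDiffAt ℂ 1 (fderiv ℂ T) w := (contDiffAt_of_eventually h').fderiv_right le_top
      have h2 : ContDiffAt ℂ 1 ContinuousLinearMap.inverse (fderiv ℂ T w) := by
        rw [e1]; exact contDiffAt_map_inverse _
      have h3 := (h2.comp w h1).differentiableAt (by simp)
      exact h3.clm_apply ((hsd _).comp w h'.self_of_nhds)
  have hst1 : st w1 = e1 := hψ.2 w1 hw j hj (by rw [hinv.self_of_nhds.1, hs1])
  set f : Cn n → ℂ := fun w => innerSL ℂ e1 (st w) with hf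
  have hfd : ∀ᶠ w in 𝓝 w1, DifferentiableAt ℂ f w := by
    filter_upwards [hinv] with w h
    exact (innerSL ℂ e1).differentiableAt.comp w h.2
  have hf1 : f w1 = 1 := by
    simp only [hf, hst1, innerSL_apply_apply, inner_self_eq_norm_sq_to_K, he]; simp
  have hfne : f w1 ≠ 0 := by rw [hf1]; exact one_ne_zero
  have hc1 : ContDiffAt ℝ ∞ (fun w => Real.log (‖f w‖ ^ 2)) w1 :=
    ((real_contDiffAt hfd).norm_sq ℝ).log (pow_ne_zero _ (norm_ne_zero_iff.2 hfne))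
  have hc2 : ContDiffAt ℝ ∞ (fun w => N (T w)) w1 := hNc.comp w1 (real_contDiffAt hTd)
  have hc3 : ContDiffAt ℝ ∞ (fun w => (-(1 / N0)) * N (T w)) w1 := contDiffAt_const.mul hc2
  have hc4 : ContDiffAt ℝ ∞ (fun w => (1 - Real.log N0) + (-(1 / N0)) * N (T w)) w1 :=
    contDiffAt_const.add hc3
  refine ⟨fun w => Real.log (‖f w‖ ^ 2) + ((1 - Real.log N0) + (-(1 / N0)) * N (T w)),
    hc1.add hc4, ?_, ?_, s0, hpos, fun v => ?_⟩
  · rw [nq_pbm K0 hψ.1 hw hj, ← gc_e K0 hj]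
    simp only [hf1, hN0]
    change _ = -Real.log N0
    have : -(1 / N0) * N0 = -1 := by field_simp
    rw [this]; simp; ring
  · have h5 : ∀ᶠ w in 𝓝 w1, f w ≠ 0 := hfd.self_of_nhds.continuousAt.eventually_ne hfne
    have h6 : ∀ᶠ w in 𝓝 w1, 0 < N (T w) :=
      hc2.continuousAt.eventually (lt_mem_nhds (show 0 < N (T w1) by rw [hN0]; exact hpos))
    filter_upwards [h5, h6, hinv, hev] with w h h' hi hw'
    have hs : st w ≠ 0 := by
      intro h0
      simp only [hf, h0, map_zero] at h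
      exact h rfl
    have hn : 0 < ‖st w‖ := norm_pos_iff.2 hs
    refine ⟨‖st w‖⁻¹ • st w, by simp [norm_smul, hn.ne'], ?_⟩
    rw [nq_vsmul, nq_pbm K0 hψ.1 hw'.1 hw'.2.1, ← gc_e K0 hw'.2.1]
    change _ ≤ -Real.log (‖st w‖⁻¹ ^ 2 * nq (gc K0 j (T w)) (fderiv ℂ T w (st w)))
    rw [hi.1]
    change _ ≤ -Real.log (‖st w‖⁻¹ ^ 2 * N (T w))
    have h7 : ‖f w‖ ^ 2 ≤ ‖st w‖ ^ 2 := by
      refine pow_le_pow_left₀ (norm_nonneg _) ?_ 2
      have := norm_inner_le_norm (𝕜 := ℂ) e1 (st w)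
      rw [he, one_mul] at this
      exact this
    have h8 := Real.log_le_log (pow_pos (norm_pos_iff.2 h) 2) h7
    have h9 := Real.log_le_sub_one_of_pos (div_pos h' hpos)
    rw [Real.log_div h'.ne' hpos.ne'] at h9
    rw [Real.log_mul (by positivity) h'.ne', inv_pow, Real.log_inv]
    have h10 : -(1 / N0) * N (T w) = -(N (T w) / N0) := by ring
    rw [h10]
    linarith
  · rw [hess_add hc1 hc4, hess_add contDiffAt_const hc3, hess_log_norm hfd hfne, hess_const_76,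
      hess_const_mul _ hc2, zero_add, zero_add, nq_smul, nq_hess_comp hNc hTd, hNh]
    ring

theorem continuousAt_nq_pbm (K0 : Kah A) {ψ : Cn n → M} (hψ : Hol A ψ (ball 0 1)) {w0 e : Cn n}
    {q : ℂ × Cn n} (hq : lin w0 e q.1 ∈ ball (0 : Cn n) 1) :
    ContinuousAt (fun q : ℂ × Cn n => nq (pbm K0 ψ (lin w0 e q.1)) q.2) q := by
  have h0 : ContinuousAt (fun q : ℂ × Cn n => pbm K0 ψ (lin w0 e q.1)) q :=
    (continuousAt_pbm K0 hψ isOpen_ball hq).comp (f := fun q : ℂ × Cn n => lin w0 e q.1)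
      ((lin_diff w0 e).continuous.comp continuous_fst).continuousAt
  unfold nq
  refine Complex.continuous_re.continuousAt.comp ?_
  refine tendsto_finsetSum _ fun a _ => tendsto_finsetSum _ fun b _ => ?_
  have h1 := continuousAt_pi.1 (continuousAt_pi.1 h0 a) b
  have h2 : Continuous fun q : ℂ × Cn n => q.2 a := by fun_prop
  have h3 : Continuous fun q : ℂ × Cn n => conj (q.2 b) := by fun_prop
  exact (h1.mul h2.continuousAt).mul h3.continuousAt

theorem pinch_max {K0 : Kah A} (hB : BKpos K0) {c0 r m : ℝ} (hc0 : 0 < c0) {ψ : Cn n → M}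
    (hψ : Imm A ψ (ball 0 1)) {w0 e e0 : Cn n} (hw : w0 ∈ ball (0 : Cn n) (1 / 2)) (he : ‖e‖ = 1)
    (he0 : ‖e0‖ = 1) (hr : 0 < r) {i : A.ι} (h0 : ψ w0 ∈ (A.e i).source)
    (hsub : closedBall (rd A i ψ w0) r ⊆ (A.e i).target)
    (hlow : ∀ z ∈ closedBall (rd A i ψ w0) r, ∀ s v,
      c0 * nq (gc K0 i z) s * ‖v‖ ^ 2 ≤ bis (gc K0 i) z s v) (hm : 0 < m)
    (hlo : ∀ w ∈ ball (0 : Cn n) 1, ∀ v, m * ‖v‖ ^ 2 ≤ nq (pbm K0 ψ w) v) {ε : ℝ} (hε : 0 < ε) :
    -Real.log (nq (pbm K0 ψ w0) e0) + c0 * r ^ 2 * Real.log (max (plE A i ψ w0 e r 0) 16) ≤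
      -Real.log m + c0 * r ^ 2 * Real.log 16 + ε := by
  set c := c0 * r ^ 2 with hc
  have hcp : 0 < c := by positivity
  set U : ℂ × Cn n → ℝ := fun q => -Real.log (nq (pbm K0 ψ (lin w0 e q.1)) q.2) +
    c * Real.log (max (plE A i ψ w0 e r q.1) 16) + ε * ‖q.1‖ ^ 2 with hU
  set S : Set (ℂ × Cn n) := closedBall 0 (1 / 4) ×ˢ sphere 0 1 with hS
  have hSc : IsCompact S := (isCompact_closedBall _ _).prod (isCompact_sphere _ _)
  have h0S : ((0 : ℂ), e0) ∈ S := ⟨by simp, by simpa using he0⟩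
  have hq1 : ∀ q ∈ S, ‖q.1‖ < 1 / 2 := fun q hq => by
    have := mem_closedBall_zero_iff.1 hq.1; linarith
  have hq2 : ∀ q ∈ S, m ≤ nq (pbm K0 ψ (lin w0 e q.1)) q.2 := fun q hq => by
    have h1 := hlo _ (lin_mem hw he (hq1 q hq)) q.2
    rw [mem_sphere_zero_iff_norm.1 hq.2] at h1
    simpa using h1
  have husc : UpperSemicontinuousOn U S := by
    intro q hq y hy
    obtain ⟨V, hVc, hV0, hVle⟩ := plE_usc hψ.1 hw he hr h0 (hq1 q hq)
    set U' : ℂ × Cn n → ℝ := fun q => -Real.log (nq (pbm K0 ψ (lin w0 e q.1)) q.2) +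
      c * Real.log (max (V q.1) 16) + ε * ‖q.1‖ ^ 2 with hU'
    have h1 : ContinuousAt U' q := by
      have a1 := (continuousAt_nq_pbm K0 hψ.1 (lin_mem hw he (hq1 q hq))).log
        (hm.trans_le (hq2 q hq)).ne'
      have a2 : ContinuousAt (fun q : ℂ × Cn n => max (V q.1) 16) q :=
        (hVc.comp continuousAt_fst).max continuousAt_const
      have a3 := a2.log (lt_of_lt_of_le (by norm_num) (le_max_right _ _)).ne'
      have a4 : Continuous fun q : ℂ × Cn n => ε * ‖q.1‖ ^ 2 := by fun_prop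
      exact (a1.neg.add (continuousAt_const.mul a3)).add a4.continuousAt
    have h2 : U' q < y := by simp only [hU', hV0]; exact hy
    refine Eventually.filter_mono nhdsWithin_le_nhds ?_
    filter_upwards [h1.eventually (gt_mem_nhds h2), continuousAt_fst.eventually hVle] with p hp hp'
    refine lt_of_le_of_lt ?_ hp
    simp only [hU, hU']
    have : Real.log (max (plE A i ψ w0 e r p.1) 16) ≤ Real.log (max (V p.1) 16) :=
      Real.log_le_log (lt_of_lt_of_le (by norm_num) (le_max_right _ _)) (max_le_max hp' le_rfl)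
    have := mul_le_mul_of_nonneg_left this hcp.le
    linarith
  obtain ⟨⟨ζ0, e1⟩, hqS, hmax⟩ := husc.exists_isMaxOn ⟨_, h0S⟩ hSc
  have hζ : ‖ζ0‖ < 1 / 2 := hq1 _ hqS
  have he1 : ‖e1‖ = 1 := mem_sphere_zero_iff_norm.1 hqS.2
  have hb : ‖ζ0‖ = 1 / 4 := by
    by_contra hne
    have hlt : ‖ζ0‖ < 1 / 4 := lt_of_le_of_ne (mem_closedBall_zero_iff.1 hqS.1) hne
    obtain ⟨j, hj, β, hβc, hβ0, hβle, hβh⟩ := pole_barrier hB hc0 hψ.1 hw he hr h0 hsub hlow hζ
    obtain ⟨Φ, hΦc, hΦ0, hΦle, s0, hs0, hΦh⟩ := metric_barrier K0 hψ (lin_mem hw he hζ) he1 hj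
    have hc2 : ContDiffAt ℝ ∞ (fun w => c * β w) (lin w0 e ζ0) := contDiffAt_const.mul hβc
    have hc3 : ContDiffAt ℝ ∞ (fun w : Cn n => ε * ‖w - w0‖ ^ 2) (lin w0 e ζ0) :=
      contDiffAt_const.mul (contDiffAt_normSq _ _)
    have hnl : ∀ ζ, ‖lin w0 e ζ - w0‖ = ‖ζ‖ := fun ζ => by simp [lin, norm_smul, he]
    have h1 : ∀ᶠ ζ in 𝓝 ζ0, Φ (lin w0 e ζ) + c * β (lin w0 e ζ) + ε * ‖lin w0 e ζ - w0‖ ^ 2 ≤
        Φ (lin w0 e ζ0) + c * β (lin w0 e ζ0) + ε * ‖lin w0 e ζ0 - w0‖ ^ 2 := by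
      filter_upwards [hβle, (lin_diff w0 e ζ0).continuousAt.eventually hΦle,
        continuous_norm.continuousAt.eventually (gt_mem_nhds hlt)] with ζ h h' h''
      obtain ⟨e', he', hle⟩ := h'
      have h3 : U (ζ, e') ≤ U (ζ0, e1) :=
        hmax (show (ζ, e') ∈ S from ⟨mem_closedBall_zero_iff.2 h''.le,
          mem_sphere_zero_iff_norm.2 he'⟩)
      simp only [hU] at h3
      rw [hΦ0, hβ0, hnl, hnl]
      have := mul_le_mul_of_nonneg_left h hcp.le
      linarith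
    have h2 := hess_nonpos_line (u := fun w => Φ w + c * β w + ε * ‖w - w0‖ ^ 2) (v := e)
      ((hΦc.add hc2).add hc3) (by
        have ht : Tendsto (fun ζ : ℂ => ζ0 + ζ) (𝓝 0) (𝓝 ζ0) := by
          simpa using (continuous_const_add ζ0).tendsto 0
        filter_upwards [ht.eventually h1] with ζ h
        have : lin w0 e ζ0 + ζ • e = lin w0 e (ζ0 + ζ) := by simp [lin, add_smul, add_assoc]
        rw [this]; exact h)
    rw [hess_add (hΦc.add hc2) hc3, hess_add hΦc hc2, hess_const_mul _ hβc,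
      hess_const_mul _ (contDiffAt_normSq _ _), nq_add_76, nq_add_76, nq_smul, nq_smul,
      nq_hess_normSq, hΦh, he] at h2
    have h4 := div_nonneg (hβh s0) hs0.le
    rw [add_div, mul_right_comm, mul_div_assoc, div_self hs0.ne'] at h4
    linarith
  have h5 : U (0, e0) ≤ U (ζ0, e1) := hmax h0S
  simp only [hU, lin_zero] at h5
  have hne : ζ0 ≠ 0 := by rintro rfl; simp at hb
  have h6 : plE A i ψ w0 e r ζ0 ≤ 16 := by
    refine (plE_le hne).trans ?_
    rw [hb]; norm_num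
  rw [max_eq_right h6, hb] at h5
  have h7 := Real.log_le_log hm (hq2 _ hqS)
  simp only [norm_zero] at h5
  simp only at h7
  nlinarith

theorem pinchStmt (n : ℕ) : PinchStmt n := by
  intro M _ _ A K0 hB Q hQ
  set P : Set M → Prop := fun S => ∃ c c2 : ℝ, 0 < c ∧ 0 < c2 ∧
      ∀ (ψ : Cn n → M) (m : ℝ), Imm A ψ (ball 0 1) → 0 < m →
        (∀ w ∈ ball (0 : Cn n) 1, ∀ v, m * ‖v‖ ^ 2 ≤ nq (pbm K0 ψ w) v) →
        ∀ w ∈ ball (0 : Cn n) (1 / 2), ψ w ∈ S → ∀ e0 e : Cn n, ‖e0‖ = 1 → ‖e‖ = 1 →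
          Real.log m + c * Real.log (c2 * nq (pbm K0 ψ w) e) ≤ Real.log (nq (pbm K0 ψ w) e0)
    with hP
  change P Q
  have hb : ball (0 : Cn n) (1 / 2) ⊆ ball 0 1 := ball_subset_ball (by norm_num)
  -- monotonicity in the constants
  have hmono : ∀ (ψ : Cn n → M) (m c c' c2 c2' : ℝ) (w e0 e : Cn n), 0 < m → 0 < c' → c' ≤ c →
      0 < c2' → c2' ≤ c2 → m ≤ nq (pbm K0 ψ w) e0 → m ≤ nq (pbm K0 ψ w) e →
      Real.log m + c * Real.log (c2 * nq (pbm K0 ψ w) e) ≤ Real.log (nq (pbm K0 ψ w) e0) →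
      Real.log m + c' * Real.log (c2' * nq (pbm K0 ψ w) e) ≤ Real.log (nq (pbm K0 ψ w) e0) := by
    intro ψ m c c' c2 c2' w e0 e hm hc' hcc hc2' hcc2 h1 h2 h3
    have h4 := Real.log_le_log hm h1
    have h5 : Real.log (c2' * nq (pbm K0 ψ w) e) ≤ Real.log (c2 * nq (pbm K0 ψ w) e) :=
      Real.log_le_log (mul_pos hc2' (hm.trans_le h2))
        (mul_le_mul_of_nonneg_right hcc2 (hm.trans_le h2).le)
    by_cases h6 : Real.log (c2' * nq (pbm K0 ψ w) e) ≤ 0
    · nlinarith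
    · push Not at h6
      nlinarith
  refine hQ.induction_on (p := P) ⟨1, 1, one_pos, one_pos, fun ψ m _ _ _ w _ h => h.elim⟩ ?_ ?_ ?_
  · rintro s t hst ⟨c, c2, h1, h2, h3⟩
    exact ⟨c, c2, h1, h2, fun ψ m a b d w hw hs => h3 ψ m a b d w hw (hst hs)⟩
  · rintro s t ⟨c, c2, h1, h2, h3⟩ ⟨c', c2', h1', h2', h3'⟩
    refine ⟨min c c', min c2 c2', lt_min h1 h1', lt_min h2 h2', ?_⟩
    intro ψ m a b d w hw hs e0 e he0 he
    have k1 : m ≤ nq (pbm K0 ψ w) e0 := by simpa [he0] using d w (hb hw) e0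
    have k2 : m ≤ nq (pbm K0 ψ w) e := by simpa [he] using d w (hb hw) e
    rcases hs with hs | hs
    · exact hmono ψ m c _ c2 _ w e0 e b (lt_min h1 h1') (min_le_left _ _) (lt_min h2 h2')
        (min_le_left _ _) k1 k2 (h3 ψ m a b d w hw hs e0 e he0 he)
    · exact hmono ψ m c' _ c2' _ w e0 e b (lt_min h1 h1') (min_le_right _ _) (lt_min h2 h2')
        (min_le_right _ _) k1 k2 (h3' ψ m a b d w hw hs e0 e he0 he)
  · intro x _
    obtain ⟨i, hi⟩ := A.cover x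
    obtain ⟨ρ, hρ, hρs⟩ := Metric.isOpen_iff.1 (A.e i).open_target _ ((A.e i).map_source hi)
    set r := ρ / 3 with hr
    have hrp : 0 < r := by positivity
    have hsub : closedBall (A.e i x) (2 * r) ⊆ (A.e i).target :=
      (closedBall_subset_ball (by linarith)).trans hρs
    obtain ⟨c0, hc0, hlow⟩ := exists_bis_lower hB i (isCompact_closedBall _ _) hsub
    obtain ⟨C, hC, hup⟩ := exists_upper K0 i (isCompact_closedBall _ _) hsub
    refine ⟨(A.e i).source ∩ A.e i ⁻¹' ball (A.e i x) r, mem_nhdsWithin_of_mem_nhds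
      (((A.e i).isOpen_inter_preimage isOpen_ball).mem_nhds ⟨hi, mem_ball_self hrp⟩),
      c0 * r ^ 2, 1 / (16 * C * r ^ 2), by positivity, by positivity, ?_⟩
    intro ψ m hψ hm hlo w hw hs e0 e he0 he
    have hss : closedBall (rd A i ψ w) r ⊆ closedBall (A.e i x) (2 * r) := by
      refine closedBall_subset_closedBall' ?_
      have : dist (rd A i ψ w) (A.e i x) < r := hs.2
      linarith
    have h1 : -Real.log (nq (pbm K0 ψ w) e0) +
        c0 * r ^ 2 * Real.log (max (plE A i ψ w e r 0) 16) ≤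
        -Real.log m + c0 * r ^ 2 * Real.log 16 :=
      le_of_forall_pos_le_add fun ε hε => pinch_max hB hc0 hψ hw he he0 hrp hs.1 (hss.trans hsub)
        (fun z hz => hlow z (hss hz)) hm hlo hε
    have k2 : m ≤ nq (pbm K0 ψ w) e := by simpa [he] using hlo w (hb hw) e
    have hd : HasDerivAt (dsc A i ψ w e) (fderiv ℂ (rd A i ψ) w e) 0 := by
      have a1 : HasDerivAt (lin w e) e 0 := by
        have := ((hasDerivAt_id (0 : ℂ)).smul_const e).const_add w
        rw [one_smul] at this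
        exact this
      have a2 : HasFDerivAt (rd A i ψ) (fderiv ℂ (rd A i ψ) w) (lin w e 0) := by
        rw [lin_zero]; exact ((hψ.1 w (hb hw)).2 i hs.1).hasFDerivAt
      exact a2.comp_hasDerivAt 0 a1
    have h2 : 16 * (1 / (16 * C * r ^ 2) * nq (pbm K0 ψ w) e) ≤ max (plE A i ψ w e r 0) 16 := by
      refine le_trans ?_ (le_max_left _ _)
      rw [plE, if_pos (cond_zero hrp hs.1), plb, dslope_same, hd.deriv, dsc_zero, sub_self,
        nq_pbm K0 hψ.1 (hb hw) hs.1, ← gc_e K0 hs.1]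
      have a1 := hup (rd A i ψ w) (hss (mem_closedBall_self hrp.le)) (fderiv ℂ (rd A i ψ) w e)
      have a2 : (1 : ℝ) ≤ Real.exp (1 - ‖(0 : Cn n)‖ ^ 2 / r ^ 2) := by simp
      calc 16 * (1 / (16 * C * r ^ 2) * nq (gc K0 i (A.e i (ψ w))) (fderiv ℂ (rd A i ψ) w e))
          ≤ 16 * (1 / (16 * C * r ^ 2) * (C * ‖fderiv ℂ (rd A i ψ) w e‖ ^ 2)) := by
            gcongr; exact a1
        _ = ‖fderiv ℂ (rd A i ψ) w e‖ ^ 2 / r ^ 2 * 1 := by field_simp
        _ ≤ _ := by gcongr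
    have h3 := Real.log_le_log (by have := hm.trans_le k2; positivity) h2
    rw [Real.log_mul (by norm_num) (by have := hm.trans_le k2; positivity)] at h3
    have h4 := mul_le_mul_of_nonneg_left h3 (by positivity : 0 ≤ c0 * r ^ 2)
    linarith

end

end Crest.Agent.T223.Hn
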