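import Crest.Agent.T223.TrDef_90

/-!
# Row 223, module TRANS (helper90): calculus of pull-backs, existence of the transition cocycle
-/

set_option autoImplicit false
set_option linter.unusedVariables false
set_option linter.unusedSectionVars false

open Set Filter Topology Metric
open scoped ContDiff ComplexConjugate Matrix ComplexOrder

namespace Crest.Agent.T223.Tr

open Crest.Agent.R275.Geo Crest.Agent.R273.Kah_333 Crest.Agent.R273.Hess_333
open Crest.Agent.R275.Core144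

noncomputable section

variable {n : ℕ} {M : Type} [TopologicalSpace M] {A : Atl n M}

/-- the matrix of a linear map -/
def mat (L : Cn n →L[ℂ] Cn n) : Matrix (Fin n) (Fin n) ℂ :=
  Matrix.of fun b a => L (EuclideanSpace.single a 1) b

theorem jac_eq (T : Cn n → Cn n) (z : Cn n) : jac T z = mat (fderiv ℂ T z) := rfl

theorem apply_eq_sum (L : Cn n →L[ℂ] Cn n) (v : Cn n) (b : Fin n) :
    L v b = ∑ a, mat L b a * v a := by
  have h : v = ∑ a, v a • (EuclideanSpace.single a 1 : Cn n) := by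
    ext c; simp [Finset.sum_apply, Pi.single_apply]
  conv_lhs => rw [h]
  simp [mat, map_sum, mul_comm]

theorem mat_comp (L L' : Cn n →L[ℂ] Cn n) : mat (L ∘L L') = mat L * mat L' := by
  ext b a
  rw [Matrix.mul_apply]
  exact apply_eq_sum L (L' (EuclideanSpace.single a 1)) b

theorem mat_id : mat (ContinuousLinearMap.id ℂ (Cn n)) = 1 := by
  ext b a
  simp [mat, Matrix.one_apply, PiLp.single_apply]

theorem det_mat (L : Cn n →L[ℂ] Cn n) : (mat L).det = L.det := by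
  have h : mat L = LinearMap.toMatrix (EuclideanSpace.basisFun (Fin n) ℂ).toBasis
      (EuclideanSpace.basisFun (Fin n) ℂ).toBasis (L : Cn n →ₗ[ℂ] Cn n) := by
    ext b a
    simp [mat, LinearMap.toMatrix_apply]
  rw [h, LinearMap.det_toMatrix]

theorem det_ne_zero_iff (L : Cn n →L[ℂ] Cn n) : L.det ≠ 0 ↔ Function.Injective L := by
  have h := LinearMap.det_eq_zero_iff_ker_ne_bot (f := (L : Cn n →ₗ[ℂ] Cn n))
  change LinearMap.det (L : Cn n →ₗ[ℂ] Cn n) ≠ 0 ↔ _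
  rw [Ne, h, not_not, LinearMap.ker_eq_bot]
  rfl

theorem nq_pull (L : Cn n →L[ℂ] Cn n) (g : Matrix (Fin n) (Fin n) ℂ) (v : Cn n) :
    nq ((mat L)ᵀ * g * (mat L).map conj) v = nq g (L v) := by
  unfold nq
  congr 1
  simp only [apply_eq_sum L v, Matrix.mul_apply, Matrix.transpose_apply, Matrix.map_apply,
    map_sum, map_mul, Finset.sum_mul, Finset.mul_sum]
  rw [Finset.sum_comm]
  conv_lhs => enter [2, b]; rw [Finset.sum_comm]; enter [2, d]; rw [Finset.sum_comm]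
  conv_lhs => rw [Finset.sum_comm]; enter [2, d]; rw [Finset.sum_comm]
  rw [Finset.sum_comm]
  refine Finset.sum_congr rfl fun c _ => Finset.sum_congr rfl fun d _ =>
    Finset.sum_congr rfl fun b _ => Finset.sum_congr rfl fun a _ => ?_
  ring

theorem nq_eq_dot (g : Matrix (Fin n) (Fin n) ℂ) (v : Cn n) :
    nq g v = (star (fun a => conj (v a)) ⬝ᵥ (g *ᵥ fun a => conj (v a))).re := by
  unfold nq
  congr 1
  simp only [dotProduct, Matrix.mulVec, Pi.star_apply, RCLike.star_def, Finset.mul_sum,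
    Complex.conj_conj]
  refine Finset.sum_congr rfl fun a _ => Finset.sum_congr rfl fun b _ => ?_
  ring

theorem nq_nonneg {g : Matrix (Fin n) (Fin n) ℂ} (h : g.PosSemidef) (v : Cn n) : 0 ≤ nq g v := by
  rw [nq_eq_dot]
  exact (Complex.le_def.1 (h.dotProduct_mulVec_nonneg _)).1

theorem nq_smul (g : Matrix (Fin n) (Fin n) ℂ) (c : ℝ) (v : Cn n) :
    nq ((c : ℂ) • g) v = c * nq g v := by
  unfold nq
  rw [← Complex.re_ofReal_mul]
  congr 1
  simp only [Matrix.smul_apply, smul_eq_mul, Finset.mul_sum]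
  refine Finset.sum_congr rfl fun a _ => Finset.sum_congr rfl fun b _ => ?_
  ring

theorem nq_one (v : Cn n) : nq 1 v = ‖v‖ ^ 2 := by
  unfold nq
  rw [EuclideanSpace.norm_sq_eq]
  simp [Matrix.one_apply, Complex.mul_conj, Complex.normSq_eq_norm_sq, ← Complex.ofReal_pow]

theorem nq_sub (g g' : Matrix (Fin n) (Fin n) ℂ) (v : Cn n) :
    nq (g - g') v = nq g v - nq g' v := by
  unfold nq
  rw [← Complex.sub_re, ← Finset.sum_sub_distrib]
  congr 1
  refine Finset.sum_congr rfl fun a _ => ?_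
  rw [← Finset.sum_sub_distrib]
  refine Finset.sum_congr rfl fun b _ => ?_
  simp only [Matrix.sub_apply]; ring

theorem posSemidef_of_nq {g : Matrix (Fin n) (Fin n) ℂ} (hg : g.IsHermitian)
    (h : ∀ v, 0 ≤ nq g v) : g.PosSemidef := by
  refine Matrix.PosSemidef.of_dotProduct_mulVec_nonneg hg fun x => ?_
  have h1 := h (WithLp.toLp 2 fun a => conj (x a))
  rw [nq_eq_dot] at h1
  simp only [Complex.conj_conj] at h1
  refine Complex.le_def.2 ⟨h1, ?_⟩
  have := hg.im_star_dotProduct_mulVec_self x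
  simpa using this.symm

/-- lower bound for the determinant -/
theorem det_ge_of_nq {g : Matrix (Fin n) (Fin n) ℂ} (hg : g.IsHermitian) {c : ℝ} (hc : 0 ≤ c)
    (h : ∀ v : Cn n, c * ‖v‖ ^ 2 ≤ nq g v) : c ^ n ≤ g.det.re := by
  rw [hg.det_eq_prod_eigenvalues]
  have h1 : (∏ i, ((hg.eigenvalues i : ℝ) : ℂ)).re = ∏ i, hg.eigenvalues i := by
    rw [← Complex.ofReal_prod, Complex.ofReal_re]
  have h2 : ∀ i, c ≤ hg.eigenvalues i := by
    intro i
    set x := hg.eigenvectorBasis i with hx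
    have hn : ‖x‖ = 1 := hg.eigenvectorBasis.orthonormal.1 i
    have h3 := h (WithLp.toLp 2 fun a => conj (x a))
    have h4 : ‖(WithLp.toLp 2 fun a => conj (x a) : Cn n)‖ = 1 := by
      rw [← hn, EuclideanSpace.norm_eq, EuclideanSpace.norm_eq]; simp
    rw [h4, nq_eq_dot] at h3
    simp only [Complex.conj_conj, one_pow, mul_one] at h3
    have h5 := hg.eigenvalues_eq i
    rw [h5]
    exact h3
  erw [h1]
  calc c ^ n = ∏ _i : Fin n, c := by simp
    _ ≤ _ := Finset.prod_le_prod (fun _ _ => hc) fun i _ => h2 i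

theorem det_pull (J g : Matrix (Fin n) (Fin n) ℂ) :
    (Jᵀ * g * J.map conj).det.re = ‖J.det‖ ^ 2 * g.det.re := by
  have h1 : (J.map conj).det = conj J.det := (RingHom.map_det (starRingEnd ℂ) J).symm
  rw [Matrix.det_mul, Matrix.det_mul, Matrix.det_transpose, h1]
  have : J.det * g.det * conj J.det = ((‖J.det‖ ^ 2 : ℝ) : ℂ) * g.det := by
    rw [← Complex.normSq_eq_norm_sq, ← Complex.mul_conj]; ring
  rw [this, Complex.re_ofReal_mul]

theorem rd_trans {f : Cn n → M} {z : Cn n} (hc : ContinuousAt f z) {i j : A.ι}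
    (hi : f z ∈ (A.e i).source) (hj : f z ∈ (A.e j).source)
    (hd : DifferentiableAt ℂ (rd A i f) z) :
    DifferentiableAt ℂ (rd A j f) z ∧ jac (rd A j f) z = Jm A i j (f z) * jac (rd A i f) z := by
  set T : Cn n → Cn n := fun w => A.e j ((A.e i).symm w) with hT
  have ho : IsOpen (A.ov i j) := isOpen_ov i j
  have hTd : DifferentiableAt ℂ T (rd A i f z) :=
    (A.holo i j).differentiableAt (ho.mem_nhds (mem_ov ⟨hi, hj⟩))
  have he : rd A j f =ᶠ[𝓝 z] T ∘ rd A i f := by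
    filter_upwards [hc ((A.e i).open_source.mem_nhds hi)] with w hw
    simp only [Function.comp, rd, hT]
    rw [(A.e i).left_inv hw]
  refine ⟨(hTd.comp z hd).congr_of_eventuallyEq he, ?_⟩
  rw [jac_eq, he.fderiv_eq, fderiv_comp z hTd hd, mat_comp]
  rfl

theorem pbi_eq (K : Kah A) {f : Cn n → M} {z : Cn n} (hc : ContinuousAt f z) {i j : A.ι}
    (hi : f z ∈ (A.e i).source) (hj : f z ∈ (A.e j).source)
    (hd : DifferentiableAt ℂ (rd A i f) z) : pbi K i f z = pbi K j f z := by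
  unfold pbi
  rw [(rd_trans hc hi hj hd).2, K.tr i j (f z) ⟨hi, hj⟩, Matrix.transpose_mul, Matrix.map_mul]
  simp only [Matrix.mul_assoc]

theorem pbm_eq (K : Kah A) {f : Cn n → M} {U : Set (Cn n)} (hf : Hol A f U) {z : Cn n}
    (hz : z ∈ U) {i : A.ι} (hi : f z ∈ (A.e i).source) : pbm K f z = pbi K i f z :=
  (pbi_eq K (hf z hz).1 hi (A.cover (f z)).choose_spec ((hf z hz).2 i hi)).symm

theorem nq_pbm (K : Kah A) {f : Cn n → M} {U : Set (Cn n)} (hf : Hol A f U) {z : Cn n}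
    (hz : z ∈ U) {i : A.ι} (hi : f z ∈ (A.e i).source) (v : Cn n) :
    nq (pbm K f z) v = nq (K.g i (f z)) (fderiv ℂ (rd A i f) z v) := by
  rw [pbm_eq K hf hz hi]
  exact nq_pull _ _ _

theorem det_pbm (K : Kah A) {f : Cn n → M} {U : Set (Cn n)} (hf : Hol A f U) {z : Cn n}
    (hz : z ∈ U) {i : A.ι} (hi : f z ∈ (A.e i).source) :
    (pbm K f z).det.re = ‖(fderiv ℂ (rd A i f) z).det‖ ^ 2 * (K.g i (f z)).det.re := by
  rw [pbm_eq K hf hz hi, pbi, det_pull, jac_eq, det_mat]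

theorem det_re_pos {g : Matrix (Fin n) (Fin n) ℂ} (h : g.PosDef) : 0 < g.det.re :=
  (Complex.lt_def.1 h.det_pos).1

theorem det_pbm_pos (K : Kah A) {f : Cn n → M} {U : Set (Cn n)} (hf : Imm A f U) {z : Cn n}
    (hz : z ∈ U) : 0 < (pbm K f z).det.re := by
  obtain ⟨i, hi⟩ := A.cover (f z)
  rw [det_pbm K hf.1 hz hi]
  have h1 := (det_ne_zero_iff _).2 (hf.2 z hz i hi)
  have h2 := det_re_pos (K.pos i _ hi)
  positivity

theorem pbm_herm (K : Kah A) (f : Cn n → M) (z : Cn n) : (pbm K f z).IsHermitian := by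
  have h := (K.pos _ _ (A.cover (f z)).choose_spec).isHermitian
  unfold pbm pbi
  set J := jac (rd A (A.cover (f z)).choose f) z
  have h1 : Jᵀ = (J.map conj)ᴴ := by ext a b; simp
  rw [h1]
  exact Matrix.isHermitian_conjTranspose_mul_mul _ h

theorem nq_pbm_nonneg (K : Kah A) (f : Cn n → M) (z v : Cn n) : 0 ≤ nq (pbm K f z) v := by
  unfold pbm pbi
  rw [jac_eq, nq_pull]
  exact nq_nonneg (K.pos _ _ (A.cover (f z)).choose_spec).posSemidef _

theorem KLe.pbm {K K' : Kah A} {c : ℝ} (h : KLe K c K') (f : Cn n → M) (z v : Cn n) :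
    nq (pbm K f z) v ≤ c * nq (pbm K' f z) v := by
  unfold Tr.pbm pbi
  rw [jac_eq, nq_pull, nq_pull]
  exact h _ _ (A.cover (f z)).choose_spec _

/-- chain rule for pull-backs -/
theorem pbm_comp (K : Kah A) {ψ f : Cn n → M} {U : Set (Cn n)} (hψ : Hol A ψ U)
    {Φ : Cn n → Cn n} {z : Cn n} (hΦ : DifferentiableAt ℂ Φ z) (hm : Φ z ∈ U)
    (he : ∀ᶠ w in 𝓝 z, ψ (Φ w) = f w) :
    pbm K f z = (jac Φ z)ᵀ * pbm K ψ (Φ z) * (jac Φ z).map conj := by
  have h0 := he.self_of_nhds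
  have hi : f z ∈ (A.e (A.cover (f z)).choose).source := (A.cover (f z)).choose_spec
  set i := (A.cover (f z)).choose with hi'
  have hi2 : ψ (Φ z) ∈ (A.e i).source := by rwa [h0]
  rw [pbm_eq K hψ hm hi2]
  have he' : rd A i f =ᶠ[𝓝 z] rd A i ψ ∘ Φ := by
    filter_upwards [he] with w hw
    simp only [Function.comp, rd, hw]
  have hj : jac (rd A i f) z = jac (rd A i ψ) (Φ z) * jac Φ z := by
    rw [jac_eq, he'.fderiv_eq, fderiv_comp z ((hψ _ hm).2 i hi2) hΦ, mat_comp]; rfl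
  unfold pbm pbi
  rw [← hi', hj, h0, Matrix.transpose_mul, Matrix.map_mul]
  simp only [Matrix.mul_assoc]

theorem nq_pbm_comp (K : Kah A) {ψ f : Cn n → M} {U : Set (Cn n)} (hψ : Hol A ψ U)
    {Φ : Cn n → Cn n} {z : Cn n} (hΦ : DifferentiableAt ℂ Φ z) (hm : Φ z ∈ U)
    (he : ∀ᶠ w in 𝓝 z, ψ (Φ w) = f w) (v : Cn n) :
    nq (pbm K f z) v = nq (pbm K ψ (Φ z)) (fderiv ℂ Φ z v) := by
  rw [pbm_comp K hψ hΦ hm he, jac_eq, nq_pull]

theorem det_pbm_comp (K : Kah A) {ψ f : Cn n → M} {U : Set (Cn n)} (hψ : Hol A ψ U)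
    {Φ : Cn n → Cn n} {z : Cn n} (hΦ : DifferentiableAt ℂ Φ z) (hm : Φ z ∈ U)
    (he : ∀ᶠ w in 𝓝 z, ψ (Φ w) = f w) :
    (pbm K f z).det.re = ‖(fderiv ℂ Φ z).det‖ ^ 2 * (pbm K ψ (Φ z)).det.re := by
  rw [pbm_comp K hψ hΦ hm he, det_pull, jac_eq, det_mat]

/-- composition of a holomorphic map into `M` with a holomorphic map -/
theorem Hol.comp_at {ψ f : Cn n → M} {U : Set (Cn n)} (hψ : Hol A ψ U)
    {Φ : Cn n → Cn n} {z : Cn n} (hΦ : DifferentiableAt ℂ Φ z) (hm : Φ z ∈ U)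
    (he : ∀ᶠ w in 𝓝 z, ψ (Φ w) = f w) :
    ContinuousAt f z ∧ ∀ i, f z ∈ (A.e i).source → DifferentiableAt ℂ (rd A i f) z ∧
      fderiv ℂ (rd A i f) z = fderiv ℂ (rd A i ψ) (Φ z) ∘L fderiv ℂ Φ z := by
  refine ⟨(((hψ _ hm).1).comp hΦ.continuousAt).congr he, fun i hi => ?_⟩
  have hi2 : ψ (Φ z) ∈ (A.e i).source := by rwa [he.self_of_nhds]
  have he' : rd A i f =ᶠ[𝓝 z] rd A i ψ ∘ Φ := by
    filter_upwards [he] with w hw
    simp only [Function.comp, rd, hw]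
  exact ⟨(((hψ _ hm).2 i hi2).comp z hΦ).congr_of_eventuallyEq he',
    by rw [he'.fderiv_eq, fderiv_comp z ((hψ _ hm).2 i hi2) hΦ]⟩

/-- comparison from bounds for one metric -/
theorem cmp_of_nq (K : Kah A) {f ψ : Cn n → M} {D U : Set (Cn n)} (hf : Hol A f D)
    (hψ : Hol A ψ U) {a b κ : ℝ} (ha : 0 < a) (hκ : 0 ≤ κ) (hb : b ≤ a * κ ^ 2)
    (h1 : ∀ x ∈ D, ∀ v, nq (pbm K f x) v ≤ b * ‖v‖ ^ 2)
    (h2 : ∀ x ∈ D, ∀ y ∈ U, f x = ψ y → ∀ w, a * ‖w‖ ^ 2 ≤ nq (pbm K ψ y) w) :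
    Cmp A f D ψ U κ := by
  intro x hx y hy hxy
  obtain ⟨i, hi⟩ := A.cover (f x)
  refine ⟨i, hi, fun v w hvw => ?_⟩
  have h3 := h1 x hx v
  have h4 := h2 x hx y hy hxy w
  rw [nq_pbm K hf hx hi] at h3
  rw [nq_pbm K hψ hy (hxy ▸ hi), ← hxy, ← hvw] at h4
  have h5 : a * ‖w‖ ^ 2 ≤ a * (κ * ‖v‖) ^ 2 := by
    calc _ ≤ b * ‖v‖ ^ 2 := h4.trans h3
      _ ≤ a * κ ^ 2 * ‖v‖ ^ 2 := by gcongr
      _ = _ := by ring
  exact (pow_le_pow_iff_left₀ (norm_nonneg _) (by positivity) two_ne_zero).1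
    (le_of_mul_le_mul_left h5 ha)

variable {K0 : Kah A} {p : M} {K : ℕ → Kah A} {τ : ℕ → ℝ} {Λ : ℝ} {ψ : ℕ → Cn n → M}

theorem QCh.τ_pos (h : QCh K0 p K τ Λ ψ) (j : ℕ) : 0 < τ j := by
  have h1 := h.τ_lo j
  have h2 := h.one_le
  by_contra hc
  push Not at hc
  nlinarith

theorem QCh.cmp (h : QCh K0 p K τ Λ ψ) {j k : ℕ} (hjk : j ≤ k) :
    Cmp A (ψ j) (ball 0 1) (ψ k) (ball 0 1) (Λ ^ 2) := by
  have hΛ := h.one_le
  have hk := h.τ_pos k
  have hj := h.τ_pos j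
  refine cmp_of_nq (K k) (h.qc j).imm.1 (h.qc k).imm.1 (a := τ k / Λ) (b := Λ * τ j)
    (by positivity) (by positivity) ?_ (fun x hx v => ?_) fun x hx y hy _ w => ?_
  · have h1 := h.τ_mono j k hjk
    calc Λ * τ j ≤ Λ * (Λ * τ k) := by gcongr
      _ = τ k / Λ * Λ ^ 3 := by field_simp
      _ ≤ τ k / Λ * (Λ ^ 2) ^ 2 := by
        rw [← pow_mul]
        exact mul_le_mul_of_nonneg_left (pow_le_pow_right₀ hΛ (by norm_num)) (by positivity)
  · have := (h.anti j k hjk).pbm (ψ j) x v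
    rw [one_mul] at this
    exact this.trans ((h.qc j).hi x hx v)
  · have := (h.qc k).lo y hy w
    rw [div_mul_eq_mul_div, div_le_iff₀ (by positivity)]
    linarith

theorem Cmp.mono {f g : Cn n → M} {D U D' U' : Set (Cn n)} {κ : ℝ} (h : Cmp A f D g U κ)
    (hD : D' ⊆ D) (hU : U' ⊆ U) : Cmp A f D' g U' κ :=
  fun x hx y hy => h x (hD hx) y (hU hy)

theorem transStmt (n : ℕ) : TransStmt n := by
  intro M _ _ A K0 p K τ Λ ψ h
  have hΛ := h.one_le
  set κ := Λ ^ 2 with hκ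
  have hκ1 : 1 ≤ κ := one_le_pow₀ hΛ
  set r := 1 / (4 * κ) with hr
  have hr0 : 0 < r := by positivity
  have hκr : κ * r = 1 / 4 := by rw [hr]; field_simp
  have hr1 : r ≤ 1 / 4 := by nlinarith
  have hb1 : ball (0 : Cn n) r ⊆ ball 0 1 := ball_subset_ball (by linarith)
  have hb2 : ball (0 : Cn n) (1 / 2) ⊆ ball 0 1 := ball_subset_ball (by norm_num)
  have hex : ∀ j k, j ≤ k → ∃ Φ : Cn n → Cn n, DifferentiableOn ℂ Φ (ball 0 r) ∧ Φ 0 = 0 ∧
      (∀ x ∈ ball (0 : Cn n) r, ‖Φ x - 0‖ ≤ κ * ‖x - 0‖ ∧ ψ k (Φ x) = ψ j x ∧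
        ‖fderiv ℂ Φ x‖ ≤ κ) := fun j k hjk =>
    exists_lift (R := 1) (h.qc k).imm ((h.qc j).imm.1.mono hb1) ((h.cmp hjk).mono hb1 subset_rfl)
      (by positivity) hr0 (by rw [h.zero, h.zero]) (by rw [norm_zero, hκr]; norm_num)
  choose! Φ h1 h2 h3 using hex
  simp only [sub_zero] at h3
  have hm : ∀ j k, j ≤ k → ∀ w ∈ ball (0 : Cn n) r, Φ j k w ∈ ball (0 : Cn n) (1 / 2) := by
    intro j k hjk w hw
    rw [mem_ball_zero_iff] at hw ⊢
    calc _ ≤ κ * ‖w‖ := (h3 j k hjk w (mem_ball_zero_iff.2 hw)).1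
      _ ≤ κ * r := by gcongr
      _ < 1 / 2 := by rw [hκr]; norm_num
  have hloc : ∀ k, IsLocalHomeomorphOn (ψ k) (ball 0 1) := fun k =>
    (h.qc k).imm.isLocalHomeomorphOn isOpen_ball
  refine ⟨Φ, ⟨hr0, hκ1, h1, h2, fun j k hjk w hw => (h3 j k hjk w hw).2.2,
    fun j k hjk w hw => (h3 j k hjk w hw).1, fun j k hjk w hw => ?_, fun j => ?_,
    fun j k l hjk hkl => ?_⟩, by linarith, fun j k hjk w hw => ⟨hm j k hjk w hw,
      (h3 j k hjk w hw).2.1⟩⟩
  · obtain ⟨i, hi⟩ := A.cover (ψ j w)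
    have h4 := (((h.qc k).imm.1.comp_at (f := ψ j)
      ((h1 j k hjk).differentiableAt (isOpen_ball.mem_nhds hw)) (hb2 (hm j k hjk w hw))
      (by filter_upwards [isOpen_ball.mem_nhds hw] with y hy using (h3 j k hjk y hy).2.1)).2 i hi).2
    have h5 := (h.qc j).imm.2 w (hb1 hw) i hi
    rw [h4] at h5
    exact Function.Injective.of_comp h5
  · exact lift_unique isOpen_ball (hloc j) (convex_ball (0 : Cn n) r).isPreconnected
      (h1 j j le_rfl).continuousOn continuousOn_id (fun w hw => hb2 (hm j j le_rfl w hw)) hb1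
      (fun w hw => (h3 j j le_rfl w hw).2.1) (mem_ball_self hr0) (h2 j j le_rfl)
  · have hs : ball (0 : Cn n) (r / κ) ⊆ ball 0 r := ball_subset_ball (div_le_self hr0.le hκ1)
    have hm' : MapsTo (Φ j k) (ball (0 : Cn n) (r / κ)) (ball 0 r) := by
      intro w hw
      have := (h3 j k hjk w (hs hw)).1
      rw [mem_ball_zero_iff] at hw ⊢
      rw [lt_div_iff₀ (by positivity)] at hw
      linarith
    refine lift_unique (g₁ := fun w => Φ k l (Φ j k w)) isOpen_ball (hloc l)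
      (convex_ball (0 : Cn n) (r / κ)).isPreconnected
      ((h1 k l hkl).continuousOn.comp ((h1 j k hjk).continuousOn.mono hs) hm')
      ((h1 j l (hjk.trans hkl)).continuousOn.mono hs) (fun w hw => hb2 (hm k l hkl _ (hm' hw)))
      (fun w hw => hb2 (hm j l (hjk.trans hkl) _ (hs hw))) (fun w hw => ?_)
      (mem_ball_self (by positivity)) ?_
    · rw [(h3 k l hkl _ (hm' hw)).2.1, (h3 j k hjk _ (hs hw)).2.1,
        (h3 j l (hjk.trans hkl) _ (hs hw)).2.1]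
    · simp only [h2 j k hjk, h2 k l hkl, h2 j l (hjk.trans hkl)]

end

end Crest.Agent.T223.Tr
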