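import Crest.Agent.T223.LbLen_13
import Crest.Agent.R247.Ray2_97

/-!
# Row 223, module LB (helper13): minimisers are `C¹` up to the end points in the atlas charts
-/

set_option autoImplicit false
set_option maxSynthPendingDepth 3
set_option linter.unusedSectionVars false

open Bundle Set Filter Topology Metric
open scoped Manifold ContDiff

namespace Crest.Agent.T223.Lb13

section Riem

open Crest.GeometryTopology.CoordMetric Crest.GeometryTopology.ChartCurvature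
open Crest.Agent.R226.ChartMet842
open Crest.Agent.R226.CutSmooth77 (SC)
open Crest.Agent.R202.Tens Crest.Agent.R247.Ms322 Crest.Agent.R247.Bo84
open Crest.Agent.R247.Sm879 Crest.Agent.R247.Ray97

variable {d : ℕ} {X : Type*} [MetricSpace X] [ChartedSpace (EuclideanSpace ℝ (Fin d)) X]
  [IsManifold (𝓡 d) ∞ X]
  [RiemannianBundle (fun p : X => TangentSpace (𝓡 d) p)]
  [IsContMDiffRiemannianBundle (𝓡 d) ∞ (EuclideanSpace ℝ (Fin d)) (fun p : X => TangentSpace (𝓡 d) p)]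
  [IsRiemannianManifold (𝓡 d) X] [ProperSpace X]

local notation "𝔼" => EuclideanSpace ℝ (Fin d)

theorem ray_cont {γ : ℝ → X} {ℓ b : ℝ}
    (hγ : ∀ s ∈ Icc (0 : ℝ) b, ∀ t ∈ Icc (0 : ℝ) b, dist (γ s) (γ t) = ℓ * |s - t|) {t : ℝ}
    (ht : t ∈ Icc (0 : ℝ) b) : ContinuousWithinAt γ (Icc 0 b) t := by
  rw [ContinuousWithinAt, tendsto_iff_dist_tendsto_zero]
  have h0 : Tendsto (fun s : ℝ => ℓ * |s - t|) (𝓝 t) (𝓝 (ℓ * |t - t|)) :=
    (by fun_prop : Continuous fun s : ℝ => ℓ * |s - t|).tendsto t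
  rw [sub_self, abs_zero, mul_zero] at h0
  refine (h0.mono_left nhdsWithin_le_nhds).congr' ?_
  filter_upwards [self_mem_nhdsWithin] with s hs
  exact (hγ s hs t ht).symm

theorem loc_vel0 (x₀ : X) {γ : ℝ → X} {ℓ b : ℝ} (hℓ : 0 < ℓ) (hb : 0 < b)
    (hγ : ∀ s ∈ Icc (0 : ℝ) b, ∀ t ∈ Icc (0 : ℝ) b, dist (γ s) (γ t) = ℓ * |s - t|) {t : ℝ}
    (ht : t ∈ Icc (0 : ℝ) b) (ht' : t < 3 / 4 * b) (hp : γ t ∈ (chartAt 𝔼 x₀).source) :
    ∃ u : ℝ → 𝔼, ContinuousWithinAt u (Icc 0 b) t ∧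
      gm x₀ (chartAt 𝔼 x₀ (γ t)) (u t) (u t) = ℓ ^ 2 ∧
      ∀ᶠ s in 𝓝[Icc 0 b] t, HasDerivWithinAt (fun r => chartAt 𝔼 x₀ (γ r)) (u s) (Icc 0 b) s := by
  have hm : ExM X := ExM.of_exactMid (R247.HR216.exactMid_of_riemannian d X)
  set c := 3 / 4 * b with hc
  have hcm : c ∈ Icc (0 : ℝ) b := ⟨by linarith, by linarith⟩
  have hbm : b ∈ Icc (0 : ℝ) b := ⟨hb.le, le_rfl⟩
  have hdist : ∀ s ∈ Icc (0 : ℝ) b, s < c → dist (γ c) (γ s) = ℓ * (c - s) := by
    intro s hs hsc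
    rw [hγ c hcm s hs, abs_of_pos (by linarith)]
  have hsc : ∀ s ∈ Icc (0 : ℝ) b, s < c → SC d (γ c) (γ s) := by
    intro s hs hsc
    refine sc_symm (sc_of_btw hm (y' := γ b) ?_ ?_)
    · rw [hγ s hs c hcm, hγ c hcm b hbm, hγ s hs b hbm, abs_of_neg (by linarith),
        abs_of_neg (by linarith), abs_of_neg (by linarith)]
      ring
    · intro h
      have h1 := hγ c hcm b hbm
      rw [h, dist_self, abs_of_neg (by linarith)] at h1
      have : 0 < ℓ * -(c - b) := mul_pos hℓ (by linarith)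
      linarith
  have ha : chartAt 𝔼 x₀ (γ t) ∈ (chartAt 𝔼 x₀).target := (chartAt 𝔼 x₀).map_source hp
  have hsa : (chartAt 𝔼 x₀).symm (chartAt 𝔼 x₀ (γ t)) = γ t := (chartAt 𝔼 x₀).left_inv hp
  have h' : SC d (γ c) ((chartAt 𝔼 x₀).symm (chartAt 𝔼 x₀ (γ t))) := by
    rw [hsa]
    exact hsc t ht ht'
  refine ⟨fun s => -((c - s)⁻¹ • grad (chartMetric d X x₀) (fz (γ c) x₀) (chartAt 𝔼 x₀ (γ s))),
    ?_, ?_, ?_⟩
  · have h1 : ContinuousAt (grad (chartMetric d X x₀) (fz (γ c) x₀)) (chartAt 𝔼 x₀ (γ t)) :=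
      (contDiffAt_grad (isRiemannianOn_chartMetric (n := d) (M := X) x₀) ha (m := 0)
        (contDiffAt_fz ha h') (by simp) (by simp)).continuousAt
    have h2 : ContinuousWithinAt (fun s => chartAt 𝔼 x₀ (γ s)) (Icc 0 b) t :=
      ((chartAt 𝔼 x₀).continuousAt hp).comp_continuousWithinAt (ray_cont hγ ht)
    have h3 : ContinuousAt (fun s : ℝ => (c - s)⁻¹) t :=
      (continuousAt_const.sub continuousAt_id).inv₀ (sub_pos.2 ht').ne'
    exact (h3.continuousWithinAt.smul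
      (ContinuousAt.comp_continuousWithinAt (f := fun s => chartAt 𝔼 x₀ (γ s)) h1 h2)).neg
  · have g2 := (grad_fz hm ha h').2
    have hct : c - t ≠ 0 := by linarith
    simp only [map_neg, map_smul, neg_apply, smul_apply, smul_eq_mul]
    rw [g2, hsa, hdist t ht ht']
    field_simp
  · filter_upwards [self_mem_nhdsWithin, mem_nhdsWithin_of_mem_nhds (Iio_mem_nhds ht'),
      (ray_cont hγ ht).eventually ((chartAt 𝔼 x₀).open_source.mem_nhds hp)] with s hs hs' hsp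
    refine hasDerivWithinAt_to hm x₀ hs' hsp (hsc s hs hs') hℓ.le (hdist s hs hs') ?_ ?_
    · filter_upwards [self_mem_nhdsWithin, mem_nhdsWithin_of_mem_nhds (Iio_mem_nhds hs')]
        with r hr hr'
      exact hdist r hr hr'
    · filter_upwards [self_mem_nhdsWithin] with r hr
      exact (hγ r hr s hs).le

theorem loc_vel (x₀ : X) {γ : ℝ → X} {ℓ b : ℝ} (hℓ : 0 < ℓ) (hb : 0 < b)
    (hγ : ∀ s ∈ Icc (0 : ℝ) b, ∀ t ∈ Icc (0 : ℝ) b, dist (γ s) (γ t) = ℓ * |s - t|) {t : ℝ}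
    (ht : t ∈ Icc (0 : ℝ) b) (hp : γ t ∈ (chartAt 𝔼 x₀).source) :
    ∃ u : ℝ → 𝔼, ContinuousWithinAt u (Icc 0 b) t ∧
      gm x₀ (chartAt 𝔼 x₀ (γ t)) (u t) (u t) = ℓ ^ 2 ∧
      ∀ᶠ s in 𝓝[Icc 0 b] t, HasDerivWithinAt (fun r => chartAt 𝔼 x₀ (γ r)) (u s) (Icc 0 b) s := by
  by_cases ht' : t < 3 / 4 * b
  · exact loc_vel0 x₀ hℓ hb hγ ht ht' hp
  have hr : ∀ s ∈ Icc (0 : ℝ) b, b - s ∈ Icc (0 : ℝ) b := fun s hs =>
    ⟨by linarith [hs.2], by linarith [hs.1]⟩
  obtain ⟨u, h1, h2, h3⟩ := loc_vel0 x₀ (γ := fun s => γ (b - s)) hℓ hb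
    (fun s hs r hr' => by
      rw [hγ _ (hr s hs) _ (hr r hr'), show b - s - (b - r) = -(s - r) by ring, abs_neg])
    (hr t ht) (by linarith) (by simpa using hp)
  have hc : ContinuousWithinAt (fun s : ℝ => b - s) (Icc 0 b) t :=
    (continuous_const.sub continuous_id).continuousWithinAt
  have hT : Tendsto (fun s : ℝ => b - s) (𝓝[Icc 0 b] t) (𝓝[Icc 0 b] (b - t)) :=
    hc.tendsto_nhdsWithin hr
  refine ⟨fun s => -u (b - s), (ContinuousWithinAt.comp (f := fun s : ℝ => b - s) h1 hc hr).neg,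
    ?_, ?_⟩
  · simp only [sub_sub_cancel] at h2
    simpa using h2
  · filter_upwards [hT.eventually h3] with s hs
    have h4 := HasDerivWithinAt.scomp (h := fun s : ℝ => b - s) (h' := -1) (s := Icc 0 b) s hs
      ((hasDerivAt_id s).const_sub b).hasDerivWithinAt hr
    simp only [Function.comp_def, sub_sub_cancel, neg_smul, one_smul] at h4
    exact h4

end Riem

open Crest.Agent.R275.Geo Crest.Agent.R273.Kah_333 Crest.Agent.R273.RMan4_798
open Crest.Agent.R273.Ric_798 Crest.Agent.R273.RMan_798 Crest.Agent.R275.Core144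
open Crest.Agent.T223.Br Crest.Agent.T223.Tr Crest.Agent.T223.Lb

theorem geo (n : ℕ) : GeoStmt n := by
  intro M _ _ _ A K hP γ ℓ b hℓ hb hγ
  refine ⟨fun i t => derivWithin (fun s => A.e i (γ s)) (Icc 0 b) t, fun i t ht hi => ?_⟩
  have hu := uniqueDiffOn_Icc hb
  set x₀ : (ofKah K).M := γ t with hx₀
  set j : A.ι := (ofKah K).idx x₀ with hj
  have hjs : γ t ∈ (A.e j).source :=
    (Set.ext_iff.1 (cR_source (A := A) j) _).1 ((ofKah K).idx_mem x₀)
  obtain ⟨u, h1, h2, h3⟩ := loc_vel (d := 2 * n) (X := (ofKah K).M) x₀ (γ := γ) hℓ hb hγ ht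
    ((ofKah K).idx_mem x₀)
  have hγc : ∀ s ∈ Icc (0 : ℝ) b, ContinuousWithinAt γ (Icc 0 b) s := fun s hs =>
    ray_cont (X := (ofKah K).M) hγ hs
  set T : Cn n → Cn n := fun w => A.e i ((A.e j).symm w) with hT
  have hTs : ContDiffOn ℝ ∞ T (A.ov j i) :=
    ((Crest.Agent.R266.SCV.contDiffOn_omega_of_differentiableOn (isOpen_ov j i)
      (A.holo j i)).restrict_scalars ℝ).of_le le_top
  have hTa : ∀ x ∈ (A.e j).source ∩ (A.e i).source, ContDiffAt ℝ ∞ T (A.e j x) := fun x hx =>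
    hTs.contDiffAt ((isOpen_ov j i).mem_nhds (mem_ov hx))
  have h4 : ∀ᶠ s in 𝓝[Icc 0 b] t, HasDerivWithinAt (fun r => A.e i (γ r))
      (fderiv ℝ T (A.e j (γ s)) ((eR n).symm (u s))) (Icc 0 b) s := by
    filter_upwards [h3, self_mem_nhdsWithin,
      (hγc t ht).eventually ((A.e j).open_source.mem_nhds hjs),
      (hγc t ht).eventually ((A.e i).open_source.mem_nhds hi)] with s hs hsm hsj hsi
    have h5 : HasDerivWithinAt (fun r => A.e j (γ r)) ((eR n).symm (u s)) (Icc 0 b) s := by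
      have h6 := ((eR n).symm : EE (2 * n) →L[ℝ] Cn n).hasFDerivAt.comp_hasDerivWithinAt s hs
      refine h6.congr (fun r _ => ?_) ?_ <;> exact ((eR n).symm_apply_apply _).symm
    have h7 := ((hTa _ ⟨hsj, hsi⟩).differentiableAt (by simp)).hasFDerivAt.comp_hasDerivWithinAt s h5
    refine h7.congr_of_eventuallyEq ?_ ?_
    · filter_upwards [(hγc s hsm).eventually ((A.e j).open_source.mem_nhds hsj)] with r hr
      simp only [Function.comp_apply, hT, (A.e j).left_inv hr]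
    · simp only [Function.comp_apply, hT, (A.e j).left_inv hsj]
  have h8 : ∀ᶠ s in 𝓝[Icc 0 b] t, derivWithin (fun r => A.e i (γ r)) (Icc 0 b) s =
      fderiv ℝ T (A.e j (γ s)) ((eR n).symm (u s)) := by
    filter_upwards [h4, self_mem_nhdsWithin] with s hs hsm
    exact hs.derivWithin (hu s hsm)
  have h9 := h8.self_of_nhdsWithin ht
  refine ⟨?_, ?_, ?_⟩
  · simp only
    rw [h9]
    exact h4.self_of_nhdsWithin ht
  · refine ContinuousWithinAt.congr_of_eventuallyEq ?_ h8 h9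
    have h10 : ContinuousAt (fderiv ℝ T) (A.e j (γ t)) :=
      ((hTa _ ⟨hjs, hi⟩).fderiv_right (m := 0) (by simp)).continuousAt
    have h11 : ContinuousWithinAt (fun s => A.e j (γ s)) (Icc 0 b) t :=
      ((A.e j).continuousAt hjs).comp_continuousWithinAt (hγc t ht)
    exact (ContinuousAt.comp_continuousWithinAt (f := fun s => A.e j (γ s)) h10 h11).clm_apply
      ((eR n).symm.continuous.continuousAt.comp_continuousWithinAt h1)
  · simp only
    have e1 : K.g i (γ t) = gc K i (A.e i (γ t)) := by rw [gc, (A.e i).left_inv hi]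
    rw [h9, e1, nq_eq_G, ← G_tr K ⟨hjs, hi⟩, ← nq_eq_G, ← bil_eq_nq K j ((A.e j).map_source hjs),
      ← h2, ← R247.Sm879.bil_chartMetric, R202.Tens.bil_apply,
      ContinuousLinearEquiv.apply_symm_apply]
    refine (RAtl.bil_apply (ofKah K) j _ _ _).trans ?_
    have e2 := (ofKah K).chartMetric_eq x₀ ((ofKah K).mem_target x₀)
    exact Finset.sum_congr rfl fun a _ => Finset.sum_congr rfl fun c _ =>
      congrArg (fun m : Matrix (Fin (2 * n)) (Fin (2 * n)) ℝ => m a c * u t a * u t c) e2.symm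

end Crest.Agent.T223.Lb13

theorem Crest.Agent.T223.Lb.geoStmt (n : ℕ) : Crest.Agent.T223.Lb.GeoStmt n :=
  Crest.Agent.T223.Lb13.geo n
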