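import Crest.Agent.T223.LbLeaf_78
import Crest.Agent.R247.HR_216

/-!
# Row 223 (S0345), module LB (helper51): minimisers, a horofunction with asymptotic rays
-/

set_option autoImplicit false

open Set Filter Topology Metric

namespace Crest.Agent.T223.Lb

open Crest.Agent.R275.Geo Crest.Agent.R273.Kah_333 Crest.Agent.R273.RMan4_798

namespace Ray51

theorem exists_lim {α X : Type*} [TopologicalSpace X] (U : Ultrafilter α) {f : α → X} {K : Set X}
    (hK : IsCompact K) (h : ∀ᶠ a in (U : Filter α), f a ∈ K) : ∃ c, Tendsto f U (𝓝 c) := by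
  obtain ⟨c, -, hc⟩ := hK.ultrafilter_le_nhds (U.map f) (le_principal_iff.2 h)
  exact ⟨c, hc⟩

/-- a horofunction with asymptotic rays on a proper noncompact geodesic space -/
theorem horo {X : Type*} [MetricSpace X] [ProperSpace X] [NoncompactSpace X]
    (hg : ∀ x y : X, ∃ γ : ℝ → X, γ 0 = x ∧ γ 1 = y ∧
      ∀ s ∈ Icc (0 : ℝ) 1, ∀ t ∈ Icc (0 : ℝ) 1, dist (γ s) (γ t) = |s - t| * dist x y) :
    ∃ b : X → ℝ, (∀ x y, |b x - b y| ≤ dist x y) ∧ ∀ x : X, ∃ γ : ℝ → X, γ 0 = x ∧
      (∀ s t : ℝ, 0 ≤ s → 0 ≤ t → dist (γ s) (γ t) = |s - t|) ∧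
      ∀ T : ℝ, 0 ≤ T → b (γ T) = b x + T := by
  obtain ⟨p⟩ : Nonempty X := by
    by_contra h
    rw [not_nonempty_iff] at h
    exact noncompact_univ X (by rw [univ_eq_empty_iff.2 h]; exact isCompact_empty)
  let U : Ultrafilter X := Ultrafilter.of (cocompact X)
  have hU : ∀ x : X, Tendsto (fun q => dist x q) U atTop := fun x =>
    (tendsto_dist_left_cocompact_atTop x).mono_left (Ultrafilter.of_le _)
  have hb : ∀ z : X, ∃ c, Tendsto (fun q => dist p q - dist z q) U (𝓝 c) := fun z =>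
    exists_lim U (isCompact_Icc (a := -dist p z) (b := dist p z))
      (Eventually.of_forall fun q => abs_le.1 (abs_dist_sub_le p z q))
  choose b hb using hb
  have hlip : ∀ x y, |b x - b y| ≤ dist x y := fun x y => by
    refine le_of_tendsto ((hb x).sub (hb y)).abs (Eventually.of_forall fun q => ?_)
    have := abs_dist_sub_le y x q
    rwa [dist_comm y x, show dist y q - dist x q =
      dist p q - dist x q - (dist p q - dist y q) by ring] at this
  refine ⟨b, hlip, fun x => ?_⟩
  choose g g0 g1 hg using hg x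
  have hd : ∀ s t : ℝ, 0 ≤ s → 0 ≤ t → ∀ q, s ≤ dist x q → t ≤ dist x q → 0 < dist x q →
      dist (g q (s / dist x q)) (g q (t / dist x q)) = |s - t| := by
    intro s t hs ht q h1 h2 h3
    rw [hg q _ ⟨by positivity, (div_le_one h3).2 h1⟩ _ ⟨by positivity, (div_le_one h3).2 h2⟩,
      ← sub_div, abs_div, abs_of_pos h3, div_mul_cancel₀ _ h3.ne']
  have hl : ∀ T : ℝ, ∃ c, 0 ≤ T → Tendsto (fun q => g q (T / dist x q)) U (𝓝 c) := fun T => by
    by_cases hT : 0 ≤ T
    · obtain ⟨c, hc⟩ := exists_lim U (f := fun q => g q (T / dist x q)) (isCompact_closedBall x T) (by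
        filter_upwards [(hU x).eventually_ge_atTop T, (hU x).eventually_gt_atTop 0] with q h1 h2
        have := hd T 0 hT le_rfl q h1 h2.le h2
        rw [zero_div, g0, sub_zero, abs_of_nonneg hT] at this
        exact mem_closedBall.2 this.le)
      exact ⟨c, fun _ => hc⟩
    · exact ⟨x, fun h => absurd h hT⟩
  choose γ hγ using hl
  refine ⟨γ, ?_, fun s t hs ht => ?_, fun T hT => ?_⟩
  · refine tendsto_nhds_unique (hγ 0 le_rfl) ?_
    simp only [zero_div, g0]
    exact tendsto_const_nhds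
  · refine tendsto_nhds_unique ((hγ s hs).dist (hγ t ht)) (tendsto_const_nhds.congr' ?_)
    filter_upwards [(hU x).eventually_ge_atTop s, (hU x).eventually_ge_atTop t,
      (hU x).eventually_gt_atTop 0] with q h1 h2 h3
    exact (hd s t hs ht q h1 h2 h3).symm
  · have h1 : Tendsto (fun q => dist (g q (T / dist x q)) q - dist (γ T) q) U (𝓝 0) := by
      refine squeeze_zero_norm (fun q => abs_dist_sub_le _ _ q) ?_
      exact tendsto_iff_dist_tendsto_zero.1 (hγ T hT)
    have h2 := ((hb x).add_const T).add h1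
    rw [add_zero] at h2
    refine tendsto_nhds_unique (hb (γ T)) (h2.congr' ?_)
    filter_upwards [(hU x).eventually_ge_atTop T, (hU x).eventually_gt_atTop 0] with q h3 h4
    have := hd T (dist x q) hT h4.le q h3 le_rfl h4
    rw [div_self h4.ne', g1, abs_of_nonpos (by linarith)] at this
    rw [this]
    ring

end Ray51

/-- leaf RAY -/
theorem rayStmt (n : ℕ) : RayStmt n := by
  intro M _ _ _ A K hP
  have hg := fun x y : (ofKah K).M => R247.HR216.exists_geodesic_of_riemannian (2 * n) x y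
  refine ⟨fun x y => ?_, fun hN => ?_⟩
  · obtain ⟨γ, h0, h1, h2⟩ := hg x y
    exact ⟨γ, h0, h1, fun s hs t ht => (h2 s hs t ht).trans (mul_comm _ _)⟩
  · have : NoncompactSpace (ofKah K).M := hN
    obtain ⟨b, h1, h2⟩ := Ray51.horo hg
    refine ⟨b, h1, fun x => ?_⟩
    obtain ⟨γ, h3, h4, h5⟩ := h2 x
    exact ⟨γ, h3, fun T hT => ⟨fun s hs t ht => (h4 s t hs.1 ht.1).trans (one_mul _).symm, h5 T hT⟩⟩

end Crest.Agent.T223.Lb
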