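import Crest.Agent.T223.LbDef_78
import Crest.Agent.T223.TrPb_90
import Crest.Agent.R273.HessB_333
import Crest.Agent.R273.C0a_390

/-!
# Row 223 (S0345), module LB, leaf TC (helper24): three circles from the barrier for `log d`
-/

set_option autoImplicit false
set_option linter.unusedVariables false

open Set Filter Topology Metric
open scoped ContDiff ComplexConjugate Matrix ComplexOrder

namespace Crest.Agent.T223.Lb

open Crest.Agent.R275.Geo Crest.Agent.R275.EDR890 Crest.Agent.R273.Kah_333
open Crest.Agent.R273.Hess_333 Crest.Agent.R273.HessB_333 Crest.Agent.R273.RMan4_798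
open Crest.Agent.R273.Defs_333
open Crest.Agent.T223.Br Crest.Agent.T223.Tr

noncomputable section

variable {n : ℕ}

namespace TC24

/-- at a local minimum the Levi form is nonnegative -/
theorem nq_hess_nonneg {u : Cn n → ℝ} {z : Cn n} (hu : ContDiffAt ℝ ∞ u z)
    (hm : IsLocalMin u z) (v : Cn n) : 0 ≤ nq (hess u z) v := by
  have h1 : nq (hess u z) v = lev u z v / 4 := hq_re hu v
  have h2 : ContDiffAt ℝ 2 u z := hu.of_le (WithTop.coe_le_coe.2 le_top)
  have h3 : 0 ≤ lev u z v := by
    simp only [lev, iteratedFDeriv_two_apply]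
    exact add_nonneg (R273.C0a_390.fderiv2_nonneg h2 hm _) (R273.C0a_390.fderiv2_nonneg h2 hm _)
  rw [h1]
  positivity

theorem nq_sub (g h : Matrix (Fin n) (Fin n) ℂ) (v : Cn n) : nq (g - h) v = nq g v - nq h v := by
  unfold nq
  rw [← Complex.sub_re, ← Finset.sum_sub_distrib]
  congr 1
  refine Finset.sum_congr rfl fun a _ => ?_
  rw [← Finset.sum_sub_distrib]
  refine Finset.sum_congr rfl fun b _ => ?_
  rw [Matrix.sub_apply]
  ring

theorem contDiffAt_hol {T : Cn n → Cn n} {z : Cn n} (hT : ∀ᶠ w in 𝓝 z, DifferentiableAt ℂ T w) :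
    ContDiffAt ℝ ∞ T z := by
  obtain ⟨U, hU, hUo, hUz⟩ := _root_.eventually_nhds_iff.1 hT
  have h1 : DifferentiableOn ℂ T U := fun w hw => (hU w hw).differentiableWithinAt
  exact (((Crest.Agent.R266.SCV.contDiffOn_omega_of_differentiableOn hUo h1).restrict_scalars
    ℝ).of_le le_top).contDiffAt (hUo.mem_nhds hUz)

/-- the Levi form of a composition with a holomorphic map -/
theorem nq_hess_comp {u : Cn n → ℝ} {T : Cn n → Cn n} {z : Cn n} (hu : ContDiffAt ℝ ∞ u (T z))
    (hT : ∀ᶠ w in 𝓝 z, DifferentiableAt ℂ T w) (v : Cn n) :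
    nq (hess (fun w => u (T w)) z) v = nq (hess u (T z)) (fderiv ℂ T z v) := by
  rw [← nq_pull]
  congr 1
  ext a b
  rw [hess_comp hu hT]
  simp only [Matrix.mul_apply, Matrix.transpose_apply, Matrix.map_apply, mat, Matrix.of_apply,
    Finset.sum_mul]
  rw [Finset.sum_comm]

variable {M : Type} [TopologicalSpace M] [T2Space M] [ConnectedSpace M] {A : Atl n M}

theorem cont_dK (K : Kah A) (x : M) : Continuous fun y : M => dK K x y := by
  have h : Continuous fun y : (ofKah K).M => dist (α := (ofKah K).M) x y :=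
    continuous_const.dist continuous_id
  exact h

theorem compact_dK (K : Kah A) (hP : ProperSpace (ofKah K).M) (x : M) (r : ℝ) :
    IsCompact {y : M | dK K x y ≤ r} := by
  have h : IsCompact (closedBall (α := (ofKah K).M) x r) := isCompact_closedBall _ _
  have e : {y : M | dK K x y ≤ r} = closedBall (α := (ofKah K).M) x r := by
    ext y
    exact (mem_closedBall' (α := (ofKah K).M)).symm
  rw [e]
  exact h

/-- `log w - c log d(x,·)` has no local maximum away from `x` and from the zeros of `w` -/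
theorem no_max (K : Kah A) (hL : LOG K) {w : M → ℝ} (hp : LogPsh A w) {x y : M} (hxy : x ≠ y)
    (hy : 0 < w y) {c : ℝ} (hc : 0 < c)
    (hm : ∀ᶠ y' in 𝓝 y, Real.log (w y') - c * Real.log (dK K x y') ≤
      Real.log (w y) - c * Real.log (dK K x y)) : False := by
  obtain ⟨i, hi⟩ := A.cover y
  obtain ⟨b, hb, hb0⟩ := hp i y hi hy
  obtain ⟨D, E, v, hD, hD0, hE, hE0, hEle, hv⟩ := hL x i y hi hxy
  have hDt : Tendsto D (𝓝 0) (𝓝 (A.e i y)) := by
    rw [← hD0]
    exact hD.self_of_nhds.continuousAt
  have hst : Tendsto (A.e i).symm (𝓝 (A.e i y)) (𝓝 y) := by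
    have := (A.e i).continuousAt_symm ((A.e i).map_source hi)
    rwa [ContinuousAt, (A.e i).left_inv hi] at this
  have hbD : ContDiffAt ℝ ∞ b (D 0) := by rw [hD0]; exact hb.sm
  have hf1 : ContDiffAt ℝ ∞ (fun w => b (D w)) 0 := hbD.comp 0 (contDiffAt_hol hD)
  have hf2 : ContDiffAt ℝ ∞ (fun w => c * E w) 0 := contDiffAt_const.mul hE
  have hmin : IsLocalMin (fun w => c * E w - b (D w)) 0 := by
    filter_upwards [hEle, hDt.eventually hb.le, (hst.comp hDt).eventually hm] with z h1 h2 h3
    have h4 := mul_le_mul_of_nonneg_left h1 hc.le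
    have h5 := hb.eq
    simp only [Function.comp] at h3
    rw [hD0, hE0, h5]
    linarith
  have h6 := nq_hess_nonneg (hf2.sub hf1) hmin v
  rw [hess_sub hf2 hf1, nq_sub, hess_const_mul c hE, nq_smul, nq_hess_comp hbD hD, hD0] at h6
  have h7 := hb0 (fderiv ℂ D 0 v)
  have h8 := mul_neg_of_pos_of_neg hc hv
  linarith

end TC24

open TC24

end

/-- **three circles** -/
theorem tcStmt (n : ℕ) : TCStmt n := by
  intro M _ _ _ A K hP hL w hw hw0 hp x r1 r2 r3 m1 m3 h1 h12 h23 h13 hm1 hm3 y hy
  have h2 : 0 < r2 := h1.trans_le h12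
  have h3 : 0 < r3 := h1.trans h13
  have hl : 0 < Real.log (r3 / r1) := Real.log_pos ((one_lt_div h1).2 h13)
  have ha : 0 ≤ Real.log (r3 / r2) := Real.log_nonneg ((one_le_div h2).2 h23)
  have hb : 0 ≤ Real.log (r2 / r1) := Real.log_nonneg ((one_le_div h1).2 h12)
  have hab : Real.log (r3 / r2) + Real.log (r2 / r1) = Real.log (r3 / r1) := by
    rw [Real.log_div h3.ne' h2.ne', Real.log_div h2.ne' h1.ne', Real.log_div h3.ne' h1.ne']
    ring
  rcases le_or_gt m3 m1 with hle | hlt
  · refine (hm3 y (hy.le.trans h23)).trans (Real.exp_le_exp.2 ?_)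
    rw [le_div_iff₀ hl, ← hab]
    nlinarith [mul_le_mul_of_nonneg_left hle ha]
  · set c : ℝ := (m3 - m1) / Real.log (r3 / r1) with hc
    have hc0 : 0 < c := div_pos (sub_pos.2 hlt) hl
    set h : M → ℝ := fun y => m1 + c * (Real.log (dK K x y) - Real.log r1) with hh
    set Q : Set M := {y | r1 ≤ dK K x y ∧ dK K x y ≤ r3} with hQ
    have hd := TC24.cont_dK K x
    have hQc : IsCompact Q := by
      have e : Q = {y | dK K x y ≤ r3} ∩ {y | r1 ≤ dK K x y} := by
        ext y; simp only [hQ, mem_ofPred_eq, mem_inter_iff]; tauto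
      rw [e]
      exact (TC24.compact_dK K hP x r3).inter_right (isClosed_le continuous_const hd)
    have hyQ : y ∈ Q := ⟨by rw [hy]; exact h12, by rw [hy]; exact h23⟩
    have hcont : ContinuousOn (fun y => w y * Real.exp (-h y)) Q := by
      refine hw.continuousOn.mul (Real.continuous_exp.comp_continuousOn ?_)
      refine ContinuousOn.neg (continuousOn_const.add (continuousOn_const.mul
        (ContinuousOn.sub ?_ continuousOn_const)))
      exact hd.continuousOn.log fun y hy => (h1.trans_le hy.1).ne'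
    obtain ⟨y0, hy0, hmax⟩ := hQc.exists_isMaxOn ⟨y, hyQ⟩ hcont
    have key : w y0 * Real.exp (-h y0) ≤ 1 := by
      by_contra hcon
      push Not at hcon
      have hgt : Real.exp (h y0) < w y0 := by
        have := mul_lt_mul_of_pos_right hcon (Real.exp_pos (h y0))
        rwa [one_mul, mul_assoc, ← Real.exp_add, neg_add_cancel, Real.exp_zero, mul_one] at this
      have hw1 : 0 < w y0 := (Real.exp_pos _).trans hgt
      have hn1 : r1 < dK K x y0 := by
        refine lt_of_le_of_ne hy0.1 fun e => ?_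
        have h4 := hm1 y0 e.ge
        have h5 : h y0 = m1 := by simp only [hh, ← e, sub_self, mul_zero, add_zero]
        rw [h5] at hgt
        linarith
      have hn3 : dK K x y0 < r3 := by
        refine lt_of_le_of_ne hy0.2 fun e => ?_
        have h4 := hm3 y0 e.le
        have h5 : h y0 = m3 := by
          simp only [hh, e]
          rw [← Real.log_div h3.ne' h1.ne', hc, div_mul_cancel₀ _ hl.ne']
          ring
        rw [h5] at hgt
        linarith
      have hxy : x ≠ y0 := by
        rintro rfl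
        have : dK K x x = 0 := dist_self (α := (ofKah K).M) x
        linarith
      refine TC24.no_max K hL hp hxy hw1 hc0 ?_
      have e1 : ∀ᶠ y' in 𝓝 y0, r1 < dK K x y' := hd.continuousAt.eventually (lt_mem_nhds hn1)
      have e2 : ∀ᶠ y' in 𝓝 y0, dK K x y' < r3 := hd.continuousAt.eventually (gt_mem_nhds hn3)
      have e3 : ∀ᶠ y' in 𝓝 y0, 0 < w y' := hw.continuousAt.eventually (lt_mem_nhds hw1)
      filter_upwards [e1, e2, e3] with y' a1 a2 a3
      have a4 : w y' * Real.exp (-h y') ≤ w y0 * Real.exp (-h y0) := hmax ⟨a1.le, a2.le⟩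
      have a5 := Real.log_le_log (mul_pos a3 (Real.exp_pos _)) a4
      rw [Real.log_mul a3.ne' (Real.exp_pos _).ne', Real.log_mul hw1.ne' (Real.exp_pos _).ne',
        Real.log_exp, Real.log_exp] at a5
      simp only [hh] at a5
      linarith
    have h6 : w y * Real.exp (-h y) ≤ 1 := (hmax hyQ).trans key
    have h7 : w y ≤ Real.exp (h y) := by
      have := mul_le_mul_of_nonneg_right h6 (Real.exp_pos (h y)).le
      rwa [one_mul, mul_assoc, ← Real.exp_add, neg_add_cancel, Real.exp_zero, mul_one] at this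
    refine h7.trans (Real.exp_le_exp.2 (le_of_eq ?_))
    simp only [hh, hy]
    rw [← Real.log_div h2.ne' h1.ne', hc, eq_div_iff hl.ne', add_mul, mul_right_comm,
      div_mul_cancel₀ _ hl.ne', ← hab]
    ring

end Crest.Agent.T223.Lb
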