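import Crest.Agent.T223.Fr_38

/-!
# Row 223 (S0345), module LB (helper78): Levi barriers. Definitions and exact statements.

* `USup A i f y b` / `LSup A i f y b` : `b` is a smooth upper / lower support function of `f` at `y`,
  read in the chart `i`
* `LB1 K`  : `∂∂̄ d(x,·)² ≤ 2 g` in the support sense (this is `Init.levi` with `C = 2`)
* `LOG K`  : a holomorphic family through `y` along which `log d(x,·)` has an upper support function
  with one strictly negative Levi direction
* `SPsh A b` : strict Levi lower barriers at every point; `BUS K` : a `1`-Lipschitz such function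
* `TC K`   : three circles;  `Rich` : Richberg smoothing from barriers;  `PshF K p` : the output
-/

set_option autoImplicit false
set_option linter.unusedVariables false

open Set Filter Topology Metric
open scoped ContDiff ComplexConjugate Matrix ComplexOrder

namespace Crest.Agent.T223.Lb

open Crest.Agent.R275.Geo Crest.Agent.R275.EDR890 Crest.Agent.R273.Kah_333
open Crest.Agent.R273.Hess_333 Crest.Agent.R273.RMan4_798
open Crest.Agent.T223.Br Crest.Agent.T223.Tr

noncomputable section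

variable {n : ℕ} {M : Type} [TopologicalSpace M] {A : Atl n M}

/-- `b` is a smooth upper support function of `f` at `y`, read in the chart `i` -/
structure USup (A : Atl n M) (i : A.ι) (f : M → ℝ) (y : M) (b : Cn n → ℝ) : Prop where
  sm : ContDiffAt ℝ ∞ b (A.e i y)
  eq : b (A.e i y) = f y
  le : ∀ᶠ w in 𝓝 (A.e i y), f ((A.e i).symm w) ≤ b w

/-- `b` is a smooth lower support function of `f` at `y`, read in the chart `i` -/
structure LSup (A : Atl n M) (i : A.ι) (f : M → ℝ) (y : M) (b : Cn n → ℝ) : Prop where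
  sm : ContDiffAt ℝ ∞ b (A.e i y)
  eq : b (A.e i y) = f y
  le : ∀ᶠ w in 𝓝 (A.e i y), b w ≤ f ((A.e i).symm w)

/-- strict Levi lower barriers at every point (in every chart) -/
def SPsh (A : Atl n M) (f : M → ℝ) : Prop :=
  ∀ i, ∀ y ∈ (A.e i).source, ∃ b, LSup A i f y b ∧ ∀ v, v ≠ 0 → 0 < nq (hess b (A.e i y)) v

/-- Levi lower barriers (not strict) at the points where `w > 0`, for `log w` -/
def LogPsh (A : Atl n M) (w : M → ℝ) : Prop :=
  ∀ i, ∀ y ∈ (A.e i).source, 0 < w y →
    ∃ b, LSup A i (fun x => Real.log (w x)) y b ∧ ∀ v, 0 ≤ nq (hess b (A.e i y)) v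

variable [T2Space M] [ConnectedSpace M]

/-- `∂∂̄ d(x,·)² ≤ 2 g` in the support sense -/
def LB1 (K : Kah A) : Prop :=
  ∀ x i, ∀ y ∈ (A.e i).source, ∃ b, USup A i (fun z => dK K x z ^ 2) y b ∧
    ∀ v, nq (hess b (A.e i y)) v ≤ 2 * nq (gc K i (A.e i y)) v

/-- the barrier for `log d(x,·)` along a holomorphic family `D` through `y` -/
def LOG (K : Kah A) : Prop :=
  ∀ x i, ∀ y ∈ (A.e i).source, x ≠ y → ∃ (D : Cn n → Cn n) (E : Cn n → ℝ) (v : Cn n),
    (∀ᶠ w in 𝓝 (0 : Cn n), DifferentiableAt ℂ D w) ∧ D 0 = A.e i y ∧ ContDiffAt ℝ ∞ E 0 ∧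
    E 0 = Real.log (dK K x y) ∧
    (∀ᶠ w in 𝓝 (0 : Cn n), Real.log (dK K x ((A.e i).symm (D w))) ≤ E w) ∧ nq (hess E 0) v < 0

/-- a `1`-Lipschitz function with strict Levi lower barriers (Busemann function of a ray) -/
def BUS (K : Kah A) : Prop :=
  ∃ b : M → ℝ, (∀ x y, |b x - b y| ≤ dK K x y) ∧ SPsh A b

/-- three circles for a continuous `w ≥ 0` with `log w` plurisubharmonic -/
def TC (K : Kah A) : Prop :=
  ∀ w : M → ℝ, Continuous w → (∀ y, 0 ≤ w y) → LogPsh A w →
    ∀ (x : M) (r1 r2 r3 m1 m3 : ℝ), 0 < r1 → r1 ≤ r2 → r2 ≤ r3 → r1 < r3 →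
      (∀ y, dK K x y ≤ r1 → w y ≤ Real.exp m1) → (∀ y, dK K x y ≤ r3 → w y ≤ Real.exp m3) →
      ∀ y, dK K x y = r2 →
        w y ≤ Real.exp ((Real.log (r3 / r2) * m1 + Real.log (r2 / r1) * m3) / Real.log (r3 / r1))

/-- a smooth strictly plurisubharmonic function of linear growth -/
def PshF (K : Kah A) (p : M) : Prop :=
  ∃ φ : M → ℝ, A.Sm φ ∧ (∀ x, |φ x| ≤ 1 + dK K p x) ∧
    ∀ i, ∀ z ∈ (A.e i).target, (hess (inC A i φ) z).PosDef

end

/-- the energy trick (78) -/
def EnStmt (n : ℕ) : Prop :=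
  ∀ (M : Type) [TopologicalSpace M] [T2Space M] [ConnectedSpace M] [NoncompactSpace M]
    (A : Atl n M) (K : Kah A), ProperSpace (ofKah K).M → BKpos K → LB1 K ∧ LOG K ∧ BUS K

/-- three circles (24) -/
def TCStmt (n : ℕ) : Prop :=
  ∀ (M : Type) [TopologicalSpace M] [T2Space M] [ConnectedSpace M]
    (A : Atl n M) (K : Kah A), ProperSpace (ofKah K).M → LOG K → TC K

/-- Richberg smoothing from barriers (37) -/
def RichStmt (n : ℕ) : Prop :=
  ∀ (M : Type) [TopologicalSpace M] [T2Space M] [SecondCountableTopology M] (A : Atl n M)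
    (b : M → ℝ), Continuous b → SPsh A b →
    ∃ φ : M → ℝ, A.Sm φ ∧ (∀ x, |φ x - b x| ≤ 1) ∧
      ∀ i, ∀ z ∈ (A.e i).target, (hess (inC A i φ) z).PosDef

/-- the output of the module -/
def LbStmt (n : ℕ) : Prop :=
  ∀ (M : Type) [TopologicalSpace M] [T2Space M] [ConnectedSpace M] [SecondCountableTopology M]
    [NoncompactSpace M] (A : Atl n M) (K : Kah A), Hyp K → LB1 K ∧ TC K ∧ ∀ p, PshF K p

theorem dK_cont {n : ℕ} {M : Type} [TopologicalSpace M] [T2Space M] [ConnectedSpace M]
    {A : Atl n M} (K : Kah A) {b : M → ℝ} (h : ∀ x y, |b x - b y| ≤ dK K x y) : Continuous b := by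
  have h1 : LipschitzWith 1 (fun x : (ofKah K).M => b x) := by
    refine LipschitzWith.of_dist_le_mul fun x y => ?_
    rw [Real.dist_eq, NNReal.coe_one, one_mul]
    exact h x y
  exact h1.continuous

theorem lb_of {n : ℕ} (h1 : EnStmt n) (h2 : TCStmt n) (h3 : RichStmt n) : LbStmt n := by
  intro M _ _ _ _ _ A K H
  obtain ⟨a1, a2, b, hb, hs⟩ := h1 M A K H.proper H.bk
  refine ⟨a1, h2 M A K H.proper a2, fun p => ?_⟩
  have hs' : SPsh A (fun x => b x - b p) := by
    intro i y hy
    obtain ⟨β, hβ, hpos⟩ := hs i y hy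
    refine ⟨fun w => β w - b p, ⟨hβ.sm.sub contDiffAt_const, by rw [hβ.eq], ?_⟩, ?_⟩
    · filter_upwards [hβ.le] with w hw
      linarith
    · intro v hv
      have h0 : hess (fun w => β w - b p) (A.e i y) = hess β (A.e i y) := by
        ext a c
        rw [hess_apply, hess_apply]
        have h5 : wd (true, c) (cu fun w => β w - b p) = wd (true, c) (cu β) := by
          funext z
          unfold wd
          have h6 : (cu fun w => β w - b p) = fun w => cu β w - (b p : ℂ) := by
            funext w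
            simp [cu]
          rw [h6, fderiv_sub_const]
        rw [h5]
      rw [h0]
      exact hpos v hv
  obtain ⟨φ, hφ, hn, hp⟩ := h3 M A (fun x => b x - b p) ((dK_cont K hb).sub continuous_const) hs'
  refine ⟨φ, hφ, fun x => ?_, hp⟩
  have h4 := hb p x
  have h5 := hn x
  rw [abs_le] at h4 h5 ⊢
  constructor <;> linarith [h4.1, h4.2, h5.1, h5.2]

end Crest.Agent.T223.Lb
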