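import Crest.Agent.T223.Rich2_37
import Crest.Agent.T223.LbDef_78

/-!
# Row 223, module RICH (helper37), file 3: the statement `RichStmt` of `LbDef_78`
-/

set_option autoImplicit false

open Set Filter Topology

namespace Crest.Agent.T223.Rich

open Crest.Agent.R275.Geo Crest.Agent.R275.EDR890 Crest.Agent.R273.Kah_333
open Crest.Agent.R273.Hess_333 Crest.Agent.T223.Lb

theorem richStmt (n : ℕ) : RichStmt n := by
  intro M _ _ _ A b hb hs
  obtain ⟨ψ, h1, h2, h3⟩ := rich A hb fun x => by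
    obtain ⟨i, hx⟩ := A.cover x
    obtain ⟨φ, hφ, hpos⟩ := hs i x hx
    exact ⟨i, hx, φ, hφ.sm, hφ.eq, hφ.le, hpos⟩
  refine ⟨ψ, h1, fun x => ?_, fun i z hz => ?_⟩
  · rw [abs_le]
    constructor <;> linarith [(h2 x).1, (h2 x).2]
  · have h4 := h3 i _ ((A.e i).map_target hz)
    unfold hsf at h4
    rw [(A.e i).right_inv hz] at h4
    exact h4

end Crest.Agent.T223.Rich
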