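import Mathlib

/-!
Row 223, module OSG: geometry-free maximum-principle kit ("touching lemmas") on compact
space-time sets and on moving domains.
-/

set_option autoImplicit false

open Set Filter Topology

namespace Crest.Agent.T223.Tch

variable {X : Type*} [TopologicalSpace X]

/-- MAX version. `D` compact space-time set, `f` upper semicontinuous on `D`, `f ≤ 0` on the
parabolic boundary `B`; no point off `B` is a positive maximum of `f` over its past. -/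
theorem touch_max {D B : Set (ℝ × X)} (hD : IsCompact D) {f : ℝ × X → ℝ}
    (hf : UpperSemicontinuousOn f D) (hB : ∀ p ∈ D, p ∈ B → f p ≤ 0)
    (hI : ∀ p ∈ D, p ∉ B → 0 < f p → (∀ q ∈ D, q.1 ≤ p.1 → f q ≤ f p) → False) :
    ∀ p ∈ D, f p ≤ 0 := by
  intro p0 hp0
  by_contra hpos
  push Not at hpos
  obtain ⟨p, hp, hmax⟩ := hf.exists_isMaxOn ⟨p0, hp0⟩ hD
  have h1 : 0 < f p := lt_of_lt_of_le hpos (hmax hp0)
  refine hI p hp (fun hb => absurd (hB p hp hb) (not_le.mpr h1)) h1 ?_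
  intro q hq _
  exact hmax hq

/-- RATIO version: `h ≤ a + K b` with a positive continuous barrier `b`. At the touching point the
multiple `Λ > K` of the barrier is a constant. -/
theorem touch_ratio {D B : Set (ℝ × X)} (hD : IsCompact D) {h a b : ℝ × X → ℝ} {K : ℝ}
    (hh : ContinuousOn h D) (ha : ContinuousOn a D) (hb : ContinuousOn b D)
    (hb0 : ∀ p ∈ D, 0 < b p) (hB : ∀ p ∈ D, p ∈ B → h p ≤ a p + K * b p)
    (hI : ∀ p ∈ D, p ∉ B → ∀ Λ, K < Λ → h p = a p + Λ * b p →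
      (∀ q ∈ D, q.1 ≤ p.1 → h q ≤ a q + Λ * b q) → False) :
    ∀ p ∈ D, h p ≤ a p + K * b p := by
  have hc : ContinuousOn (fun p => (h p - a p) / b p - K) D :=
    ((hh.sub ha).div hb fun p hp => (hb0 p hp).ne').sub continuousOn_const
  have key := touch_max (B := B) hD hc.upperSemicontinuousOn ?_ ?_
  · intro p hp
    have := key p hp
    have h2 : (h p - a p) / b p ≤ K := by linarith
    rw [div_le_iff₀ (hb0 p hp)] at h2
    linarith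
  · intro p hp hpB
    have h2 : (h p - a p) / b p ≤ K := by
      rw [div_le_iff₀ (hb0 p hp)]; linarith [hB p hp hpB]
    linarith
  · intro p hp hpB hpos hmax
    refine hI p hp hpB ((h p - a p) / b p) (by linarith) ?_ ?_
    · rw [div_mul_cancel₀ _ (hb0 p hp).ne']; ring
    · intro q hq hqt
      have h2 : (h q - a q) / b q ≤ (h p - a p) / b p := by linarith [hmax q hq hqt]
      rw [div_le_iff₀ (hb0 q hq)] at h2
      linarith

/-- RATIO version for an upper semicontinuous `h` (e.g. a supremum / a distance-like function). -/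
theorem touch_ratio_usc {D B : Set (ℝ × X)} (hD : IsCompact D) {h a b : ℝ × X → ℝ} {K : ℝ}
    (hh : UpperSemicontinuousOn h D) (ha : ContinuousOn a D) (hb : ContinuousOn b D)
    (hb0 : ∀ p ∈ D, 0 < b p) (hB : ∀ p ∈ D, p ∈ B → h p ≤ a p + K * b p)
    (hI : ∀ p ∈ D, p ∉ B → ∀ Λ, K < Λ → h p = a p + Λ * b p →
      (∀ q ∈ D, q.1 ≤ p.1 → h q ≤ a q + Λ * b q) → False) :
    ∀ p ∈ D, h p ≤ a p + K * b p := by
  have hc : UpperSemicontinuousOn (fun p => (h p - a p) / b p - K) D := by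
    intro p hp y hy
    have hy' : h p - (a p + (y + K) * b p) < 0 := by
      have : (h p - a p) / b p < y + K := by linarith
      rw [div_lt_iff₀ (hb0 p hp)] at this
      linarith
    obtain ⟨c, hc1, hc2⟩ : ∃ c, h p < c ∧ c < a p + (y + K) * b p :=
      exists_between (by linarith)
    have e1 := hh p hp c hc1
    have e2 : ∀ᶠ q in 𝓝[D] p, c < a q + (y + K) * b q :=
      ((ha p hp).add (continuousWithinAt_const.mul (hb p hp))).eventually (lt_mem_nhds hc2)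
    filter_upwards [e1, e2, self_mem_nhdsWithin] with q h1 h2 hq
    have : (h q - a q) / b q < y + K := by
      rw [div_lt_iff₀ (hb0 q hq)]; linarith
    linarith
  have key := touch_max (B := B) hD hc ?_ ?_
  · intro p hp
    have := key p hp
    have h2 : (h p - a p) / b p ≤ K := by linarith
    rw [div_le_iff₀ (hb0 p hp)] at h2
    linarith
  · intro p hp hpB
    have h2 : (h p - a p) / b p ≤ K := by
      rw [div_le_iff₀ (hb0 p hp)]; linarith [hB p hp hpB]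
    linarith
  · intro p hp hpB hpos hmax
    refine hI p hp hpB ((h p - a p) / b p) (by linarith) ?_ ?_
    · rw [div_mul_cancel₀ _ (hb0 p hp).ne']; ring
    · intro q hq hqt
      have h2 : (h q - a q) / b q ≤ (h p - a p) / b p := by linarith [hmax q hq hqt]
      rw [div_le_iff₀ (hb0 q hq)] at h2
      linarith

/-- PREDICATE (tensor) version. `S Λ p` is the STRICT inequality "form + Λ·barrier·norm > 0 for all
nonzero vectors at `p`". No function `l` has to be defined. -/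
theorem touch_pred {D B : Set (ℝ × X)} (hD : IsCompact D) (S : ℝ → ℝ × X → Prop) {K : ℝ}
    (hmono : ∀ p ∈ D, ∀ Λ Λ', S Λ p → Λ ≤ Λ' → S Λ' p)
    (hopen : ∀ p ∈ D, ∀ Λ, S Λ p → ∀ᶠ q in 𝓝[D] p, S Λ q)
    (hlow : ∀ p ∈ D, ∀ Λ, S Λ p → ∃ Λ', Λ' < Λ ∧ S Λ' p)
    (hfin : ∀ p ∈ D, ∃ Λ, S Λ p)
    (hB : ∀ p ∈ D, p ∈ B → ∀ Λ, K < Λ → S Λ p)
    (hI : ∀ p ∈ D, p ∉ B → ∀ Λ, K < Λ → ¬ S Λ p →
      (∀ q ∈ D, q.1 ≤ p.1 → ∀ Λ', Λ < Λ' → S Λ' q) → False) :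
    ∀ p ∈ D, ∀ Λ, K < Λ → S Λ p := by
  classical
  let T : ℝ × X → Set ℝ := fun p => {Λ | K ≤ Λ ∧ S Λ p}
  have hne : ∀ p ∈ D, (T p).Nonempty := by
    intro p hp
    obtain ⟨Λ, hΛ⟩ := hfin p hp
    exact ⟨max K Λ, le_max_left _ _, hmono p hp _ _ hΛ (le_max_right _ _)⟩
  have hbd : ∀ p, BddBelow (T p) := fun p => ⟨K, fun Λ hΛ => hΛ.1⟩
  have hgt : ∀ p ∈ D, ∀ Λ, sInf (T p) < Λ → S Λ p := by
    intro p hp Λ hΛ
    obtain ⟨Λ', h1, h2⟩ := exists_lt_of_csInf_lt (hne p hp) hΛ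
    exact hmono p hp _ _ h1.2 h2.le
  have hge : ∀ p ∈ D, K ≤ sInf (T p) := fun p hp => le_csInf (hne p hp) fun Λ hΛ => hΛ.1
  have hc : UpperSemicontinuousOn (fun p => sInf (T p) - K) D := by
    intro p hp y hy
    obtain ⟨c, hc1, hc2⟩ : ∃ c, sInf (T p) < c ∧ c < y + K := exists_between (by linarith)
    filter_upwards [hopen p hp c (hgt p hp c hc1)] with q hq
    have : sInf (T q) ≤ c := csInf_le (hbd q) ⟨le_trans (hge p hp) hc1.le, hq⟩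
    linarith
  have key := touch_max (B := B) hD hc ?_ ?_
  · intro p hp Λ hΛ
    exact hgt p hp Λ (by linarith [key p hp])
  · intro p hp hpB
    have : sInf (T p) ≤ K := by
      refine le_of_forall_gt_imp_ge_of_dense fun c hc => ?_
      exact csInf_le (hbd p) ⟨hc.le, hB p hp hpB c hc⟩
    linarith
  · intro p hp hpB hpos hmax
    refine hI p hp hpB (sInf (T p)) (by linarith) ?_ ?_
    · intro hS
      obtain ⟨Λ', h1, h2⟩ := hlow p hp _ hS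
      have h3 : sInf (T p) ≤ max K Λ' :=
        csInf_le (hbd p) ⟨le_max_left _ _, hmono p hp _ _ h2 (le_max_right _ _)⟩
      have h4 : max K Λ' < sInf (T p) := max_lt (by linarith) h1
      linarith
    · intro q hq hqt Λ' hΛ'
      exact hgt q hq Λ' (by linarith [hmax q hq hqt])

/-! ### Families over a compact parameter set (unit vectors): the hypotheses of `touch_pred` -/

section fam
variable {Y V : Type*} [TopologicalSpace Y] [TopologicalSpace V]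

/-- openness of a strict inequality that holds for all parameters in a compact set -/
theorem eventually_forall_pos {W : Set V} (hW : IsCompact W) {F : Y → V → ℝ} {D : Set Y} {p : Y}
    (hF : ∀ v ∈ W, ContinuousWithinAt (fun q : Y × V => F q.1 q.2) (D ×ˢ W) (p, v))
    (hp : ∀ v ∈ W, 0 < F p v) : ∀ᶠ q in 𝓝[D] p, ∀ v ∈ W, 0 < F q v := by
  have h1 : ∀ v ∈ W, ∀ᶠ z : Y × V in 𝓝 (p, v), z ∈ D ×ˢ W → 0 < F z.1 z.2 := by
    intro v hv
    have := (hF v hv).eventually (lt_mem_nhds (hp v hv))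
    exact eventually_nhdsWithin_iff.mp this
  have h2 := hW.eventually_forall_of_forall_eventually
    (x₀ := p) (P := fun q v => (q, v) ∈ D ×ˢ W → 0 < F q v) h1
  filter_upwards [mem_nhdsWithin_of_mem_nhds h2, self_mem_nhdsWithin] with q hq hqD v hv
  exact hq v hv ⟨hqD, hv⟩

/-- a strict inequality `0 < F + Λ N` on a compact set survives a small decrease of `Λ` -/
theorem exists_lt_forall_pos {W : Set V} (hW : IsCompact W) {F N : V → ℝ}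
    (hF : ContinuousOn F W) (hN : ContinuousOn N W) {Λ : ℝ}
    (hp : ∀ v ∈ W, 0 < F v + Λ * N v) : ∃ Λ', Λ' < Λ ∧ ∀ v ∈ W, 0 < F v + Λ' * N v := by
  have h := eventually_forall_pos (Y := ℝ) hW (F := fun L v => F v + L * N v) (D := univ) (p := Λ)
    (fun v hv => by
      have h1 : ContinuousWithinAt (fun q : ℝ × V => F q.2) (univ ×ˢ W) (Λ, v) :=
        (hF v hv).comp continuousWithinAt_snd fun q hq => hq.2
      have h2 : ContinuousWithinAt (fun q : ℝ × V => N q.2) (univ ×ˢ W) (Λ, v) :=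
        (hN v hv).comp continuousWithinAt_snd fun q hq => hq.2
      exact h1.add (continuousWithinAt_fst.mul h2)) hp
  rw [nhdsWithin_univ] at h
  obtain ⟨Λ', h1, h2⟩ := ((h.filter_mono nhdsWithin_le_nhds).and
    (self_mem_nhdsWithin : Iio Λ ∈ 𝓝[<] Λ)).exists
  exact ⟨Λ', h2, h1⟩

/-- some multiple of a positive norm dominates -/
theorem exists_forall_pos {W : Set V} (hW : IsCompact W) {F N : V → ℝ}
    (hF : ContinuousOn F W) (hN : ContinuousOn N W) (hN0 : ∀ v ∈ W, 0 < N v) :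
    ∃ Λ, ∀ v ∈ W, 0 < F v + Λ * N v := by
  have hc : ContinuousOn (fun v => -F v / N v) W := hF.neg.div hN fun v hv => (hN0 v hv).ne'
  obtain ⟨C, hC⟩ := hW.bddAbove_image hc
  refine ⟨C + 1, fun v hv => ?_⟩
  have h1 : -F v / N v ≤ C := hC (mem_image_of_mem _ hv)
  rw [div_le_iff₀ (hN0 v hv)] at h1
  nlinarith [hN0 v hv]

/-- from all strict inequalities above `Λ` to the weak inequality at `Λ` -/
theorem nonneg_of_forall_gt {F N Λ : ℝ} (h : ∀ Λ', Λ < Λ' → 0 < F + Λ' * N) : 0 ≤ F + Λ * N := by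
  have hc : Continuous fun L : ℝ => F + L * N := by fun_prop
  have h1 : Tendsto (fun L : ℝ => F + L * N) (𝓝[>] Λ) (𝓝 (F + Λ * N)) :=
    (hc.tendsto Λ).mono_left nhdsWithin_le_nhds
  exact ge_of_tendsto h1 (by
    filter_upwards [self_mem_nhdsWithin] with L hL using (h L hL).le)

end fam

/-! ### Moving domains -/

/-- `{t₁ ≤ t ≤ t₂, x ∈ W, ρ ≤ σ t}` -/
def MD (t₁ t₂ : ℝ) (W : Set X) (ρ : ℝ × X → ℝ) (σ : ℝ → ℝ) : Set (ℝ × X) :=
  {p | t₁ ≤ p.1 ∧ p.1 ≤ t₂ ∧ p.2 ∈ W ∧ ρ p ≤ σ p.1}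

/-- the parabolic boundary: bottom and lateral part -/
def MB (t₁ : ℝ) (ρ : ℝ × X → ℝ) (σ : ℝ → ℝ) : Set (ℝ × X) := {p | p.1 = t₁ ∨ ρ p = σ p.1}

theorem isCompact_MD [T2Space X] {t₁ t₂ : ℝ} {W : Set X} (hW : IsCompact W) {ρ : ℝ × X → ℝ}
    {σ : ℝ → ℝ} (hρ : ContinuousOn ρ (Icc t₁ t₂ ×ˢ W)) (hσ : ContinuousOn σ (Icc t₁ t₂)) :
    IsCompact (MD t₁ t₂ W ρ σ) := by
  have hK : IsCompact (Icc t₁ t₂ ×ˢ W) := isCompact_Icc.prod hW
  have hc : ContinuousOn (fun p : ℝ × X => ρ p - σ p.1) (Icc t₁ t₂ ×ˢ W) :=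
    hρ.sub (hσ.comp continuousOn_fst fun p hp => hp.1)
  have hcl : IsClosed ((Icc t₁ t₂ ×ˢ W) ∩ (fun p : ℝ × X => ρ p - σ p.1) ⁻¹' Iic 0) :=
    hc.preimage_isClosed_of_isClosed hK.isClosed isClosed_Iic
  have he : MD t₁ t₂ W ρ σ =
      (Icc t₁ t₂ ×ˢ W) ∩ (fun p : ℝ × X => ρ p - σ p.1) ⁻¹' Iic 0 := by
    ext p
    simp only [MD, mem_ofPred_eq, mem_inter_iff, mem_prod, mem_Icc, mem_preimage, mem_Iic]
    constructor
    · rintro ⟨h1, h2, h3, h4⟩; exact ⟨⟨⟨h1, h2⟩, h3⟩, by linarith⟩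
    · rintro ⟨⟨⟨h1, h2⟩, h3⟩, h4⟩; exact ⟨h1, h2, h3, by linarith⟩
  rw [he]
  exact hK.of_isClosed_subset hcl inter_subset_left

/-- At a point of the moving domain off the parabolic boundary whose space component is interior to
`W`, the domain is a neighbourhood within the past. -/
theorem MD_mem_past {t₁ t₂ : ℝ} {W : Set X} {ρ : ℝ × X → ℝ} {σ : ℝ → ℝ}
    (hρ : ContinuousOn ρ (Icc t₁ t₂ ×ˢ W)) (hσ : ContinuousOn σ (Icc t₁ t₂))
    {p : ℝ × X} (hp : p ∈ MD t₁ t₂ W ρ σ) (hB : p ∉ MB t₁ ρ σ) (hW : W ∈ 𝓝 p.2) :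
    ∀ᶠ q in 𝓝[{q | q.1 ≤ p.1}] p, q ∈ MD t₁ t₂ W ρ σ ∧ q.1 ≤ p.1 := by
  obtain ⟨h1, h2, h3, h4⟩ := hp
  simp only [MB, mem_ofPred_eq, not_or] at hB
  have h1' : t₁ < p.1 := lt_of_le_of_ne h1 (Ne.symm hB.1)
  have h4' : ρ p < σ p.1 := lt_of_le_of_ne h4 hB.2
  have hc : ContinuousWithinAt (fun q : ℝ × X => σ q.1 - ρ q) (Icc t₁ t₂ ×ˢ W) p :=
    ((hσ.comp continuousOn_fst fun q hq => hq.1).sub hρ) p ⟨⟨h1, h2⟩, h3⟩
  have e1 : ∀ᶠ q in 𝓝 p, q ∈ Icc t₁ t₂ ×ˢ W → 0 < σ q.1 - ρ q :=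
    eventually_nhdsWithin_iff.mp (hc.eventually (lt_mem_nhds (by simpa using h4')))
  have e2 : ∀ᶠ q : ℝ × X in 𝓝 p, t₁ < q.1 :=
    continuous_fst.continuousAt.eventually (lt_mem_nhds h1')
  have e3 : ∀ᶠ q : ℝ × X in 𝓝 p, q.2 ∈ W := continuous_snd.continuousAt.eventually hW
  filter_upwards [mem_nhdsWithin_of_mem_nhds e1, mem_nhdsWithin_of_mem_nhds e2,
    mem_nhdsWithin_of_mem_nhds e3, self_mem_nhdsWithin] with q a1 a2 a3 a4
  have a5 : q.1 ≤ t₂ := le_trans a4 h2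
  have := a1 ⟨⟨a2.le, a5⟩, a3⟩
  exact ⟨⟨a2.le, a5, a3, by linarith⟩, a4⟩

/-- RATIO maximum principle on a moving domain, local form of the touching hypothesis. -/
theorem touch_MD [T2Space X] {t₁ t₂ : ℝ} {W : Set X} (hW : IsCompact W) {ρ : ℝ × X → ℝ}
    {σ : ℝ → ℝ} (hρ : ContinuousOn ρ (Icc t₁ t₂ ×ˢ W)) (hσ : ContinuousOn σ (Icc t₁ t₂))
    (hint : ∀ p ∈ MD t₁ t₂ W ρ σ, W ∈ 𝓝 p.2)
    {h a b : ℝ × X → ℝ} {K : ℝ}
    (hh : UpperSemicontinuousOn h (MD t₁ t₂ W ρ σ)) (ha : ContinuousOn a (MD t₁ t₂ W ρ σ))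
    (hb : ContinuousOn b (MD t₁ t₂ W ρ σ)) (hb0 : ∀ p ∈ MD t₁ t₂ W ρ σ, 0 < b p)
    (hbot : ∀ p ∈ MD t₁ t₂ W ρ σ, p.1 = t₁ → h p ≤ a p + K * b p)
    (hlat : ∀ p ∈ MD t₁ t₂ W ρ σ, ρ p = σ p.1 → h p ≤ a p + K * b p)
    (hI : ∀ p ∈ MD t₁ t₂ W ρ σ, t₁ < p.1 → ρ p < σ p.1 → ∀ Λ, K < Λ → h p = a p + Λ * b p →
      (∀ q ∈ MD t₁ t₂ W ρ σ, q.1 ≤ p.1 → h q ≤ a q + Λ * b q) →
      (∀ᶠ q in 𝓝[{q | q.1 ≤ p.1}] p, h q ≤ a q + Λ * b q) → False) :
    ∀ p ∈ MD t₁ t₂ W ρ σ, h p ≤ a p + K * b p := by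
  refine touch_ratio_usc (B := MB t₁ ρ σ) (isCompact_MD hW hρ hσ) hh ha hb hb0 ?_ ?_
  · rintro p hp (h1 | h1)
    exacts [hbot p hp h1, hlat p hp h1]
  · intro p hp hpB Λ hΛ he hle
    have hev := MD_mem_past hρ hσ hp hpB (hint p hp)
    simp only [MB, mem_ofPred_eq, not_or] at hpB
    refine hI p hp (lt_of_le_of_ne hp.1 (Ne.symm hpB.1)) (lt_of_le_of_ne hp.2.2.2 hpB.2) Λ hΛ he
      hle ?_
    filter_upwards [hev] with q hq using hle q hq.1 hq.2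

/-- PREDICATE (tensor) maximum principle on a moving domain. -/
theorem touch_MD_pred [T2Space X] {t₁ t₂ : ℝ} {W : Set X} (hW : IsCompact W) {ρ : ℝ × X → ℝ}
    {σ : ℝ → ℝ} (hρ : ContinuousOn ρ (Icc t₁ t₂ ×ˢ W)) (hσ : ContinuousOn σ (Icc t₁ t₂))
    (hint : ∀ p ∈ MD t₁ t₂ W ρ σ, W ∈ 𝓝 p.2)
    (S : ℝ → ℝ × X → Prop) {K : ℝ}
    (hmono : ∀ p ∈ MD t₁ t₂ W ρ σ, ∀ Λ Λ', S Λ p → Λ ≤ Λ' → S Λ' p)
    (hopen : ∀ p ∈ MD t₁ t₂ W ρ σ, ∀ Λ, S Λ p → ∀ᶠ q in 𝓝[MD t₁ t₂ W ρ σ] p, S Λ q)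
    (hlow : ∀ p ∈ MD t₁ t₂ W ρ σ, ∀ Λ, S Λ p → ∃ Λ', Λ' < Λ ∧ S Λ' p)
    (hfin : ∀ p ∈ MD t₁ t₂ W ρ σ, ∃ Λ, S Λ p)
    (hbot : ∀ p ∈ MD t₁ t₂ W ρ σ, p.1 = t₁ → ∀ Λ, K < Λ → S Λ p)
    (hlat : ∀ p ∈ MD t₁ t₂ W ρ σ, ρ p = σ p.1 → ∀ Λ, K < Λ → S Λ p)
    (hI : ∀ p ∈ MD t₁ t₂ W ρ σ, t₁ < p.1 → ρ p < σ p.1 → ∀ Λ, K < Λ → ¬ S Λ p →
      (∀ᶠ q in 𝓝[{q | q.1 ≤ p.1}] p, ∀ Λ', Λ < Λ' → S Λ' q) → False) :
    ∀ p ∈ MD t₁ t₂ W ρ σ, ∀ Λ, K < Λ → S Λ p := by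
  refine touch_pred (B := MB t₁ ρ σ) (isCompact_MD hW hρ hσ) S hmono hopen hlow hfin ?_ ?_
  · rintro p hp (h1 | h1)
    exacts [hbot p hp h1, hlat p hp h1]
  · intro p hp hpB Λ hΛ he hle
    have hev := MD_mem_past hρ hσ hp hpB (hint p hp)
    simp only [MB, mem_ofPred_eq, not_or] at hpB
    refine hI p hp (lt_of_le_of_ne hp.1 (Ne.symm hpB.1)) (lt_of_le_of_ne hp.2.2.2 hpB.2) Λ hΛ he ?_
    filter_upwards [hev] with q hq using hle q hq.1 hq.2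

end Crest.Agent.T223.Tch
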