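import Crest.Agent.T223.LbLog_78
import Crest.Agent.T223.LbGeo_13
import Crest.Agent.T223.LbRay_51
import Crest.Agent.T223.LbTC_24
import Crest.Agent.T223.Rich3_37
import Crest.Agent.T223.FrA_38
import Crest.Agent.T223.Tch_45

/-!
# Row 223 (S0345), module LB (helper78): Busemann barriers, `enStmt`, `lbStmt`
-/

set_option autoImplicit false
set_option linter.unusedVariables false
set_option linter.unusedSectionVars false

open Set Filter Topology Metric Complex MeasureTheory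
open scoped ContDiff ComplexConjugate Matrix ComplexOrder

namespace Crest.Agent.T223.Lb

open Crest.Agent.R275.Geo Crest.Agent.R275.EDR890 Crest.Agent.R273.Kah_333
open Crest.Agent.R273.Hess_333 Crest.Agent.R273.HessB_333 Crest.Agent.R273.RMan4_798
open Crest.Agent.R275.Core144
open Crest.Agent.T223.Br Crest.Agent.T223.Tr

noncomputable section

variable {n : ℕ} {M : Type} [TopologicalSpace M] {A : Atl n M}

theorem bis_rsmul (g : Cn n → Mat n) (z u η : Cn n) (a c : ℝ) :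
    bis g z ((a : ℂ) • u) ((c : ℂ) • η) = a ^ 2 * c ^ 2 * bis g z u η := by
  unfold bis
  rw [← re_ofReal_mul]
  congr 1
  simp only [Finset.mul_sum, PiLp.smul_apply, smul_eq_mul, map_mul, Complex.conj_ofReal]
  refine Finset.sum_congr rfl fun _ _ => Finset.sum_congr rfl fun _ _ =>
    Finset.sum_congr rfl fun _ _ => Finset.sum_congr rfl fun _ _ => ?_
  push_cast
  ring

theorem cont_Rm (K : Kah A) (i : A.ι) (a b c d : Fin n) :
    ContinuousOn (fun z => Rm (gc K i) z c d a b) (A.e i).target := by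
  intro z hz
  have h := kah_gc K hz
  have h0 : SmM (gc K i) z := h.sm
  have h1 : SmM (fun w => Rm (gc K i) w c d) z :=
    ((h0.wdM _).wdM _).neg.add (((h0.wdM _).mul (h0.inv (KahAt.unit h).ne_zero)).mul (h0.wdM _))
  exact (h1 a b).continuousAt.continuousWithinAt

theorem nq_pos {g : Mat n} (h : g.PosDef) {v : Cn n} (hv : v ≠ 0) : 0 < nq g v := by
  rw [nq_eq_dot]
  have h0 : (fun a => conj (v a)) ≠ 0 := by
    intro h1
    apply hv
    ext a
    simpa using congrFun h1 a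
  exact (Complex.lt_def.1 (h.dotProduct_mulVec_pos h0)).1

/-- a uniform positive lower bound of the bisectional curvature on a compact set -/
theorem exists_kappa {K : Kah A} (hK : BKpos K) {i : A.ι} {C : Set (Cn n)} (hC : IsCompact C)
    (hCi : C ⊆ (A.e i).target) : ∃ κ > 0, ∀ z ∈ C, ∀ u η,
      κ * nq (gc K i z) u * nq (gc K i z) η ≤ bis (gc K i) z u η := by
  set W : Set (Cn n × Cn n × Cn n) := C ×ˢ sphere 0 1 ×ˢ sphere 0 1 with hW
  have hWc : IsCompact W := hC.prod ((isCompact_sphere _ _).prod (isCompact_sphere _ _))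
  have hp : ∀ a, Continuous fun v : Cn n => v a := fun a =>
    (EuclideanSpace.proj a : Cn n →L[ℂ] ℂ).continuous
  have hpc : ∀ a, Continuous fun v : Cn n => conj (v a) := fun a =>
    Complex.continuous_conj.comp (hp a)
  have hF : ContinuousOn (fun q : Cn n × Cn n × Cn n => bis (gc K i) q.1 q.2.1 q.2.2) W := by
    refine Complex.continuous_re.comp_continuousOn (continuousOn_finsetSum _ fun a _ =>
      continuousOn_finsetSum _ fun b _ => continuousOn_finsetSum _ fun c _ =>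
        continuousOn_finsetSum _ fun d _ => ?_)
    exact (((((cont_Rm K i a b c d).comp continuousOn_fst fun q hq => hCi hq.1).mul
      ((hp a).comp continuous_snd.fst).continuousOn).mul
      ((hpc b).comp continuous_snd.fst).continuousOn).mul
      ((hp c).comp continuous_snd.snd).continuousOn).mul
      ((hpc d).comp continuous_snd.snd).continuousOn
  have hN : ContinuousOn (fun q : Cn n × Cn n × Cn n =>
      nq (gc K i q.1) q.2.1 * nq (gc K i q.1) q.2.2) W :=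
    (contDiffOn_nq K i contDiffOn_fst contDiff_snd.fst.contDiffOn
      fun q hq => hCi hq.1).continuousOn.mul
    (contDiffOn_nq K i contDiffOn_fst contDiff_snd.snd.contDiffOn
      fun q hq => hCi hq.1).continuousOn
  have hne : ∀ v ∈ sphere (0 : Cn n) 1, v ≠ 0 := fun v hv h0 => by simp [h0] at hv
  obtain ⟨Λ, hΛ, h⟩ := Tch.exists_lt_forall_pos hWc hF hN (Λ := 0) fun q hq => by
    rw [zero_mul, add_zero]
    exact hK i _ (hCi hq.1) _ _ (hne _ hq.2.1) (hne _ hq.2.2)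
  refine ⟨-Λ, neg_pos.2 hΛ, fun z hz u η => ?_⟩
  by_cases hu : u = 0
  · simp [hu, bis, nq]
  by_cases hη : η = 0
  · simp [hη, bis, nq]
  have hs : ∀ v : Cn n, v ≠ 0 → ((‖v‖⁻¹ : ℝ) : ℂ) • v ∈ sphere (0 : Cn n) 1 := fun v hv => by
    simp [norm_smul, hv]
  have h1 := h (z, ((‖u‖⁻¹ : ℝ) : ℂ) • u, ((‖η‖⁻¹ : ℝ) : ℂ) • η) ⟨hz, hs u hu, hs η hη⟩
  simp only [bis_rsmul, nq_rsmul] at h1
  have h2 : 0 < ‖u‖⁻¹ ^ 2 * ‖η‖⁻¹ ^ 2 := by positivity
  have h3 : 0 < ‖u‖⁻¹ ^ 2 * ‖η‖⁻¹ ^ 2 *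
      (bis (gc K i) z u η + Λ * nq (gc K i z) u * nq (gc K i z) η) := by
    linarith
  have h4 := (pos_iff_pos_of_mul_pos h3).1 h2
  linarith

variable [T2Space M] [ConnectedSpace M] {K : Kah A}

theorem exists_RV (hP : ProperSpace (ofKah K).M) {γ : ℝ → M} {ℓ b : ℝ} (hl : 0 < ℓ) (hb : 0 < b)
    (h : Ray K γ ℓ b) : ∃ vel, RV K γ ℓ b vel := by
  obtain ⟨vel, hv⟩ := geoStmt n M A K hP γ ℓ b hl hb h
  exact ⟨vel, hl.le, h, hv⟩

theorem exists_RV' (hP : ProperSpace (ofKah K).M) (x y : M) :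
    ∃ γ vel, γ 0 = x ∧ γ 1 = y ∧ RV K γ (dK K x y) 1 vel := by
  by_cases hxy : x = y
  · subst hxy
    refine ⟨fun _ => x, fun _ _ => 0, rfl, rfl, dK_nonneg K _ _, fun s _ t _ => ?_,
      fun i t _ _ => ⟨hasDerivWithinAt_const _ _ _, continuousWithinAt_const, ?_⟩⟩
    · rw [dK_self, zero_mul]
    · simp [dK_self, nq]
  obtain ⟨γ, h0, h1, h⟩ := (rayStmt n M A K hP).1 x y
  obtain ⟨vel, hv⟩ := exists_RV hP (dK_pos K hxy) one_pos h
  exact ⟨γ, vel, h0, h1, hv⟩

/-- `∂∂̄ d(x,·)² ≤ g` in the support sense -/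
theorem lb_one (hP : ProperSpace (ofKah K).M) (hK : BKpos K) (x : M) (i : A.ι) {y : M}
    (hy : y ∈ (A.e i).source) : ∃ b, USup A i (fun z => dK K x z ^ 2) y b ∧
      ∀ v, nq (hess b (A.e i y)) v ≤ nq (gc K i (A.e i y)) v := by
  obtain ⟨γ, vel, rfl, rfl, h⟩ := exists_RV' hP x y
  obtain ⟨B, h1, h2⟩ := (lb_ray hK h 1 (right_mem_Icc.2 zero_le_one)).resolve_left one_ne_zero i hy
  refine ⟨B, h1, fun v => ?_⟩
  rw [gc_at K hy, ← one_mul (nq (K.g i _) v)]
  exact h2 v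

theorem lb1 (hP : ProperSpace (ofKah K).M) (hK : BKpos K) : LB1 K := by
  intro x i y hy
  obtain ⟨B, h1, h2⟩ := lb_one hP hK x i hy
  refine ⟨B, h1, fun v => ?_⟩
  linarith [h2 v, Lb13.nq_gc_nonneg K i ((A.e i).map_source hy) v]

theorem bus [NoncompactSpace M] (hP : ProperSpace (ofKah K).M) (hK : BKpos K) : BUS K := by
  obtain ⟨b, hb, hr⟩ := (rayStmt n M A K hP).2 inferInstance
  refine ⟨b, hb, fun i y hy => ?_⟩
  obtain ⟨γ, rfl, hγ⟩ := hr y
  obtain ⟨δ', hδ', hw⟩ := (hγ 1 zero_le_one).1.win zero_le_one (left_mem_Icc.2 zero_le_one) hy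
  set δ := min (δ' / 2) 1 with hδdef
  have hδ : 0 < δ := lt_min (half_pos hδ') one_pos
  have hδi : ∀ u ∈ Icc (0 : ℝ) δ, γ u ∈ (A.e i).source := fun u hu =>
    hw u ⟨hu.1, hu.2.trans (min_le_right _ _)⟩ (by linarith [hu.1])
      (by linarith [hu.2.trans (min_le_left _ _)])
  have hCc : IsCompact ((fun u => A.e i (γ u)) '' Icc 0 δ) :=
    isCompact_Icc.image_of_continuousOn
      ((A.e i).continuousOn.comp ((hγ δ hδ.le).1.cont zero_le_one) hδi)
  obtain ⟨κ, hκ, hκ'⟩ := exists_kappa hK hCc (by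
    rintro _ ⟨u, hu, rfl⟩; exact (A.e i).map_source (hδi u hu))
  set T := 2 * δ + 8 / (κ * δ) with hT
  have h8 : 0 < 8 / (κ * δ) := by positivity
  have hT0 : 0 < T := by positivity
  have hσ : Ray K (fun τ => γ (T - τ)) 1 T := by
    intro s hs t ht
    rw [(hγ T hT0.le).1 (T - s) ⟨by linarith [hs.2], by linarith [hs.1]⟩ (T - t)
      ⟨by linarith [ht.2], by linarith [ht.1]⟩, abs_sub_comm]
    congr 2
    ring
  obtain ⟨vel, hv⟩ := exists_RV hP one_pos hT0 hσ
  have hs0 : 0 < T - δ := by linarith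
  have hwin : ∀ τ ∈ Icc (T - δ) T, T - τ ∈ Icc (0 : ℝ) δ := fun τ hτ =>
    ⟨by linarith [hτ.2], by linarith [hτ.1]⟩
  have hprev := (lb_ray hK hv (T - δ) ⟨hs0.le, by linarith⟩).resolve_left hs0.ne' i
    (hδi _ (hwin _ ⟨le_rfl, by linarith⟩))
  obtain ⟨B, hB1, hB2⟩ := step1 hv hs0.le (by linarith : T - δ < T) le_rfl
    (fun τ hτ => hδi _ (hwin τ hτ)) hκ.le (fun τ hτ => hκ' _ ⟨_, hwin τ hτ, rfl⟩) (Or.inr hprev)
  simp only [sub_self, sub_zero] at hB1 hB2
  have hd : dK K (γ T) (γ 0) = T := by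
    rw [(hγ T hT0.le).1 T (right_mem_Icc.2 hT0.le) 0 (left_mem_Icc.2 hT0.le), sub_zero,
      abs_of_pos hT0, one_mul]
  have hgain : 2 ≤ κ * 1 ^ 2 * (T - δ) ^ 2 * (T - (T - δ)) / T := by
    rw [le_div_iff₀ hT0, sub_sub_cancel]
    have h1 : T / 2 ≤ T - δ := by linarith
    have h2 : (T / 2) ^ 2 ≤ (T - δ) ^ 2 := pow_le_pow_left₀ (by positivity) h1 2
    have h3 : 8 ≤ κ * δ * T := by
      have h4 : κ * δ * (8 / (κ * δ)) = 8 := by field_simp
      have h5 : 8 / (κ * δ) ≤ T := by linarith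
      nlinarith [mul_le_mul_of_nonneg_left h5 (mul_pos hκ hδ).le]
    have h6 := mul_le_mul_of_nonneg_left h2 (mul_pos hκ hδ).le
    nlinarith
  have hms : ContDiffAt ℝ ∞ (fun z => -(1 / (2 * T)) * B z) (A.e i (γ 0)) :=
    contDiffAt_const.mul hB1.sm
  refine ⟨fun z => (b (γ 0) + T / 2) + -(1 / (2 * T)) * B z,
    ⟨contDiffAt_const.add hms, ?_, ?_⟩, fun v hv0 => ?_⟩
  · rw [hB1.eq, hd]
    field_simp
    ring
  · filter_upwards [hB1.le] with z hz
    have h1 := (abs_le.1 (hb (γ T) ((A.e i).symm z))).2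
    rw [(hγ T hT0.le).2] at h1
    set d := dK K (γ T) ((A.e i).symm z)
    have h2 : d ≤ T / 2 + 1 / (2 * T) * d ^ 2 := by
      have h3 : T / 2 + 1 / (2 * T) * d ^ 2 - d = 1 / (2 * T) * (d - T) ^ 2 := by
        field_simp
        ring
      have h4 : 0 ≤ 1 / (2 * T) * (d - T) ^ 2 := by positivity
      linarith
    have h5 : 1 / (2 * T) * d ^ 2 ≤ 1 / (2 * T) * B z :=
      mul_le_mul_of_nonneg_left hz (by positivity)
    linarith
  · rw [nq_hess_add contDiffAt_const hms, nq_hess_const, nq_hess_mul _ hB1.sm, zero_add]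
    have h1 := nq_pos (K.pos i _ hy) hv0
    have h2 : nq (hess B (A.e i (γ 0))) v < 0 := (hB2 v).trans_lt
      (mul_neg_of_neg_of_pos (by linarith) h1)
    have h3 : 0 < 1 / (2 * T) := by positivity
    nlinarith

end

/-- **the energy trick** -/
theorem enStmt (n : ℕ) : EnStmt n := fun M _ _ _ _ A K hP hK =>
  ⟨lb1 hP hK, log_of hK fun x y _ => exists_RV' hP x y, bus hP hK⟩

/-- **module LB** -/
theorem lbStmt (n : ℕ) : LbStmt n := lb_of (enStmt n) (tcStmt n) (Rich.richStmt n)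

end Crest.Agent.T223.Lb
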