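import Crest.Agent.T223.LmAsA_23

/-!
# Row 223, module LIMIT (helper23): assembly `limStmt_of : RegStmt → JetStmt → PropStmt → LimStmt`
-/

set_option autoImplicit false

open Set Filter Topology Metric
open scoped ContDiff ComplexConjugate Matrix ComplexOrder

namespace Crest.Agent.T223.Lm23

open Crest.Agent.R275.Geo Crest.Agent.R275.EDR890
open Crest.Agent.R273.Kah_333 Crest.Agent.R273.Hess_333 Crest.Agent.R273.RMan4_798
open Crest.Agent.R275.Core144 (Jm)
open Crest.Agent.T223.Br Crest.Agent.T223.Tr Crest.Agent.N207.Jt Crest.Agent.T223.Lm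

noncomputable section

variable {n : ℕ} {M : Type} [TopologicalSpace M] [T2Space M] [ConnectedSpace M] {A : Atl n M}
  {K0 : Kah A} {p : M}

/-- the ultrafilter -/
abbrev UU : Filter ℕ := (hyperfilter ℕ : Filter ℕ)

theorem evU {P : ℕ → Prop} (h : ∀ᶠ k in atTop, P k) : ∀ᶠ k in UU, P k :=
  h.filter_mono Nat.hyperfilter_le_atTop

/-- the limit metric in the chart `i` -/
def gl (X : Apx K0 p) (i : A.ι) (t : ℝ) (z : Cn n) : Mat n :=
  Matrix.of fun a b => ul (hyperfilter ℕ) (fun k (r : ℝ × Cn n) => X.G k r.1 i r.2 a b) (t, z)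

/-- `h` agrees with the limit on `(0, ∞) × target` -/
def Agr (X : Apx K0 p) (i : A.ι) (h : ℝ → Cn n → Mat n) : Prop :=
  ∀ s, 0 < s → ∀ w ∈ (A.e i).target, h s w = gl X i s w

theorem isOpen_W (i : A.ι) : IsOpen (Ioi (0 : ℝ) ×ˢ (A.e i).target) :=
  isOpen_Ioi.prod (A.e i).open_target

theorem Agr.ev {X : Apx K0 p} {i : A.ι} {h : ℝ → Cn n → Mat n} (hh : Agr X i h) {t : ℝ}
    (ht : 0 < t) {z : Cn n} (hz : z ∈ (A.e i).target) (a b : Fin n) :
    (fun r : ℝ × Cn n => h r.1 r.2 a b) =ᶠ[𝓝 (t, z)] fun r => gl X i r.1 r.2 a b := by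
  filter_upwards [(isOpen_W i).mem_nhds (mk_mem_prod ht hz)] with r hr
  rw [hh r.1 hr.1 r.2 hr.2]

/-- smooth convergence near a point -/
theorem key (hR : RegStmt n) (X : Apx K0 p) (i : A.ι) {t : ℝ} (ht : 0 < t) {z : Cn n}
    (hz : z ∈ (A.e i).target) :
    ∃ r c : ℝ, 0 < r ∧ 0 < c ∧ closedBall z r ⊆ (A.e i).target ∧
      (∀ᶠ k in UU, ∀ w ∈ closedBall z r, KRFat (fun s => X.G k s i) t w ∧
        ∀ v, c * ‖v‖ ^ 2 ≤ nq (X.G k t i w) v) ∧
      ∀ a b, ContDiffAt ℝ ∞ (fun r : ℝ × Cn n => gl X i r.1 r.2 a b) (t, z) ∧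
        UE UU (fun k (r : ℝ × Cn n) => X.G k r.1 i r.2 a b)
          (fun _ (r : ℝ × Cn n) => gl X i r.1 r.2 a b) fun _ => {t} ×ˢ closedBall z r := by
  obtain ⟨r, c, C, hr, hc, hb, hk⟩ := loc_bounds X i ht hz
  have hk' := evU hk
  have hO : IsOpen (Ioo (t / 2) (2 * t) ×ˢ ball z r) := isOpen_Ioo.prod isOpen_ball
  have hreg := hR ℕ (hyperfilter ℕ) (fun k s => X.G k s i) (Ioo (t / 2) (2 * t) ×ˢ ball z r) c C
    hO hc (hk'.mono fun k h q hq => h q ⟨Ioo_subset_Icc_self hq.1, ball_subset_closedBall hq.2⟩)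
    (Icc (3 * t / 4) (3 * t / 2) ×ˢ closedBall z (r / 2))
    (isCompact_Icc.prod (isCompact_closedBall _ _))
    (prod_mono (Icc_subset_Ioo (by linarith) (by linarith))
      (closedBall_subset_ball (by linarith)))
  have htI : t ∈ Ioo (3 * t / 4) (3 * t / 2) := ⟨by linarith, by linarith⟩
  refine ⟨r / 4, c, by positivity, hc, (closedBall_subset_closedBall (by linarith)).trans hb, ?_,
    fun a b => ?_⟩
  · filter_upwards [hk'] with k h w hw
    have := h (t, w) ⟨⟨by simp only; linarith, by simp only; linarith⟩,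
      closedBall_subset_closedBall (by linarith) hw⟩
    exact ⟨this.1, fun v => (this.2.1 v).1⟩
  · have h1 : UB UU (fun k (r : ℝ × Cn n) => X.G k r.1 i r.2 a b)
        fun _ => Ioo (3 * t / 4) (3 * t / 2) ×ˢ ball z (r / 2) :=
      (hreg a b).mono (Eventually.of_forall fun _ =>
        prod_mono Ioo_subset_Icc_self ball_subset_closedBall)
    have h2 := UB.lim h1 (isOpen_Ioo.prod isOpen_ball)
    refine ⟨h2.1 (t, z) ⟨htI, mem_ball_self (by positivity)⟩, h2.2 _
      (isCompact_singleton.prod (isCompact_closedBall _ _)) ?_⟩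
    exact prod_mono (singleton_subset_iff.2 htI) (closedBall_subset_ball (by linarith))

section pt

variable (hR : RegStmt n) {X : Apx K0 p} {i : A.ι} {h : ℝ → Cn n → Mat n} (hh : Agr X i h)
  {t : ℝ} (ht : 0 < t) {z : Cn n} (hz : z ∈ (A.e i).target)

include hR hh ht hz

theorem Agr.sm (a b : Fin n) : ContDiffAt ℝ ∞ (fun r : ℝ × Cn n => h r.1 r.2 a b) (t, z) := by
  obtain ⟨r, c, -, -, -, -, h2⟩ := key hR X i ht hz
  exact (h2 a b).1.congr_of_eventuallyEq (hh.ev ht hz a b)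

theorem Agr.ge (a b : Fin n) :
    GE UU (fun k (r : ℝ × Cn n) => X.G k r.1 i r.2 a b) (fun _ => (t, z))
      (fun _ (r : ℝ × Cn n) => h r.1 r.2 a b) (fun _ => (t, z)) := by
  obtain ⟨r, c, hr, -, -, -, h2⟩ := key hR X i ht hz
  have h3 := (h2 a b).2.at (e := id) (m := UU) (y := fun _ => (t, z)) tendsto_id
    (Eventually.of_forall fun _ => ⟨rfl, mem_closedBall_self hr.le⟩)
  exact h3.congr_right (Eventually.of_forall fun _ => ⟨rfl, hh.ev ht hz a b⟩)

theorem Agr.val (a b : Fin n) : Tendsto (fun k => X.G k t i z a b) UU (𝓝 (h t z a b)) := by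
  have := (hh.ge hR ht hz a b).val
  exact tendsto_sub_nhds_zero_iff.1 this

theorem Agr.krfk : ∀ᶠ k in UU, KRFat (fun s => X.G k s i) t z := by
  obtain ⟨r, c, hr, -, -, h1, -⟩ := key hR X i ht hz
  exact h1.mono fun k hk => (hk z (mem_closedBall_self hr.le)).1

theorem Agr.pos : (h t z).PosDef := by
  obtain ⟨r, c, hr, hc, -, h1, -⟩ := key hR X i ht hz
  refine posDef_of_nq ?_ hc fun v => ?_
  · ext a b
    rw [Matrix.conjTranspose_apply]
    have h2 : Tendsto (fun k => star (X.G k t i z b a)) UU (𝓝 (star (h t z b a))) :=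
      (hh.val hR ht hz b a).star
    refine tendsto_nhds_unique (h2.congr' ?_) (hh.val hR ht hz a b)
    filter_upwards [h1] with k hk
    exact (hk z (mem_closedBall_self hr.le)).1.pos.self_of_nhds.isHermitian.apply a b
  · exact ge_of_tendsto (tendsto_nq (hh.val hR ht hz) v)
      (h1.mono fun k hk => (hk z (mem_closedBall_self hr.le)).2 v)

variable (hJ : JetStmt n)

include hJ

theorem Agr.jet :
    (∀ s a b, Tendsto (fun k => wd s (fun y => X.G k t i y a b) z) UU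
      (𝓝 (wd s (fun y => h t y a b) z))) ∧
    (∀ a b, Tendsto (fun k => deriv (fun s => X.G k s i z a b) t) UU
      (𝓝 (deriv (fun s => h s z a b) t))) ∧
    (∀ a b, Tendsto (fun k => hess (ldet (X.G k t i)) z a b) UU (𝓝 (hess (ldet (h t)) z a b))) ∧
    (∀ v w, Tendsto (fun k => bis (X.G k t i) z v w) UU (𝓝 (bis (h t) z v w))) ∧
    ∀ (τ : ℝ) (c : ℂ) (a v : Cn n),
      Tendsto (fun k => lyh (fun s => X.G k s i) τ t z c a v) UU (𝓝 (lyh h τ t z c a v)) :=
  hJ ℕ UU (fun k s => X.G k s i) h t z (hh.ge hR ht hz) (hh.pos hR ht hz)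

theorem Agr.closed (a b c : Fin n) :
    wd (false, c) (fun y => h t y a b) z = wd (false, a) (fun y => h t y c b) z := by
  have h1 := (hh.jet hR ht hz hJ).1
  refine tendsto_nhds_unique ((h1 (false, c) a b).congr' ?_) (h1 (false, a) c b)
  filter_upwards [hh.krfk hR ht hz] with k hk
  exact hk.closed.self_of_nhds a b c

theorem Agr.closed' (a b c : Fin n) :
    wd (true, c) (fun y => h t y a b) z = wd (true, b) (fun y => h t y a c) z := by
  have h1 := (hh.jet hR ht hz hJ).1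
  refine tendsto_nhds_unique ((h1 (true, c) a b).congr' ?_) (h1 (true, b) a c)
  filter_upwards [hh.krfk hR ht hz] with k hk
  exact hk.closed'.self_of_nhds a b c

theorem Agr.flow (a b : Fin n) :
    HasDerivAt (fun s => h s z a b) (hess (ldet (h t)) z a b) t := by
  have h1 := hh.jet hR ht hz hJ
  have h2 : deriv (fun s => h s z a b) t = hess (ldet (h t)) z a b := by
    refine tendsto_nhds_unique ((h1.2.1 a b).congr' ?_) (h1.2.2.1 a b)
    filter_upwards [hh.krfk hR ht hz] with k hk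
    exact (hk.flow.self_of_nhds a b).deriv
  rw [← h2]
  have h3 : ContDiffAt ℝ ∞ (fun s : ℝ => h s z a b) t :=
    (hh.sm hR ht hz a b).comp t (contDiffAt_id.prodMk contDiffAt_const)
  exact (h3.differentiableAt (by simp)).hasDerivAt

theorem Agr.krf : KRFat h t z := by
  have hW := (isOpen_W i).mem_nhds (mk_mem_prod (mem_Ioi.2 ht) hz)
  refine ⟨?_, ?_, ?_, ?_, ?_⟩ <;> filter_upwards [hW] with q hq
  · exact hh.sm hR hq.1 hq.2
  · exact hh.pos hR hq.1 hq.2
  · exact hh.closed hR hq.1 hq.2 hJ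
  · exact hh.closed' hR hq.1 hq.2 hJ
  · exact hh.flow hR hq.1 hq.2 hJ

theorem Agr.bk : BKge (h t) z 0 := by
  intro v w
  have hx := (A.e i).map_target hz
  have he := (A.e i).right_inv hz
  have h1 := (hh.jet hR ht hz hJ).2.2.2.1 v w
  have h2 := tendsto_nq (hh.val hR ht hz)
  have h3 : ∀ ε : ℝ, 0 < ε → -(ε * nq (h t z) v * nq (h t z) w) ≤ bis (h t) z v w := by
    intro ε hε
    refine le_of_tendsto_of_tendsto ((((h2 v).const_mul ε).mul (h2 w)).neg) h1 ?_
    filter_upwards [evU (X.bk t {(A.e i).symm z} isCompact_singleton ε hε)] with k hk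
    have := hk t ⟨ht, le_rfl⟩ i _ hx rfl v w
    rwa [he] at this
  have h4 : Tendsto (fun ε : ℝ => -(ε * nq (h t z) v * nq (h t z) w)) (𝓝[>] 0)
      (𝓝 (-(0 * nq (h t z) v * nq (h t z) w))) :=
    (Continuous.tendsto (by fun_prop) 0).mono_left nhdsWithin_le_nhds
  exact le_of_tendsto h4 (eventually_mem_nhdsWithin.mono h3)

theorem Agr.lyh (c : ℂ) (a v : Cn n) : 0 ≤ lyh h t t z c a v := by
  have hx := (A.e i).map_target hz
  have he := (A.e i).right_inv hz
  have h1 := (hh.jet hR ht hz hJ).2.2.2.2 t c a v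
  have h2 := tendsto_nq (hh.val hR ht hz)
  have h3 : ∀ ε : ℝ, 0 < ε →
      -(ε * (‖c‖ ^ 2 + nq (h t z) a) * nq (h t z) v) ≤ T223.lyh h t t z c a v := by
    intro ε hε
    refine le_of_tendsto_of_tendsto (((((h2 a).const_add _).const_mul ε).mul (h2 v)).neg) h1 ?_
    filter_upwards [evU (X.lyh t t {(A.e i).symm z} ht isCompact_singleton ε hε)] with k hk
    have := hk t ⟨le_rfl, le_rfl⟩ i _ hx rfl c a v
    rwa [he] at this
  have h4 : Tendsto (fun ε : ℝ => -(ε * (‖c‖ ^ 2 + nq (h t z) a) * nq (h t z) v)) (𝓝[>] 0)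
      (𝓝 (-(0 * (‖c‖ ^ 2 + nq (h t z) a) * nq (h t z) v))) :=
    (Continuous.tendsto (by fun_prop) 0).mono_left nhdsWithin_le_nhds
  simpa using le_of_tendsto h4 (eventually_mem_nhdsWithin.mono h3)

omit hJ in
theorem Agr.le0 (v : Cn n) : nq (h t z) v ≤ 1 * nq (gc K0 i z) v := by
  have hx := (A.e i).map_target hz
  have he := (A.e i).right_inv hz
  have h2 := tendsto_nq (hh.val hR ht hz)
  have h3 : ∀ ε : ℝ, 0 < ε → nq (h t z) v ≤ (1 + ε) * nq (gc K0 i z) v := by
    intro ε hε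
    refine le_of_tendsto (h2 v) ?_
    filter_upwards [evU (X.upper t {(A.e i).symm z} isCompact_singleton ε hε)] with k hk
    have := hk t ⟨ht, le_rfl⟩ i _ hx rfl v
    rwa [he] at this
  have h4 : Tendsto (fun ε : ℝ => (1 + ε) * nq (gc K0 i z) v) (𝓝[>] 0)
      (𝓝 ((1 + 0) * nq (gc K0 i z) v)) :=
    (Continuous.tendsto (by fun_prop) 0).mono_left nhdsWithin_le_nhds
  simpa using ge_of_tendsto h4 (eventually_mem_nhdsWithin.mono h3)

end pt

theorem agr_gl (X : Apx K0 p) (i : A.ι) : Agr X i (gl X i) := fun _ _ _ _ => rfl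

theorem agr_rd (X : Apx K0 p) (i : A.ι) :
    Agr X i (fun s w => gl X i s (A.e i ((A.e i).symm w))) := fun s _ w hw => by
  simp only [(A.e i).right_inv hw]

theorem gl_tr (hR : RegStmt n) (X : Apx K0 p) {t : ℝ} (ht : 0 < t) (i j : A.ι) (x : M)
    (hx : x ∈ (A.e i).source ∩ (A.e j).source) :
    gl X i t (A.e i x) = (Jm A i j x)ᵀ * gl X j t (A.e j x) * (Jm A i j x).map conj := by
  have h1 := tendsto_mat ((agr_gl X i).val hR ht ((A.e i).map_source hx.1))
  have h2 := tendsto_mat ((agr_gl X j).val hR ht ((A.e j).map_source hx.2))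
  have h3 : Tendsto (fun k => (Jm A i j x)ᵀ * X.G k t j (A.e j x) * (Jm A i j x).map conj) UU
      (𝓝 ((Jm A i j x)ᵀ * gl X j t (A.e j x) * (Jm A i j x).map conj)) :=
    (h2.const_mul _).mul_const _
  refine tendsto_nhds_unique h1 (h3.congr' ?_)
  filter_upwards [evU (X.krf t {x} isCompact_singleton)] with k hk
  exact ((hk t ⟨ht, le_rfl⟩).1 i j x hx rfl).symm

/-- the limit metric at a positive time -/
def Kt (hR : RegStmt n) (hJ : JetStmt n) (X : Apx K0 p) (t : ℝ) (ht : 0 < t) : Kah A where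
  g i x := gl X i t (A.e i x)
  sm i a b z hz := (((agr_rd X i).krf hR ht hz hJ).kahAt.sm a b).contDiffWithinAt
  pos i x hx := (agr_gl X i).pos hR ht ((A.e i).map_source hx)
  tr i j x hx := gl_tr hR X ht i j x hx
  closed i z hz := (agr_rd X i).closed hR ht hz hJ
  closed' i z hz := (agr_rd X i).closed' hR ht hz hJ

/-- the limit flow -/
def Kl (hR : RegStmt n) (hJ : JetStmt n) (X : Apx K0 p) (t : ℝ) : Kah A :=
  if ht : 0 < t then Kt hR hJ X t ht else K0

theorem Kl_g (hR : RegStmt n) (hJ : JetStmt n) (X : Apx K0 p) {t : ℝ} (ht : 0 < t) (i : A.ι)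
    (x : M) : (Kl hR hJ X t).g i x = gl X i t (A.e i x) := by
  rw [Kl, dif_pos ht]
  rfl

theorem agr_Kl (hR : RegStmt n) (hJ : JetStmt n) (X : Apx K0 p) (i : A.ι) :
    Agr X i (fun s => gc (Kl hR hJ X s) i) := fun s hs w hw => by
  simp only [gc, Kl_g hR hJ X hs, (A.e i).right_inv hw]

/-- on a compact set the local flows are eventually bounded by four times the limit -/
theorem le_four (hR : RegStmt n) (X : Apx K0 p) {t : ℝ} (ht : 0 < t) {Q : Set M}
    (hQ : IsCompact Q) : ∀ᶠ k in UU, ∀ x ∈ Q, ∀ i, x ∈ (A.e i).source → ∀ v,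
      nq (X.G k t i (A.e i x)) v ≤ 4 * nq (gl X i t (A.e i x)) v := by
  have h1 : ∀ᶠ k in UU, ∀ x ∈ Q, ∃ j, x ∈ (A.e j).source ∧ ∀ v,
      nq (X.G k t j (A.e j x)) v ≤ 4 * nq (gl X j t (A.e j x)) v := by
    refine hQ.induction_on (p := fun S => ∀ᶠ k in UU, ∀ x ∈ S, ∃ j, x ∈ (A.e j).source ∧ ∀ v,
      nq (X.G k t j (A.e j x)) v ≤ 4 * nq (gl X j t (A.e j x)) v) (by simp)
      (fun S T hST hT => hT.mono fun k hk x hx => hk x (hST hx))
      (fun S T hS hT => ?_) (fun x0 _ => ?_)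
    · filter_upwards [hS, hT] with k h1 h2 x hx
      exact hx.elim (h1 x) (h2 x)
    · obtain ⟨j, hj⟩ := A.cover x0
      obtain ⟨r, c, hr, hc, hb, h1, h2⟩ := key hR X j ht ((A.e j).map_source hj)
      refine ⟨(A.e j).source ∩ A.e j ⁻¹' closedBall (A.e j x0) r, mem_nhdsWithin_of_mem_nhds
        (inter_mem ((A.e j).open_source.mem_nhds hj)
          ((A.e j).continuousAt hj (closedBall_mem_nhds _ hr))), ?_⟩
      have hε : 0 < c / ((n : ℝ) ^ 2 + 1) := by positivity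
      have h3 : ∀ᶠ k in UU, ∀ a b, ∀ w ∈ closedBall (A.e j x0) r,
          ‖X.G k t j w a b - gl X j t w a b‖ ≤ c / ((n : ℝ) ^ 2 + 1) := by
        refine eventually_all.2 fun a => eventually_all.2 fun b => ?_
        filter_upwards [(h2 a b).2.ev 0 hε] with k hk w hw
        have := hk (t, w) ⟨rfl, hw⟩
        rw [iteratedFDeriv_zero_eq_comp, iteratedFDeriv_zero_eq_comp, Function.comp_apply,
          Function.comp_apply, ← map_sub, LinearIsometryEquiv.norm_map] at this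
        exact this.le
      filter_upwards [h3] with k hk x hx
      refine ⟨j, hx.1, fun v => ?_⟩
      have h4 : c * ‖v‖ ^ 2 ≤ nq (gl X j t (A.e j x)) v :=
        ge_of_tendsto (tendsto_nq ((agr_gl X j).val hR ht (hb hx.2)) v)
          (h1.mono fun k hk => (hk _ hx.2).2 v)
      have h5 := (le_abs_self _).trans (abs_nq_le (X.G k t j (A.e j x) - gl X j t (A.e j x)) v
        fun a b => hk a b _ hx.2)
      rw [nq_sub] at h5
      have h6 : (n : ℝ) ^ 2 * (c / ((n : ℝ) ^ 2 + 1)) ≤ c := by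
        rw [← mul_div_assoc, div_le_iff₀ (by positivity)]
        nlinarith
      have h7 : (n : ℝ) ^ 2 * (c / ((n : ℝ) ^ 2 + 1)) * ‖v‖ ^ 2 ≤ c * ‖v‖ ^ 2 := by gcongr
      have h8 : 0 ≤ c * ‖v‖ ^ 2 := by positivity
      linarith
  filter_upwards [h1, evU (X.krf t Q hQ)] with k k1 k2 x hx i hi v
  obtain ⟨j, hj, hv⟩ := k1 x hx
  rw [(k2 t ⟨ht, le_rfl⟩).1 i j x ⟨hi, hj⟩ hx, gl_tr hR X ht i j x ⟨hi, hj⟩]
  have e : Jm A i j x = mat (fderiv ℂ (fun z => A.e j ((A.e i).symm z)) (A.e i x)) := rfl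
  rw [e, nq_pull, nq_pull]
  exact hv _

theorem Kl_proper (hR : RegStmt n) (hJ : JetStmt n) (hP : PropStmt n) (H : Hyp K0) (X : Apx K0 p)
    {t : ℝ} (ht : 0 < t) : ProperSpace (ofKah (Kl hR hJ X t)).M := by
  obtain ⟨C, hC, h⟩ := X.prop t
  refine hP M A K0 (Kl hR hJ X t) p (2 * C) H.proper (by positivity) fun Q hQ => ?_
  obtain ⟨k, k1, k2⟩ := ((evU (h Q hQ)).and (le_four hR X ht hQ)).exists
  obtain ⟨ρ, h1, h2⟩ := k1 t ⟨ht, le_rfl⟩
  refine ⟨ρ, fun i x hx hxQ ε hε => ?_, fun x hx => (h2 x hx).trans ?_⟩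
  · filter_upwards [h1 i x hx hxQ (ε / 2) (by positivity)] with w hw
    refine hw.trans ?_
    have e : gc (Kl hR hJ X t) i (A.e i x) = gl X i t (A.e i x) :=
      agr_Kl hR hJ X i t ht _ ((A.e i).map_source hx)
    rw [e]
    have h3 := Real.sqrt_le_sqrt (k2 x hxQ i hx (w - A.e i x))
    have h4 : √(4 * nq (gl X i t (A.e i x)) (w - A.e i x)) =
        2 * √(nq (gl X i t (A.e i x)) (w - A.e i x)) := by
      rw [Real.sqrt_mul (by norm_num), show (4 : ℝ) = 2 ^ 2 by norm_num,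
        Real.sqrt_sq (by norm_num)]
    rw [h4] at h3
    calc _ ≤ (C + ε / 2) * (2 * √(nq (gl X i t (A.e i x)) (w - A.e i x))) := by gcongr
      _ = _ := by ring
  · have := abs_nonneg (ρ x - ρ p)
    nlinarith

/-- **LIMIT** -/
theorem limStmt_of (hR : RegStmt n) (hJ : JetStmt n) (hP : PropStmt n) : LimStmt n := by
  intro M _ _ _ _ _ A K0 p H X
  refine ⟨⟨Kl hR hJ X, fun t ht i z hz => (agr_Kl hR hJ X i).krf hR ht hz hJ,
    fun t ht i z hz => (agr_Kl hR hJ X i).bk hR ht hz hJ,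
    fun t ht i z hz => (agr_Kl hR hJ X i).lyh hR ht hz hJ, fun t ht i x hx v => ?_,
    fun t ht => Kl_proper hR hJ hP H X ht, ?_⟩⟩
  · have := (agr_gl X i).le0 hR ht ((A.e i).map_source hx) v
    rwa [gc, (A.e i).left_inv hx, ← Kl_g hR hJ X ht] at this
  · obtain ⟨C, hC⟩ := X.sig
    refine ⟨C, fun t ht i hi => ?_⟩
    have hz := (A.e i).map_source hi
    have h1 := tendsto_ldet ((agr_Kl hR hJ X i).pos hR ht hz) ((agr_Kl hR hJ X i).val hR ht hz)
    refine le_of_tendsto (h1.const_sub (ldet (gc K0 i) (A.e i p))) ?_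
    filter_upwards [evU (hC t)] with k hk
    exact hk t ⟨ht, le_rfl⟩ i hi

end

end Crest.Agent.T223.Lm23
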