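import Crest.Agent.T223.LmDef_19

/-!
# Row 223, module LIMIT (helper16): `JetStmt`
-/

set_option autoImplicit false

open Set Filter Topology Metric
open scoped ContDiff ComplexConjugate Matrix ComplexOrder

namespace Crest.Agent.T223.Lm

open Crest.Agent.R275.Geo Crest.Agent.R275.EDR890
open Crest.Agent.R273.Kah_333 Crest.Agent.R273.Hess_333 Crest.Agent.R273.RMan4_798
open Crest.Agent.T223.Br Crest.Agent.T223.Tr Crest.Agent.N207.Jt

namespace J16

variable {n : ℕ} {ι : Type} {l : Filter ι} {q : ℝ × Cn n}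

/-- the space-time jets of `F j` at `q` converge to those of `F'` -/
def JC (l : Filter ι) (q : ℝ × Cn n) (F : ι → ℝ → Cn n → ℂ) (F' : ℝ → Cn n → ℂ) : Prop :=
  GE l (fun j (r : ℝ × Cn n) => F j r.1 r.2) (fun _ => q) (fun _ (r : ℝ × Cn n) => F' r.1 r.2)
    fun _ => q

section scalar

variable {F G : ι → ℝ → Cn n → ℂ} {F' G' : ℝ → Cn n → ℂ}

theorem JC.val (h : JC l q F F') : Tendsto (fun j => F j q.1 q.2) l (𝓝 (F' q.1 q.2)) :=
  have h' := GE.val h
  tendsto_sub_nhds_zero_iff.1 h'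

theorem JC.const (c : ℂ) : JC l q (fun _ _ _ => c) fun _ _ => c := GE.const' c

theorem JC.add (h : JC l q F F') (h' : JC l q G G') :
    JC l q (fun j s y => F j s y + G j s y) fun s y => F' s y + G' s y := GE.add h h'

theorem JC.sub (h : JC l q F F') (h' : JC l q G G') :
    JC l q (fun j s y => F j s y - G j s y) fun s y => F' s y - G' s y := GE.sub h h'

theorem JC.mul (h : JC l q F F') (h' : JC l q G G') :
    JC l q (fun j s y => F j s y * G j s y) fun s y => F' s y * G' s y :=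
  (GE.prodMk h h').smooth (Φ := fun p : ℂ × ℂ => p.1 * p.2) (by fun_prop)

theorem JC.neg (h : JC l q F F') : JC l q (fun j s y => -F j s y) fun s y => -F' s y :=
  GE.smooth (Φ := fun p : ℂ => -p) (by fun_prop) h

theorem JC.sum {α : Type} (S : Finset α) {w : α → ι → ℝ → Cn n → ℂ} {w' : α → ℝ → Cn n → ℂ}
    (h : ∀ a ∈ S, JC l q (w a) (w' a)) :
    JC l q (fun j s y => ∑ a ∈ S, w a j s y) fun s y => ∑ a ∈ S, w' a s y := GE.sum S h

theorem JC.prod {α : Type} (S : Finset α) {w : α → ι → ℝ → Cn n → ℂ} {w' : α → ℝ → Cn n → ℂ}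
    (h : ∀ a ∈ S, JC l q (w a) (w' a)) :
    JC l q (fun j s y => ∏ a ∈ S, w a j s y) fun s y => ∏ a ∈ S, w' a s y := by
  classical
  induction S using Finset.induction_on with
  | empty => simpa using JC.const 1
  | insert a S ha ih =>
    simpa [Finset.prod_insert ha] using (h a (by simp)).mul (ih fun b hb => h b (by simp [hb]))

theorem JC.smoothAt (h : JC l q F F') {Φ : ℂ → ℂ}
    (hΦ : ∀ᶠ z in 𝓝 (F' q.1 q.2), ContDiffAt ℝ ∞ Φ z) :
    JC l q (fun j s y => Φ (F j s y)) fun s y => Φ (F' s y) := by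
  obtain ⟨K, hK, hs, hc⟩ := local_compact_nhds hΦ
  exact GE.smoothOn hc (fun z hz => hs hz) h (h.val.eventually hK)
    (Eventually.of_forall fun _ => mem_of_mem_nhds hK)

theorem JC.inv (h : JC l q F F') (h0 : F' q.1 q.2 ≠ 0) :
    JC l q (fun j s y => (F j s y)⁻¹) fun s y => (F' s y)⁻¹ :=
  h.smoothAt (Φ := fun z => z⁻¹) ((eventually_ne_nhds h0).mono fun _ hz => contDiffAt_inv ℝ hz)

theorem JC.log (h : JC l q F F') (h0 : (F' q.1 q.2).re ≠ 0) :
    JC l q (fun j s y => (Real.log (F j s y).re : ℂ)) fun s y => (Real.log (F' s y).re : ℂ) :=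
  h.smoothAt (Φ := fun z => (Real.log z.re : ℂ))
    ((Complex.continuous_re.continuousAt.eventually_ne h0).mono fun z hz =>
      Complex.ofRealCLM.contDiff.contDiffAt.comp z
        ((Real.contDiffAt_log.2 hz).comp z Complex.reCLM.contDiff.contDiffAt))

theorem ev_diff {f : ℝ × Cn n → ℂ} (h : ContDiffAt ℝ ∞ f q) :
    ∀ᶠ r in 𝓝 q, DifferentiableAt ℝ f r :=
  ((h.of_le (kle 1)).eventually (by simp)).mono fun _ hr => hr.differentiableAt (by simp)

/-- operators that are linear in the first jet -/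
theorem JC.op (h : JC l q F F') (D : (ℝ → Cn n → ℂ) → ℝ → Cn n → ℂ)
    (L : ((ℝ × Cn n) →L[ℝ] ℂ) →L[ℝ] ℂ)
    (hD : ∀ (f : ℝ → Cn n → ℂ) (r : ℝ × Cn n),
      DifferentiableAt ℝ (fun r : ℝ × Cn n => f r.1 r.2) r →
      D f r.1 r.2 = L (fderiv ℝ (fun r : ℝ × Cn n => f r.1 r.2) r)) :
    JC l q (fun j => D (F j)) (D F') := by
  refine ((GE.clm L (GE.fderiv h)).congr_left ?_).congr_right ?_
  · exact h.left.sm.mono fun j hj => ⟨rfl, (ev_diff hj).mono fun r hr => hD _ r hr⟩
  · exact h.right.sm.mono fun j hj => ⟨rfl, (ev_diff hj).mono fun r hr => hD _ r hr⟩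

theorem JC.wd (h : JC l q F F') (σ : WI n) :
    JC l q (fun j s => wd σ (F j s)) fun s => wd σ (F' s) := by
  refine h.op (fun f s => R275.EDR890.wd σ (f s)) ((wdLc σ).comp
    ((ContinuousLinearMap.compL ℝ (Cn n) (ℝ × Cn n) ℂ).flip (ContinuousLinearMap.inr ℝ ℝ (Cn n))))
    fun f r hr => ?_
  have := (HasFDerivAt.comp (g := fun r : ℝ × Cn n => f r.1 r.2) (f := fun w => (r.1, w)) r.2
    hr.hasFDerivAt (hasFDerivAt_prodMk_right r.1 r.2)).fderiv
  exact congrArg (wdL σ) this

theorem JC.dt (h : JC l q F F') :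
    JC l q (fun j t y => deriv (fun s => F j s y) t) fun t y => deriv (fun s => F' s y) t := by
  refine h.op (fun f t y => deriv (fun s => f s y) t)
    (ContinuousLinearMap.apply ℝ ℂ ((1, 0) : ℝ × Cn n)) fun f r hr => ?_
  exact (HasFDerivAt.comp_hasDerivAt (l := fun r : ℝ × Cn n => f r.1 r.2) (f := fun s => (s, r.2))
    r.1 hr.hasFDerivAt ((hasDerivAt_id r.1).prodMk (hasDerivAt_const r.1 r.2))).deriv

end scalar

/-- the matrix valued version -/
def JM (l : Filter ι) (q : ℝ × Cn n) (g : ι → ℝ → Cn n → Mat n) (g' : ℝ → Cn n → Mat n) : Prop :=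
  ∀ a b, JC l q (fun j s y => g j s y a b) fun s y => g' s y a b

section matrix

variable {g h : ι → ℝ → Cn n → Mat n} {g' h' : ℝ → Cn n → Mat n}

theorem JM.add (h1 : JM l q g g') (h2 : JM l q h h') :
    JM l q (fun j s y => g j s y + h j s y) fun s y => g' s y + h' s y :=
  fun a b => (h1 a b).add (h2 a b)

theorem JM.sub (h1 : JM l q g g') (h2 : JM l q h h') :
    JM l q (fun j s y => g j s y - h j s y) fun s y => g' s y - h' s y :=
  fun a b => (h1 a b).sub (h2 a b)

theorem JM.neg (h1 : JM l q g g') : JM l q (fun j s y => -g j s y) fun s y => -g' s y :=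
  fun a b => (h1 a b).neg

theorem JM.smul (h1 : JM l q g g') (c : ℂ) :
    JM l q (fun j s y => c • g j s y) fun s y => c • g' s y :=
  fun a b => (JC.const c).mul (h1 a b)

theorem JM.mul (h1 : JM l q g g') (h2 : JM l q h h') :
    JM l q (fun j s y => g j s y * h j s y) fun s y => g' s y * h' s y :=
  fun a b => JC.sum Finset.univ fun c _ => (h1 a c).mul (h2 c b)

theorem JM.det (h1 : JM l q g g') :
    JC l q (fun j s y => (g j s y).det) fun s y => (g' s y).det := by
  simp only [Matrix.det_apply']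
  exact JC.sum Finset.univ fun σ _ => (JC.const _).mul (JC.prod Finset.univ fun i _ => h1 _ _)

theorem JM.adj (h1 : JM l q g g') :
    JM l q (fun j s y => (g j s y).adjugate) fun s y => (g' s y).adjugate := fun a b => by
  simp only [Matrix.adjugate_apply]
  refine JM.det fun c d => ?_
  simp only [Matrix.updateRow_apply]
  split_ifs
  · exact JC.const _
  · exact h1 c d

theorem JM.inv (h1 : JM l q g g') (h0 : (g' q.1 q.2).det ≠ 0) :
    JM l q (fun j s y => (g j s y)⁻¹) fun s y => (g' s y)⁻¹ := fun a b => by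
  simp only [Matrix.inv_def, Ring.inverse_eq_inv', Matrix.smul_apply, smul_eq_mul]
  exact (h1.det.inv h0).mul (h1.adj a b)

theorem JM.wdM (h1 : JM l q g g') (σ : WI n) :
    JM l q (fun j s => wdM σ (g j s)) fun s => wdM σ (g' s) := fun a b => (h1 a b).wd σ

theorem JM.hess (h1 : JM l q g g') (h0 : (g' q.1 q.2).det.re ≠ 0) :
    JM l q (fun j s => hess (ldet (g j s))) fun s => hess (ldet (g' s)) :=
  fun a b => ((h1.det.log h0).wd (true, b)).wd (false, a)

theorem JM.ric (h1 : JM l q g g') (h0 : (g' q.1 q.2).det.re ≠ 0) :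
    JM l q (fun j s => ric (g j s)) fun s => ric (g' s) := (h1.hess h0).neg

theorem JM.ricT (h1 : JM l q g g') (h0 : (g' q.1 q.2).det.re ≠ 0) :
    JM l q (fun j => ricT (g j)) (ricT g') := fun a b => (h1.ric h0 a b).dt

theorem JM.Rm (h1 : JM l q g g') (h0 : (g' q.1 q.2).det ≠ 0) (c d : Fin n) :
    JM l q (fun j s y => Rm (g j s) y c d) fun s y => Rm (g' s) y c d :=
  ((h1.wdM (true, d)).wdM (false, c)).neg.add
    (((h1.wdM (false, c)).mul (h1.inv h0)).mul (h1.wdM (true, d)))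

theorem JM.nabRic (h1 : JM l q g g') (h0 : (g' q.1 q.2).det.re ≠ 0) (k : Fin n) :
    JM l q (fun j s y => nabRic (g j s) y k) fun s y => nabRic (g' s) y k :=
  ((h1.ric h0).wdM (false, k)).sub
    (((h1.wdM (false, k)).mul (h1.inv fun e => h0 (by rw [e, Complex.zero_re]))).mul (h1.ric h0))

theorem JM.hC (h1 : JM l q g g') (v : Cn n) :
    JC l q (fun j s y => hC (g j s y) v) fun s y => hC (g' s y) v :=
  JC.sum Finset.univ fun a _ => JC.sum Finset.univ fun b _ =>
    ((h1 a b).mul (JC.const _)).mul (JC.const _)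

theorem JC.re {F : ι → ℝ → Cn n → ℂ} {F' : ℝ → Cn n → ℂ} (h : JC l q F F') :
    Tendsto (fun j => (F j q.1 q.2).re) l (𝓝 (F' q.1 q.2).re) :=
  (Complex.continuous_re.tendsto _).comp h.val

theorem JM.nq (h1 : JM l q g g') (v : Cn n) :
    Tendsto (fun j => nq (g j q.1 q.2) v) l (𝓝 (nq (g' q.1 q.2) v)) := (h1.hC v).re

theorem JM.bis (h1 : JM l q g g') (h0 : (g' q.1 q.2).det ≠ 0) (v w : Cn n) :
    Tendsto (fun j => bis (g j q.1) q.2 v w) l (𝓝 (bis (g' q.1) q.2 v w)) :=
  (JC.sum Finset.univ fun a _ => JC.sum Finset.univ fun b _ => JC.sum Finset.univ fun c _ =>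
    JC.sum Finset.univ fun d _ => ((((h1.Rm h0 c d a b).mul (JC.const (v a))).mul
      (JC.const (conj (v b)))).mul (JC.const (w c))).mul (JC.const (conj (w d)))).re

end matrix

end J16

open J16

theorem jetStmt (n : ℕ) : JetStmt n := by
  intro ι l g g' t z h hp
  have h1 : JM l (t, z) g g' := h
  have h0 : (g' t z).det.re ≠ 0 := (Complex.pos_iff.1 hp.det_pos).1.ne'
  have h0' : (g' t z).det ≠ 0 := hp.det_pos.ne'
  refine ⟨fun s a b => ((h1 a b).wd s).val, fun a b => (h1 a b).dt.val,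
    fun a b => (h1.hess h0 a b).val, fun v w => h1.bis h0' v w, fun τ c a v => ?_⟩
  exact (((((h1.ricT h0).add (((h1.ric h0).mul (h1.inv h0')).mul (h1.ric h0))).add
    ((h1.ric h0).smul _)).nq v).const_mul _).add
    (((JC.const (conj c)).mul (JC.sum Finset.univ fun k _ =>
      (JC.const (a k)).mul ((h1.nabRic h0 k).hC v))).re.const_mul 2) |>.add (h1.bis h0' v a)

end Crest.Agent.T223.Lm
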