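import Crest.Agent.R273.RMan2_798

/-!
# Row 223 (helper93): infinitesimally Lipschitz functions along `C¹` paths (chart data `RAtl`)

`RLip R f x c` : `|f y - f x| ≤ (c + ε) |chart y - chart x|_{g(x)}` near `x` (preferred chart),
`rlip_path`    : `|f (γ b) - f (γ a)| ≤ c · length γ` if `RLip` holds at the points of the path.
-/

set_option autoImplicit false
set_option linter.unusedSectionVars false

open Set Filter Topology Metric Manifold Bundle MeasureTheory
open scoped ContDiff Manifold Bundle ENNReal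

noncomputable section

namespace Crest.Agent.T223.Lp93

open Crest.Agent.R273.RMan_798

variable {d : ℕ} {N : Type} [TopologicalSpace N] {R : RAtl d N}

/-- `f` is infinitesimally `c`-Lipschitz at `x` -/
def RLip (R : RAtl d N) (f : R.M → ℝ) (x : R.M) (c : ℝ) : Prop :=
  ∀ ε : ℝ, 0 < ε → ∀ᶠ w in 𝓝 (R.c (R.idx x) x),
    |f ((R.c (R.idx x)).symm w) - f x| ≤
      (c + ε) * √(R.inn x (w - R.c (R.idx x) x) (w - R.c (R.idx x) x))

theorem RLip.neg {f : R.M → ℝ} {x : R.M} {c : ℝ} (h : RLip R f x c) :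
    RLip R (fun y => -f y) x c := by
  intro ε hε
  filter_upwards [h ε hε] with w hw
  rw [← abs_neg]
  convert hw using 2
  ring

/-- the estimate pulled back to the manifold -/
theorem RLip.ev {f : R.M → ℝ} {x : R.M} {c : ℝ} (h : RLip R f x c) {ε : ℝ} (hε : 0 < ε) :
    ∀ᶠ y in 𝓝 x, |f y - f x| ≤ (c + ε) *
      √(R.inn x (R.c (R.idx x) y - R.c (R.idx x) x) (R.c (R.idx x) y - R.c (R.idx x) x)) := by
  have h1 : ContinuousAt (R.ch (R.idx x)) x := (R.ch (R.idx x)).continuousAt (R.idx_mem x)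
  filter_upwards [h1.eventually (h ε hε),
    (R.ch (R.idx x)).open_source.mem_nhds (R.idx_mem x)] with y hy hy'
  have h2 : (R.c (R.idx x)).symm (R.ch (R.idx x) y) = y := (R.ch (R.idx x)).left_inv hy'
  rw [h2] at hy
  exact hy

theorem RLip.continuousAt {f : R.M → ℝ} {x : R.M} {c : ℝ} (h : RLip R f x c) :
    ContinuousAt f x := by
  have h1 : ContinuousAt (fun y : R.M => R.c (R.idx x) y) x :=
    (R.ch (R.idx x)).continuousAt (R.idx_mem x)
  have h2 : ContinuousAt (fun y : R.M => R.c (R.idx x) y - R.c (R.idx x) x) x :=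
    h1.sub continuousAt_const
  have h3 : ContinuousAt (fun y : R.M => (c + 1) *
      √(R.inn x (R.c (R.idx x) y - R.c (R.idx x) x) (R.c (R.idx x) y - R.c (R.idx x) x))) x :=
    continuousAt_const.mul (((R.inn x).continuous₂.continuousAt.comp (h2.prodMk h2)).sqrt)
  have h4 := h3.tendsto
  simp only [sub_self, map_zero, Real.sqrt_zero, mul_zero] at h4
  rw [ContinuousAt, tendsto_iff_dist_tendsto_zero]
  refine squeeze_zero' (Eventually.of_forall fun _ => dist_nonneg) ?_ h4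
  filter_upwards [h.ev one_pos] with y hy
  rwa [Real.dist_eq]

/-- the speed of a path -/
def spd (R : RAtl d N) (γ : ℝ → R.M) (a b t : ℝ) : ℝ :=
  ‖mfderivWithin 𝓘(ℝ, ℝ) (𝓡 d) γ (Icc a b) t (1 : ℝ)‖

theorem spd_nonneg (γ : ℝ → R.M) (a b t : ℝ) : 0 ≤ spd R γ a b t := by
  unfold spd
  exact norm_nonneg _

theorem continuousOn_spd {γ : ℝ → R.M} {a b : ℝ} (hab : a < b)
    (hγ : ContMDiffOn 𝓘(ℝ, ℝ) (𝓡 d) 1 γ (Icc a b)) : ContinuousOn (spd R γ a b) (Icc a b) := by
  have hu : UniqueMDiffOn 𝓘(ℝ, ℝ) (Icc a b) := (uniqueDiffOn_Icc hab).uniqueMDiffOn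
  have h2 := hγ.continuousOn_tangentMapWithin le_rfl hu
  have h3 : Continuous (fun t : ℝ => (⟨t, (1 : ℝ)⟩ : TangentBundle 𝓘(ℝ, ℝ) ℝ)) :=
    (tangentBundleModelSpaceHomeomorph 𝓘(ℝ, ℝ)).symm.continuous.comp
      (continuous_id.prodMk continuous_const)
  have h4 : ContinuousOn (fun t : ℝ => (⟨γ t, mfderivWithin 𝓘(ℝ, ℝ) (𝓡 d) γ (Icc a b) t (1 : ℝ)⟩ :
      TangentBundle (𝓡 d) R.M)) (Icc a b) :=
    h2.comp h3.continuousOn (s := Icc a b) (fun t ht => ht)
  have h5 := ContinuousOn.inner_bundle (F := EE d) h4 h4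
  refine (h5.sqrt).congr fun t _ => ?_
  simp only [spd]
  rw [real_inner_self_eq_norm_sq, Real.sqrt_sq (norm_nonneg _)]

theorem length_eq {γ : ℝ → R.M} {a b : ℝ} (hab : a < b)
    (hγ : ContMDiffOn 𝓘(ℝ, ℝ) (𝓡 d) 1 γ (Icc a b)) :
    pathELength (𝓡 d) γ a b = ENNReal.ofReal (∫ t in a..b, spd R γ a b t) := by
  rw [pathELength_eq_lintegral_mfderivWithin_Icc, intervalIntegral.integral_of_le hab.le,
    ← integral_Icc_eq_integral_Ioc,
    ofReal_integral_eq_lintegral_ofReal (continuousOn_spd hab hγ).integrableOn_Icc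
      (Eventually.of_forall fun t => norm_nonneg _)]
  refine lintegral_congr fun t => ?_
  exact (ofReal_norm _).symm

/-- the derivative of the path read in the preferred chart -/
theorem hasDerivWithinAt_chart {γ : ℝ → R.M} {a b t : ℝ} (ht : t ∈ Icc a b)
    (hγ : ContMDiffOn 𝓘(ℝ, ℝ) (𝓡 d) 1 γ (Icc a b)) :
    HasDerivWithinAt (fun s => R.c (R.idx (γ t)) (γ s))
      (@id (EE d) (mfderivWithin 𝓘(ℝ, ℝ) (𝓡 d) γ (Icc a b) t (1 : ℝ))) (Icc a b) t := by
  have h1 := (hγ.mdifferentiableOn (by simp) t ht).hasMFDerivWithinAt.2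
  simp only [extChartAt_model_space_eq_id, PartialEquiv.refl_symm, PartialEquiv.refl_coe,
    preimage_id, modelWithCornersSelf_coe, range_id, inter_univ, id] at h1
  have h2 : HasFDerivWithinAt (fun s => R.c (R.idx (γ t)) (γ s))
      (@id (ℝ →L[ℝ] EE d) (mfderivWithin 𝓘(ℝ, ℝ) (𝓡 d) γ (Icc a b) t)) (Icc a b) t := h1
  exact h2.hasDerivWithinAt

theorem rlip_le {f : R.M → ℝ} {γ : ℝ → R.M} {a b c : ℝ} (hab : a < b)
    (hγ : ContMDiffOn 𝓘(ℝ, ℝ) (𝓡 d) 1 γ (Icc a b)) (hf : ∀ t ∈ Icc a b, RLip R f (γ t) c) :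
    f (γ b) ≤ f (γ a) + c * ∫ t in a..b, spd R γ a b t := by
  have hc := continuousOn_spd hab hγ
  have hfc : ContinuousOn (fun t => f (γ t)) (Icc a b) := fun t ht =>
    (hf t ht).continuousAt.comp_continuousWithinAt (hγ.continuousOn t ht)
  have hint : IntervalIntegrable (spd R γ a b) volume a b :=
    hc.intervalIntegrable_of_Icc hab.le
  have key := image_le_of_liminf_slope_right_le_deriv_boundary (f := fun t => f (γ t))
    (B := fun s => f (γ a) + c * ∫ t in a..s, spd R γ a b t) (B' := fun s => c * spd R γ a b s)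
    hfc (by simp) ?_ ?_ ?_ (right_mem_Icc.2 hab.le)
  · exact key
  · refine continuousOn_const.add (continuousOn_const.mul ?_)
    have := intervalIntegral.continuousOn_primitive_interval' hint left_mem_uIcc
    rwa [uIcc_of_le hab.le] at this
  · intro t ht
    refine HasDerivWithinAt.const_add _ (HasDerivWithinAt.const_mul c ?_)
    have hm : Icc a b ∈ 𝓝[>] t :=
      mem_of_superset (Ioo_mem_nhdsGT ht.2) fun s hs => ⟨ht.1.trans hs.1.le, hs.2.le⟩
    refine intervalIntegral.integral_hasDerivWithinAt_right (t := Ioi t)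
      ((hc.mono (Icc_subset_Icc_right ht.2.le)).intervalIntegrable_of_Icc ht.1) ?_ ?_
    · exact ⟨Icc a b, hm, hc.aestronglyMeasurable measurableSet_Icc⟩
    · exact (hc t (Ico_subset_Icc_self ht)).mono_of_mem_nhdsWithin hm
  · intro t ht r hr
    have ht' : t ∈ Icc a b := Ico_subset_Icc_self ht
    have hm : Icc a b ∈ 𝓝[>] t :=
      mem_of_superset (Ioo_mem_nhdsGT ht.2) fun s hs => ⟨ht.1.trans hs.1.le, hs.2.le⟩
    set v : EE d := @id (EE d) (mfderivWithin 𝓘(ℝ, ℝ) (𝓡 d) γ (Icc a b) t (1 : ℝ)) with hv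
    set e : ℝ → EE d := fun s => R.c (R.idx (γ t)) (γ s) with he
    have hd : HasDerivWithinAt e v (Ioi t) t :=
      (hasDerivWithinAt_chart ht' hγ).mono_of_mem_nhdsWithin hm
    have hsl : Tendsto (slope e t) (𝓝[>] t) (𝓝 v) :=
      (hasDerivWithinAt_iff_tendsto_slope' self_notMem_Ioi).1 hd
    have hs : spd R γ a b t = √(R.inn (γ t) v v) := by
      simp only [spd]
      rw [← Real.sqrt_sq (norm_nonneg _), ← real_inner_self_eq_norm_sq]
      rfl
    -- choice of `ε`
    obtain ⟨ε, hε, hεr⟩ : ∃ ε : ℝ, 0 < ε ∧ (c + ε) * spd R γ a b t < r := by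
      have h1 : Tendsto (fun ε : ℝ => (c + ε) * spd R γ a b t) (𝓝[>] 0)
          (𝓝 ((c + 0) * spd R γ a b t)) :=
        tendsto_nhdsWithin_of_tendsto_nhds
          (((continuous_const.add continuous_id).mul continuous_const).tendsto 0)
      rw [add_zero] at h1
      obtain ⟨ε, h2, h3⟩ := ((h1.eventually (gt_mem_nhds hr)).and self_mem_nhdsWithin).exists
      exact ⟨ε, h3, h2⟩
    have h1 : Tendsto (fun s => (c + ε) * √(R.inn (γ t) (slope e t s) (slope e t s))) (𝓝[>] t)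
        (𝓝 ((c + ε) * √(R.inn (γ t) v v))) :=
      (((R.inn (γ t)).continuous₂.tendsto (v, v)).comp (hsl.prodMk_nhds hsl)).sqrt.const_mul _
    rw [← hs] at h1
    have hγt : Tendsto γ (𝓝[>] t) (𝓝 (γ t)) :=
      (hγ.continuousOn t ht').mono_of_mem_nhdsWithin hm
    refine Eventually.frequently ?_
    filter_upwards [h1.eventually (gt_mem_nhds hεr), hγt.eventually ((hf t ht').ev hε),
      self_mem_nhdsWithin] with s h2 h3 h4
    refine lt_of_le_of_lt ?_ h2
    have hst : 0 < s - t := sub_pos.2 h4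
    have h5 : R.c (R.idx (γ t)) (γ s) - R.c (R.idx (γ t)) (γ t) = (s - t) • slope e t s := by
      rw [sub_smul_slope]; rfl
    rw [h5] at h3
    have h6 : R.inn (γ t) ((s - t) • slope e t s) ((s - t) • slope e t s) =
        (s - t) ^ 2 * R.inn (γ t) (slope e t s) (slope e t s) := by
      simp only [map_smul, _root_.smul_apply, smul_eq_mul]; ring
    rw [h6, Real.sqrt_mul (sq_nonneg _), Real.sqrt_sq hst.le] at h3
    rw [slope_def_field, div_le_iff₀ hst]
    have h7 := (abs_le.1 h3).2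
    linarith

/-- **Lipschitz bound along a path** -/
theorem rlip_path {f : R.M → ℝ} {γ : ℝ → R.M} {a b c r : ℝ} (hab : a ≤ b) (hc : 0 ≤ c)
    (hγ : ContMDiffOn 𝓘(ℝ, ℝ) (𝓡 d) 1 γ (Icc a b)) (hf : ∀ t ∈ Icc a b, RLip R f (γ t) c)
    (hl : pathELength (𝓡 d) γ a b ≤ ENNReal.ofReal r) (hr : 0 ≤ r) :
    |f (γ b) - f (γ a)| ≤ c * r := by
  rcases hab.eq_or_lt with rfl | hab
  · simp only [sub_self, abs_zero]; positivity
  have h1 := rlip_le hab hγ hf
  have h2 := rlip_le (f := fun y => -f y) hab hγ fun t ht => (hf t ht).neg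
  rw [length_eq hab hγ, ENNReal.ofReal_le_ofReal_iff hr] at hl
  have h3 := mul_le_mul_of_nonneg_left hl hc
  rw [abs_le]
  constructor <;> linarith

end Crest.Agent.T223.Lp93
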