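import Crest.Agent.T223.Fr_38
import Crest.Agent.T223.LipPath_93

/-!
# Row 223 (helper93): `LipOn` along `C¹` paths of `(ofKah K).M`

`inn_eq`       : the inner product of `(ofKah K).M` is `nq (gc K i (e i x))` in the preferred chart,
`exists_path`  : a `C¹` path of length `< r` if `dK K x y < r`,
`lipOn_path`   : `LipOn (gc K) U c ρ` gives `|ρ (γ b) - ρ (γ a)| ≤ c · length` for paths in `U`,
`lipOn_dK`     : the global case `U = univ`.
-/

set_option autoImplicit false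
set_option linter.unusedSectionVars false

open Set Filter Topology Metric Manifold Bundle MeasureTheory
open scoped ContDiff Manifold Bundle ENNReal ComplexConjugate Matrix

noncomputable section

namespace Crest.Agent.T223.Lp93

open Crest.Agent.R275.Geo Crest.Agent.R273.Kah_333 Crest.Agent.R273.Ric_798
open Crest.Agent.R273.RMan_798 Crest.Agent.R273.RMan4_798
open Crest.Agent.T223.Br Crest.Agent.T223.Tr

variable {n : ℕ} {M : Type} [TopologicalSpace M] {A : Atl n M}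

theorem G_KK (K : Kah A) (i : A.ι) (z v : Cn n) : G (KK K i) z v v = nq (gc K i z) v := by
  unfold G nq KK gc
  congr 1
  simp only [dotProduct, Matrix.mulVec, Matrix.transpose_apply, Finset.mul_sum, Pi.star_apply]
  rw [Finset.sum_comm]
  refine Finset.sum_congr rfl fun a _ => Finset.sum_congr rfl fun b _ => ?_
  rw [RCLike.star_def]
  ring

/-- the preferred chart of `(ofKah K).M` at `x` as a chart of `A` -/
def ix (K : Kah A) (x : M) : A.ι := (ofKah K).idx x

theorem ix_mem (K : Kah A) (x : M) : x ∈ (A.e (ix K x)).source := by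
  have h : x ∈ (cR A (ix K x)).source := (ofKah K).idx_mem x
  rwa [cR_source] at h

theorem inn_eq (K : Kah A) (x : M) (v : EE (2 * n)) :
    (ofKah K).inn x v v = nq (gc K (ix K x) (A.e (ix K x) x)) ((eR n).symm v) := by
  have h0 : (eR n).symm (cR A (ix K x) x) = A.e (ix K x) x := by simp
  have hi : (KK K (ix K x) ((eR n).symm (cR A (ix K x) x))).IsHermitian := by
    rw [h0]; exact ((kd K (ix K x)).pd _ ((A.e _).map_source (ix_mem K x))).1
  refine (RAtl.bil_apply (ofKah K) (ix K x) _ v v).trans ?_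
  change ∑ a, ∑ b, hm (eR n) (KK K (ix K x)) (cR A (ix K x) x) a b * v a * v b = _
  rw [sum_hm (eR n) hi, h0, G_KK]

/-- the velocity of a `C¹` path in the preferred chart -/
theorem exists_vel (K : Kah A) {γ : ℝ → (ofKah K).M} {a b t : ℝ} (ht : t ∈ Icc a b)
    (hγ : ContMDiffOn 𝓘(ℝ, ℝ) (𝓡 (2 * n)) 1 γ (Icc a b)) :
    ∃ w : Cn n, HasDerivWithinAt (fun s => A.e (ix K (γ t)) (γ s)) w (Icc a b) t ∧
      nq (gc K (ix K (γ t)) (A.e (ix K (γ t)) (γ t))) w = spd (ofKah K) γ a b t ^ 2 := by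
  have h1 := hasDerivWithinAt_chart ht hγ
  refine ⟨(eR n).symm (@id (EE (2 * n))
    (mfderivWithin 𝓘(ℝ, ℝ) (𝓡 (2 * n)) γ (Icc a b) t (1 : ℝ))), ?_, ?_⟩
  · have h2 := ((eR n).symm : EE (2 * n) →L[ℝ] Cn n).hasFDerivAt.comp_hasDerivWithinAt t h1
    refine h2.congr (fun s _ => ?_) ?_
    · exact ((eR n).symm_apply_apply _).symm
    · exact ((eR n).symm_apply_apply _).symm
  · rw [← inn_eq, spd, ← real_inner_self_eq_norm_sq]
    rfl

theorem rlip_of_lipOn {K : Kah A} {U : Set M} {c : ℝ} {ρ : M → ℝ} (h : LipOn (gc K) U c ρ)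
    {x : M} (hx : x ∈ U) : RLip (ofKah K) ρ x c := by
  intro ε hε
  have h1 := h (ix K x) x (ix_mem K x) hx ε hε
  have h2 : Tendsto (eR n).symm (𝓝 (cR A (ix K x) x)) (𝓝 (A.e (ix K x) x)) := by
    have := (eR n).symm.continuous.tendsto (cR A (ix K x) x)
    simpa using this
  filter_upwards [h2.eventually h1] with w hw
  rw [inn_eq]
  have h3 : (eR n).symm (w - cR A (ix K x) x) = (eR n).symm w - A.e (ix K x) x := by simp
  exact hw.trans_eq (by rw [← h3]; rfl)

theorem LipOn_continuousAt {K : Kah A} {U : Set M} {c : ℝ} {ρ : M → ℝ} (h : LipOn (gc K) U c ρ)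
    {x : M} (hx : x ∈ U) : ContinuousAt ρ x := (rlip_of_lipOn h hx).continuousAt

/-- **`LipOn` along a path** -/
theorem lipOn_path {K : Kah A} {U : Set M} {c : ℝ} {ρ : M → ℝ} (h : LipOn (gc K) U c ρ)
    (hc : 0 ≤ c) {γ : ℝ → (ofKah K).M} {a b r : ℝ} (hab : a ≤ b)
    (hγ : ContMDiffOn 𝓘(ℝ, ℝ) (𝓡 (2 * n)) 1 γ (Icc a b)) (hU : ∀ t ∈ Icc a b, γ t ∈ U)
    (hl : pathELength (𝓡 (2 * n)) γ a b ≤ ENNReal.ofReal r) (hr : 0 ≤ r) :
    |ρ (γ b) - ρ (γ a)| ≤ c * r :=
  rlip_path (R := ofKah K) (f := ρ) hab hc hγ (fun t ht => rlip_of_lipOn h (hU t ht)) hl hr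

variable [T2Space M] [ConnectedSpace M]

theorem exists_path (K : Kah A) {x y : M} {r : ℝ} (h : dK K x y < r) :
    ∃ γ : ℝ → (ofKah K).M, γ 0 = x ∧ γ 1 = y ∧
      ContMDiffOn 𝓘(ℝ, ℝ) (𝓡 (2 * n)) 1 γ (Icc 0 1) ∧
      pathELength (𝓡 (2 * n)) γ 0 1 < ENNReal.ofReal r := by
  have hr0 : 0 < r := lt_of_le_of_lt (dist_nonneg (α := (ofKah K).M)) h
  have h3 : riemannianEDist (M := (ofKah K).M) (𝓡 (2 * n)) x y < ENNReal.ofReal r := by
    rw [← IsRiemannianManifold.out (I := 𝓡 (2 * n)) (M := (ofKah K).M) x y, edist_dist]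
    exact (ENNReal.ofReal_lt_ofReal_iff hr0).2 h
  exact exists_lt_of_riemannianEDist_lt h3

theorem dK_nonneg (K : Kah A) (x y : M) : 0 ≤ dK K x y := dist_nonneg (α := (ofKah K).M)

/-- the global case -/
theorem lipOn_dK {K : Kah A} {c : ℝ} {ρ : M → ℝ} (h : LipOn (gc K) univ c ρ) (hc : 0 ≤ c)
    (x y : M) : |ρ y - ρ x| ≤ c * dK K x y := by
  have h1 : ∀ r, dK K x y < r → |ρ y - ρ x| ≤ c * r := by
    intro r hr
    obtain ⟨γ, h0, h1, hs, hl⟩ := exists_path K hr
    have := lipOn_path h hc zero_le_one hs (fun _ _ => mem_univ _) hl.le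
      ((dK_nonneg K x y).trans hr.le)
    rwa [h0, h1] at this
  have h2 : Tendsto (fun r : ℝ => c * r) (𝓝[>] dK K x y) (𝓝 (c * dK K x y)) :=
    tendsto_nhdsWithin_of_tendsto_nhds ((continuous_const.mul continuous_id).tendsto _)
  exact ge_of_tendsto h2 (eventually_nhdsWithin_of_forall fun r hr => h1 r hr)

end Crest.Agent.T223.Lp93
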