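import Crest.Agent.T223.LmDef_19
import Crest.Agent.T223.LipKah_93

/-!
# Row 223, module LIMIT, leaf PROP (helper93): completeness of the limit metric
-/

set_option autoImplicit false

open Set Filter Topology Metric Manifold
open scoped ContDiff Manifold

namespace Crest.Agent.T223.Lm

open Crest.Agent.R275.Geo Crest.Agent.R273.Kah_333 Crest.Agent.R273.RMan4_798
open Crest.Agent.R273.RMan_798 Crest.Agent.T223.Br Crest.Agent.T223.Tr Crest.Agent.T223.Lp93

theorem propStmt (n : ℕ) : PropStmt n := by
  intro M _ _ _ A K0 K p C hP hC H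
  have key : ∀ (x : M) (r : ℝ), dK K p x < r → dK K0 p x ≤ C * (1 + C * r) := by
    intro x r hr
    obtain ⟨γ, h0, h1, hs, hl⟩ := exists_path K hr
    have hQ : IsCompact (X := M) (γ '' Icc 0 1) := isCompact_Icc.image_of_continuousOn hs.continuousOn
    obtain ⟨ρ, hρ, hd⟩ := H _ hQ
    have h2 := lipOn_path hρ hC zero_le_one hs (fun t ht => mem_image_of_mem γ ht) hl.le
      ((dK_nonneg K p x).trans hr.le)
    rw [h0, h1] at h2
    have h3 := hd x ⟨1, ⟨zero_le_one, le_rfl⟩, h1⟩
    exact h3.trans (by gcongr)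
  refine ProperSpace.of_seq_closedBall (α := (ofKah K).M) (x := p) (l := atTop) (r := fun r : ℝ => r)
    tendsto_id (Eventually.of_forall fun r => ?_)
  have h1 : IsCompact (X := M) (closedBall (α := (ofKah K0).M) p (C * (1 + C * (r + 1)))) :=
    isCompact_closedBall (α := (ofKah K0).M) _ _
  have h2 : IsClosed (X := M) (closedBall (α := (ofKah K).M) p r) :=
    isClosed_closedBall (α := (ofKah K).M)
  refine h1.of_isClosed_subset h2 fun x hx => ?_
  have h3 : dK K p x ≤ r := (mem_closedBall' (α := (ofKah K).M)).1 hx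
  exact (mem_closedBall' (α := (ofKah K0).M)).2 (key x (r + 1) (lt_of_le_of_lt h3 (lt_add_one r)))

end Crest.Agent.T223.Lm
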