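import Crest.Agent.T223.LmD_19
import Crest.Agent.T223.LmJet_16
import Crest.Agent.T223.LmProp_93
import Crest.Agent.T223.LmAsm_23

/-!
# Row 223, module LIMIT (helper19): `LimStmt`
-/

namespace Crest.Agent.T223

theorem limStmt (n : ℕ) : LimStmt n :=
  Lm23.limStmt_of (Lm.regStmt n) (Lm.jetStmt n) (Lm.propStmt n)

end Crest.Agent.T223
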