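import Mathlib

/-!
# Row 223, module NA, leaf AND (helper22): statement of the Andersén lemma

Every holomorphic germ `F = id + O(2)` whose Jacobian determinant is `1 + O(|z|^m)` has the same
`m`-jet as a polynomial automorphism of `ℂⁿ` of bounded degree with bounded coefficients.
(`EuclideanSpace ℂ (Fin n)` is `Cn n` of `R275.Geo`.)
-/

set_option autoImplicit false

open Set Filter Topology Metric

namespace Crest.Agent.T223.And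

/-- an automorphism `Q` of `ℂⁿ` (inverse `Q'`) tangent to the identity at `0`, of polynomial
growth at the scale `1 / β` -/
structure PAut {n : ℕ} (D : ℕ) (C β : ℝ)
    (Q Q' : EuclideanSpace ℂ (Fin n) → EuclideanSpace ℂ (Fin n)) : Prop where
  hol : Differentiable ℂ Q
  hol' : Differentiable ℂ Q'
  li : Function.LeftInverse Q' Q
  ri : Function.RightInverse Q' Q
  gr : ∀ z, ‖Q z‖ ≤ C * ‖z‖ * (1 + β * ‖z‖) ^ D
  gr' : ∀ z, ‖Q' z‖ ≤ C * ‖z‖ * (1 + β * ‖z‖) ^ D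
  tan : ∀ z, β * ‖z‖ ≤ 1 → ‖Q z - z‖ ≤ C * β * ‖z‖ ^ 2
  tan' : ∀ z, β * ‖z‖ ≤ 1 → ‖Q' z - z‖ ≤ C * β * ‖z‖ ^ 2
  det : ∀ z, (fderiv ℂ Q z).det = 1
  det' : ∀ z, (fderiv ℂ Q' z).det = 1

/-- Andersén lemma (with the scale `β`) -/
def AndStmt (n : ℕ) : Prop :=
  ∀ m : ℕ, ∃ (D : ℕ) (C : ℝ), 1 ≤ C ∧ ∀ (β : ℝ)
    (F : EuclideanSpace ℂ (Fin n) → EuclideanSpace ℂ (Fin n)), 0 < β →
    DifferentiableOn ℂ F (ball 0 β⁻¹) →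
    (∀ z ∈ ball (0 : EuclideanSpace ℂ (Fin n)) β⁻¹, ‖F z - z‖ ≤ β * ‖z‖ ^ 2) →
    (∃ K : ℝ, ∀ᶠ z in 𝓝 (0 : EuclideanSpace ℂ (Fin n)),
      ‖(fderiv ℂ F z).det - 1‖ ≤ K * ‖z‖ ^ m) →
    ∃ Q Q', PAut D C β Q Q' ∧
      ∀ z ∈ ball (0 : EuclideanSpace ℂ (Fin n)) β⁻¹,
        ‖Q z - F z‖ ≤ C * β ^ m * ‖z‖ ^ (m + 1) ∧ ‖Q' (F z) - z‖ ≤ C * β ^ m * ‖z‖ ^ (m + 1)

end Crest.Agent.T223.And
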