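import Crest.Agent.T223.AndC_22
import Crest.Agent.T223.AndDef_22

/-!
# Row 223, leaf AND (helper22): proof of the Andersén lemma `andStmt n : AndStmt n`
-/

set_option autoImplicit false
set_option linter.unusedSectionVars false
set_option linter.unusedVariables false

open Set Filter Topology Metric Asymptotics MvPolynomial

namespace Crest.Agent.T223.And

noncomputable section

variable {n : ℕ}

/-- automorphisms of polynomial growth, qualitative tangency -/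
structure PA (D : ℕ) (C : ℝ) (T T' : En n → En n) : Prop where
  one_le : 1 ≤ C
  hol : Differentiable ℂ T
  hol' : Differentiable ℂ T'
  li : Function.LeftInverse T' T
  ri : Function.RightInverse T' T
  gr : ∀ z, ‖T z‖ ≤ C * (1 + ‖z‖) ^ D
  gr' : ∀ z, ‖T' z‖ ≤ C * (1 + ‖z‖) ^ D
  tan : OO 2 (fun z => T z - z)
  tan' : OO 2 (fun z => T' z - z)
  det : ∀ z, (fderiv ℂ T z).det = 1
  det' : ∀ z, (fderiv ℂ T' z).det = 1

theorem PA.symm {D : ℕ} {C : ℝ} {T T' : En n → En n} (h : PA D C T T') : PA D C T' T :=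
  ⟨h.one_le, h.hol', h.hol, h.ri, h.li, h.gr', h.gr, h.tan', h.tan, h.det', h.det⟩

theorem pa_id : PA 1 1 (fun z : En n => z) (fun z => z) := by
  have h1 : ∀ z : En n, ‖z‖ ≤ 1 * (1 + ‖z‖) ^ 1 := fun z => by simp
  have h2 : OO 2 (fun z : En n => z - z) := oo_of_bound (K := 0) (by simp)
  have h3 : ∀ z : En n, (fderiv ℂ (fun z : En n => z) z).det = 1 := fun z => by
    simp [ContinuousLinearMap.det]
  exact ⟨le_rfl, differentiable_id, differentiable_id, fun _ => rfl, fun _ => rfl, h1, h1, h2, h2,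
    h3, h3⟩

theorem gr_comp {D1 D2 : ℕ} {C1 C2 : ℝ} {S T : En n → En n} (h1 : 1 ≤ C1) (h2 : 1 ≤ C2)
    (hS : ∀ z, ‖S z‖ ≤ C1 * (1 + ‖z‖) ^ D1) (hT : ∀ z, ‖T z‖ ≤ C2 * (1 + ‖z‖) ^ D2) (z : En n) :
    ‖T (S z)‖ ≤ (2 * C1) ^ (D2 + 1) * (2 * C2) ^ (D1 + 1) * (1 + ‖z‖) ^ (D1 * D2) := by
  have a1 : 1 ≤ (1 + ‖z‖) ^ D1 := one_le_pow₀ (by simp)
  have a2 : 1 + ‖S z‖ ≤ 2 * C1 * (1 + ‖z‖) ^ D1 := by nlinarith [hS z]
  have a3 : C2 ≤ (2 * C2) ^ (D1 + 1) :=
    (by linarith : C2 ≤ 2 * C2).trans (le_self_pow₀ (by linarith) (by omega))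
  calc ‖T (S z)‖ ≤ C2 * (1 + ‖S z‖) ^ D2 := hT _
    _ ≤ (2 * C2) ^ (D1 + 1) * (2 * C1 * (1 + ‖z‖) ^ D1) ^ D2 := by gcongr
    _ = (2 * C1) ^ D2 * (2 * C2) ^ (D1 + 1) * (1 + ‖z‖) ^ (D1 * D2) := by
      rw [mul_pow (2 * C1), ← pow_mul]; ring
    _ ≤ _ := by gcongr; linarith; omega

theorem tan_comp {S T : En n → En n} (hS : OO 2 (fun z => S z - z))
    (hT : OO 2 (fun z => T z - z)) : OO 2 (fun z => T (S z) - z) := by
  simpa using (hT.comp hS.one_of_tan).add hS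

theorem det_comp {S T : En n → En n} {z : En n} (hS : DifferentiableAt ℂ S z)
    (hT : DifferentiableAt ℂ T (S z)) :
    (fderiv ℂ (fun z => T (S z)) z).det = (fderiv ℂ T (S z)).det * (fderiv ℂ S z).det := by
  rw [fderiv_fun_comp z hT hS, ContinuousLinearMap.det, ContinuousLinearMap.det,
    ContinuousLinearMap.det, ← LinearMap.det_comp]
  rfl

theorem PA.comp {D1 D2 : ℕ} {C1 C2 : ℝ} {S S' T T' : En n → En n} (hS : PA D1 C1 S S')
    (hT : PA D2 C2 T T') : PA (D1 * D2) ((2 * C1) ^ (D2 + 1) * (2 * C2) ^ (D1 + 1))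
      (fun z => T (S z)) (fun z => S' (T' z)) := by
  have h1 := hS.one_le
  have h2 := hT.one_le
  refine ⟨one_le_mul_of_one_le_of_one_le (one_le_pow₀ (by linarith)) (one_le_pow₀ (by linarith)),
    hT.hol.comp hS.hol, hS.hol'.comp hT.hol', fun z => ?_, fun z => ?_,
    gr_comp h1 h2 hS.gr hT.gr, fun z => ?_, tan_comp hS.tan hT.tan, tan_comp hT.tan' hS.tan',
    fun z => ?_, fun z => ?_⟩
  · simp only [hT.li _, hS.li _]
  · simp only [hS.ri _, hT.ri _]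
  · rw [mul_comm D1, mul_comm ((2 * C1) ^ _)]
    exact gr_comp h2 h1 hT.gr' hS.gr' z
  · rw [det_comp (hS.hol _) (hT.hol _), hS.det, hT.det, one_mul]
  · rw [det_comp (hT.hol' _) (hS.hol' _), hS.det', hT.det', one_mul]

theorem shear_det {f : En n → ℂ} {v : En n} (hf : Differentiable ℂ f)
    (hi : ∀ z (t : ℂ), f (z + t • v) = f z) (z : En n) :
    (fderiv ℂ (fun z => z + f z • v) z).det = 1 := by
  have h0 : fderiv ℂ f z v = 0 := by
    have a : HasDerivAt (fun t : ℂ => z + t • v) v 0 := by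
      simpa using ((hasDerivAt_id (0 : ℂ)).smul_const v).const_add z
    have b : HasFDerivAt f (fderiv ℂ f z) (z + (0 : ℂ) • v) := by
      rw [zero_smul, add_zero]; exact (hf z).hasFDerivAt
    have c : HasDerivAt (fun t : ℂ => f (z + t • v)) (fderiv ℂ f z v) 0 :=
      b.comp_hasDerivAt (0 : ℂ) a
    simp only [hi] at c
    exact c.unique (hasDerivAt_const _ _)
  have h1 : HasFDerivAt (fun z => z + f z • v)
      (ContinuousLinearMap.id ℂ _ + (fderiv ℂ f z).smulRight v) z :=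
    (hasFDerivAt_id z).add ((hf z).hasFDerivAt.smul_const v)
  have h2 : ((ContinuousLinearMap.id ℂ _ + (fderiv ℂ f z).smulRight v : En n →L[ℂ] En n) :
      En n →ₗ[ℂ] En n) = LinearMap.transvection (fderiv ℂ f z : En n →ₗ[ℂ] ℂ) v := by
    ext1 w
    rfl
  rw [h1.fderiv, ContinuousLinearMap.det, h2, LinearMap.transvection.det]
  simpa using h0

theorem Sh.bound {k : ℕ} {σ : En n → En n} (h : σ ∈ Sh n k) :
    ∃ K : ℝ, 0 ≤ K ∧ ∀ z, ‖σ z‖ ≤ K * ‖z‖ ^ k := by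
  obtain ⟨p, v, hp, -, rfl⟩ := h
  obtain ⟨K, hK, h⟩ := ev_bound hp
  refine ⟨K * ‖v‖, by positivity, fun z => ?_⟩
  rw [norm_smul]
  calc _ ≤ K * ‖z‖ ^ k * ‖v‖ := by gcongr; exact h z
    _ = _ := by ring

theorem Sh.oo {k : ℕ} {σ : En n → En n} (h : σ ∈ Sh n k) : OO k σ := by
  obtain ⟨K, -, h⟩ := Sh.bound h
  exact oo_of_bound (Eventually.of_forall h)

theorem pa_shear {k : ℕ} {σ : En n → En n} (h : σ ∈ Sh n (k + 2)) {B : ℝ} (hB : 0 ≤ B) :
    ∃ C : ℝ, ∀ c : ℂ, ‖c‖ ≤ B → PA (k + 2) C (fun z => z + c • σ z) (fun z => z + (-c) • σ z) := by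
  obtain ⟨K, hK, hb⟩ := Sh.bound h
  have ho := Sh.oo h
  have hd := Sh.differentiable h
  obtain ⟨p, v, hp, hi, rfl⟩ := h
  have gr : ∀ c : ℂ, ‖c‖ ≤ B → ∀ z : En n,
      ‖z + c • ev p z • v‖ ≤ (1 + B * K) * (1 + ‖z‖) ^ (k + 2) := by
    intro c hc z
    have a1 : ‖z‖ ≤ (1 + ‖z‖) ^ (k + 2) :=
      (by simp : ‖z‖ ≤ 1 + ‖z‖).trans (le_self_pow₀ (by simp) (by omega))
    have a2 : ‖z‖ ^ (k + 2) ≤ (1 + ‖z‖) ^ (k + 2) := by gcongr; simp
    calc _ ≤ ‖z‖ + ‖c‖ * ‖ev p z • v‖ := by rw [← norm_smul]; exact norm_add_le _ _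
      _ ≤ (1 + ‖z‖) ^ (k + 2) + B * (K * (1 + ‖z‖) ^ (k + 2)) := by
        gcongr
        exact (hb z).trans (by gcongr)
      _ = _ := by ring
  have tn : ∀ c : ℂ, OO 2 (fun z : En n => z + c • ev p z • v - z) := by
    intro c
    simpa using (ho.mono (by omega : 2 ≤ k + 2)).smul c
  have dt : ∀ (c : ℂ) z, (fderiv ℂ (fun z : En n => z + c • ev p z • v) z).det = 1 := by
    intro c z
    simp only [smul_smul]
    exact shear_det ((ev_differentiable p).const_mul c) (fun z t => by rw [hi]) z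
  refine ⟨1 + B * K, fun c hc => ⟨by nlinarith [mul_nonneg hB hK], differentiable_id.add (hd.const_smul c),
    differentiable_id.add (hd.const_smul (-c)), fun z => ?_, fun z => ?_, gr c hc,
    gr (-c) (by simpa using hc), tn c, tn (-c), dt c, dt (-c)⟩⟩
  · simp only [smul_smul, hi]
    simp
  · simp only [smul_smul, hi]
    simp

theorem pa_finset {k : ℕ} (s : Finset (En n → En n)) (hs : ∀ σ ∈ s, σ ∈ Sh n (k + 2)) {B : ℝ}
    (hB : 0 ≤ B) : ∃ (D : ℕ) (C : ℝ), ∀ c : (En n → En n) → ℂ, (∀ σ, ‖c σ‖ ≤ B) →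
      ∃ T T', PA D C T T' ∧ OO (k + 3) (fun z => T z - z - ∑ σ ∈ s, c σ • σ z) := by
  classical
  induction s using Finset.induction_on with
  | empty => exact ⟨1, 1, fun c _ => ⟨_, _, pa_id, oo_of_bound (K := 0) (by simp)⟩⟩
  | insert σ s hσ ih =>
    obtain ⟨D, C, h⟩ := ih fun τ hτ => hs τ (Finset.mem_insert_of_mem hτ)
    have h0 := hs σ (Finset.mem_insert_self _ _)
    obtain ⟨C', h'⟩ := pa_shear h0 hB
    refine ⟨D * (k + 2), (2 * C) ^ (k + 2 + 1) * (2 * C') ^ (D + 1), fun c hc => ?_⟩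
    obtain ⟨T, T', hT, ho⟩ := h c hc
    refine ⟨_, _, hT.comp (h' (c σ) (hc σ)), ?_⟩
    have hd : ∀ᶠ z in 𝓝 (0 : En n), DifferentiableAt ℂ σ z :=
      Eventually.of_forall (Sh.differentiable h0)
    have h1 := OO.comp_sub ((Sh.oo h0).fderiv hd) hd hT.tan.one_of_tan oo_id hT.tan
    refine (ho.add (h1.smul (c σ))).congr (Eventually.of_forall fun z => ?_)
    simp only [Finset.sum_insert hσ, smul_sub]
    abel

/-- the hypotheses on the germ -/
structure Hy (F : En n → En n) : Prop where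
  hol : DifferentiableOn ℂ F (ball 0 1)
  bd : ∀ z ∈ ball (0 : En n) 1, ‖F z - z‖ ≤ ‖z‖ ^ 2

theorem Hy.tan {F : En n → En n} (h : Hy F) : OO 2 (fun z => F z - z) := by
  refine oo_of_bound (K := 1) ?_
  filter_upwards [ball_mem_nhds (0 : En n) one_pos] with z hz
  simpa using h.bd z hz

theorem Hy.le_two {F : En n → En n} (h : Hy F) {z : En n} (hz : z ∈ ball (0 : En n) 1) :
    ‖F z‖ ≤ 2 := by
  have h1 := h.bd z hz
  rw [mem_ball_zero_iff] at hz
  have h2 := norm_add_le (F z - z) z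
  rw [sub_add_cancel] at h2
  nlinarith [norm_nonneg z]

theorem Hy.ev {F : En n → En n} (h : Hy F) : ∀ᶠ z in 𝓝 (0 : En n), DifferentiableAt ℂ F z := by
  filter_upwards [ball_mem_nhds (0 : En n) one_pos] with z hz
  exact h.hol.differentiableAt (isOpen_ball.mem_nhds hz)

theorem PA.comp_bd {D : ℕ} {C : ℝ} {T T' F : En n → En n} (hT : PA D C T T') (h : Hy F) {z : En n}
    (hz : z ∈ ball (0 : En n) 1) : ‖T (F z) - z‖ ≤ C * 3 ^ D + 1 := by
  have h1 := hT.one_le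
  have h2 := h.le_two hz
  refine (norm_sub_le _ _).trans (add_le_add ((hT.gr _).trans ?_) (mem_ball_zero_iff.1 hz).le)
  gcongr
  linarith

theorem main_succ (n d : ℕ) : ∃ (D : ℕ) (C : ℝ), ∀ F : En n → En n, Hy F →
    OO (d + 1) (fun z => (fderiv ℂ F z).det - 1) →
    ∃ T T', PA D C T T' ∧ OO (d + 2) (fun z => T (F z) - z) := by
  induction d with
  | zero => exact ⟨1, 1, fun F h _ => ⟨_, _, pa_id, h.tan⟩⟩
  | succ d ih =>
    obtain ⟨D, C, ih⟩ := ih
    obtain ⟨s, B, hB, hs, hc⟩ := coef_bound n (d + 2)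
    obtain ⟨D2, C2, h2⟩ := pa_finset s hs (B := B * (|C| * 3 ^ D + 1)) (by positivity)
    refine ⟨D * D2, (2 * C) ^ (D2 + 1) * (2 * C2) ^ (D + 1), fun F hF hdet => ?_⟩
    obtain ⟨T, T', hT, hH⟩ := ih F hF (hdet.mono (by omega))
    have hC : |C| = C := abs_of_nonneg (by linarith [hT.one_le])
    rw [hC] at h2
    have hC0 := hT.one_le
    set H : En n → En n := fun z => T (F z) - z with hHd
    have hHo : DifferentiableOn ℂ H (ball 0 1) :=
      (hT.hol.comp_differentiableOn hF.hol).sub differentiableOn_id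
    have hHe : ∀ᶠ z in 𝓝 (0 : En n), DifferentiableAt ℂ H z := by
      filter_upwards [ball_mem_nhds (0 : En n) one_pos] with z hz
      exact hHo.differentiableAt (isOpen_ball.mem_nhds hz)
    obtain ⟨p, hp⟩ := hH.lead hHe
    obtain ⟨P, hP, hpP⟩ := diag_poly p
    set Y : En n → En n := ∑ i, fld i (P i) with hY
    have hp' : OO (d + 3) (fun z => H z - Y z) := by
      rw [← hpP]; exact hp
    have hYd : Differentiable ℂ Y := fun z => (fld_sum_hasFDerivAt P z).differentiableAt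
    have hYe : ∀ᶠ z in 𝓝 (0 : En n), DifferentiableAt ℂ Y z := Eventually.of_forall hYd
    -- divergence
    have hdiv : ∑ i, pderiv i (P i) = 0 := by
      have a1 := oo_det.comp_two (hH.fderiv hHe)
      have a2 : OO (d + 2) (fun z => (1 + fderiv ℂ H z).det - 1) := by
        refine hdet.congr ?_
        filter_upwards [hF.ev] with z hz
        have e : 1 + fderiv ℂ H z = fderiv ℂ (fun z => T (F z)) z := by
          have hTF : DifferentiableAt ℂ (fun z => T (F z)) z := (hT.hol _).comp z hz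
          rw [hHd, fderiv_fun_sub hTF differentiableAt_fun_id, fderiv_fun_id]
          ext1 v
          simp
        rw [e, det_comp hz (hT.hol _), hT.det, one_mul]
      have a3 := (hp'.fderiv (hHe.mp (hYe.mono fun z h1 h2 => h2.sub h1))).of_le
        (G := fun z => trE (fderiv ℂ (fun z => H z - Y z) z)) (c := ‖(trE : _ →L[ℂ] ℂ)‖)
        (Eventually.of_forall fun z => trE.le_opNorm _)
      have a4 : OO (d + 2) (ev (∑ i, pderiv i (P i))) := by
        refine ((a2.sub a1).sub a3).congr ?_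
        filter_upwards [hHe] with z hz
        rw [fderiv_fun_sub hz (hYd z), map_sub, hY, trE_fld]
        ring
      have a5 : (∑ i, pderiv i (P i)).IsHomogeneous (d + 1) :=
        IsHomogeneous.sum _ _ _ fun i _ => (hP i).pderiv
      exact ev_ext (hom_zero (fun t z => by rw [ev_hom a5, smul_eq_mul]) a4)
    -- bound
    have hM : ∀ z, ‖Y z‖ ≤ (C * 3 ^ D + 1) * ‖z‖ ^ (d + 2) := by
      refine hom_bound (fun t z => fld_sum_hom hP t z) hp' ?_
      filter_upwards [ball_mem_nhds (0 : En n) one_pos] with z hz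
      simpa using hH.schwarz hHo (fun w hw => hT.comp_bd hF hw) hz
    obtain ⟨c, hc1, hc2⟩ := hc (-Y) (Submodule.neg_mem _ (mem_span_Sh hP hdiv)) (C * 3 ^ D + 1)
      (by positivity) (fun z hz => by
        rw [Pi.neg_apply, norm_neg]
        exact (hM z).trans (mul_le_of_le_one_right (by positivity) (pow_le_one₀ (norm_nonneg _) hz)))
    obtain ⟨S, S', hS, hSo⟩ := h2 c hc1
    refine ⟨_, _, hT.comp hS, ?_⟩
    have hG2 : OO 2 (fun z => T (F z) - z) := hH.mono (by omega)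
    have hG1 : OO 1 (fun z => T (F z)) := hG2.one_of_tan
    have b1 : OO (d + 3) (fun w => S w - w + Y w) := by
      refine hSo.congr ?_
      filter_upwards [closedBall_mem_nhds (0 : En n) one_pos] with w hw
      rw [← hc2 w (mem_closedBall_zero_iff.1 hw), Pi.neg_apply, sub_neg_eq_add]
    have b2 := OO.comp_sub ((oo_of_bound (Eventually.of_forall hM)).fderiv hYe) hYe hG1 oo_id hG2
    refine (((b1.comp hG1).add hp').sub b2).congr (Eventually.of_forall fun z => ?_)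
    simp only [hHd]
    abel

theorem main (n m : ℕ) : ∃ (D : ℕ) (C : ℝ), ∀ F : En n → En n, Hy F →
    OO m (fun z => (fderiv ℂ F z).det - 1) →
    ∃ T T', PA D C T T' ∧ OO (m + 1) (fun z => T (F z) - z) := by
  cases m with
  | zero => exact ⟨1, 1, fun F h _ => ⟨_, _, pa_id, h.tan.mono (by omega)⟩⟩
  | succ d => exact main_succ n d

theorem gr_quant {D : ℕ} {C : ℝ} {T : En n → En n} (hC : 1 ≤ C) (hd : Differentiable ℂ T)
    (gr : ∀ z, ‖T z‖ ≤ C * (1 + ‖z‖) ^ D) (tn : OO 2 (fun z => T z - z)) (z : En n) :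
    ‖T z‖ ≤ (C * 3 ^ D + 2) * ‖z‖ * (1 + ‖z‖) ^ D := by
  have a1 : 1 ≤ (1 + ‖z‖) ^ D := one_le_pow₀ (by simp)
  have a2 : (1 : ℝ) ≤ 3 ^ D := one_le_pow₀ (by norm_num)
  rcases lt_or_ge ‖z‖ 1 with h | h
  · have := tn.one_of_tan.schwarz (R := 1) (M := C * 3 ^ D) hd.differentiableOn
      (fun w hw => (gr w).trans (by
        rw [mem_ball_zero_iff] at hw
        gcongr; linarith)) (mem_ball_zero_iff.2 h)
    simp only [div_one, zero_add, pow_one] at this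
    calc ‖T z‖ ≤ C * 3 ^ D * ‖z‖ * 1 := by simpa using this
      _ ≤ _ := by gcongr; linarith
  · calc ‖T z‖ ≤ C * 1 * (1 + ‖z‖) ^ D := by simpa using gr z
      _ ≤ _ := by gcongr; nlinarith

theorem tan_quant {D : ℕ} {C : ℝ} {T : En n → En n} (hC : 1 ≤ C) (hd : Differentiable ℂ T)
    (gr : ∀ z, ‖T z‖ ≤ C * (1 + ‖z‖) ^ D) (tn : OO 2 (fun z => T z - z)) (z : En n)
    (hz : ‖z‖ ≤ 1) : ‖T z - z‖ ≤ (C * 3 ^ D + 2) * ‖z‖ ^ 2 := by
  have := tn.schwarz (R := 2) (M := C * 3 ^ D + 2) (hd.sub differentiable_id).differentiableOn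
    (fun w hw => by
      rw [mem_ball_zero_iff] at hw
      refine (norm_sub_le _ _).trans (add_le_add ((gr w).trans ?_) hw.le)
      gcongr; linarith) (z := z) (mem_ball_zero_iff.2 (by linarith))
  refine this.trans ?_
  gcongr
  linarith [norm_nonneg z]

theorem and_one (n m : ℕ) : ∃ (D : ℕ) (C : ℝ), 1 ≤ C ∧ ∀ F : En n → En n, Hy F →
    OO m (fun z => (fderiv ℂ F z).det - 1) →
    ∃ Q Q', PAut D C 1 Q Q' ∧ ∀ z ∈ ball (0 : En n) 1,
      ‖Q z - F z‖ ≤ C * ‖z‖ ^ (m + 1) ∧ ‖Q' (F z) - z‖ ≤ C * ‖z‖ ^ (m + 1) := by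
  obtain ⟨D, C, h⟩ := main n m
  refine ⟨D, |C| * 3 ^ D + 2, by
    have : 0 ≤ |C| * 3 ^ D := by positivity
    linarith, fun F hF hdet => ?_⟩
  obtain ⟨T, T', hT, ho⟩ := h F hF hdet
  have hC := hT.one_le
  rw [abs_of_nonneg (by linarith : 0 ≤ C)]
  refine ⟨T', T, ⟨hT.hol', hT.hol, hT.ri, hT.li, ?_, ?_, ?_, ?_, hT.det', hT.det⟩,
    fun z hz => ⟨?_, ?_⟩⟩
  · simpa using gr_quant hC hT.hol' hT.gr' hT.tan'
  · simpa using gr_quant hC hT.hol hT.gr hT.tan
  · simpa using tan_quant hC hT.hol' hT.gr' hT.tan'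
  · simpa using tan_quant hC hT.hol hT.gr hT.tan
  · have hG1 : OO 1 (fun z => T (F z)) := (tan_comp hF.tan hT.tan).one_of_tan
    have he : ∀ᶠ z in 𝓝 (0 : En n), DifferentiableAt ℂ T' z := Eventually.of_forall hT.hol'
    have a1 := OO.comp_sub (oo_zero_fderiv he) he oo_id hG1 (l := m + 1) (by simpa using ho.neg)
    simp only [hT.li _, zero_add] at a1
    have := a1.schwarz (R := 1) (M := C * 3 ^ D + 2) (hT.hol'.differentiableOn.sub hF.hol)
      (fun w hw => by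
        refine (norm_sub_le _ _).trans (add_le_add ((hT.gr' w).trans ?_) (hF.le_two hw))
        rw [mem_ball_zero_iff] at hw
        gcongr; linarith) hz
    simpa using this
  · have := ho.schwarz (R := 1) (M := C * 3 ^ D + 2)
      ((hT.hol.comp_differentiableOn hF.hol).sub differentiableOn_id)
      (fun w hw => (hT.comp_bd hF hw).trans (by linarith)) hz
    simpa using this

theorem fderiv_scale {a : ℂ} (ha : a ≠ 0) {G : En n → En n} {z : En n}
    (hG : DifferentiableAt ℂ G (a • z)) :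
    fderiv ℂ (fun z => a⁻¹ • G (a • z)) z = fderiv ℂ G (a • z) := by
  have h1 : HasFDerivAt (fun z : En n => a • z) (a • ContinuousLinearMap.id ℂ (En n)) z :=
    (hasFDerivAt_id z).const_smul a
  have h2 : HasFDerivAt (fun z => a⁻¹ • G (a • z)) _ z :=
    (hG.hasFDerivAt.comp z h1).const_smul a⁻¹
  rw [h2.fderiv]
  ext1 v
  simp [smul_smul, ha]

theorem PAut.scale {D : ℕ} {C β : ℝ} {Q Q' : En n → En n} (h : PAut D C 1 Q Q') (hβ : 0 < β) :
    PAut D C β (fun z => (β : ℂ)⁻¹ • Q ((β : ℂ) • z)) (fun z => (β : ℂ)⁻¹ • Q' ((β : ℂ) • z)) := by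
  have hb : (β : ℂ) ≠ 0 := by exact_mod_cast hβ.ne'
  have hn : ∀ z : En n, ‖(β : ℂ) • z‖ = β * ‖z‖ := fun z => by
    rw [norm_smul]; simp [abs_of_pos hβ]
  have hn' : ∀ z : En n, ‖(β : ℂ)⁻¹ • z‖ = β⁻¹ * ‖z‖ := fun z => by
    rw [norm_smul]; simp [abs_of_pos hβ]
  have gr : ∀ T : En n → En n, (∀ z, ‖T z‖ ≤ C * ‖z‖ * (1 + 1 * ‖z‖) ^ D) →
      ∀ z, ‖(β : ℂ)⁻¹ • T ((β : ℂ) • z)‖ ≤ C * ‖z‖ * (1 + β * ‖z‖) ^ D := by
    intro T hT z
    have := hT ((β : ℂ) • z)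
    rw [hn, one_mul] at this
    rw [hn', inv_mul_le_iff₀ hβ]
    exact this.trans_eq (by ring)
  have tn : ∀ T : En n → En n, (∀ z, 1 * ‖z‖ ≤ 1 → ‖T z - z‖ ≤ C * 1 * ‖z‖ ^ 2) →
      ∀ z, β * ‖z‖ ≤ 1 → ‖(β : ℂ)⁻¹ • T ((β : ℂ) • z) - z‖ ≤ C * β * ‖z‖ ^ 2 := by
    intro T hT z hz
    have := hT ((β : ℂ) • z) (by rwa [hn, one_mul])
    have e : (β : ℂ)⁻¹ • T ((β : ℂ) • z) - z = (β : ℂ)⁻¹ • (T ((β : ℂ) • z) - (β : ℂ) • z) := by
      rw [smul_sub, inv_smul_smul₀ hb]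
    rw [hn] at this
    rw [e, hn', inv_mul_le_iff₀ hβ]
    exact this.trans_eq (by ring)
  have hl : Differentiable ℂ fun z : En n => (β : ℂ) • z := by fun_prop
  have hd : ∀ T : En n → En n, Differentiable ℂ T →
      Differentiable ℂ (fun z => (β : ℂ)⁻¹ • T ((β : ℂ) • z)) := fun T hT => by fun_prop
  refine ⟨hd Q h.hol, hd Q' h.hol', fun z => ?_, fun z => ?_,
    gr Q h.gr, gr Q' h.gr', tn Q h.tan, tn Q' h.tan', fun z => ?_, fun z => ?_⟩
  · simp only [smul_inv_smul₀ hb, h.li _, inv_smul_smul₀ hb]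
  · simp only [smul_inv_smul₀ hb, h.ri _, inv_smul_smul₀ hb]
  · rw [fderiv_scale hb (h.hol _), h.det]
  · rw [fderiv_scale hb (h.hol' _), h.det']

/-- **Andersén lemma** -/
theorem andStmt (n : ℕ) : AndStmt n := by
  intro m
  obtain ⟨D, C, hC, h⟩ := and_one n m
  refine ⟨D, C, hC, fun β F hβ hF hb hdet => ?_⟩
  have hb0 : (β : ℂ) ≠ 0 := by exact_mod_cast hβ.ne'
  have hn : ∀ z : En n, ‖(β : ℂ) • z‖ = β * ‖z‖ := fun z => by
    rw [norm_smul]; simp [abs_of_pos hβ]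
  have hn' : ∀ z : En n, ‖(β : ℂ)⁻¹ • z‖ = β⁻¹ * ‖z‖ := fun z => by
    rw [norm_smul]; simp [abs_of_pos hβ]
  have hin : ∀ w ∈ ball (0 : En n) 1, (β : ℂ)⁻¹ • w ∈ ball (0 : En n) β⁻¹ := fun w hw => by
    rw [mem_ball_zero_iff] at hw ⊢
    rw [hn']
    exact mul_lt_of_lt_one_right (inv_pos.2 hβ) hw
  set F1 : En n → En n := fun w => (β : ℂ)⁻¹⁻¹ • F ((β : ℂ)⁻¹ • w) with hF1
  have hy : Hy F1 := by
    have hl : Differentiable ℂ fun z : En n => (β : ℂ)⁻¹ • z := by fun_prop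
    have h1 : DifferentiableOn ℂ (fun w => F ((β : ℂ)⁻¹ • w)) (ball 0 1) :=
      hF.comp hl.differentiableOn hin
    refine ⟨h1.fun_const_smul _, fun w hw => ?_⟩
    have := hb _ (hin w hw)
    have e : F1 w - w = (β : ℂ) • (F ((β : ℂ)⁻¹ • w) - (β : ℂ)⁻¹ • w) := by
      rw [smul_sub, smul_inv_smul₀ hb0, hF1, inv_inv]
    rw [e, hn]
    rw [hn'] at this
    calc _ ≤ β * (β * (β⁻¹ * ‖w‖) ^ 2) := by gcongr
      _ = _ := by field_simp
  have ho : OO m (fun z => (fderiv ℂ F1 z).det - 1) := by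
    obtain ⟨K, hK⟩ := hdet
    refine ((oo_of_bound hK).comp (oo_id.smul (β : ℂ)⁻¹)).congr ?_
    filter_upwards [ball_mem_nhds (0 : En n) one_pos] with w hw
    rw [hF1, fderiv_scale (inv_ne_zero hb0) (hF.differentiableAt (isOpen_ball.mem_nhds (hin w hw)))]
  obtain ⟨Q, Q', hQ, hb⟩ := h F1 hy ho
  refine ⟨_, _, hQ.scale hβ, fun z hz => ?_⟩
  have hz' : (β : ℂ) • z ∈ ball (0 : En n) 1 := by
    rw [mem_ball_zero_iff] at hz ⊢
    rw [hn]
    rwa [← lt_inv_mul_iff₀ hβ, mul_one]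
  obtain ⟨h1, h2⟩ := hb _ hz'
  have e : F1 ((β : ℂ) • z) = (β : ℂ) • F z := by simp only [hF1, inv_inv, inv_smul_smul₀ hb0]
  rw [e, hn] at h1 h2
  constructor
  · have e1 : (β : ℂ)⁻¹ • Q ((β : ℂ) • z) - F z =
        (β : ℂ)⁻¹ • (Q ((β : ℂ) • z) - (β : ℂ) • F z) := by rw [smul_sub, inv_smul_smul₀ hb0]
    rw [e1, hn', inv_mul_le_iff₀ hβ]
    exact h1.trans_eq (by ring)
  · have e1 : (β : ℂ)⁻¹ • Q' ((β : ℂ) • F z) - z =
        (β : ℂ)⁻¹ • (Q' ((β : ℂ) • F z) - (β : ℂ) • z) := by rw [smul_sub, inv_smul_smul₀ hb0]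
    rw [e1, hn', inv_mul_le_iff₀ hβ]
    exact h2.trans_eq (by ring)

end

end Crest.Agent.T223.And
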