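import Crest.Agent.T223.DynDef_20

/-!
# Row 223, module DYN (helper66): the leaf DIV
-/

set_option autoImplicit false

open Set Filter Topology Metric Asymptotics

namespace Crest.Agent.T223.Dyn

noncomputable section

namespace Div66

variable {n : ℕ}

/-- the matrix of an operator -/
def mat (T : EE n →L[ℂ] EE n) : Matrix (Fin n) (Fin n) ℂ :=
  fun i j => T (EuclideanSpace.single j 1) i

theorem det_eq (T : EE n →L[ℂ] EE n) : T.det = (mat T).det := by
  rw [ContinuousLinearMap.det, ← LinearMap.det_toMatrix (EuclideanSpace.basisFun (Fin n) ℂ).toBasis]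
  rfl

theorem contDiff_det : ContDiff ℂ 1 fun T : EE n →L[ℂ] EE n => T.det := by
  simp only [det_eq, Matrix.det_apply', mat]
  refine ContDiff.sum fun σ _ => contDiff_const.mul (contDiff_prod fun i _ => ?_)
  exact ((EuclideanSpace.proj (σ i) : EE n →L[ℂ] ℂ).comp
    (ContinuousLinearMap.apply ℂ (EE n) (EuclideanSpace.single i (1 : ℂ)))).contDiff

theorem fderiv_det_one (M : EE n →L[ℂ] EE n) :
    fderiv ℂ (fun T : EE n →L[ℂ] EE n => T.det) 1 M = ∑ l, M (EuclideanSpace.single l 1) l := by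
  have h1 : HasDerivAt (fun r : ℂ => (1 + r • M : EE n →L[ℂ] EE n)) M 0 := by
    simpa using ((hasDerivAt_id (0 : ℂ)).smul_const M).const_add 1
  have h2 : HasFDerivAt (fun T : EE n →L[ℂ] EE n => T.det)
      (fderiv ℂ (fun T : EE n →L[ℂ] EE n => T.det) 1) (1 + (0 : ℂ) • M) := by
    rw [show (1 + (0 : ℂ) • M : EE n →L[ℂ] EE n) = 1 by ext; simp]
    exact (contDiff_det.differentiable one_ne_zero _).hasFDerivAt
  have h3 := h2.comp_hasDerivAt 0 h1
  obtain ⟨p, hp⟩ : ∃ p : Polynomial ℂ, ∀ r : ℂ, (1 + r • mat M).det =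
      1 + (mat M).trace * r + p.eval r * r ^ 2 := ⟨_, fun r => Matrix.det_one_add_smul r _⟩
  have h4 : ((fun T : EE n →L[ℂ] EE n => T.det) ∘ fun r : ℂ => (1 + r • M : EE n →L[ℂ] EE n)) =
      fun r => 1 + (mat M).trace * r + p.eval r * r ^ 2 := by
    funext r
    rw [Function.comp_apply, det_eq, ← hp]
    congr 1
    ext i j
    simp [mat, Matrix.one_apply]
  rw [h4] at h3
  have h5 := (((hasDerivAt_id (0 : ℂ)).const_mul (mat M).trace).const_add 1).add
    ((p.hasDerivAt 0).mul (hasDerivAt_pow 2 (0 : ℂ)))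
  have h6 := h3.unique h5
  simpa [Matrix.trace, mat] using h6

/-- Cauchy estimate near the origin -/
theorem cauchy {f : EE n → EE n} (hf : ∀ᶠ x in 𝓝 (0 : EE n), DifferentiableAt ℂ f x) {k : ℕ}
    {C : ℝ} (h : ∀ᶠ x in 𝓝 (0 : EE n), ‖f x‖ ≤ C * ‖x‖ ^ (k + 1)) (hC : 0 ≤ C) :
    ∀ᶠ x in 𝓝 (0 : EE n), x ≠ 0 → ‖fderiv ℂ f x‖ ≤ C * 2 ^ (k + 2) * ‖x‖ ^ k := by
  obtain ⟨r, hr, h1⟩ := Metric.eventually_nhds_iff_ball.1 (hf.and h)
  filter_upwards [ball_mem_nhds (0 : EE n) (half_pos hr)] with x hx h0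
  rw [mem_ball_zero_iff] at hx
  have hx0 : 0 < ‖x‖ := norm_pos_iff.2 h0
  have h2 : ∀ y ∈ ball x ‖x‖, ‖y‖ ≤ 2 * ‖x‖ := fun y hy => by
    have := norm_lt_of_mem_ball hy
    linarith
  have h3 : ∀ y, ‖y‖ ≤ 2 * ‖x‖ → y ∈ ball (0 : EE n) r := fun y hy =>
    mem_ball_zero_iff.2 (by linarith)
  have h4 : ∀ y, ‖y‖ ≤ 2 * ‖x‖ → ‖f y‖ ≤ C * (2 * ‖x‖) ^ (k + 1) := fun y hy =>
    (h1 y (h3 y hy)).2.trans (by gcongr)
  refine (Complex.norm_fderiv_le_div_of_mapsTo_ball (R₂ := 2 * (C * (2 * ‖x‖) ^ (k + 1)))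
    (fun y hy => (h1 y (h3 y (h2 y hy))).1.differentiableWithinAt) (fun y hy => ?_) hx0).trans
    (le_of_eq ?_)
  · rw [mem_closedBall, dist_eq_norm]
    exact (norm_sub_le _ _).trans (by linarith [h4 y (h2 y hy), h4 x (by linarith)])
  · field_simp
    ring

theorem differentiable_hev {d : ℕ} (c : Arr n d) : Differentiable ℂ (hev c) := by
  unfold hev mono
  fun_prop

theorem hev_smul {d : ℕ} (c : Arr n d) (t : ℂ) (x : EE n) : hev c (t • x) = t ^ d • hev c x := by
  simp [hev, mono, Finset.prod_mul_distrib, Finset.smul_sum, mul_smul]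

theorem fderiv_smul {H : EE n → EE n} (hH : Differentiable ℂ H) {k : ℕ}
    (h : ∀ (t : ℂ) x, H (t • x) = t ^ (k + 1) • H x) {t : ℂ} (ht : t ≠ 0) (x : EE n) :
    fderiv ℂ H (t • x) = t ^ k • fderiv ℂ H x := by
  have h1 : HasFDerivAt (fun y => H (t • y)) ((fderiv ℂ H (t • x)).comp (t • ContinuousLinearMap.id ℂ _)) x :=
    (hH (t • x)).hasFDerivAt.comp x ((hasFDerivAt_id x).const_smul t)
  simp only [h] at h1
  have h2 := h1.unique ((hH x).hasFDerivAt.const_smul (t ^ (k + 1)))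
  refine smul_right_injective _ ht ?_
  rw [ContinuousLinearMap.comp_smul, ContinuousLinearMap.comp_id, pow_succ', mul_smul] at h2
  exact h2

/-- the case `L = 1` -/
theorem key {A B H : EE n → EE n} {k : ℕ} (hk : 1 ≤ k) (hH : Differentiable ℂ H)
    (hh : ∀ (t : ℂ) x, H (t • x) = t ^ (k + 1) • H x)
    (hA : ∀ᶠ x in 𝓝 (0 : EE n), DifferentiableAt ℂ A x)
    (hB : ∀ᶠ x in 𝓝 (0 : EE n), DifferentiableAt ℂ B x)
    (hB' : HasFDerivAt B (1 : EE n →L[ℂ] EE n) 0)
    (hdet : ∀ᶠ x in 𝓝 (0 : EE n), (fderiv ℂ A x).det = (fderiv ℂ B x).det)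
    (hO : (fun x => A x - B x - H x) =O[𝓝 0] fun x => ‖x‖ ^ (k + 2)) (x : EE n) :
    divg H x = 0 := by
  by_cases hx : x = 0
  · have h1 := fderiv_smul hH hh two_ne_zero (0 : EE n)
    rw [smul_zero] at h1
    have h2 : ∀ v l, ((2 : ℂ) ^ k - 1) * fderiv ℂ H 0 v l = 0 := fun v l => by
      have h2 : fderiv ℂ H 0 v l = 2 ^ k * fderiv ℂ H 0 v l := congrArg (fun T => T v l) h1
      rw [sub_mul, one_mul, ← h2, sub_self]
    have h3 : (2 : ℂ) ^ k - 1 ≠ 0 := by
      rw [sub_ne_zero]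
      exact_mod_cast (Nat.one_lt_two_pow (by omega)).ne'
    rw [hx]
    exact Finset.sum_eq_zero fun l _ => (mul_eq_zero.1 (h2 _ l)).resolve_left h3
  set M := fderiv ℂ H x with hM
  have hl : Tendsto (fun t : ℂ => t • x) (𝓝[≠] 0) (𝓝 0) := by
    refine tendsto_nhdsWithin_of_tendsto_nhds ?_
    exact (show Continuous fun t : ℂ => t • x by fun_prop).tendsto' 0 0 (zero_smul _ _)
  have hne : ∀ᶠ t : ℂ in 𝓝[≠] 0, t ≠ 0 := self_mem_nhdsWithin
  -- the remainder
  have hR : ∀ᶠ y in 𝓝 (0 : EE n), DifferentiableAt ℂ (fun x => A x - B x - H x) y := by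
    filter_upwards [hA, hB] with y h1 h2 using (h1.sub h2).sub (hH y)
  obtain ⟨C, hC, hO⟩ := hO.exists_nonneg
  have hE : (fun t : ℂ => fderiv ℂ (fun x => A x - B x - H x) (t • x)) =o[𝓝[≠] 0]
      fun t => t ^ k := by
    have h1 := cauchy hR (k := k + 1) (C := C) (by simpa using hO.bound) hC
    have h2 : (fun t : ℂ => fderiv ℂ (fun x => A x - B x - H x) (t • x)) =O[𝓝[≠] 0]
        fun t => t ^ (k + 1) := by
      refine IsBigO.of_bound (C * 2 ^ (k + 1 + 2) * ‖x‖ ^ (k + 1)) ?_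
      filter_upwards [hl.eventually h1, hne] with t h3 h4
      refine (h3 (smul_ne_zero h4 hx)).trans (le_of_eq ?_)
      rw [norm_smul, norm_pow]
      ring
    exact h2.trans_isLittleO ((isLittleO_pow_pow (Nat.lt_succ_self k)).mono nhdsWithin_le_nhds)
  have hD : ∀ᶠ t : ℂ in 𝓝[≠] 0, fderiv ℂ A (t • x) - fderiv ℂ B (t • x) =
      t ^ k • M + fderiv ℂ (fun x => A x - B x - H x) (t • x) := by
    filter_upwards [hl.eventually hA, hl.eventually hB, hne] with t h1 h2 h3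
    rw [fderiv_fun_sub (h1.fun_sub h2) (hH _), fderiv_fun_sub h1 h2, fderiv_smul hH hh h3]
    abel
  have hO1 : (fun t : ℂ => fderiv ℂ A (t • x) - fderiv ℂ B (t • x)) =O[𝓝[≠] 0] fun t => t ^ k := by
    refine IsBigO.congr' ?_ (EventuallyEq.symm hD) EventuallyEq.rfl
    refine IsBigO.add (IsBigO.of_bound ‖M‖ (Eventually.of_forall fun t => ?_)) hE.isBigO
    rw [norm_smul, mul_comm]
  have hB1 : Tendsto (fun t : ℂ => fderiv ℂ B (t • x)) (𝓝[≠] 0) (𝓝 1) := by
    rw [Metric.tendsto_nhds]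
    intro ε hε
    have h1 : ∀ᶠ y in 𝓝 (0 : EE n), DifferentiableAt ℂ (fun y => B y - B 0 - y) y := by
      filter_upwards [hB] with y h1 using (h1.sub_const _).sub differentiableAt_id
    have h2 := cauchy h1 (k := 0) (C := ε / 8)
      (by simpa using hB'.isLittleO.def (by positivity : 0 < ε / 8)) (by positivity)
    filter_upwards [hl.eventually h2, hl.eventually hB, hne] with t h3 h4 h5
    have h6 := h3 (smul_ne_zero h5 hx)
    rw [fderiv_fun_sub (h4.sub_const _) differentiableAt_fun_id, fderiv_sub_const,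
      fderiv_fun_id] at h6
    rw [dist_eq_norm]
    exact lt_of_le_of_lt h6 (by linarith)
  have hA1 : Tendsto (fun t : ℂ => fderiv ℂ A (t • x)) (𝓝[≠] 0) (𝓝 1) := by
    have h1 : Tendsto (fun t : ℂ => t ^ k) (𝓝[≠] 0) (𝓝 0) := by
      refine tendsto_nhdsWithin_of_tendsto_nhds ?_
      simpa [zero_pow (by omega : k ≠ 0)] using (continuous_pow k).tendsto (0 : ℂ)
    simpa using (hO1.trans_tendsto h1).add hB1
  have hS := (contDiff_det (n := n)).contDiffAt.hasStrictFDerivAt (x := 1) one_ne_zero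
  set φ := fderiv ℂ (fun T : EE n →L[ℂ] EE n => T.det) 1 with hφ
  have h1 := (hS.isLittleO.comp_tendsto (hA1.prodMk_nhds hB1)).trans_isBigO hO1
  have h2 := (φ.isBigO_comp _ _).trans_isLittleO hE
  have h3 : (fun t : ℂ => t ^ k * φ M) =o[𝓝[≠] 0] fun t => t ^ k := by
    refine (h1.add h2).neg_left.congr' ?_ EventuallyEq.rfl
    filter_upwards [hD, hl.eventually hdet] with t h4 h5
    simp only [Function.comp_apply, h4, h5, map_add, map_smul, smul_eq_mul]
    ring
  rw [divg, ← hM, ← fderiv_det_one]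
  by_contra h4
  have h5 : (fun t : ℂ => t ^ k) =o[𝓝[≠] 0] fun t => t ^ k := by
    refine (h3.const_mul_left (φ M)⁻¹).congr_left fun t => ?_
    rw [mul_left_comm, inv_mul_cancel₀ h4, mul_one]
  exact isLittleO_irrefl (hne.mono fun t ht => pow_ne_zero k ht).frequently h5

end Div66

open Div66 in
theorem divStmt (n : ℕ) : DivStmt n := by
  intro d A B L c hd hA hB hB' hdet hO
  obtain ⟨k, rfl⟩ : ∃ k, d = k + 1 := ⟨d - 1, by omega⟩
  refine key (A := fun y => L.symm (A y)) (B := fun y => L.symm (B y)) (k := k) (by omega)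
    (L.symm.differentiable.comp (differentiable_hev c)) (fun t x => by rw [hev_smul, map_smul])
    (hA.mono fun y h => L.symm.differentiableAt.comp y h)
    (hB.mono fun y h => L.symm.differentiableAt.comp y h) ?_ ?_ ?_
  · have := L.symm.hasFDerivAt.comp 0 hB'
    rwa [show (L.symm : EE n →L[ℂ] EE n).comp (L : EE n →L[ℂ] EE n) = 1 by ext1 y; simp] at this
  · filter_upwards [hdet] with y h
    have e : ∀ f : EE n → EE n, (fderiv ℂ (fun y => L.symm (f y)) y).det =
        (L.symm : EE n →L[ℂ] EE n).det * (fderiv ℂ f y).det := fun f => by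
      rw [show (fun y => L.symm (f y)) = L.symm ∘ f from rfl, L.symm.comp_fderiv]
      exact LinearMap.det_comp _ _
    rw [e, e, h]
  · refine (((L.symm : EE n →L[ℂ] EE n).isBigO_comp (fun x => A x - B x - hev c x) _).trans
      hO).congr_left fun x => ?_
    simp

end

end Crest.Agent.T223.Dyn
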