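import Crest.Agent.T223.DynDef_20

/-!
# Row 223, module DYN (helper60): the homological equation
-/

set_option autoImplicit false

open Set Filter Topology Metric

namespace Crest.Agent.T223.Dyn

noncomputable section

namespace H60

variable {n d : ℕ}

/-- inverse limit of a sequence of continuous maps between compact sets -/
theorem invlim {α : Type*} [TopologicalSpace α] [T2Space α] (S : ℕ → Set α) (Φ : ℕ → α → α)
    (hS : ∀ i, IsCompact (S i)) (hne : ∀ i, (S i).Nonempty) (hΦ : ∀ i, Continuous (Φ i))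
    (hm : ∀ i, MapsTo (Φ i) (S (i + 1)) (S i)) :
    ∃ q : ℕ → α, (∀ i, q i ∈ S i) ∧ ∀ i, q i = Φ i (q (i + 1)) := by
  let K : ℕ → Set (ℕ → α) := fun N => Set.pi univ S ∩ ⋂ i < N, {q | q i = Φ i (q (i + 1))}
  have hc : ∀ N, IsClosed (⋂ i < N, {q : ℕ → α | q i = Φ i (q (i + 1))}) := fun N =>
    isClosed_biInter fun i _ => isClosed_eq (continuous_apply i)
      ((hΦ i).comp (continuous_apply _))
  have hK : ∀ N, IsCompact (K N) := fun N => (isCompact_univ_pi hS).inter_right (hc N)
  have hn : ∀ N, ∀ x ∈ S N, ∃ q ∈ K N, q N = x := by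
    intro N
    induction N with
    | zero =>
      intro x hx
      classical
      refine ⟨Function.update (fun i => (hne i).some) 0 x, ⟨fun i _ => ?_, by simp⟩, by simp⟩
      rcases eq_or_ne i 0 with rfl | h
      · simpa using hx
      · simpa [h] using (hne i).some_mem
    | succ N ih =>
      intro x hx
      obtain ⟨q, ⟨h1, h2⟩, h3⟩ := ih _ (hm N hx)
      simp only [mem_iInter, mem_ofPred_eq] at h2
      refine ⟨Function.update q (N + 1) x, ⟨fun i _ => ?_, ?_⟩, by simp⟩
      · rcases eq_or_ne i (N + 1) with rfl | h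
        · simpa using hx
        · simpa [h] using h1 i trivial
      · simp only [mem_iInter, mem_ofPred_eq]
        intro i hi
        rw [Function.update_of_ne (by omega)]
        rcases eq_or_ne i N with rfl | h
        · simpa using h3
        · rw [Function.update_of_ne (by omega)]; exact h2 i (by omega)
  obtain ⟨q, hq⟩ := IsCompact.nonempty_iInter_of_sequence_nonempty_isCompact_isClosed K
    (fun N => inter_subset_inter_right _ (biInter_subset_biInter_left fun i (hi : i < N) =>
      (by omega : i < N + 1)))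
    (fun N => let ⟨x, hx⟩ := hne N; let ⟨q, hq, _⟩ := hn N x hx; ⟨q, hq⟩) (hK 0)
    fun N => (hK N).isClosed
  rw [mem_iInter] at hq
  refine ⟨q, fun i => (hq 0).1 i trivial, fun i => ?_⟩
  have := (hq (i + 1)).2
  simp only [mem_iInter, mem_ofPred_eq] at this
  exact this i (by omega)

theorem norm_le_of_comp {x y : EE n} {t : ℝ} (ht : 0 ≤ t) (h : ∀ l, ‖x l‖ ≤ t * ‖y l‖) :
    ‖x‖ ≤ t * ‖y‖ := by
  refine (abs_le_of_sq_le_sq' ?_ (by positivity)).2
  rw [mul_pow, EuclideanSpace.norm_sq_eq, EuclideanSpace.norm_sq_eq, Finset.mul_sum]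
  exact Finset.sum_le_sum fun l _ => by
    rw [← mul_pow]; exact pow_le_pow_left₀ (norm_nonneg _) (h l) 2

theorem hev_add (c c' : Arr n d) (x : EE n) : hev (c + c') x = hev c x + hev c' x := by
  simp [hev, Finset.sum_add_distrib]

theorem hev_sub (c c' : Arr n d) (x : EE n) : hev (c - c') x = hev c x - hev c' x := by
  simp [hev, smul_sub]

theorem mono_diff (w : Fin d → Fin n) : Differentiable ℂ (mono w) := by
  unfold mono; fun_prop

theorem hev_diff (c : Arr n d) : Differentiable ℂ (hev c) := by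
  have := @mono_diff n d
  unfold hev; fun_prop

theorem divg_hev (c : Arr n d) (x : EE n) : divg (hev c) x =
    ∑ l, ∑ w, fderiv ℂ (mono w) x (EuclideanSpace.single l 1) * c w l := by
  have h : HasFDerivAt (hev c) (∑ w, (fderiv ℂ (mono w) x).smulRight (c w)) x :=
    HasFDerivAt.fun_sum fun w _ => (mono_diff w x).hasFDerivAt.smul_const (c w)
  simp [divg, h.fderiv]

theorem divg_hev_add (c c' : Arr n d) (x : EE n) :
    divg (hev (c + c')) x = divg (hev c) x + divg (hev c') x := by
  simp [divg_hev, mul_add, Finset.sum_add_distrib]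

theorem divg_hev_sub (c c' : Arr n d) (x : EE n) :
    divg (hev (c - c')) x = divg (hev c) x - divg (hev c') x := by
  simp [divg_hev, mul_sub]

theorem divg_eq_trace (g : EE n → EE n) (x : EE n) :
    divg g x = LinearMap.trace ℂ (EE n) (fderiv ℂ g x) := by
  rw [LinearMap.trace_eq_matrix_trace ℂ (EuclideanSpace.basisFun (Fin n) ℂ).toBasis]
  simp [divg, Matrix.trace, LinearMap.toMatrix_apply]

theorem divg_conj (L : EE n ≃L[ℂ] EE n) {g : EE n → EE n} (hg : Differentiable ℂ g) (x : EE n) :
    divg (fun y => L.symm (g (L y))) x = divg g (L x) := by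
  have h : HasFDerivAt (fun y => L.symm (g (L y))) ((L.symm : EE n →L[ℂ] EE n).comp
      ((fderiv ℂ g (L x)).comp (L : EE n →L[ℂ] EE n))) x :=
    L.symm.hasFDerivAt.comp x ((hg _).hasFDerivAt.comp x L.hasFDerivAt)
  rw [divg_eq_trace, divg_eq_trace, h.fderiv,
    ← LinearMap.trace_conj' (fderiv ℂ g (L x) : EE n →ₗ[ℂ] EE n) L.symm.toLinearEquiv]
  congr 1

theorem divg_kept {wt : Fin n → ℝ} (hw : ∀ l, 0 < wt l) (hd : 2 ≤ d) {c : Arr n d}
    (hc : Kept wt c) (x : EE n) : divg (hev c) x = 0 := by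
  rw [divg_hev]
  refine Finset.sum_eq_zero fun l _ => Finset.sum_eq_zero fun w _ => ?_
  by_cases h0 : c w l = 0
  · rw [h0, mul_zero]
  have hne : ∀ k, w k ≠ l := fun k hk => by
    have : Nontrivial (Fin d) := Fin.nontrivial_iff_two_le.2 hd
    obtain ⟨k', hk'⟩ := exists_ne k
    have h1 := Finset.single_lt_sum (f := fun k => wt (w k)) hk' (Finset.mem_univ k)
      (Finset.mem_univ k') (hw _) fun _ _ _ => (hw _).le
    have h2 := hc w l h0
    rw [← hk] at h2
    exact absurd h1 (not_lt.2 h2)
  have h1 : HasLineDerivAt ℂ (mono w) 0 x (EuclideanSpace.single l 1) := by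
    have : (fun t : ℂ => mono w (x + t • EuclideanSpace.single l 1)) = fun _ => mono w x := by
      funext t
      simp [mono, hne]
    rw [HasLineDerivAt, this]
    exact hasDerivAt_const _ _
  rw [((mono_diff w x).hasFDerivAt.hasLineDerivAt _).unique h1, zero_mul]

/-- the array of `A ∘ hev c ∘ B` -/
def cj (A B : EE n →L[ℂ] EE n) (c : Arr n d) : Arr n d :=
  fun u => A (∑ w, (∏ k, B (EuclideanSpace.single (u k) 1) (w k)) • c w)

theorem hev_cj (A B : EE n →L[ℂ] EE n) (c : Arr n d) (x : EE n) :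
    hev (cj A B c) x = A (hev c (B x)) := by
  have h1 : ∀ j, B x j = ∑ i, x i * B (EuclideanSpace.single i 1) j := fun j => by
    conv_lhs => rw [← (EuclideanSpace.basisFun (Fin n) ℂ).sum_repr x]
    simp
  have h2 : ∀ w : Fin d → Fin n, mono w (B x) =
      ∑ u : Fin d → Fin n, mono u x * ∏ k, B (EuclideanSpace.single (u k) 1) (w k) := fun w => by
    simp only [mono, h1, Finset.prod_univ_sum, Fintype.piFinset_univ, Finset.prod_mul_distrib]
  simp only [hev, cj, h2, ← map_smul, ← map_sum, Finset.smul_sum, smul_smul, Finset.sum_smul]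
  rw [Finset.sum_comm]

theorem cj_cont (A B : EE n →L[ℂ] EE n) : Continuous (cj A B : Arr n d → Arr n d) := by
  unfold cj; fun_prop

theorem norm_cj {A B : EE n →L[ℂ] EE n} {α β : ℝ} (hA : ∀ x, ‖A x‖ ≤ Real.exp α * ‖x‖)
    (hB : ∀ x, ‖B x‖ ≤ Real.exp β * ‖x‖) (c : Arr n d) :
    ‖cj A B c‖ ≤ Real.exp (α + d * n + d * β) * ‖c‖ := by
  refine (pi_norm_le_iff_of_nonneg (by positivity)).2 fun u => (hA _).trans ?_
  rw [Real.exp_add, Real.exp_add, mul_assoc, mul_assoc]
  refine mul_le_mul_of_nonneg_left ((norm_sum_le _ _).trans ((Finset.sum_le_card_nsmul _ _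
    (Real.exp (d * β) * ‖c‖) fun w _ => ?_).trans ?_)) (Real.exp_pos _).le
  · rw [norm_smul, norm_prod, Real.exp_nat_mul]
    refine mul_le_mul ((Finset.prod_le_prod (g := fun _ => Real.exp β) (fun _ _ => norm_nonneg _)
      fun k _ => ?_).trans (by simp)) (norm_le_pi_norm c w) (norm_nonneg _) (by positivity)
    simpa using (PiLp.norm_apply_le _ (w k)).trans (hB (EuclideanSpace.single (u k) 1))
  · rw [nsmul_eq_mul]
    refine mul_le_mul_of_nonneg_right ?_ (by positivity)
    have h1 : (n : ℝ) ^ d ≤ Real.exp n ^ d :=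
      pow_le_pow_left₀ (Nat.cast_nonneg _) (by linarith [Real.add_one_le_exp (n : ℝ)]) _
    rw [← Real.exp_nat_mul] at h1
    simpa using h1

theorem cj_dg {L J : EE n ≃L[ℂ] EE n} {ρ : Fin n → ℝ} (h : ∀ x, L x = J (dg ρ x)) (c : Arr n d)
    (u : Fin d → Fin n) (l : Fin n) : cj (L.symm : EE n →L[ℂ] EE n) L c u l =
      (Real.exp (ρ l - ∑ k, ρ (u k)) : ℝ) * cj (J.symm : EE n →L[ℂ] EE n) J c u l := by
  have h1 : ∀ y, L.symm y l = (Real.exp (ρ l) : ℝ) * J.symm y l := fun y => by
    have : J.symm y = dg ρ (L.symm y) := by rw [J.symm_apply_eq, ← h, L.apply_symm_apply]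
    rw [this, dg, ← mul_assoc, ← Complex.ofReal_mul, ← Real.exp_add]
    simp
  have h2 : ∀ j, L (EuclideanSpace.single j 1) =
      ((Real.exp (-ρ j) : ℝ) : ℂ) • J (EuclideanSpace.single j 1) := fun j => by
    rw [h, ← map_smul]
    congr 1
    ext i
    rcases eq_or_ne i j with rfl | hij
    · simp [dg]
    · simp [dg, hij]
  simp only [cj, ContinuousLinearEquiv.coe_coe, h1, h2, PiLp.smul_apply, smul_eq_mul,
    Finset.prod_mul_distrib, mul_smul, ← Finset.smul_sum, map_smul, ← mul_assoc,
    ← Complex.ofReal_prod, ← Complex.ofReal_mul, ← Real.exp_sum, ← Real.exp_add]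
  rw [Finset.sum_neg_distrib, neg_add_eq_sub]

open Classical in
/-- the part that is not kept -/
def nk (wt : Fin n → ℝ) (c : Arr n d) : Arr n d :=
  fun w => WithLp.toLp 2 fun l => if ∑ k, wt (w k) ≤ wt l then 0 else c w l

theorem nk_cont (wt : Fin n → ℝ) : Continuous (nk wt : Arr n d → Arr n d) :=
  continuous_pi fun w => (PiLp.continuous_toLp _ _).comp (continuous_pi fun l => by
    split_ifs <;> fun_prop)

theorem nk_add (wt : Fin n → ℝ) (c c' : Arr n d) : nk wt (c + c') = nk wt c + nk wt c' := by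
  ext w l
  simp only [nk, Pi.add_apply, PiLp.add_apply]
  split_ifs <;> simp

theorem kept_sub_nk (wt : Fin n → ℝ) (c : Arr n d) : Kept wt (c - nk wt c) := fun w l h => by
  by_contra h'
  exact h (by simp [nk, h'])

theorem norm_nk_le {wt : Fin n → ℝ} {c c' : Arr n d} {t : ℝ} (ht : 0 ≤ t)
    (h : ∀ w l, wt l < ∑ k, wt (w k) → ‖c w l‖ ≤ t * ‖c' w l‖) : ‖nk wt c‖ ≤ t * ‖c'‖ :=
  (pi_norm_le_iff_of_nonneg (by positivity)).2 fun w => (norm_le_of_comp ht fun l => by
    simp only [nk]
    split_ifs with h'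
    · rw [norm_zero]; positivity
    · exact h w l (not_le.1 h')).trans (mul_le_mul_of_nonneg_left (norm_le_pi_norm c' w) ht)

theorem norm_sub_nk (wt : Fin n → ℝ) (c : Arr n d) : ‖c - nk wt c‖ ≤ ‖c‖ :=
  (pi_norm_le_iff_of_nonneg (norm_nonneg _)).2 fun w => le_trans (by
    simpa using norm_le_of_comp (x := (c - nk wt c) w) (y := c w) zero_le_one fun l => by
      simp only [nk, Pi.sub_apply, PiLp.sub_apply]
      split_ifs <;> simp) (norm_le_pi_norm c w)

theorem exp_add_le {x y z : ℝ} (hx : x + 1 ≤ z) (hy : y + 1 ≤ z) :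
    Real.exp x + Real.exp y ≤ Real.exp z := by
  have h1 := Real.exp_le_exp.2 hx
  have h2 := Real.exp_le_exp.2 hy
  rw [Real.exp_add] at h1 h2
  nlinarith [Real.add_one_le_exp (1 : ℝ), Real.exp_pos x, Real.exp_pos y]

end H60

open H60

theorem homStmt (n : ℕ) : HomStmt n := by
  intro d s hd hs
  classical
  have hd0 : (2 : ℝ) ≤ d := by exact_mod_cast hd
  have hdn : (0 : ℝ) ≤ d * n := by positivity
  refine ⟨d * n + d + 2 * (s + 2) + 2, by linarith, fun X c hX hc hdv => ?_⟩
  set a : ℝ := d * n + d + 2 * (s + 2) + 2 with ha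
  let c' : ℕ → Arr n d := fun i u => (X.L i).symm (c i u)
  let G : ℕ → Arr n d → Arr n d := fun i q =>
    cj ((X.L i).symm : EE n →L[ℂ] EE n) (X.L i) q + c' i
  let Φ : ℕ → Arr n d → Arr n d := fun i q => if X.fine i then nk (X.wt i) (G i q) else 0
  let S : ℕ → Set (Arr n d) := fun i => closedBall 0 (Real.exp ((s + 2) * X.b i)) ∩
    ({q | ∀ x, divg (hev q) x = 0} ∩ {q | ¬ X.fine i → q = 0})
  have hc' : ∀ i x, hev (c' i) x = (X.L i).symm (hev (c i) x) := fun i x => by
    simp [hev, c']
  have hc'n : ∀ i, ‖c' i‖ ≤ Real.exp ((s + 1) * X.b i) := fun i =>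
    (pi_norm_le_iff_of_nonneg (by positivity)).2 fun u => (hX.L_inv i _).trans (by
      rw [add_mul, one_mul, add_comm, Real.exp_add]
      exact mul_le_mul_of_nonneg_left ((norm_le_pi_norm _ u).trans (hc i)) (Real.exp_pos _).le)
  have hG : ∀ i q, (∀ x, divg (hev q) x = 0) → ∀ x, divg (hev (G i q)) x = 0 := fun i q hq x => by
    rw [divg_hev_add, funext (hev_cj _ _ q), funext (hc' i), hdv, add_zero]
    exact (divg_conj (X.L i) (hev_diff q) x).trans (hq _)
  have hp : ∀ i q, (∀ x, divg (hev q) x = 0) → ∀ x, divg (hev (G i q - Φ i q)) x = 0 :=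
    fun i q hq x => by
      simp only [Φ]
      split_ifs with h
      · exact divg_kept (hX.wt_pos i h) hd (kept_sub_nk _ _) x
      · rw [sub_zero]; exact hG i q hq x
  obtain ⟨q, hq, hΦ⟩ := invlim S Φ
    (fun i => (isCompact_closedBall _ _).inter_right (IsClosed.inter (by
      simp only [ofPred_forall, divg_hev]
      exact isClosed_iInter fun x => isClosed_eq (by fun_prop) continuous_const) (by
      simp only [ofPred_forall]
      exact isClosed_iInter fun _ => isClosed_eq continuous_id continuous_const)))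
    (fun i => ⟨0, mem_closedBall_self (Real.exp_pos _).le, fun x => by simp [divg_hev],
      fun _ => rfl⟩)
    (fun i => by
      simp only [Φ]
      split_ifs
      · exact (nk_cont _).comp ((cj_cont _ _).add continuous_const)
      · exact continuous_const)
    (fun i q ⟨h1, h2, h3⟩ => ⟨by
      rw [mem_closedBall_zero_iff] at h1 ⊢
      simp only [Φ]
      split_ifs with h
      swap
      · rw [norm_zero]; positivity
      have hb := hX.b_ge i
      have k1 : ‖nk (X.wt i) (c' i)‖ ≤ Real.exp ((s + 1) * X.b i) :=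
        (norm_nk_le zero_le_one fun _ _ _ => (one_mul _).ge).trans ((one_mul _).le.trans (hc'n i))
      have k2 : ‖nk (X.wt i) (cj ((X.L i).symm : EE n →L[ℂ] EE n) (X.L i) q)‖ ≤
          Real.exp ((s + 2) * X.b i - 1) := by
        refine (norm_nk_le (Real.exp_pos (-X.e i)).le (c' := cj ((X.J i).symm : EE n →L[ℂ] EE n)
          (X.J i) q) fun w l hl => ?_).trans ?_
        · rw [cj_dg (hX.L_eq i h), norm_mul, Complex.norm_real, Real.norm_of_nonneg
            (Real.exp_pos _).le]
          refine mul_le_mul_of_nonneg_right (Real.exp_le_exp.2 ?_) (norm_nonneg _)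
          rw [Finset.sum_add_distrib, ← Finset.mul_sum, Finset.sum_const, Finset.card_univ,
            Fintype.card_fin, nsmul_eq_mul]
          nlinarith [hX.len_pos i h, hX.e_ge i h]
        · refine (mul_le_mul_of_nonneg_left (norm_cj (A := ((X.J i).symm : EE n →L[ℂ] EE n))
            (B := X.J i) (hX.J_inv i h) (hX.J_le i h) q) (Real.exp_pos _).le).trans ?_
          by_cases h' : X.fine (i + 1)
          · refine (mul_le_mul_of_nonneg_left (mul_le_mul_of_nonneg_left h1 (Real.exp_pos _).le)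
              (Real.exp_pos _).le).trans ?_
            rw [← Real.exp_add, ← Real.exp_add, Real.exp_le_exp]
            have g1 := hX.gain i h h'
            have g2 := le_max_left (X.b (i + 1) - X.b i) 0
            have g3 := le_max_right (X.b (i + 1) - X.b i) 0
            have g4 := hX.cst_ge i
            have g5 : (d + 1) * X.cst i ≤ a * X.cst i := by gcongr; linarith
            have g6 : (s + 2) * (X.b (i + 1) - X.b i) ≤ a * max (X.b (i + 1) - X.b i) 0 :=
              (mul_le_mul_of_nonneg_left g2 (by linarith)).trans (by gcongr; linarith)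
            linarith
          · rw [h3 h', norm_zero, mul_zero, mul_zero]; positivity
      rw [nk_add]
      exact (norm_add_le _ _).trans ((add_le_add k2 k1).trans
        (exp_add_le (by linarith) (by linarith))), fun x => by
      rw [← sub_sub_cancel (G i q) (Φ i q), divg_hev_sub, hG i q h2, hp i q h2, sub_zero],
      fun h => if_neg h⟩)
  have hqn : ∀ i, ‖q i‖ ≤ Real.exp ((s + 2) * X.b i) := fun i => mem_closedBall_zero_iff.1 (hq i).1
  refine ⟨q, fun i => G i (q (i + 1)) - Φ i (q (i + 1)), fun i => (hqn i).trans ?_, fun i => ?_,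
    fun i => (hq i).2.1, fun i => hp i _ (hq _).2.1, fun i => (hq i).2.2, fun i h => ?_,
    fun i x => ?_⟩
  · have := hX.b_ge i
    gcongr; linarith
  · have hb := hX.b_ge i
    have k0 : ‖G i (q (i + 1)) - Φ i (q (i + 1))‖ ≤ ‖G i (q (i + 1))‖ := by
      simp only [Φ]
      split_ifs
      · exact norm_sub_nk _ _
      · rw [sub_zero]
    have k1 : ‖q (i + 1)‖ ≤ Real.exp ((s + 2) * (2 * X.b i)) := by
      by_cases h' : X.fine (i + 1)
      · have := hX.b_next i h'
        exact (hqn _).trans (by gcongr)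
      · rw [(hq _).2.2 h', norm_zero]; positivity
    have k2 := (norm_cj (A := ((X.L i).symm : EE n →L[ℂ] EE n)) (B := X.L i) (hX.L_inv i)
      (hX.L_le i) (q (i + 1))).trans (mul_le_mul_of_nonneg_left k1 (Real.exp_pos _).le)
    rw [← Real.exp_add] at k2
    refine k0.trans ((norm_add_le _ _).trans ((add_le_add k2 (hc'n i)).trans (exp_add_le ?_ ?_)))
    · rw [ha]; nlinarith
    · rw [ha]; nlinarith
  · simp only [Φ, if_pos h]
    exact kept_sub_nk _ _
  · rw [← hev_add, hΦ i, sub_add_cancel, hev_add, hev_cj, hc']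
    simp

end

end Crest.Agent.T223.Dyn
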