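import Crest.Agent.T223.DynBas_20
import Crest.Agent.R266.Osgood

/-!
# Row 223 (helper65): the leaf JET
-/

set_option autoImplicit false

open Set Filter Topology Metric Asymptotics

namespace Crest.Agent.T223.Dyn

variable {n : ℕ}

namespace J65

theorem mono_smul {d : ℕ} (w : Fin d → Fin n) (t : ℂ) (x : EE n) :
    mono w (t • x) = t ^ d * mono w x := by
  simp [mono, Finset.prod_mul_distrib]

theorem hev_smul {d : ℕ} (c : Arr n d) (t : ℂ) (x : EE n) : hev c (t • x) = t ^ d • hev c x := by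
  simp [hev, mono_smul, Finset.smul_sum, mul_smul]

theorem continuous_hev {d : ℕ} (c : Arr n d) : Continuous (hev c) := by
  unfold hev mono
  fun_prop

/-- the diagonal of a multilinear map -/
theorem diag_eq {d : ℕ} (p : ContinuousMultilinearMap ℂ (fun _ : Fin d => EE n) (EE n)) (x : EE n) :
    (p fun _ => x) = hev (fun w => p fun k => EuclideanSpace.single (w k) 1) x := by
  have hx : x = ∑ l, x l • EuclideanSpace.single l (1 : ℂ) := by
    ext l
    simp [Pi.single_apply]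
  conv_lhs => rw [hx]
  rw [p.map_sum fun _ l => x l • EuclideanSpace.single l (1 : ℂ)]
  exact Finset.sum_congr rfl fun w _ => p.map_smul_univ _ _

/-- existence of the jet -/
theorem exists_jet {d : ℕ} {g : EE n → EE n} (hg : AnalyticAt ℂ g 0)
    (ho : g =O[𝓝 0] fun x => ‖x‖ ^ d) :
    ∃ c : Arr n d, (fun x => g x - hev c x) =O[𝓝 0] fun x => ‖x‖ ^ (d + 1) := by
  obtain ⟨p, hp⟩ := hg
  have key : ∀ k, (∀ b < k, ∀ y, (p b fun _ => y) = 0) →
      (fun y => g y - p k fun _ => y) =O[𝓝 0] fun y => ‖y‖ ^ (k + 1) := fun k hk => by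
    have e : p.partialSum (k + 1) = fun y => p k fun _ => y := by
      funext z
      exact Finset.sum_eq_single _ (fun b hb hnb =>
        hk b ((Finset.mem_range_succ_iff.mp hb).lt_of_ne hnb) z)
        fun hn => absurd (Finset.mem_range.mpr (lt_add_one k)) hn
    simpa [e] using hp.isBigO_sub_partialSum_pow (k + 1)
  have low : ∀ k, k < d → ∀ y, (p k fun _ => y) = 0 := fun k => by
    induction k using Nat.strong_induction_on with
    | _ k ih =>
      intro hk
      have h1 := key k fun b hb => ih b hb (hb.trans hk)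
      have h2 := (ho.trans (isBigO_norm_pow_mono (show k + 1 ≤ d from hk))).sub h1
      exact IsBigO.continuousMultilinearMap_apply_eq_zero (by simpa using h2)
  exact ⟨_, by simpa only [diag_eq] using key d low⟩

/-- the jet is bounded like the function -/
theorem norm_jet_le {d : ℕ} {g : EE n → EE n} {c : Arr n d} {r B : ℝ} (hr : 0 < r)
    (hb : ∀ x ∈ ball (0 : EE n) r, ‖g x‖ ≤ B * ‖x‖ ^ d)
    (hc : (fun x => g x - hev c x) =O[𝓝 0] fun x => ‖x‖ ^ (d + 1)) (x : EE n) :
    ‖hev c x‖ ≤ B * ‖x‖ ^ d := by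
  obtain ⟨K, hK⟩ := hc.bound
  have ht : Tendsto (fun t : ℝ => (t : ℂ) • x) (𝓝[>] 0) (𝓝 0) := by
    refine tendsto_nhdsWithin_of_tendsto_nhds ?_
    have : Continuous fun t : ℝ => (t : ℂ) • x := by fun_prop
    simpa using this.tendsto 0
  have hl : Tendsto (fun t : ℝ => B * ‖x‖ ^ d + K * (t * ‖x‖ ^ (d + 1))) (𝓝[>] 0)
      (𝓝 (B * ‖x‖ ^ d)) := by
    refine tendsto_nhdsWithin_of_tendsto_nhds ?_
    have : Continuous fun t : ℝ => B * ‖x‖ ^ d + K * (t * ‖x‖ ^ (d + 1)) := by fun_prop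
    simpa using this.tendsto 0
  refine ge_of_tendsto hl ?_
  filter_upwards [ht.eventually hK, ht.eventually (ball_mem_nhds 0 hr), self_mem_nhdsWithin]
    with t h1 h2 h3
  have h3 : 0 < t := h3
  have h4 := hb _ h2
  have e : ‖(t : ℂ) • x‖ = t * ‖x‖ := by
    rw [norm_smul, Complex.norm_real, Real.norm_of_nonneg h3.le]
  have h5 : ‖hev c ((t : ℂ) • x)‖ = t ^ d * ‖hev c x‖ := by
    rw [hev_smul, norm_smul, norm_pow, Complex.norm_real, Real.norm_of_nonneg h3.le]
  have h6 := norm_sub_norm_le (hev c ((t : ℂ) • x)) (g ((t : ℂ) • x))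
  rw [norm_sub_rev, h5] at h6
  rw [e] at h4
  rw [norm_pow, norm_norm, e] at h1
  refine le_of_mul_le_mul_left ?_ (pow_pos h3 d)
  calc t ^ d * ‖hev c x‖ ≤ B * (t * ‖x‖) ^ d + K * (t * ‖x‖) ^ (d + 1) := by linarith
    _ = _ := by ring

/-- a coefficient array as a continuous function on the unit ball -/
noncomputable def res (n d : ℕ) : Arr n d →ₗ[ℂ] C(closedBall (0 : EE n) 1, EE n) where
  toFun c := ⟨fun x => hev c x, (continuous_hev c).comp continuous_subtype_val⟩
  map_add' c c' := by ext1 x; simp [hev, Finset.sum_add_distrib]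
  map_smul' t c := by
    ext1 x
    simp [hev, Finset.smul_sum, smul_comm t]

theorem exists_sec {A B : Type*} [NormedAddCommGroup A] [NormedSpace ℂ A] [FiniteDimensional ℂ A]
    [NormedAddCommGroup B] [NormedSpace ℂ B] (f : A →ₗ[ℂ] B) :
    ∃ C : ℝ, 1 ≤ C ∧ ∀ a, ∃ a', ‖a'‖ ≤ C * ‖f a‖ ∧ f a' = f a := by
  obtain ⟨s, hs⟩ := f.rangeRestrict.exists_rightInverse_of_surjective f.range_rangeRestrict
  let s' := LinearMap.toContinuousLinearMap s
  exact ⟨‖s'‖ + 1, by linarith [norm_nonneg s'], fun a => ⟨s' (f.rangeRestrict a),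
    (s'.le_opNorm _).trans (mul_le_mul_of_nonneg_right (by linarith) (norm_nonneg _)),
    congrArg Subtype.val (LinearMap.congr_fun hs (f.rangeRestrict a))⟩⟩

/-- small coefficient arrays for small homogeneous maps -/
theorem exists_arr (n d : ℕ) : ∃ C : ℝ, 1 ≤ C ∧ ∀ (c : Arr n d) (B : ℝ), 0 ≤ B →
    (∀ x : EE n, ‖x‖ ≤ 1 → ‖hev c x‖ ≤ B) → ∃ c' : Arr n d, ‖c'‖ ≤ C * B ∧ hev c' = hev c := by
  obtain ⟨C, hC, hs⟩ := exists_sec (res n d)
  refine ⟨C, hC, fun c B hB h => ?_⟩
  obtain ⟨c', h0, h1⟩ := hs c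
  refine ⟨c', h0.trans (mul_le_mul_of_nonneg_left ((ContinuousMap.norm_le (res n d c) hB).2
    fun x => h x (mem_closedBall_zero_iff.1 x.2)) (by linarith)), ?_⟩
  · funext x
    have h0 : (0 : ℝ) < ‖x‖ + 1 := by positivity
    have hm : (((‖x‖ + 1)⁻¹ : ℝ) : ℂ) • x ∈ closedBall (0 : EE n) 1 := by
      rw [mem_closedBall_zero_iff, norm_smul, Complex.norm_real,
        Real.norm_of_nonneg (inv_pos.2 h0).le, inv_mul_le_iff₀ h0]
      linarith
    have h2 : hev c' _ = hev c _ := DFunLike.congr_fun h1 ⟨_, hm⟩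
    rw [hev_smul, hev_smul] at h2
    exact smul_right_injective _ (pow_ne_zero _ (by exact_mod_cast (inv_pos.2 h0).ne')) h2

end J65

/-- leaf JET -/
theorem jetStmt (n : ℕ) : JetStmt n := by
  intro d
  obtain ⟨C, hC, h⟩ := J65.exists_arr n d
  refine ⟨C, hC, fun g r β hr hg hb ho => ?_⟩
  obtain ⟨c, hc⟩ := J65.exists_jet
    (R266.SCV.analyticOnNhd_of_differentiableOn isOpen_ball hg 0 (mem_ball_self hr)) ho
  have hβ : 0 ≤ β := (norm_nonneg _).trans (hb 0 (mem_ball_self hr))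
  have h0 : 0 ≤ β / r ^ d := by positivity
  obtain ⟨c', h1, h2⟩ := h c (β / r ^ d) h0 fun x hx =>
    (J65.norm_jet_le (B := β / r ^ d) hr (fun y hy => (schwarz_ord hg hb ho y hy).trans_eq
      (by rw [div_pow]; ring)) hc x).trans
      (mul_le_of_le_one_right h0 (pow_le_one₀ (norm_nonneg _) hx))
  exact ⟨c', by rwa [mul_div_assoc], by rwa [h2]⟩

end Crest.Agent.T223.Dyn
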