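import Crest.Agent.T223.DynDef_20

/-!
# Row 223, module DYN (helper45): the Lyapunov hit `LyapStmt`
-/

set_option autoImplicit false

open Set Filter Topology Metric

namespace Crest.Agent.T223.Dyn

namespace Ly45

variable {n : ℕ}

theorem decomp (y : EE n) : y = ∑ l, y l • (EuclideanSpace.single l (1 : ℂ) : EE n) := by
  ext k
  simp [Finset.sum_apply, Pi.single_apply]

theorem n_le_exp (n : ℕ) : (n : ℝ) ≤ Real.exp n := by
  have := Real.add_one_le_exp (n : ℝ)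
  linarith

theorem norm_le {y : EE n} {M : ℝ} (hM : 0 ≤ M) (h : ∀ l, ‖y l‖ ≤ M) :
    ‖y‖ ≤ Real.exp n * M := by
  calc ‖y‖ = ‖∑ l, y l • (EuclideanSpace.single l (1 : ℂ) : EE n)‖ := by rw [← decomp]
    _ ≤ ∑ l, ‖y l • (EuclideanSpace.single l (1 : ℂ) : EE n)‖ := norm_sum_le _ _
    _ ≤ ∑ _l : Fin n, M := Finset.sum_le_sum fun l _ => by
        rw [norm_smul]; simpa using h l
    _ = n * M := by simp
    _ ≤ _ := mul_le_mul_of_nonneg_right (n_le_exp n) hM

theorem box_mono {wt : Fin n → ℝ} (hw : ∀ l, 0 < wt l) {Y Y' C : ℝ} (h : Y ≤ Y') :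
    Box wt Y C ⊆ Box wt Y' C := fun x hx l =>
  le_trans (hx l) (Real.exp_le_exp.2 (by nlinarith [hw l]))

variable {X : LinD n} {σ : ℕ → EE n ≃ EE n} {a D : ℝ}

theorem dg_bound (hX : X.Ok a) {i : ℕ} (hf : X.fine i) (hL : Lya (X.wt i) a (a * X.b i) (σ i))
    {Y : ℝ} (hY : 0 ≤ Y) {x : EE n} (hx : x ∈ Box (X.wt i) Y (a * X.b i)) (l : Fin n) :
    ‖dg (fun l => X.len i * X.wt i l + X.e i) (σ i x) l‖ ≤
      Real.exp ((Y - X.len i) * X.wt i l - a * X.b i + a) := by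
  have h1 := hL Y (a * X.b i) hY le_rfl hx l
  have h2 : ‖dg (fun l => X.len i * X.wt i l + X.e i) (σ i x) l‖ =
      Real.exp (-(X.len i * X.wt i l + X.e i)) * ‖σ i x l‖ := by
    simp only [dg, norm_mul, Complex.norm_real, Real.norm_eq_abs, Real.abs_exp]
  rw [h2]
  refine le_trans (mul_le_mul_of_nonneg_left h1 (Real.exp_pos _).le) ?_
  rw [← Real.exp_add, Real.exp_le_exp]
  have := hX.e_ge i hf
  nlinarith

theorem fine_norm (hX : X.Ok a) {i : ℕ} (hf : X.fine i) (hL : Lya (X.wt i) a (a * X.b i) (σ i))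
    (hj : a + X.cst i + n ≤ a * X.b i) {Y Z : ℝ} (hY : 0 ≤ Y)
    (hZ : ∀ l, (Y - X.len i) * X.wt i l ≤ Z) {x : EE n} (hx : x ∈ Box (X.wt i) Y (a * X.b i)) :
    ‖X.L i (σ i x)‖ ≤ Real.exp Z := by
  rw [hX.L_eq i hf]
  refine le_trans (hX.J_le i hf _) ?_
  have h1 := norm_le (M := Real.exp (Z - a * X.b i + a)) (Real.exp_pos _).le fun l =>
    le_trans (dg_bound hX hf hL hY hx l) (Real.exp_le_exp.2 (by linarith [hZ l]))
  refine le_trans (mul_le_mul_of_nonneg_left h1 (Real.exp_pos _).le) ?_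
  rw [← Real.exp_add, ← Real.exp_add, Real.exp_le_exp]
  linarith

theorem fine_next (hX : X.Ok a) (ha : 0 ≤ a) {i : ℕ} (hf : X.fine i)
    (hL : Lya (X.wt i) a (a * X.b i) (σ i)) {η : ℝ}
    (hj : ∀ k, a * max (X.b (i + 1) - X.b i) 0 + a + X.cst i + n ≤ X.len i * X.wt (i + 1) k / 4 ∧
      ∀ l, X.J i (EuclideanSpace.single l 1) k ≠ 0 → X.wt i l ≤ (1 + η) * X.wt (i + 1) k)
    {Y : ℝ} (hY : X.len i ≤ Y) {x : EE n} (hx : x ∈ Box (X.wt i) Y (a * X.b i)) :
    X.L i (σ i x) ∈ Box (X.wt (i + 1)) ((1 + η) * (Y - X.len i) + X.len i / 4)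
      (a * X.b (i + 1)) := by
  intro k
  have hY0 : 0 ≤ Y := le_trans (hX.len_pos i hf).le hY
  rw [hX.L_eq i hf]
  set y := dg (fun l => X.len i * X.wt i l + X.e i) (σ i x) with hy
  have e : X.J i y k = ∑ l, y l * X.J i (EuclideanSpace.single l 1) k := by
    conv_lhs => rw [decomp y]
    simp [map_sum, Finset.sum_apply]
  set M := Real.exp ((Y - X.len i) * ((1 + η) * X.wt (i + 1) k) - a * X.b i + a + X.cst i) with hM
  have hb : ∀ l, ‖y l * X.J i (EuclideanSpace.single l 1) k‖ ≤ M := by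
    intro l
    by_cases h0 : X.J i (EuclideanSpace.single l 1) k = 0
    · rw [h0, mul_zero, norm_zero]; exact (Real.exp_pos _).le
    · have h1 := (hj k).2 l h0
      have h2 := dg_bound hX hf hL hY0 hx l
      have h3 : ‖X.J i (EuclideanSpace.single l 1) k‖ ≤ Real.exp (X.cst i) := by
        refine le_trans (PiLp.norm_apply_le _ k) ?_
        simpa using hX.J_le i hf (EuclideanSpace.single l 1)
      rw [norm_mul]
      refine le_trans (mul_le_mul h2 h3 (norm_nonneg _) (Real.exp_pos _).le) ?_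
      rw [← Real.exp_add, hM, Real.exp_le_exp]
      have := mul_le_mul_of_nonneg_left h1 (sub_nonneg.2 hY)
      linarith
  rw [e]
  calc ‖∑ l, y l * X.J i (EuclideanSpace.single l 1) k‖
      ≤ ∑ l, ‖y l * X.J i (EuclideanSpace.single l 1) k‖ := norm_sum_le _ _
    _ ≤ ∑ _l : Fin n, M := Finset.sum_le_sum fun l _ => hb l
    _ = n * M := by simp
    _ ≤ Real.exp n * M := mul_le_mul_of_nonneg_right (n_le_exp n) (Real.exp_pos _).le
    _ ≤ _ := by
        rw [hM, ← Real.exp_add, Real.exp_le_exp]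
        have h1 := (hj k).1
        have h2 : a * (X.b (i + 1) - X.b i) ≤ a * max (X.b (i + 1) - X.b i) 0 :=
          mul_le_mul_of_nonneg_left (le_max_left _ _) ha
        nlinarith

theorem crude (hX : X.Ok a) (ha : 1 ≤ a) (hD : 1 ≤ D) {i : ℕ} (hA : Aut D (a * X.b i) (σ i))
    {Z : ℝ} (hZ : 0 ≤ Z) {x : EE n} (hx : ‖x‖ ≤ Real.exp Z) :
    ‖X.L i (σ i x)‖ ≤ Real.exp (D * (Z + 2 * (a * X.b i))) := by
  refine le_trans (hX.L_le i _) ?_
  refine le_trans (mul_le_mul_of_nonneg_left (hA.grow Z x hZ hx) (Real.exp_pos _).le) ?_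
  rw [← Real.exp_add, Real.exp_le_exp]
  have h1 := hX.b_ge i
  have h2 : X.b i ≤ a * X.b i := by nlinarith
  have h3 : a * X.b i ≤ D * (a * X.b i) := by nlinarith
  nlinarith

theorem ball_box {wt : Fin n → ℝ} {Z C μ : ℝ} (hμ : 0 < μ) (hw : ∀ l, μ ≤ wt l) (h0 : 0 ≤ Z + C)
    {x : EE n} (hx : ‖x‖ ≤ Real.exp Z) : x ∈ Box wt ((Z + C) / μ) C := by
  intro l
  refine le_trans (PiLp.norm_apply_le _ l) (le_trans hx (Real.exp_le_exp.2 ?_))
  have h1 : (Z + C) / μ * μ ≤ (Z + C) / μ * wt l :=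
    mul_le_mul_of_nonneg_left (hw l) (div_nonneg h0 hμ.le)
  rw [div_mul_cancel₀ _ hμ.ne'] at h1
  linarith

/-- the orbit of the ball is in the ball `exp Z` at node `i` -/
def InB (X : LinD n) (σ : ℕ → EE n ≃ EE n) (R : ℝ) (i : ℕ) (Z : ℝ) : Prop :=
  ∀ x : EE n, ‖x‖ ≤ R → ‖orb (fun j y => X.L j (σ j y)) i x‖ ≤ Real.exp Z

/-- the orbit of the ball is in the Lyapunov box at node `i` -/
def InX (X : LinD n) (σ : ℕ → EE n ≃ EE n) (a R : ℝ) (i : ℕ) (Y : ℝ) : Prop :=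
  ∀ x : EE n, ‖x‖ ≤ R → orb (fun j y => X.L j (σ j y)) i x ∈ Box (X.wt i) Y (a * X.b i)

theorem InB.mono {R : ℝ} {i : ℕ} {Z Z' : ℝ} (h : InB X σ R i Z) (hz : Z ≤ Z') : InB X σ R i Z' :=
  fun x hx => le_trans (h x hx) (Real.exp_le_exp.2 hz)

theorem exists_inB (hX : X.Ok a) (ha : 1 ≤ a) (hD : 1 ≤ D) (hA : ∀ i, Aut D (a * X.b i) (σ i))
    (R : ℝ) (i : ℕ) : ∃ Z, 0 ≤ Z ∧ InB X σ R i Z := by
  induction i with
  | zero =>
    refine ⟨|R|, abs_nonneg _, fun x hx => ?_⟩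
    have := Real.add_one_le_exp |R|
    have := le_abs_self R
    show ‖x‖ ≤ _
    linarith
  | succ i ih =>
    obtain ⟨Z, hZ, h⟩ := ih
    refine ⟨D * (Z + 2 * (a * X.b i)), ?_, fun x hx => crude hX ha hD (hA i) hZ (h x hx)⟩
    have := hX.b_ge i
    positivity

/-- a run of at most `q` pieces treated crudely -/
theorem crude_run (hX : X.Ok a) (ha : 1 ≤ a) (hD : 1 ≤ D) (hA : ∀ i, Aut D (a * X.b i) (σ i))
    {R Z U : ℝ} {i : ℕ} (hZ : 0 ≤ Z) (hU : 0 ≤ U) (h : InB X σ R i Z) :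
    ∀ j : ℕ, (∀ l, i ≤ l → l < i + j → X.b l ≤ U) →
      InB X σ R (i + j) (D ^ j * (Z + j * (2 * (a * U)))) := by
  intro j
  induction j with
  | zero => intro _; simpa using h
  | succ j ih =>
    intro hb x hx
    have h1 := ih (fun l h1 h2 => hb l h1 (by omega)) x hx
    have hp : (1 : ℝ) ≤ D ^ j := one_le_pow₀ hD
    have haU : 0 ≤ a * U := by positivity
    have h2 := crude hX ha hD (hA (i + j)) (by positivity) h1
    refine le_trans h2 (Real.exp_le_exp.2 ?_)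
    have h3 : a * X.b (i + j) ≤ a * U :=
      mul_le_mul_of_nonneg_left (hb _ (by omega) (by omega)) (by linarith)
    rw [pow_succ, mul_comm (D ^ j) D, mul_assoc]
    refine mul_le_mul_of_nonneg_left ?_ (by linarith)
    push_cast
    nlinarith

/-- a run of fine pieces without a hit -/
theorem fine_run (hX : X.Ok a) (ha : 1 ≤ a) {η : ℕ → ℝ} (hη : ∀ i, 0 ≤ η i)
    (hL : ∀ i, X.fine i → Lya (X.wt i) a (a * X.b i) (σ i))
    (hj1 : ∀ i, X.fine i → a + X.cst i + n ≤ a * X.b i)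
    (hj2 : ∀ i, X.fine i → X.fine (i + 1) → ∀ k,
      a * max (X.b (i + 1) - X.b i) 0 + a + X.cst i + n ≤ X.len i * X.wt (i + 1) k / 4 ∧
      ∀ l, X.J i (EuclideanSpace.single l 1) k ≠ 0 → X.wt i l ≤ (1 + η i) * X.wt (i + 1) k)
    {R Y : ℝ} {i : ℕ} (hno : ∀ l, i ≤ l → ¬ InB X σ R l 0) (hY : 0 ≤ Y) (h : InX X σ a R i Y) :
    ∀ j, i ≤ j → (∀ l, i ≤ l → l ≤ j → X.fine l) → ∃ Y', X.len j ≤ Y' ∧ InX X σ a R j Y' ∧
      Y' ≤ Real.exp (∑ l ∈ Finset.Ico i j, η l) * Y - 3 / 4 * ∑ l ∈ Finset.Ico i j, X.len l := by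
  have big : ∀ l, i ≤ l → X.fine l → ∀ Y', 0 ≤ Y' → InX X σ a R l Y' → X.len l ≤ Y' := by
    intro l hl hf Y' h0 hb
    by_contra hlt
    push Not at hlt
    refine hno (l + 1) (by omega) fun x hx => ?_
    exact fine_norm hX hf (hL l hf) (hj1 l hf) h0
      (fun k => by nlinarith [hX.wt_pos l hf k]) (hb x hx)
  intro j hj
  induction j, hj using Nat.le_induction with
  | base => intro hf; exact ⟨Y, big i le_rfl (hf i le_rfl le_rfl) Y hY h, h, by simp⟩
  | succ j hj ih =>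
    intro hf
    obtain ⟨Y', h1, h2, h3⟩ := ih fun l a1 a2 => hf l a1 (by omega)
    have f0 := hf j hj (by omega)
    have f1 := hf (j + 1) (by omega) le_rfl
    have hl := hX.len_pos j f0
    have hb : InX X σ a R (j + 1) ((1 + η j) * (Y' - X.len j) + X.len j / 4) := fun x hx =>
      fine_next hX (by linarith) f0 (hL j f0) (hj2 j f0 f1) h1 (h2 x hx)
    have h0 : 0 ≤ (1 + η j) * (Y' - X.len j) + X.len j / 4 := by
      have := hη j
      have : 0 ≤ Y' - X.len j := by linarith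
      positivity
    refine ⟨_, big (j + 1) (by omega) f1 _ h0 hb, hb, ?_⟩
    rw [Finset.sum_Ico_succ_top hj, Finset.sum_Ico_succ_top hj, Real.exp_add]
    set E := Real.exp (∑ l ∈ Finset.Ico i j, η l)
    set S := ∑ l ∈ Finset.Ico i j, X.len l
    have hS : 0 ≤ S := Finset.sum_nonneg fun l hl => by
      rw [Finset.mem_Ico] at hl
      exact (hX.len_pos l (hf l hl.1 (by omega))).le
    have hE : 0 ≤ E * Y := mul_nonneg (Real.exp_pos _).le hY
    have e1 : 1 + η j ≤ Real.exp (η j) := by linarith [Real.add_one_le_exp (η j)]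
    have e2 : (1 + η j) * (E * Y) ≤ Real.exp (η j) * (E * Y) := mul_le_mul_of_nonneg_right e1 hE
    have e3 : (1 + η j) * Y' ≤ (1 + η j) * (E * Y - 3 / 4 * S) :=
      mul_le_mul_of_nonneg_left h3 (by linarith [hη j])
    nlinarith [hη j, mul_nonneg (hη j) hS, mul_nonneg (hη j) hl.le]

/-- the sequence lemma -/
theorem seq {St : ℕ → ℝ → Prop} {T ℓ : ℕ → ℝ} {Tb κ : ℝ} (hκ : 0 < κ) (hT : ∀ k, T k ≤ Tb)
    (hℓ : ∀ k, 0 ≤ ℓ k) {k0 : ℕ} {Φ0 : ℝ} (h0 : St k0 Φ0) (hpos : ∀ k Φ, St k Φ → 0 ≤ Φ)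
    (hstep : ∀ k, k0 ≤ k → ∀ Φ, St k Φ →
      ∃ Φ', St (k + 1) Φ' ∧ Φ' ≤ Real.exp (T (k + 1) - T k) * Φ - κ * ℓ k) : Summable ℓ := by
  have key : ∀ N, ∃ Φ, St (k0 + N) Φ ∧ Φ * Real.exp (-T (k0 + N)) ≤
      Φ0 * Real.exp (-T k0) - κ * Real.exp (-Tb) * ∑ j ∈ Finset.range N, ℓ (j + k0) := by
    intro N
    induction N with
    | zero => exact ⟨Φ0, h0, by simp⟩
    | succ N ih =>
      obtain ⟨Φ, h1, h2⟩ := ih
      obtain ⟨Φ', h3, h4⟩ := hstep (k0 + N) (by omega) Φ h1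
      refine ⟨Φ', h3, ?_⟩
      rw [Finset.sum_range_succ, show k0 + (N + 1) = k0 + N + 1 from rfl, add_comm N k0]
      have e1 : Real.exp (T (k0 + N + 1) - T (k0 + N)) * Real.exp (-T (k0 + N + 1)) =
          Real.exp (-T (k0 + N)) := by rw [← Real.exp_add]; congr 1; ring
      have e2 : Real.exp (-Tb) ≤ Real.exp (-T (k0 + N + 1)) :=
        Real.exp_le_exp.2 (by linarith [hT (k0 + N + 1)])
      have e3 := mul_le_mul_of_nonneg_right h4 (Real.exp_pos (-T (k0 + N + 1))).le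
      have e4 := mul_le_mul_of_nonneg_left e2 (mul_nonneg hκ.le (hℓ (k0 + N)))
      have e5 : (Real.exp (T (k0 + N + 1) - T (k0 + N)) * Φ - κ * ℓ (k0 + N)) *
          Real.exp (-T (k0 + N + 1)) =
          Φ * Real.exp (-T (k0 + N)) - κ * ℓ (k0 + N) * Real.exp (-T (k0 + N + 1)) := by
        rw [← e1]; ring
      nlinarith
  rw [← summable_nat_add_iff k0]
  refine summable_of_sum_range_le (c := Φ0 * Real.exp (-T k0) / (κ * Real.exp (-Tb)))
    (fun j => hℓ _) fun N => ?_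
  obtain ⟨Φ, h1, h2⟩ := key N
  rw [le_div_iff₀ (by positivity)]
  have := mul_nonneg (hpos _ _ h1) (Real.exp_pos (-T (k0 + N))).le
  linarith

end Ly45

set_option maxHeartbeats 1600000 in
open Ly45 in
theorem lyapStmt (n : ℕ) : LyapStmt n := by
  intro a D Λ c B q ha hD hΛ hc hc1 hB
  obtain ⟨D1, hD1⟩ : ∃ x : ℝ, x = D ^ q := ⟨_, rfl⟩
  obtain ⟨C2, hC2⟩ : ∃ x : ℝ, x = q * (2 * (a * B)) := ⟨_, rfl⟩
  obtain ⟨H, hH⟩ : ∃ x : ℝ, x = D1 / c := ⟨_, rfl⟩
  obtain ⟨C3, hC3⟩ : ∃ x : ℝ, x = (D1 * C2 + a * B * Λ) / c := ⟨_, rfl⟩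
  obtain ⟨κ, hκ⟩ : ∃ x : ℝ, x = 1 / (8 * Λ) := ⟨_, rfl⟩
  obtain ⟨C4, hC4⟩ : ∃ x : ℝ, x = κ + C3 + 1 / 4 := ⟨_, rfl⟩
  have D1_ge : 1 ≤ D1 := hD1 ▸ one_le_pow₀ hD
  have C2_ge : 0 ≤ C2 := by rw [hC2]; positivity
  have H_ge : D1 ≤ H := by rw [hH, le_div_iff₀ hc]; nlinarith
  have H_pos : 0 < H := by linarith
  have κ_pos : 0 < κ := by rw [hκ]; positivity
  have κΛ : κ * Λ = 1 / 8 := by rw [hκ]; field_simp
  have κ_le : κ ≤ 1 / 8 := by nlinarith
  have C3_ge : D1 * C2 ≤ C3 := by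
    rw [hC3, le_div_iff₀ hc]
    have : 0 ≤ a * B * Λ := by positivity
    have : 0 ≤ D1 * C2 := by positivity
    nlinarith
  have C3_nn : 0 ≤ C3 := le_trans (by positivity) C3_ge
  have C4_nn : 2 * κ ≤ C4 := by rw [hC4]; linarith
  refine ⟨1 + H * D1 + (H * D1 * C2 + C4 * Λ) / κ, ?_, ?_⟩
  · have : 0 ≤ C4 := by linarith
    have : 0 ≤ (H * D1 * C2 + C4 * Λ) / κ := by positivity
    nlinarith
  intro K hK X σ I m ℓ η hX hA hL hI hm hmono hℓ hns hU hb hη hηs hcr hfi hj1 hj2 R i0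
  have hC4' : 0 ≤ C4 := by linarith
  have hq0 : 0 ≤ (H * D1 * C2 + C4 * Λ) / κ := by positivity
  have hHD : 0 ≤ H * D1 := by positivity
  have K_pos : 0 < K := by linarith
  have K1 : H * D1 ≤ K := by linarith
  have K2 : H * D1 * C2 + C4 * Λ ≤ κ * K := by
    have : (H * D1 * C2 + C4 * Λ) / κ ≤ K := by linarith
    rw [div_le_iff₀ κ_pos] at this
    linarith
  by_contra hcon
  push Not at hcon
  have hno : ∀ l, i0 ≤ l → ¬ InB X σ R l 0 := by
    intro l hl h
    obtain ⟨x, h1, h2⟩ := hcon l hl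
    have := h x h1
    rw [Real.exp_zero] at this
    linarith
  classical
  -- `N k` : no jump at `k`
  let N : ℕ → Prop := fun k => m (k + 1) ≤ K * m k
  let W : ℕ → ℝ := fun k =>
    if N (k + 1) then (if N k then 0 else C4 * ℓ (k + 1)) else 2 * κ * ℓ (k + 1)
  let S0 : ℕ → ℝ → Prop := fun k Ψ =>
    if N k then (if N (k + 1) then InX X σ a R (I (k + 1)) Ψ
      else InB X σ R (I (k + 1)) (Ψ * m (k + 1)))
    else InB X σ R (I (k + 1)) (Ψ * m (k + 1) / H)
  let St : ℕ → ℝ → Prop := fun k Φ => ∃ Ψ, 0 ≤ Ψ ∧ S0 k Ψ ∧ Φ = Ψ + W k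
  let T : ℕ → ℝ := fun k => ∑ l ∈ Finset.range (I (k + 1)), η l
  have W_nn : ∀ k, 0 ≤ W k := by
    intro k
    have := (hℓ (k + 1)).le
    simp only [W]
    split_ifs <;> positivity
  have ℓΛ : ∀ k, ℓ (k + 1) ≤ Λ * ℓ k := by
    intro k
    have h1 := hU k
    have h2 : m k * ℓ (k + 1) ≤ m (k + 1) * ℓ (k + 1) :=
      mul_le_mul_of_nonneg_right (hmono (Nat.le_succ k)) (hℓ _).le
    have h3 : m k * ℓ (k + 1) ≤ m k * (Λ * ℓ k) := by linarith
    exact le_of_mul_le_mul_left h3 (hm k)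
  have ℓJ : ∀ k, ¬ N k → K * ℓ (k + 1) ≤ Λ * ℓ k := by
    intro k hk
    have h1 := hU k
    have h2 : K * m k * ℓ (k + 1) ≤ m (k + 1) * ℓ (k + 1) :=
      mul_le_mul_of_nonneg_right (not_le.1 hk).le (hℓ _).le
    have h3 : m k * (K * ℓ (k + 1)) ≤ m k * (Λ * ℓ k) := by linarith
    exact le_of_mul_le_mul_left h3 (hm k)
  have Ilt : ∀ k, I k < I (k + 1) := fun k => hI (Nat.lt_succ_self k)
  have Tdiff : ∀ k, T (k + 1) - T k = ∑ l ∈ Finset.Ico (I (k + 1)) (I (k + 2)), η l := by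
    intro k
    rw [Finset.sum_Ico_eq_sub _ (Ilt (k + 1)).le]
  have Tnn : ∀ k, 0 ≤ T (k + 1) - T k := fun k => by
    rw [Tdiff]; exact Finset.sum_nonneg fun l _ => hη l
  -- entering a fine block from a ball
  have enter : ∀ k, N k → N (k + 1) → ∀ Z, 0 ≤ Z → InB X σ R (I (k + 1)) Z →
      InX X σ a R (I (k + 1)) ((Z + a * X.b (I (k + 1))) / (c * m k)) := by
    intro k h1 h2 Z hZ h x hx
    have := hX.b_ge (I (k + 1))
    exact ball_box (mul_pos hc (hm k))
      (fun l => (((hfi k ⟨h1, h2⟩).2 _ le_rfl (Ilt _)).2 l).1) (by positivity) (h x hx)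
  -- a crude block
  have crb : ∀ k, ¬ (N k ∧ N (k + 1)) → ∀ Z, 0 ≤ Z → InB X σ R (I (k + 1)) Z →
      InB X σ R (I (k + 2)) (D1 * (Z + C2 * (m (k + 1) * ℓ (k + 1)))) := by
    intro k hk Z hZ h
    have hU0 : 0 ≤ m (k + 1) * ℓ (k + 1) := (mul_pos (hm _) (hℓ _)).le
    obtain ⟨j, hj⟩ : ∃ j, I (k + 2) = I (k + 1) + j := Nat.exists_eq_add_of_le (Ilt (k + 1)).le
    have hjq : j ≤ q := by have := (hcr k hk).1; omega
    have h1 := crude_run hX ha hD hA hZ (U := B * (m (k + 1) * ℓ (k + 1))) (by positivity) h j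
      fun l a1 a2 => hb (k + 1) l a1 (by rw [show I (k + 1 + 1) = _ from hj]; exact a2)
    rw [hj]
    refine h1.mono ?_
    have h2 : D ^ j ≤ D1 := hD1 ▸ pow_le_pow_right₀ hD hjq
    have h3 : (j : ℝ) ≤ q := by exact_mod_cast hjq
    have h4 : (j : ℝ) * (2 * (a * (B * (m (k + 1) * ℓ (k + 1))))) ≤
        C2 * (m (k + 1) * ℓ (k + 1)) := by
      rw [hC2]
      have : 0 ≤ 2 * (a * (B * (m (k + 1) * ℓ (k + 1)))) := by positivity
      nlinarith
    exact mul_le_mul h2 (by linarith) (by positivity) (by linarith)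
  have hsum : Summable fun k => ℓ (k + 1) := by
    obtain ⟨Z0, hZ0, h0⟩ := exists_inB hX ha hD hA R (I (i0 + 1))
    have start : ∃ Φ0, St i0 Φ0 := by
      by_cases h1 : N i0
      · by_cases h2 : N (i0 + 1)
        · refine ⟨_, (Z0 + a * X.b (I (i0 + 1))) / (c * m i0), ?_, ?_, rfl⟩
          · have := hX.b_ge (I (i0 + 1))
            have := hm i0
            positivity
          · simp only [S0, if_pos h1, if_pos h2]; exact enter i0 h1 h2 Z0 hZ0 h0
        · refine ⟨_, Z0 / m (i0 + 1), div_nonneg hZ0 (hm _).le, ?_, rfl⟩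
          simp only [S0, if_pos h1, if_neg h2]
          rw [div_mul_cancel₀ _ (hm _).ne']; exact h0
      · refine ⟨_, Z0 * H / m (i0 + 1), div_nonneg (by positivity) (hm _).le, ?_, rfl⟩
        simp only [S0, if_neg h1]
        rw [div_mul_cancel₀ _ (hm _).ne', mul_div_cancel_right₀ _ H_pos.ne']; exact h0
    obtain ⟨Φ0, hΦ0⟩ := start
    refine seq (St := St) (T := T) (Tb := ∑' l, η l) κ_pos
      (fun k => hηs.sum_le_tsum _ fun l _ => hη l) (fun k => (hℓ _).le) hΦ0 ?_ ?_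
    · rintro k Φ ⟨Ψ, h1, -, rfl⟩
      exact add_nonneg h1 (W_nn k)
    rintro k hk Φ ⟨Ψ, hΨ, hS, rfl⟩
    have hE : 1 ≤ Real.exp (T (k + 1) - T k) := Real.one_le_exp (Tnn k)
    have hm1 := hm (k + 1)
    have hm2 := hm (k + 2)
    have hl1 := hℓ (k + 1)
    have hl2 := hℓ (k + 2)
    have hΛ1 := ℓΛ (k + 1)
    -- it suffices to give `Ψ'` with a bound
    suffices h : ∃ Ψ', 0 ≤ Ψ' ∧ S0 (k + 1) Ψ' ∧
        Ψ' + W (k + 1) ≤ Real.exp (T (k + 1) - T k) * Ψ + W k - κ * ℓ (k + 1) by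
      obtain ⟨Ψ', h1, h2, h3⟩ := h
      refine ⟨_, ⟨Ψ', h1, h2, rfl⟩, ?_⟩
      have := mul_le_mul_of_nonneg_right hE (W_nn k)
      linarith
    have hEΨ : Ψ ≤ Real.exp (T (k + 1) - T k) * Ψ := le_mul_of_one_le_left hΨ hE
    have hκℓ : κ * ℓ (k + 1) ≤ 1 / 8 * ℓ (k + 1) := mul_le_mul_of_nonneg_right κ_le hl1.le
    have hlt : I (k + 1) < I (k + 2) := Ilt (k + 1)
    by_cases n1 : N (k + 1)
    · by_cases n0 : N k
      · -- fine block
        simp only [S0, if_pos n0, if_pos n1] at hS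
        obtain ⟨hlen, hfin⟩ := hfi k ⟨n0, n1⟩
        have hno' : ∀ l, I (k + 1) ≤ l → ¬ InB X σ R l 0 := fun l hl =>
          hno l (le_trans (le_trans hk (Nat.le_succ k)) (le_trans (hI.le_apply) hl))
        have hW : W k = 0 := by simp only [W, if_pos n0, if_pos n1]
        by_cases n2 : N (k + 2)
        · obtain ⟨Y', h1, h2, h3⟩ := fine_run hX ha hη hL hj1 hj2 hno' hΨ hS (I (k + 2))
            (Ilt _).le fun l a1 a2 => by
              rcases a2.lt_or_eq with a2 | rfl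
              · exact (hfin l a1 a2).1
              · exact ((hfi (k + 1) ⟨n1, n2⟩).2 _ le_rfl (Ilt _)).1
          have f2 : X.fine (I (k + 2)) := ((hfi (k + 1) ⟨n1, n2⟩).2 _ le_rfl (Ilt _)).1
          refine ⟨Y', le_trans (hX.len_pos _ f2).le h1, ?_, ?_⟩
          · simp only [S0, if_pos n1, if_pos n2]; exact h2
          · have hW' : W (k + 1) = 0 := by simp only [W, if_pos n1, if_pos n2]
            rw [hW, hW', Tdiff]
            linarith
        · obtain ⟨j, hj⟩ : ∃ j, I (k + 2) = j + 1 := ⟨I (k + 2) - 1, by omega⟩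
          have hj0 : I (k + 1) ≤ j := by omega
          obtain ⟨Y', h1, h2, h3⟩ := fine_run hX ha hη hL hj1 hj2 hno' hΨ hS j hj0
            fun l a1 a2 => (hfin l a1 (by omega)).1
          have fj := hfin j hj0 (by omega)
          have lj := hX.len_pos j fj.1
          refine ⟨Y' - X.len j, by linarith, ?_, ?_⟩
          · simp only [S0, if_pos n1, if_neg n2]
            rw [show I (k + 1 + 1) = j + 1 from hj]
            intro x hx
            exact fine_norm hX fj.1 (hL j fj.1) (hj1 j fj.1) (by linarith)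
              (fun l => mul_le_mul_of_nonneg_left (fj.2 l).2 (by linarith)) (h2 x hx)
          · have hW' : W (k + 1) = 2 * κ * ℓ (k + 2) := by simp only [W, if_neg n2]
            rw [hW, hW', Tdiff, hj, Finset.sum_Ico_succ_top hj0, Real.exp_add]
            rw [hj, Finset.sum_Ico_succ_top hj0] at hlen
            have e1 : 1 ≤ Real.exp (η j) := Real.one_le_exp (hη j)
            have e2 : 0 ≤ Real.exp (∑ l ∈ Finset.Ico (I (k + 1)) j, η l) * Ψ :=
              mul_nonneg (Real.exp_pos _).le hΨ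
            have e3 : 2 * κ * ℓ (k + 2) ≤ 2 * κ * (Λ * ℓ (k + 1)) :=
              mul_le_mul_of_nonneg_left hΛ1 (by linarith)
            have e4 : 2 * κ * (Λ * ℓ (k + 1)) = 1 / 4 * ℓ (k + 1) := by
              linear_combination (2 * ℓ (k + 1)) * κΛ
            have e5 := mul_le_mul_of_nonneg_left e1 e2
            linarith
      · -- crude, jump at `k`, no jump at `k + 1`
        simp only [S0, if_neg n0] at hS
        have hZ : 0 ≤ Ψ * m (k + 1) / H := by positivity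
        have h1 := crb k (fun h => n0 h.1) _ hZ hS
        have hW : W k = C4 * ℓ (k + 1) := by simp only [W, if_pos n1, if_neg n0]
        have eZ : D1 * (Ψ * m (k + 1) / H + C2 * (m (k + 1) * ℓ (k + 1))) =
            (c * Ψ + D1 * C2 * ℓ (k + 1)) * m (k + 1) := by
          rw [hH]; field_simp
        rw [eZ] at h1
        have hZ' : 0 ≤ (c * Ψ + D1 * C2 * ℓ (k + 1)) * m (k + 1) := by positivity
        by_cases n2 : N (k + 2)
        · have h2 := enter (k + 1) n1 n2 _ hZ' h1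
          have b0 := hX.b_ge (I (k + 1 + 1))
          refine ⟨((c * Ψ + D1 * C2 * ℓ (k + 1)) * m (k + 1) + a * X.b (I (k + 1 + 1))) /
            (c * m (k + 1)), by positivity,
            by simp only [S0, if_pos n1, if_pos n2]; exact h2, ?_⟩
          have hW' : W (k + 1) = 0 := by simp only [W, if_pos n1, if_pos n2]
          have b1 : X.b (I (k + 1 + 1)) ≤ B * (Λ * (m (k + 1) * ℓ (k + 1))) :=
            le_trans (hb (k + 2) _ le_rfl (Ilt _))
              (mul_le_mul_of_nonneg_left (hU (k + 1)) (by linarith))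
          have b2 : ((c * Ψ + D1 * C2 * ℓ (k + 1)) * m (k + 1) + a * X.b (I (k + 1 + 1))) /
              (c * m (k + 1)) ≤ Ψ + C3 * ℓ (k + 1) := by
            rw [div_le_iff₀ (by positivity)]
            have e : (Ψ + C3 * ℓ (k + 1)) * (c * m (k + 1)) =
                (c * Ψ + D1 * C2 * ℓ (k + 1)) * m (k + 1) +
                  a * (B * (Λ * (m (k + 1) * ℓ (k + 1)))) := by
              rw [hC3]; field_simp; ring
            rw [e]
            have := mul_le_mul_of_nonneg_left b1 (by linarith : (0 : ℝ) ≤ a)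
            linarith
          rw [hW, hW', hC4]
          linarith
        · refine ⟨c * Ψ + D1 * C2 * ℓ (k + 1), by positivity, ?_, ?_⟩
          · simp only [S0, if_pos n1, if_neg n2]
            exact h1.mono (mul_le_mul_of_nonneg_left (hmono (Nat.le_succ _)) (by positivity))
          · have hW' : W (k + 1) = 2 * κ * ℓ (k + 2) := by simp only [W, if_neg n2]
            have e3 : 2 * κ * ℓ (k + 2) ≤ 2 * κ * (Λ * ℓ (k + 1)) :=
              mul_le_mul_of_nonneg_left hΛ1 (by linarith)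
            have e4 : 2 * κ * (Λ * ℓ (k + 1)) = 1 / 4 * ℓ (k + 1) := by
              linear_combination (2 * ℓ (k + 1)) * κΛ
            have e5 : D1 * C2 * ℓ (k + 1) ≤ C3 * ℓ (k + 1) :=
              mul_le_mul_of_nonneg_right C3_ge hl1.le
            have e6 : c * Ψ ≤ Ψ := mul_le_of_le_one_left hΨ hc1
            rw [hW, hW', hC4]
            linarith
    · -- crude, jump at `k + 1`
      have hS' : InB X σ R (I (k + 1)) (Ψ * m (k + 1)) := by
        by_cases n0 : N k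
        · simpa only [S0, if_pos n0, if_neg n1] using hS
        · simp only [S0, if_neg n0] at hS
          refine hS.mono (div_le_self (by positivity) (by linarith))
      have h1 := crb k (fun h => n1 h.2) _ (by positivity) hS'
      have hW : W k = 2 * κ * ℓ (k + 1) := by simp only [W, if_neg n1]
      have hJ : K * m (k + 1) ≤ m (k + 2) := (not_le.1 n1).le
      have hJ' := ℓJ (k + 1) n1
      have hW' : W (k + 1) ≤ C4 * ℓ (k + 2) := by
        simp only [W, if_neg n1]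
        split_ifs
        · exact le_rfl
        · exact mul_le_mul_of_nonneg_right C4_nn hl2.le
      refine ⟨H * D1 / K * (Ψ + C2 * ℓ (k + 1)), by positivity, ?_, ?_⟩
      · simp only [S0, if_neg n1]
        refine h1.mono ?_
        have e : H * D1 / K * (Ψ + C2 * ℓ (k + 1)) * m (k + 1 + 1) / H =
            D1 * (Ψ + C2 * ℓ (k + 1)) * (m (k + 2) / K) := by field_simp
        rw [e]
        have h2 : m (k + 1) ≤ m (k + 2) / K := by rw [le_div_iff₀ K_pos]; linarith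
        have h3 := mul_le_mul_of_nonneg_left h2
          (by positivity : 0 ≤ D1 * (Ψ + C2 * ℓ (k + 1)))
        linarith
      · have e1 : H * D1 / K * Ψ ≤ Ψ := by
          have : H * D1 / K ≤ 1 := by rw [div_le_one K_pos]; exact K1
          exact mul_le_of_le_one_left hΨ this
        have e2 : H * D1 / K * (C2 * ℓ (k + 1)) + C4 * ℓ (k + 2) ≤ κ * ℓ (k + 1) := by
          have e3 : K * (H * D1 / K * (C2 * ℓ (k + 1)) + C4 * ℓ (k + 2)) =
              H * D1 * C2 * ℓ (k + 1) + C4 * (K * ℓ (k + 2)) := by field_simp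
          have e4 := mul_le_mul_of_nonneg_left hJ' hC4'
          have e5 := mul_le_mul_of_nonneg_right K2 hl1.le
          refine le_of_mul_le_mul_left ?_ K_pos
          rw [e3]
          linarith
        rw [hW]
        linarith
  exact hns ((summable_nat_add_iff 1).1 hsum)

end Crest.Agent.T223.Dyn

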