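import Crest.Agent.T223.DynDef_20
import Crest.Agent.T223.AndDef_22

/-!
# Row 223, module DYN, leaves REALK and REAL (helper71)

`realKStmt`: for a kept (triangular) array the map `id + hev c` is itself an automorphism.
`realStmt`: the Andersén lemma applied to `id + hev c`.
-/

set_option autoImplicit false

open Set Filter Topology Metric Asymptotics

namespace Crest.Agent.T223.Dyn

namespace R71

variable {n : ℕ}

theorem det_aux (f : MultilinearMap ℂ (fun _ : Fin n => Fin n → ℂ) ℂ) {B : ℝ} (hB : 0 ≤ B)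
    (hf : ∀ m : Fin n → Fin n → ℂ, (∀ i j, ‖m i j‖ ≤ 1) → ‖f m‖ ≤ B)
    (I M : Fin n → Fin n → ℂ) (hI : ∀ i j, ‖I i j‖ ≤ 1) {ε : ℝ} (h : 0 < ε) (h1 : ε ≤ 1)
    (hM : ∀ i j, ‖M i j‖ ≤ ε) :
    ‖f (I + M) - f I - ∑ i, f (Function.update I i (M i))‖ ≤ 2 ^ n * B * ε ^ 2 := by
  classical
  have key := f.map_add_eq_map_add_linearDeriv_add I M
  rw [MultilinearMap.linearDeriv_apply] at key
  have hε : ((ε : ℂ)) ≠ 0 := by exact_mod_cast h.ne'
  have hterm : ∀ s : Finset (Fin n), 2 ≤ s.card → ‖f (s.piecewise M I)‖ ≤ B * ε ^ 2 := by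
    intro s hs
    set m : Fin n → Fin n → ℂ := s.piecewise (fun i => (ε : ℂ)⁻¹ • M i) I with hm
    have e1 : s.piecewise M I = s.piecewise (fun i => (ε : ℂ) • m i) m := by
      funext i
      by_cases hi : i ∈ s
      · simp only [hm, hi, Finset.piecewise_eq_of_mem]
        rw [smul_inv_smul₀ hε]
      · simp [hm, hi]
    have hb : ∀ i j, ‖m i j‖ ≤ 1 := by
      intro i j
      by_cases hi : i ∈ s
      · simp only [hm, hi, Finset.piecewise_eq_of_mem, Pi.smul_apply, smul_eq_mul, norm_mul,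
          norm_inv, Complex.norm_real, Real.norm_eq_abs, abs_of_pos h]
        rw [inv_mul_le_iff₀ h]; simpa using hM i j
      · simp only [hm, hi, Finset.piecewise_eq_of_notMem, not_false_eq_true]
        exact hI i j
    rw [e1, f.map_piecewise_smul, norm_smul, Finset.prod_const, norm_pow, Complex.norm_real,
      Real.norm_eq_abs, abs_of_pos h, mul_comm]
    exact mul_le_mul (hf m hb) (pow_le_pow_of_le_one h.le h1 hs) (by positivity) hB
  have e2 : f (I + M) - f I - ∑ i, f (Function.update I i (M i)) =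
      ∑ s : Finset (Fin n) with 2 ≤ s.card, f (s.piecewise M I) := by
    rw [key]; ring
  rw [e2]
  refine (norm_sum_le _ _).trans ?_
  refine (Finset.sum_le_card_nsmul _ _ (B * ε ^ 2) fun s hs =>
    hterm s (Finset.mem_filter.1 hs).2).trans ?_
  rw [nsmul_eq_mul, mul_assoc]
  refine mul_le_mul_of_nonneg_right ?_ (by positivity)
  have := Finset.card_filter_le (Finset.univ : Finset (Finset (Fin n))) (fun s => 2 ≤ s.card)
  rw [Finset.card_univ, Fintype.card_finset, Fintype.card_fin] at this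
  exact_mod_cast this

/-- second order expansion of the determinant -/
theorem det_one_add (n : ℕ) : ∃ K : ℝ, 0 ≤ K ∧ ∀ (M : Matrix (Fin n) (Fin n) ℂ) (ε : ℝ),
    0 ≤ ε → ε ≤ 1 → (∀ i j, ‖M i j‖ ≤ ε) → ‖(1 + M).det - 1 - M.trace‖ ≤ K * ε ^ 2 := by
  classical
  refine ⟨2 ^ n * (n.factorial : ℝ), by positivity, fun M ε h0 h1 hM => ?_⟩
  rcases h0.eq_or_lt with h | h
  · subst h
    have : M = 0 := by
      ext i j; simpa using hM i j
    subst this; simp
  have key := det_aux (Matrix.detRowAlternating (n := Fin n) (R := ℂ)).toMultilinearMap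
    (B := (n.factorial : ℝ)) (by positivity) (fun m hm => by
      have := Matrix.det_le (A := Matrix.of m) (abv := NormedField.toAbsoluteValue ℂ) (x := 1) hm
      simp only [Fintype.card_fin, one_pow, nsmul_eq_mul, mul_one] at this
      exact this) (1 : Matrix (Fin n) (Fin n) ℂ) M (fun i j => by
        rw [Matrix.one_apply]; split_ifs <;> simp) h h1 hM
  have hlin : ∑ i, ((1 : Matrix (Fin n) (Fin n) ℂ).updateRow i (M i)).det = M.trace := by
    rw [Matrix.trace]
    refine Finset.sum_congr rfl fun i _ => ?_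
    have h2 := Matrix.det_updateRow_sum (1 : Matrix (Fin n) (Fin n) ℂ) i (M i)
    have h3 : ∑ k, M i k • (1 : Matrix (Fin n) (Fin n) ℂ) k = M i := by
      ext j
      simp [Finset.sum_apply, Matrix.one_apply]
    rw [h3] at h2
    simpa using h2
  have key' : ‖(1 + M).det - (1 : Matrix (Fin n) (Fin n) ℂ).det -
      ∑ i, ((1 : Matrix (Fin n) (Fin n) ℂ).updateRow i (M i)).det‖ ≤
      2 ^ n * (n.factorial : ℝ) * ε ^ 2 := key
  rwa [hlin, Matrix.det_one] at key'

/-- the matrix of a continuous linear map -/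
noncomputable def mat (A : EE n →L[ℂ] EE n) : Matrix (Fin n) (Fin n) ℂ :=
  fun l k => A (EuclideanSpace.single k 1) l

theorem det_id_add (A : EE n →L[ℂ] EE n) :
    (ContinuousLinearMap.id ℂ (EE n) + A).det = (1 + mat A).det := by
  classical
  rw [ContinuousLinearMap.det, ← LinearMap.det_toMatrix (EuclideanSpace.basisFun (Fin n) ℂ).toBasis]
  congr 1
  ext l k
  simp [LinearMap.toMatrix_apply, mat, Matrix.one_apply]

variable {d : ℕ}

theorem norm_mono_le (w : Fin d → Fin n) (x : EE n) : ‖mono w x‖ ≤ ‖x‖ ^ d := by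
  rw [mono, norm_prod]
  calc ∏ k, ‖x (w k)‖ ≤ ∏ _k : Fin d, ‖x‖ :=
        Finset.prod_le_prod (fun _ _ => norm_nonneg _) fun k _ => PiLp.norm_apply_le x (w k)
    _ = ‖x‖ ^ d := by simp

theorem norm_hev_le (c : Arr n d) (x : EE n) : ‖hev c x‖ ≤ (n : ℝ) ^ d * ‖c‖ * ‖x‖ ^ d := by
  rw [hev]
  refine (norm_sum_le _ _).trans ?_
  refine (Finset.sum_le_card_nsmul _ _ (‖c‖ * ‖x‖ ^ d) fun w _ => ?_).trans ?_
  · rw [norm_smul, mul_comm]
    exact mul_le_mul (norm_le_pi_norm c w) (norm_mono_le w x) (norm_nonneg _) (norm_nonneg _)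
  · simp [mul_assoc]

theorem hev_apply (c : Arr n d) (x : EE n) (l : Fin n) : hev c x l = ∑ w, mono w x * c w l := by
  simp [hev]

/-- the derivative of a monomial -/
noncomputable def dmono (w : Fin d → Fin n) (x : EE n) : EE n →L[ℂ] ℂ :=
  ∑ k, (∏ j ∈ Finset.univ.erase k, x (w j)) • EuclideanSpace.proj (𝕜 := ℂ) (w k)

theorem hasFDerivAt_mono (w : Fin d → Fin n) (x : EE n) : HasFDerivAt (mono w) (dmono w x) x := by
  have := HasFDerivAt.finsetProd (u := Finset.univ) (x := x)
    (g := fun (k : Fin d) (y : EE n) => y (w k))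
    (g' := fun k => EuclideanSpace.proj (𝕜 := ℂ) (w k))
    fun k _ => (EuclideanSpace.proj (𝕜 := ℂ) (w k) : EE n →L[ℂ] ℂ).hasFDerivAt
  exact this

theorem norm_dmono_le (w : Fin d → Fin n) (x v : EE n) :
    ‖dmono w x v‖ ≤ d * ‖x‖ ^ (d - 1) * ‖v‖ := by
  simp only [dmono, sum_apply, smul_apply, smul_eq_mul]
  refine (norm_sum_le _ _).trans ?_
  refine (Finset.sum_le_card_nsmul _ _ (‖x‖ ^ (d - 1) * ‖v‖) fun k _ => ?_).trans ?_
  · rw [norm_mul, norm_prod]
    refine mul_le_mul ?_ (PiLp.norm_apply_le v (w k)) (norm_nonneg _) (by positivity)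
    calc ∏ j ∈ Finset.univ.erase k, ‖x (w j)‖ ≤ ∏ _j ∈ Finset.univ.erase k, ‖x‖ :=
          Finset.prod_le_prod (fun _ _ => norm_nonneg _) fun j _ => PiLp.norm_apply_le x (w j)
      _ = ‖x‖ ^ (d - 1) := by simp
  · simp [mul_assoc]

/-- the derivative of `hev c` -/
noncomputable def dhev (c : Arr n d) (x : EE n) : EE n →L[ℂ] EE n :=
  ∑ w, (dmono w x).smulRight (c w)

theorem hasFDerivAt_hev (c : Arr n d) (x : EE n) : HasFDerivAt (hev c) (dhev c x) x := by
  have := HasFDerivAt.fun_sum (u := Finset.univ) (x := x)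
    (A := fun (w : Fin d → Fin n) (y : EE n) => mono w y • c w)
    (A' := fun w => (dmono w x).smulRight (c w))
    fun w _ => (hasFDerivAt_mono w x).smul_const (c w)
  exact this

theorem differentiable_hev (c : Arr n d) : Differentiable ℂ (hev c) := fun x =>
  (hasFDerivAt_hev c x).differentiableAt

theorem norm_dhev_le (c : Arr n d) (x v : EE n) :
    ‖dhev c x v‖ ≤ (n : ℝ) ^ d * d * ‖c‖ * ‖x‖ ^ (d - 1) * ‖v‖ := by
  simp only [dhev, sum_apply, ContinuousLinearMap.smulRight_apply]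
  refine (norm_sum_le _ _).trans ?_
  refine (Finset.sum_le_card_nsmul _ _ (d * ‖x‖ ^ (d - 1) * ‖v‖ * ‖c‖) fun w _ => ?_).trans ?_
  · rw [norm_smul]
    exact mul_le_mul (norm_dmono_le w x v) (norm_le_pi_norm c w) (norm_nonneg _) (by positivity)
  · simp only [Finset.card_univ, Fintype.card_fun, Fintype.card_fin, nsmul_eq_mul]
    push_cast
    exact le_of_eq (by ring)

theorem hasFDerivAt_id_add (c : Arr n d) (x : EE n) :
    HasFDerivAt (fun y => y + hev c y) (ContinuousLinearMap.id ℂ (EE n) + dhev c x) x :=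
  (hasFDerivAt_id x).add (hasFDerivAt_hev c x)

theorem trace_mat (c : Arr n d) (x : EE n) : (mat (dhev c x)).trace = divg (hev c) x := by
  rw [divg, (hasFDerivAt_hev c x).fderiv]; rfl

/-! ### triangular arrays -/

section Kept

variable {wt : Fin n → ℝ} {c : Arr n d}

theorem kept_lt (hd : 2 ≤ d) (hw : ∀ l, 0 < wt l) (hk : Kept wt c) {w : Fin d → Fin n}
    {l : Fin n} (h : c w l ≠ 0) (k : Fin d) : wt (w k) < wt l := by
  have h1 := hk w l h
  obtain ⟨j, hj⟩ : ∃ j : Fin d, j ≠ k := by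
    by_cases h0 : k.val = 0
    · exact ⟨⟨1, by omega⟩, fun e => by rw [← e] at h0; simp at h0⟩
    · exact ⟨⟨0, by omega⟩, fun e => by rw [← e] at h0; simp at h0⟩
  have h2 : wt (w k) + wt (w j) ≤ ∑ i, wt (w i) := by
    rw [← Finset.sum_pair (f := fun i => wt (w i)) hj.symm]
    exact Finset.sum_le_sum_of_subset_of_nonneg (Finset.subset_univ _) fun i _ _ => (hw _).le
  linarith [hw (w j)]

theorem hev_congr (hd : 2 ≤ d) (hw : ∀ l, 0 < wt l) (hk : Kept wt c) {x y : EE n} {l : Fin n}
    (h : ∀ k, wt k < wt l → x k = y k) : hev c x l = hev c y l := by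
  rw [hev_apply, hev_apply]
  refine Finset.sum_congr rfl fun w _ => ?_
  by_cases h0 : c w l = 0
  · simp [h0]
  · congr 1
    exact Finset.prod_congr rfl fun k _ => h _ (kept_lt hd hw hk h0 k)

theorem mat_eq_zero (hd : 2 ≤ d) (hw : ∀ l, 0 < wt l) (hk : Kept wt c) (x : EE n) {l k : Fin n}
    (h : ¬ wt k < wt l) : mat (dhev c x) l k = 0 := by
  simp only [mat, dhev, sum_apply, ContinuousLinearMap.smulRight_apply,
    WithLp.ofLp_sum, Finset.sum_apply, WithLp.ofLp_smul, Pi.smul_apply, smul_eq_mul]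
  refine Finset.sum_eq_zero fun w _ => ?_
  by_cases h0 : c w l = 0
  · simp [h0]
  · have : dmono w x (EuclideanSpace.single k 1) = 0 := by
      simp only [dmono, sum_apply, smul_apply]
      refine Finset.sum_eq_zero fun j _ => ?_
      have : w j ≠ k := fun e => h (e ▸ kept_lt hd hw hk h0 j)
      simp [this]
    simp [this]

theorem det_kept (hd : 2 ≤ d) (hw : ∀ l, 0 < wt l) (hk : Kept wt c) (x : EE n) :
    (1 + mat (dhev c x)).det = 1 := by
  classical
  have hb : Matrix.BlockTriangular (1 + mat (dhev c x)) fun l => -wt l := by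
    intro i j hij
    have h1 : wt i < wt j := by simpa using hij
    have h2 : i ≠ j := fun e => by rw [e] at h1; exact lt_irrefl _ h1
    rw [Matrix.add_apply, mat_eq_zero hd hw hk x h1.not_gt, Matrix.one_apply_ne h2, add_zero]
  rw [hb.det]
  refine Finset.prod_eq_one fun a _ => ?_
  have : (1 + mat (dhev c x)).toSquareBlock (fun l => -wt l) a = 1 := by
    ext i j
    have hij : wt j = wt i := by linarith [i.2, j.2]
    rw [Matrix.toSquareBlock_def, Matrix.of_apply, Matrix.add_apply,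
      mat_eq_zero hd hw hk x (by rw [hij]; exact lt_irrefl _), add_zero, Matrix.one_apply,
      Matrix.one_apply]
    simp [Subtype.ext_iff]
  rw [this, Matrix.det_one]

/-- rank of a coordinate -/
noncomputable def rk (wt : Fin n → ℝ) (l : Fin n) : ℕ :=
  (Finset.univ.filter fun k => wt k < wt l).card

theorem rk_lt {k l : Fin n} (h : wt k < wt l) : rk wt k < rk wt l := by
  refine Finset.card_lt_card ⟨fun j hj => ?_, fun hs => ?_⟩
  · simp only [Finset.mem_filter, Finset.mem_univ, true_and] at hj ⊢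
    exact hj.trans h
  · have := hs (Finset.mem_filter.2 ⟨Finset.mem_univ k, h⟩)
    simp at this

theorem rk_lt_n (l : Fin n) : rk wt l < n := by
  have : rk wt l < (Finset.univ : Finset (Fin n)).card := by
    refine Finset.card_lt_card ⟨Finset.filter_subset _ _, fun hs => ?_⟩
    have := hs (Finset.mem_univ l)
    simp at this
  simpa using this

/-- the iteration for the inverse -/
noncomputable def itv (c : Arr n d) : ℕ → EE n → EE n
  | 0 => fun x => x
  | j + 1 => fun x => x - hev c (itv c j x)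

theorem itv_diff (c : Arr n d) : ∀ j, Differentiable ℂ (itv c j)
  | 0 => differentiable_id
  | j + 1 => differentiable_id.sub ((differentiable_hev c).comp (itv_diff c j))

theorem itv_stab (hd : 2 ≤ d) (hw : ∀ l, 0 < wt l) (hk : Kept wt c) (x : EE n) :
    ∀ m : ℕ, ∀ l, rk wt l < m → ∀ j j', m ≤ j → m ≤ j' → itv c j x l = itv c j' x l := by
  intro m
  induction m with
  | zero => intro l hl; omega
  | succ m ih =>
    intro l hl j j' hj hj'
    obtain ⟨a, rfl⟩ : ∃ a, j = a + 1 := ⟨j - 1, by omega⟩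
    obtain ⟨a', rfl⟩ : ∃ a, j' = a + 1 := ⟨j' - 1, by omega⟩
    simp only [itv, PiLp.sub_apply]
    rw [hev_congr hd hw hk (x := itv c a x) (y := itv c a' x) fun k hkl =>
      ih k (by have := rk_lt hkl; omega) a a' (by omega) (by omega)]

theorem itv_right (hd : 2 ≤ d) (hw : ∀ l, 0 < wt l) (hk : Kept wt c) (x : EE n) :
    itv c n x + hev c (itv c n x) = x := by
  have : itv c n x = itv c (n + 1) x := by
    ext l
    exact itv_stab hd hw hk x n l (rk_lt_n l) n (n + 1) le_rfl (Nat.le_succ n)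
  have h2 : itv c (n + 1) x = x - hev c (itv c n x) := rfl
  rw [h2] at this
  exact eq_sub_iff_add_eq.1 this

theorem inj_kept (hd : 2 ≤ d) (hw : ∀ l, 0 < wt l) (hk : Kept wt c) :
    Function.Injective fun x => x + hev c x := by
  intro x y hxy
  have : ∀ m : ℕ, ∀ l, rk wt l < m → x l = y l := by
    intro m
    induction m with
    | zero => intro l hl; omega
    | succ m ih =>
      intro l hl
      have h1 : x l + hev c x l = y l + hev c y l := by
        simpa using congrArg (fun z : EE n => z l) hxy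
      rw [hev_congr hd hw hk (x := x) (y := y) fun k hkl =>
        ih k (by have := rk_lt hkl; omega)] at h1
      exact add_right_cancel h1
  ext l
  exact this n l (rk_lt_n l)

theorem itv_bound (hd : 2 ≤ d) (c : Arr n d) {B : ℝ} (hB : (n : ℝ) ^ d * ‖c‖ * 2 ^ d ≤ B)
    {x : EE n} (hx : ‖x‖ ≤ 1) (hx' : B * ‖x‖ ≤ 1) :
    ∀ j, ‖itv c j x - x‖ ≤ B * ‖x‖ ^ 2 := by
  have hB0 : 0 ≤ B := le_trans (by positivity) hB
  intro j
  induction j with
  | zero => simp only [itv, sub_self, norm_zero]; positivity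
  | succ j ih =>
    have h1 : ‖itv c j x‖ ≤ 2 * ‖x‖ := by
      have := norm_add_le (itv c j x - x) x
      rw [sub_add_cancel] at this
      nlinarith [norm_nonneg x]
    have h2 : itv c (j + 1) x - x = -hev c (itv c j x) := by simp [itv]
    rw [h2, norm_neg]
    calc ‖hev c (itv c j x)‖ ≤ (n : ℝ) ^ d * ‖c‖ * ‖itv c j x‖ ^ d := norm_hev_le _ _
      _ ≤ (n : ℝ) ^ d * ‖c‖ * (2 * ‖x‖) ^ d := by gcongr
      _ = (n : ℝ) ^ d * ‖c‖ * 2 ^ d * ‖x‖ ^ d := by rw [mul_pow]; ring
      _ ≤ B * ‖x‖ ^ 2 :=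
        mul_le_mul hB (pow_le_pow_of_le_one (norm_nonneg _) hx hd) (by positivity) hB0

end Kept

theorem small {t : ℝ} {x : EE n} (ht : 0 ≤ t) (hx : ‖x‖ ≤ Real.exp (-t)) :
    ‖x‖ ≤ 1 ∧ Real.exp t * ‖x‖ ≤ 1 := by
  refine ⟨hx.trans (Real.exp_le_one_iff.2 (by linarith)), ?_⟩
  calc Real.exp t * ‖x‖ ≤ Real.exp t * Real.exp (-t) := by gcongr
    _ = 1 := by rw [← Real.exp_add]; simp

end R71

open R71

/-- **leaf REALK** -/
theorem realKStmt (n : ℕ) : RealKStmt n := by
  intro d hd
  set N : ℝ := (n : ℝ) ^ d with hN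
  have hN0 : 0 ≤ N := by positivity
  have h2d : (1 : ℝ) ≤ 2 ^ d := one_le_pow₀ (by norm_num)
  set C : ℝ := 1 + N * 2 ^ d with hC
  have hC1 : 1 ≤ C := by have : 0 ≤ N * 2 ^ d := by positivity
                         linarith
  have hCe : C ≤ Real.exp C := by linarith [Real.add_one_le_exp C]
  have hNC : 1 + N ≤ C := by nlinarith
  have hd1 : (1 : ℝ) ≤ d := by exact_mod_cast (by omega : 1 ≤ d)
  refine ⟨C, d, hC1, hd1, fun c b wt hb hc hw hk => ?_⟩
  have hB : N * ‖c‖ * 2 ^ d ≤ Real.exp (b + C) := by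
    rw [Real.exp_add]
    calc N * ‖c‖ * 2 ^ d = ‖c‖ * (N * 2 ^ d) := by ring
      _ ≤ Real.exp b * Real.exp C :=
        mul_le_mul hc (by linarith) (by positivity) (Real.exp_pos _).le
  have hB' : N * ‖c‖ ≤ Real.exp (b + C) := by
    refine le_trans ?_ hB
    have : 0 ≤ N * ‖c‖ := by positivity
    nlinarith
  let σ : EE n ≃ EE n :=
    { toFun := fun x => x + hev c x
      invFun := itv c n
      left_inv := fun x => inj_kept hd hw hk (itv_right hd hw hk _)
      right_inv := fun x => itv_right hd hw hk x }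
  have hσ : (σ : EE n → EE n) = fun x => x + hev c x := rfl
  have hσ' : (σ.symm : EE n → EE n) = itv c n := rfl
  refine ⟨σ, ⟨?_, ?_, ?_, ?_, ?_, ?_⟩, ?_, ?_⟩
  · rw [hσ]; exact fun x => (hasFDerivAt_id_add c x).differentiableAt
  · rw [hσ']; exact itv_diff c n
  · intro x
    rw [hσ, (hasFDerivAt_id_add c x).fderiv, det_id_add, det_kept hd hw hk]
  · intro x hx
    obtain ⟨h1, -⟩ := small (by linarith) hx
    rw [hσ]
    simp only [add_sub_cancel_left]
    exact (norm_hev_le c x).trans (mul_le_mul hB' (pow_le_pow_of_le_one (norm_nonneg _) h1 hd)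
      (by positivity) (Real.exp_pos _).le)
  · intro x hx
    obtain ⟨h1, h2⟩ := small (by linarith) hx
    rw [hσ']
    exact itv_bound hd c hB h1 h2 n
  · intro Z x hZ hx
    rw [hσ]
    have e1 : ‖x‖ ≤ Real.exp (b + d * Z) :=
      hx.trans (Real.exp_le_exp.2 (by nlinarith))
    have e2 : ‖hev c x‖ ≤ N * Real.exp (b + d * Z) := by
      refine (norm_hev_le c x).trans ?_
      rw [Real.exp_add, Real.exp_nat_mul, mul_assoc]
      gcongr
    calc ‖x + hev c x‖ ≤ (1 + N) * Real.exp (b + d * Z) := by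
          linarith [norm_add_le x (hev c x)]
      _ ≤ Real.exp C * Real.exp (b + d * Z) := by gcongr; linarith
      _ ≤ Real.exp (d * (Z + (b + C))) := by
          rw [← Real.exp_add]
          exact Real.exp_le_exp.2 (by nlinarith)
  · intro Y C' hY hC' x hx l
    rw [hσ]
    have hterm : ∀ w, ‖mono w x * c w l‖ ≤ Real.exp (Y * wt l - C') := by
      intro w
      by_cases h0 : c w l = 0
      · rw [h0, mul_zero, norm_zero]; exact (Real.exp_pos _).le
      have h1 : ‖mono w x‖ ≤ Real.exp (Y * wt l - d * C') := by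
        rw [mono, norm_prod]
        calc ∏ k, ‖x (w k)‖ ≤ ∏ k, Real.exp (Y * wt (w k) - C') :=
              Finset.prod_le_prod (fun _ _ => norm_nonneg _) fun k _ => hx (w k)
          _ = Real.exp (Y * ∑ k, wt (w k) - d * C') := by
              rw [← Real.exp_sum, Finset.sum_sub_distrib, Finset.mul_sum]; simp
          _ ≤ _ := Real.exp_le_exp.2 (by nlinarith [hk w l h0])
      have h2 : ‖c w l‖ ≤ Real.exp b :=
        (PiLp.norm_apply_le (c w) l).trans ((norm_le_pi_norm c w).trans hc)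
      have hd2 : (2 : ℝ) ≤ d := by exact_mod_cast hd
      rw [norm_mul]
      calc ‖mono w x‖ * ‖c w l‖ ≤ Real.exp (Y * wt l - d * C') * Real.exp b :=
            mul_le_mul h1 h2 (norm_nonneg _) (Real.exp_pos _).le
        _ ≤ _ := by
            rw [← Real.exp_add]
            exact Real.exp_le_exp.2 (by nlinarith)
    have h3 : ‖hev c x l‖ ≤ N * Real.exp (Y * wt l - C') := by
      rw [hev_apply]
      refine (norm_sum_le _ _).trans ?_
      refine (Finset.sum_le_card_nsmul _ _ _ fun w _ => hterm w).trans ?_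
      simp [hN]
    calc ‖(x + hev c x) l‖ ≤ (1 + N) * Real.exp (Y * wt l - C') := by
          rw [PiLp.add_apply]
          linarith [norm_add_le (x l) (hev c x l), hx l]
      _ ≤ Real.exp C * Real.exp (Y * wt l - C') := by gcongr; linarith
      _ = Real.exp (Y * wt l - (C' - C)) := by rw [← Real.exp_add]; congr 1; ring
  · rw [hσ]
    simp only [add_sub_cancel_left, sub_self]
    exact isBigO_zero _ _

/-- **leaf REAL** from the Andersén lemma -/
theorem realStmt {n : ℕ} (h : And.AndStmt n) : RealStmt n := by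
  intro d hd
  obtain ⟨D0, C0, hC0, H⟩ := h d
  obtain ⟨K, hK0, hK⟩ := det_one_add n
  set N : ℝ := (n : ℝ) ^ d with hN
  have hN0 : 0 ≤ N := by positivity
  set C : ℝ := 2 * C0 * (N + 1) with hC
  have hC1 : 1 ≤ C := by nlinarith
  have hCe : C ≤ Real.exp C := by linarith [Real.add_one_le_exp C]
  have hD0 : (0 : ℝ) ≤ D0 := Nat.cast_nonneg _
  refine ⟨C, D0 + 1, hC1, by linarith, fun c b hb hc hdiv => ?_⟩
  have heb : 1 ≤ Real.exp b := Real.one_le_exp hb
  set β : ℝ := (N + 1) * Real.exp b with hβ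
  have hβ1 : 1 ≤ β := by nlinarith
  have hβ0 : 0 < β := by linarith
  have hβC : 2 * C0 * β ≤ Real.exp (b + C) := by
    rw [Real.exp_add]
    calc 2 * C0 * β = Real.exp b * C := by rw [hβ, hC]; ring
      _ ≤ _ := by gcongr
  have hball : ∀ z ∈ ball (0 : EE n) β⁻¹, ‖z‖ ≤ 1 := fun z hz =>
    (mem_ball_zero_iff.1 hz).le.trans (inv_le_one_of_one_le₀ hβ1)
  obtain ⟨Q, Q', hQ, hj⟩ := H β (fun x => x + hev c x) hβ0
    (fun x _ => (hasFDerivAt_id_add c x).differentiableAt.differentiableWithinAt)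
    (fun z hz => by
      simp only [add_sub_cancel_left]
      refine (norm_hev_le c z).trans (mul_le_mul ?_
        (pow_le_pow_of_le_one (norm_nonneg _) (hball z hz) hd) (by positivity) hβ0.le)
      rw [hβ]
      exact mul_le_mul (by linarith) hc (norm_nonneg _) (by linarith))
    (by
      set A : ℝ := N * d * ‖c‖ + 1 with hA
      have hA1 : 1 ≤ A := by have : 0 ≤ N * d * ‖c‖ := by positivity
                             linarith
      have hA0 : 0 < A := by linarith
      refine ⟨K * A ^ 2, ?_⟩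
      filter_upwards [ball_mem_nhds (0 : EE n) (inv_pos.2 hA0)] with z hz
      have hz1 : ‖z‖ < A⁻¹ := mem_ball_zero_iff.1 hz
      have hz2 : ‖z‖ ≤ 1 := hz1.le.trans (inv_le_one_of_one_le₀ hA1)
      have hz3 : A * ‖z‖ ≤ 1 := by
        rw [← le_div_iff₀' hA0, one_div]; exact hz1.le
      have hp : ‖z‖ ^ (d - 1) ≤ ‖z‖ := by
        simpa using pow_le_pow_of_le_one (norm_nonneg z) hz2 (by omega : 1 ≤ d - 1)
      have hent : ∀ i j, ‖mat (dhev c z) i j‖ ≤ A * ‖z‖ ^ (d - 1) := by
        intro i j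
        refine (PiLp.norm_apply_le _ i).trans ((norm_dhev_le c z _).trans ?_)
        simp only [PiLp.norm_single, norm_one, mul_one]
        gcongr
        linarith
      have := hK (mat (dhev c z)) (A * ‖z‖ ^ (d - 1)) (by positivity)
        (le_trans (by gcongr) hz3) hent
      rw [trace_mat, hdiv, sub_zero] at this
      rw [(hasFDerivAt_id_add c z).fderiv, det_id_add]
      refine this.trans ?_
      rw [mul_pow, ← pow_mul, mul_assoc]
      gcongr K * (A ^ 2 * ?_)
      exact pow_le_pow_of_le_one (norm_nonneg z) hz2 (by omega))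
  let σ : EE n ≃ EE n := ⟨Q, Q', hQ.li, hQ.ri⟩
  have hσ : (σ : EE n → EE n) = Q := rfl
  have hσ' : (σ.symm : EE n → EE n) = Q' := rfl
  have hβe : β ≤ Real.exp (b + C) := by nlinarith
  have hCβ : C0 * β ≤ Real.exp (b + C) := by nlinarith
  have hsm : ∀ x : EE n, ‖x‖ ≤ Real.exp (-(b + C)) → β * ‖x‖ ≤ 1 := fun x hx =>
    le_trans (by gcongr) (small (by linarith) hx).2
  refine ⟨σ, ⟨hQ.hol, hQ.hol', hQ.det, fun x hx => ?_, fun x hx => ?_, fun Z x hZ hx => ?_⟩, ?_⟩
  · exact (hQ.tan x (hsm x hx)).trans (by gcongr)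
  · exact (hQ.tan' x (hsm x hx)).trans (by gcongr)
  · have hZ1 : 1 ≤ Real.exp Z := Real.one_le_exp hZ
    have e1 : 1 + β * ‖x‖ ≤ Real.exp (Z + (b + C)) := by
      rw [Real.exp_add]
      have h1 : β * ‖x‖ ≤ β * Real.exp Z := by gcongr
      have h2 : 2 * β ≤ Real.exp (b + C) := by nlinarith
      nlinarith
    have e2 : C0 * ‖x‖ ≤ Real.exp (Z + (b + C)) := by
      rw [Real.exp_add, mul_comm]
      exact mul_le_mul hx (by nlinarith) (by linarith) (Real.exp_pos _).le
    calc ‖σ x‖ ≤ C0 * ‖x‖ * (1 + β * ‖x‖) ^ D0 := hQ.gr x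
      _ ≤ Real.exp (Z + (b + C)) * Real.exp (Z + (b + C)) ^ D0 := by gcongr
      _ = Real.exp ((D0 + 1) * (Z + (b + C))) := by
          rw [← Real.exp_nat_mul, ← Real.exp_add]; congr 1; ring
  · refine IsBigO.of_bound (C0 * β ^ d) ?_
    filter_upwards [ball_mem_nhds (0 : EE n) (inv_pos.2 hβ0)] with z hz
    have := (hj z hz).1
    rw [hσ, sub_sub, Real.norm_of_nonneg (by positivity)]
    exact this

end Crest.Agent.T223.Dyn
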