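import Crest.Agent.T223.DynNf_20
import Crest.Agent.T223.DynJet_65
import Crest.Agent.T223.DynDiv_66
import Crest.Agent.T223.DynHom_60
import Crest.Agent.T223.DynReal_71
import Crest.Agent.T223.DynLy_45

/-!
# Row 223, module DYN (helper20): the normal form from the Andersén lemma
-/

set_option autoImplicit false

namespace Crest.Agent.T223.Dyn

theorem nfStmt_of_and {n : ℕ} (h : And.AndStmt n) : NFStmt n :=
  nfStmt (jetStmt n) (divStmt n) (realStmt h) (realKStmt n) (homStmt n)

end Crest.Agent.T223.Dyn
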