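import Crest.Agent.T223.NaDef_80
import Crest.Agent.T223.DynBas_20

/-!
# Row 223, module NA, leaf DEC (helper37)

* `D37.three_circ` : Hadamard's three circles theorem on complex lines through the origin
* `D37.cover` : quantitative covering lemma
* `decStmt`
-/

set_option autoImplicit false

open Set Filter Topology Metric

namespace Crest.Agent.T223.Na

open Crest.Agent.T223.Tr Crest.Agent.T223.Dyn

namespace D37

/-- three circles on the complex lines through the origin -/
theorem three_circ {E F : Type*} [NormedAddCommGroup E] [NormedSpace ℂ E] [NormedAddCommGroup F]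
    [NormedSpace ℂ F] {g : E → F} {r ρ R a b : ℝ} (hg : DifferentiableOn ℂ g (ball 0 r))
    (hρ : 0 < ρ) (hρR : ρ < R) (hR : R < r) (ha : ∀ w, ‖w‖ = ρ → ‖g w‖ ≤ a)
    (hb : ∀ w, ‖w‖ ≤ R → ‖g w‖ ≤ b) {z : E} (h1 : ρ ≤ ‖z‖) (h2 : ‖z‖ ≤ R) :
    ‖g z‖ ≤ a ^ (1 - (Real.log ‖z‖ - Real.log ρ) / (Real.log R - Real.log ρ)) *
      b ^ ((Real.log ‖z‖ - Real.log ρ) / (Real.log R - Real.log ρ)) := by
  have hz : 0 < ‖z‖ := hρ.trans_le h1
  have hR0 : 0 < R := hρ.trans hρR
  set u : E := ((‖z‖⁻¹ : ℝ) : ℂ) • z with hu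
  have hu1 : ‖u‖ = 1 := by
    rw [hu, norm_smul, Complex.norm_real, Real.norm_eq_abs, abs_of_pos (inv_pos.2 hz),
      inv_mul_cancel₀ hz.ne']
  have hn : ∀ s : ℂ, ‖Complex.exp s • u‖ = Real.exp s.re := fun s => by
    rw [norm_smul, hu1, mul_one, Complex.norm_exp]
  have hle : ∀ s : ℂ, s.re ≤ Real.log R → ‖Complex.exp s • u‖ ≤ R := fun s hs => by
    rw [hn]
    exact (Real.exp_le_exp.2 hs).trans_eq (Real.exp_log hR0)
  have hd : ∀ s : ℂ, s.re ≤ Real.log R → DifferentiableAt ℂ (fun s => g (Complex.exp s • u)) s :=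
    fun s hs => by
      have h3 : DifferentiableAt ℂ g (Complex.exp s • u) :=
        hg.differentiableAt (isOpen_ball.mem_nhds (mem_ball_zero_iff.2 ((hle s hs).trans_lt hR)))
      exact h3.comp s (Complex.differentiableAt_exp.smul_const u)
  have hlu : Real.log ρ < Real.log R := Real.log_lt_log hρ hρR
  have key := Complex.HadamardThreeLines.norm_le_interp_of_mem_verticalClosedStrip'
    (f := fun s => g (Complex.exp s • u)) (z := ((Real.log ‖z‖ : ℝ) : ℂ)) (a := a) (b := b) hlu
    ⟨by simpa using Real.log_le_log hρ h1, by simpa using Real.log_le_log hz h2⟩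
    (by
      refine DifferentiableOn.diffContOnCl fun s hs => (hd s ?_).differentiableWithinAt
      have h4 : closure (Complex.HadamardThreeLines.verticalStrip (Real.log ρ) (Real.log R)) ⊆
          {s : ℂ | s.re ≤ Real.log R} :=
        closure_minimal (fun s hs => le_of_lt hs.2)
          (isClosed_le Complex.continuous_re continuous_const)
      exact h4 hs)
    ⟨b, by
      rintro _ ⟨s, hs, rfl⟩
      exact hb _ (hle s hs.2)⟩
    (fun s hs => ha _ (by
      rw [hn, show s.re = Real.log ρ from hs, Real.exp_log hρ]))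
    (fun s hs => hb _ (hle s (le_of_eq hs)))
  have e1 : Complex.exp ((Real.log ‖z‖ : ℝ) : ℂ) • u = z := by
    rw [← Complex.ofReal_exp, Real.exp_log hz, hu, smul_smul, ← Complex.ofReal_mul,
      mul_inv_cancel₀ hz.ne', Complex.ofReal_one, one_smul]
  simpa only [e1, Complex.ofReal_re] using key

variable {n : ℕ}

/-- quantitative covering lemma -/
theorem cover {f : EE n → EE n} {r κ T : ℝ} (hr : 0 < r) (hκ : 1 ≤ κ) (hT : 1 ≤ T)
    (hf : DifferentiableOn ℂ f (ball 0 r)) (h0 : f 0 = 0)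
    (hb : ∀ w ∈ ball (0 : EE n) r, ‖f w‖ ≤ κ * ‖w‖) (hL : ∀ v, ‖fderiv ℂ f 0 v‖ ≤ ‖v‖)
    (hinv : ∀ v, ‖v‖ ≤ T * ‖fderiv ℂ f 0 v‖) {w : EE n} (hw : ‖w‖ ≤ r / (64 * κ * T ^ 2)) :
    ∃ y ∈ ball (0 : EE n) (r / κ), f y = w := by
  set L := fderiv ℂ f 0 with hLd
  have hκ0 : 0 < κ := by linarith
  have hT0 : 0 < T := by linarith
  have hg : DifferentiableOn ℂ (fun x => f x - L x) (ball 0 r) :=
    hf.sub L.differentiable.differentiableOn
  have hev : ∀ᶠ x in 𝓝 (0 : EE n), DifferentiableAt ℂ f x := by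
    filter_upwards [ball_mem_nhds (0 : EE n) hr] with x hx
    exact hf.differentiableAt (isOpen_ball.mem_nhds hx)
  have hO : (fun x => f x - L x) =O[𝓝 0] fun x : EE n => ‖x‖ ^ 2 := by
    have h := isBigO_sub_fderiv hev hev.self_of_nhds.hasFDerivAt
    simpa only [h0, sub_zero] using h
  have hq := schwarz_ord (β := 2 * κ * r) hg (fun x hx => by
    have h1 := hb x hx
    have h2 := hL x
    have h3 := norm_sub_le (f x) (L x)
    have h4 : ‖x‖ < r := mem_ball_zero_iff.1 hx
    have h5 := norm_nonneg x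
    nlinarith) hO
  set ε : ℝ := r / (32 * κ * T) with hε
  have hε0 : 0 < ε := by positivity
  have hεr : ε * (32 * κ * T) = r := by rw [hε]; field_simp
  have hκT : 1 ≤ κ * T := one_le_mul_of_one_le_of_one_le hκ hT
  have h2ε : 2 * ε ≤ r := by nlinarith
  have hD : ∀ x ∈ closedBall (0 : EE n) ε, ‖fderiv ℂ (fun x => f x - L x) x‖ ≤ 1 / (2 * T) := by
    intro x hx
    rw [mem_closedBall_zero_iff] at hx
    have hs : ∀ y ∈ ball x ε, ‖y‖ < 2 * ε := fun y hy => by
      rw [mem_ball, dist_eq_norm] at hy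
      have := norm_add_le (y - x) x
      rw [sub_add_cancel] at this
      linarith
    have hs' : ball x ε ⊆ ball (0 : EE n) r := fun y hy =>
      mem_ball_zero_iff.2 ((hs y hy).trans_le h2ε)
    have h1 := norm_fderiv_le_of_ball (β := 2 * κ * r * (2 * ε / r) ^ 2) hε0 (hg.mono hs')
      (fun y hy => (hq y (hs' hy)).trans (by
        have := (hs y hy).le
        gcongr))
    refine h1.trans (le_of_eq ?_)
    rw [hε]
    field_simp
    norm_num
  have hsub : closedBall (0 : EE n) ε ⊆ ball 0 r := closedBall_subset_ball (by linarith)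
  have hap : ApproximatesLinearOn f L (closedBall 0 ε) ⟨1 / (2 * T), by positivity⟩ := by
    intro x hx y hy
    have h1 := Convex.norm_image_sub_le_of_norm_fderiv_le (𝕜 := ℂ) (f := fun x => f x - L x)
      (fun z hz => hg.differentiableAt (isOpen_ball.mem_nhds (hsub hz))) hD
      (convex_closedBall _ _) hy hx
    have e : f x - f y - L (x - y) = (f x - L x) - (f y - L y) := by
      rw [map_sub]; abel
    rw [e]
    exact h1
  have hinj : Function.Injective L := by
    refine (injective_iff_map_eq_zero L).2 fun v hv => ?_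
    have := hinv v
    rw [hv, norm_zero, mul_zero] at this
    exact norm_le_zero_iff.1 this
  have hsurj : Function.Surjective L :=
    (LinearMap.injective_iff_surjective (f := (L : EE n →ₗ[ℂ] EE n))).1 hinj
  let S : L.NonlinearRightInverse :=
    { toFun := fun y => (hsurj y).choose
      nnnorm := ⟨T, hT0.le⟩
      bound' := fun y => by
        have h := hinv (hsurj y).choose
        rwa [(hsurj y).choose_spec] at h
      right_inv' := fun y => (hsurj y).choose_spec }
  have hso := hap.surjOn_closedBall_of_nonlinearRightInverse S hε0.le Subset.rfl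
  have hw' : w ∈ closedBall (f 0) ((T⁻¹ - 1 / (2 * T)) * ε) := by
    rw [h0, mem_closedBall_zero_iff]
    refine hw.trans (le_of_eq ?_)
    rw [hε]
    field_simp
    norm_num
  obtain ⟨y, hy, hyw⟩ := hso hw'
  refine ⟨y, ?_, hyw⟩
  rw [mem_closedBall_zero_iff] at hy
  rw [mem_ball_zero_iff, lt_div_iff₀ hκ0]
  have : ‖y‖ * κ ≤ ε * κ := by gcongr
  nlinarith [mul_pos hε0 hκ0]

end D37

open D37

theorem decStmt (n : ℕ) : DecStmt n := by
  intro Φ r κ σ hc hh
  obtain ⟨ε0, C0, hε0, hdec⟩ := hh.dec 0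
  have hr := hc.r_pos
  have hκ := hc.one_le
  have hκ0 : 0 < κ := by linarith
  set M : ℝ := max (max C0 (κ * r)) 1 with hM
  have hM1 : 1 ≤ M := le_max_right _ _
  have hM0 : 0 < M := by linarith
  have hMC : C0 ≤ M := (le_max_left _ _).trans (le_max_left _ _)
  have hMκ : κ * r ≤ M := (le_max_right _ _).trans (le_max_left _ _)
  have hl : 0 ≤ Real.log (64 * κ) := Real.log_nonneg (by linarith)
  set c2 : ℝ := 2 + Real.log (64 * κ) with hc2
  have hc20 : 2 ≤ c2 := by linarith
  refine ⟨ε0 / (2 * c2), M, by positivity, hM1, fun j k x z hjk hx hz => ?_⟩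
  have hk0 : (0 : ℝ) ≤ k := Nat.cast_nonneg k
  have hj0 : (0 : ℝ) ≤ j := Nat.cast_nonneg j
  set ρ : ℝ := r / (64 * κ * Real.exp j ^ 2) with hρ
  have hρ0 : 0 < ρ := by positivity
  have hsmall : ∀ w : EE n, ‖w‖ ≤ ρ → ‖Φ j k w‖ ≤ M * Real.exp (-(ε0 * k)) := by
    intro w hw
    obtain ⟨y, hy, hyw⟩ := cover hr hκ (Real.one_le_exp hj0) (hc.hol 0 j (Nat.zero_le j))
      (hc.zero 0 j (Nat.zero_le j)) (hc.bd 0 j (Nat.zero_le j)) (hh.nrm 0 j (Nat.zero_le j))
      (fun v => by simpa [Lm] using hh.inv 0 j (Nat.zero_le j) v) hw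
    rw [← hyw, hc.coc 0 j k (Nat.zero_le j) hjk y hy]
    have hy' : y ∈ ball (0 : EE n) r := ball_subset_ball (div_le_self hr.le hκ) hy
    exact (hdec k (Nat.zero_le k) y hy').trans (by gcongr)
  have hmin1 : min 1 (x / (j + 1)) ≤ 1 := min_le_left _ _
  have hmin2 : min 1 (x / (j + 1)) ≤ x / (j + 1) := min_le_right _ _
  have hmin0 : 0 ≤ min 1 (x / (j + 1)) := le_min zero_le_one (by positivity)
  rcases le_or_gt ‖z‖ ρ with h1 | h1
  · refine (hsmall z h1).trans (mul_le_mul_of_nonneg_left (Real.exp_le_exp.2 ?_) hM0.le)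
    have h2 : ε0 / (2 * c2) ≤ ε0 := div_le_self hε0.le (by linarith)
    have h3 : ε0 / (2 * c2) * k * min 1 (x / (j + 1)) ≤ ε0 * k * 1 := by gcongr
    linarith
  · set R : ℝ := r * Real.exp (-(x / 2)) with hR
    have hz0 : 0 < ‖z‖ := hρ0.trans h1
    have hRr : R < r := by
      have : Real.exp (-(x / 2)) < 1 := Real.exp_lt_one_iff.2 (by linarith)
      rw [hR]; nlinarith
    have hzR : ‖z‖ < R := hz.trans_lt (by
      rw [hR]
      exact mul_lt_mul_of_pos_left (Real.exp_lt_exp.2 (by linarith)) hr)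
    have key := three_circ (a := M * Real.exp (-(ε0 * k))) (b := M) (hc.hol j k hjk) hρ0
      (h1.trans hzR) hRr (fun w hw => hsmall w hw.le) (fun w hw => by
        have h2 := hc.bd j k hjk w (mem_ball_zero_iff.2 (hw.trans_lt hRr))
        have h3 : κ * ‖w‖ ≤ κ * r := by gcongr; exact hw.trans hRr.le
        linarith) h1.le hzR.le
    set θ : ℝ := (Real.log ‖z‖ - Real.log ρ) / (Real.log R - Real.log ρ) with hθ
    have e1 : (M * Real.exp (-(ε0 * k))) ^ (1 - θ) * M ^ θ =
        M * Real.exp (-(ε0 * k * (1 - θ))) := by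
      rw [Real.mul_rpow hM0.le (Real.exp_pos _).le, ← Real.exp_mul, mul_right_comm,
        ← Real.rpow_add hM0, sub_add_cancel, Real.rpow_one, neg_mul]
    rw [e1] at key
    refine key.trans (mul_le_mul_of_nonneg_left (Real.exp_le_exp.2 ?_) hM0.le)
    have hlR : Real.log R = Real.log r - x / 2 := by
      rw [hR, Real.log_mul hr.ne' (Real.exp_pos _).ne', Real.log_exp]; ring
    have hlρ : Real.log ρ = Real.log r - (Real.log (64 * κ) + 2 * j) := by
      rw [hρ, Real.log_div hr.ne' (by positivity), Real.log_mul (by positivity) (by positivity),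
        Real.log_pow, Real.log_exp]
      norm_num
    have hlz : Real.log ‖z‖ ≤ Real.log r - x := by
      have h2 := Real.log_le_log hz0 hz
      rw [Real.log_mul hr.ne' (Real.exp_pos _).ne', Real.log_exp] at h2
      linarith
    have hD0 : 0 < Real.log R - Real.log ρ := sub_pos.2 (Real.log_lt_log hρ0 (h1.trans hzR))
    have hD1 : Real.log R - Real.log ρ ≤ c2 * (j + 1) := by
      rw [hlR, hlρ, hc2]
      nlinarith
    have h4 : x / (2 * c2 * (j + 1)) ≤ 1 - θ := by
      have e2 : 1 - θ = (Real.log R - Real.log ‖z‖) / (Real.log R - Real.log ρ) := by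
        rw [hθ]; field_simp; ring
      have e3 : x / (2 * c2 * (j + 1)) = (x / 2) / (c2 * (j + 1)) := by
        field_simp
      rw [e2, e3]
      exact div_le_div₀ (by linarith) (by linarith) hD0 hD1
    have h5 : ε0 / (2 * c2) * k * min 1 (x / (j + 1)) ≤ ε0 / (2 * c2) * k * (x / (j + 1)) := by
      gcongr
    have h6 : ε0 / (2 * c2) * k * (x / (j + 1)) = ε0 * k * (x / (2 * c2 * (j + 1))) := by
      field_simp
    have h7 : ε0 * k * (x / (2 * c2 * (j + 1))) ≤ ε0 * k * (1 - θ) := by gcongr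
    linarith

end Crest.Agent.T223.Na
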