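import Crest.Agent.T223.NaE3_6

/-!
# Row 223, module NA, leaf END (helper6): `endNaStmt`
-/

set_option autoImplicit false
set_option linter.unusedSectionVars false

open Set Filter Topology Metric

namespace Crest.Agent.T223.NaE

open Crest.Agent.T223.Tr Crest.Agent.T223.Dyn Crest.Agent.T223.Na

variable {n : ℕ} {Φ : ℕ → ℕ → EE n → EE n} {r κ : ℝ} {σ : ℕ → ℝ}

/-- the limit maps of one construction -/
structure Core (Φ : ℕ → ℕ → EE n → EE n) (r κ c0 δ : ℝ) (c : ℕ → ℕ) (χ : ℕ → EE n → EE n) :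
    Prop where
  mono : StrictMono c
  coc : ∀ j k, j ≤ k → ∀ w ∈ ball (0 : EE n) (r / κ), χ k (Φ j k w) = χ j w
  zero : ∀ j, χ j 0 = 0
  hol : ∀ l, DifferentiableOn ℂ (χ (c l)) (ball 0 (2 * Real.exp (-(δ * c l))))
  inj : ∀ l, InjOn (χ (c l)) (ball 0 (2 * Real.exp (-(δ * c l))))
  imm : ∀ l, ∀ z ∈ ball (0 : EE n) (2 * Real.exp (-(δ * c l))),
    Function.Injective (fderiv ℂ (χ (c l)) z)
  bdd : ∀ l, ∃ R : ℝ, ∀ z ∈ ball (0 : EE n) (2 * Real.exp (-(δ * c l))), ‖χ (c l) z‖ ≤ R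
  onto : ∀ (R : ℝ) (l0 : ℕ), ∃ l, l0 ≤ l ∧
    closedBall (0 : EE n) R ⊆ χ (c l) '' closedBall 0 (Real.exp (-(c0 / 8 * c l)))

theorem core (hc : Coc Φ r κ) (hh : NAHyp Φ r σ)
    (H : ∀ (m : ℕ) (β : ℝ) (J0 : ℕ), 0 < β → NFP Φ m β J0) {c0 : ℝ} (T : Tiny Φ r c0) {δ : ℝ}
    (hδ : 0 < δ) (hδc : δ ≤ c0 / 8) : ∃ c χ, Core Φ r κ c0 δ c χ := by
  have hr := hc.r_pos
  have hκ := hc.one_le
  have hc0 := T.pos
  have hc1 := T.le
  have hrκ : 0 < r / κ := by positivity
  set e := c0 * δ with he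
  have he0 : 0 < e := by positivity
  have heδ : e ≤ δ := by rw [he]; nlinarith
  obtain ⟨k1, hk1⟩ := T.sm δ hδ (by linarith)
  obtain ⟨k2, hk2⟩ := ev_exp hδ (4 / (r / κ))
  obtain ⟨c, N, P, hJ, G⟩ := prep hh H he0 (by linarith) (max k1 k2)
  have hcl : ∀ l, max k1 k2 ≤ c l := fun l => hJ.trans (G.mono.monotone (Nat.zero_le l))
  set s : ℕ → ℝ := fun l => 4 * Real.exp (-(δ * c l)) with hs
  have hs0 : ∀ l, 0 < s l := fun l => by positivity
  have hsr : ∀ l, ball (0 : EE n) (s l) ⊆ ball 0 (r / κ) := fun l => by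
    refine ball_subset_ball ?_
    have h1 := hk2 (c l) ((le_max_right _ _).trans (hcl l))
    rw [div_le_iff₀ hrκ] at h1
    simp only [hs, Real.exp_neg]
    rw [← div_eq_mul_inv, div_le_iff₀ (Real.exp_pos _)]
    linarith
  have hdec : ∀ l, ∀ z ∈ ball (0 : EE n) (s l), ∀ k, l ≤ k →
      ‖Φ (c l) (c k) z‖ ≤ Real.exp (-(e * c k)) := fun l z hz k hk =>
    hk1 (c l) ((le_max_left _ _).trans (hcl l)) z (mem_ball_zero_iff.1 hz).le (c k)
      (G.mono.monotone hk)
  set χ := chi Φ c N P with hχ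
  set h : ℕ → EE n → EE n := fun l z => OO P l (χ (c l) z) with hh'
  have hχh : ∀ l, χ (c l) = fun z => (OO P l).symm (h l z) := fun l => by
    funext z; simp [hh']
  have hhol : ∀ l, DifferentiableOn ℂ (h l) (ball 0 (s l)) := fun l =>
    chi_diff hc G le_rfl isOpen_ball (hsr l) (hdec l)
  have hnear : ∀ l, ∀ z ∈ ball (0 : EE n) (s l), ‖h l z - z‖ ≤ s l / 8 := by
    intro l z hz
    have hb := G.big l
    have hy0 : (0 : ℝ) ≤ c l := Nat.cast_nonneg _
    have hb' : 16 ≤ δ * c l := hb.trans (by gcongr)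
    have hbe : e * c l ≤ δ * c l := by gcongr
    have hy : δ * c l ≤ c l := by nlinarith
    have h1 := chi_loc0 hc G le_rfl (hsr l hz) (hdec l z hz)
    rw [hc.self (c l) z (ball_subset_ball (div_le_self hr.le hκ) (hsr l hz))] at h1
    have hz' := mem_ball_zero_iff.1 hz
    have h2 : Real.exp (-(δ * c l)) ≤ Real.exp (-(e / 2 * c l)) / 256 :=
      exp_le_div (by norm_num) (big_le_exp (x := δ / 2 * c l) (by linarith)) (by linarith)
    have h3 := (G.tan l).2 z (by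
      rw [mem_ball_zero_iff, ← Real.exp_neg]
      simp only [hs] at hz'
      linarith [Real.exp_pos (-(e / 2 * c l))])
    have h4 : Real.exp (-(3 * c l)) ≤ Real.exp (-(δ * c l)) / 4 :=
      exp_le_div (by norm_num) (four_le_exp le_rfl) (by linarith)
    have h5 : Real.exp (e / 2 * c l) * ‖z‖ ≤ 1 / 64 := by
      have h6 : Real.exp (e / 2 * c l) * Real.exp (-(e / 2 * c l)) = 1 := by
        rw [← Real.exp_add]; simp
      have h7 : ‖z‖ ≤ Real.exp (-(e / 2 * c l)) / 64 := by simp only [hs] at hz'; linarith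
      have := mul_le_mul_of_nonneg_left h7 (Real.exp_pos (e / 2 * c l)).le
      rw [mul_div_assoc', h6] at this
      exact this
    have h8 : Real.exp (e / 2 * c l) * ‖z‖ ^ 2 ≤ 1 / 64 * ‖z‖ := by
      rw [pow_two, ← mul_assoc]; gcongr
    have h9 := norm_sub_le_norm_sub_add_norm_sub (h l z) (N l z) z
    simp only [hs] at hz' ⊢
    linarith [Real.exp_pos (-(δ * c l))]
  have hemb := fun l => near_id (hs0 l) (hhol l) (hnear l)
  have hs2 : ∀ l, s l / 2 = 2 * Real.exp (-(δ * c l)) := fun l => by simp only [hs]; ring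
  have hsub : ∀ l, ball (0 : EE n) (s l / 2) ⊆ ball 0 (s l) := fun l =>
    ball_subset_ball (by linarith [hs0 l])
  have hh0 : ∀ l, h l 0 = 0 := fun l => by
    simp only [hh', hχ, chi_zero hc G, OO_zero G.zero]
  refine ⟨c, χ, G.mono, fun j k hjk w hw => chi_coc hc G hjk hw, chi_zero hc G, fun l => ?_,
    fun l => ?_, fun l z hz => ?_, fun l => ?_, fun R l0 => ?_⟩
  · rw [hχh, ← hs2]
    exact (OO_diff' G.hol' l).comp_differentiableOn ((hhol l).mono (hsub l))
  · rw [← hs2]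
    intro x hx y hy hxy
    exact (hemb l).1 hx hy (by simp only [hh', hxy])
  · rw [← hs2] at hz
    have h1 : DifferentiableAt ℂ (h l) z :=
      (hhol l).differentiableAt (isOpen_ball.mem_nhds (hsub l hz))
    rw [hχh, fderiv_fun_comp z (OO_diff' G.hol' l _) h1]
    exact (inj_fderiv_symm (OO_diff G.hol l) (OO_diff' G.hol' l) _).comp ((hemb l).2.1 z hz)
  · obtain ⟨R, hR⟩ := ((isCompact_closedBall (0 : EE n) (2 * s l)).image
      (OO_diff' G.hol' l).continuous).isBounded.exists_norm_le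
    refine ⟨R, fun z hz => hR _ ⟨h l z, ?_, by rw [hχh]⟩⟩
    rw [← hs2] at hz
    have h1 := hnear l z (hsub l hz)
    have h2 := mem_ball_zero_iff.1 hz
    have h3 : ‖h l z‖ ≤ ‖h l z - z‖ + ‖z‖ := by simpa using norm_add_le (h l z - z) z
    rw [mem_closedBall_zero_iff]; linarith [hs0 l]
  · -- a fixed ball whose orbits have the exponent `c0`
    set t0 := min (r / κ) (r * Real.exp (-1)) with ht0
    have ht00 : 0 < t0 := by positivity
    obtain ⟨t1, ht1, ht1s⟩ := Metric.mem_nhds_iff.1 (phi_nhds hc hh (Nat.zero_le (c 0)) ht00)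
    set t2 := min (t1 / 2) (s 0 / 4) with ht2
    have ht20 : 0 < t2 := by have := hs0 0; positivity
    have hball : ∀ x : EE n, ‖x‖ ≤ t2 / 2 → ∃ z ∈ ball (0 : EE n) t0, χ 0 z = x := by
      intro x hx
      obtain ⟨w, hw, hwx⟩ := (hemb 0).2.2 t2 ht20.le
        ((min_le_right _ _).trans_lt (by linarith [hs0 0]))
        (show x ∈ closedBall (h 0 0) (t2 / 2) by rw [hh0]; exact mem_closedBall_zero_iff.2 hx)
      obtain ⟨z, hz, rfl⟩ := ht1s
        (closedBall_subset_ball ((min_le_left _ _).trans_lt (by linarith)) hw)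
      refine ⟨z, hz, ?_⟩
      rw [← hwx, hχ, ← chi_coc hc G (Nat.zero_le (c 0)) (ball_subset_ball (min_le_left _ _) hz)]
      rfl
    obtain ⟨k3, -, hk3⟩ := T.ch 0
    set x1 := Real.log (t2 / 2) with hx1
    set ρ := Real.log (max R (t2 / 2)) + 1 with hρ
    have hρ1 : x1 < ρ := by
      have := Real.log_le_log (by positivity : 0 < t2 / 2) (le_max_right R (t2 / 2))
      linarith
    obtain ⟨l, hl, hhit⟩ := G.hit (Real.exp (2 * ρ - x1)) (max l0 k3)
    refine ⟨l, (le_max_left _ _).trans hl, fun x hx => ?_⟩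
    have hb := G.big l
    have hy0 : (0 : ℝ) ≤ c l := Nat.cast_nonneg _
    have hb1 : e * c l ≤ c0 / 8 * c l := by gcongr; linarith
    have hb2 : δ * c l ≤ c0 / 8 * c l := by gcongr
    have hb3 : c0 * c l ≤ c l := by nlinarith
    have hsm : ∀ y : EE n, ‖y‖ ≤ Real.exp x1 → ‖OO P l y‖ ≤ Real.exp (2 - c0 * c l) := by
      intro y hy
      rw [hx1, Real.exp_log (by positivity)] at hy
      obtain ⟨z, hz, rfl⟩ := hball y hy
      have hd : ∀ k, l ≤ k → ‖Φ 0 (c k) z‖ ≤ Real.exp (-(c0 * c k)) := fun k hk => by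
        have := hk3 (c k) ((((le_max_right _ _).trans hl).trans hk).trans (G.mono.id_le k)) z
          ((mem_ball_zero_iff.1 hz).le.trans (min_le_right _ _))
        simpa using this
      have h1 := chi_loc0 hc G (Nat.zero_le (c l)) (ball_subset_ball (min_le_left _ _) hz)
        (fun k hk => (hd k hk).trans (Real.exp_le_exp.2 (neg_le_neg (by gcongr; linarith))))
      have h2 := tan_norm (Real.exp_pos _) (G.tan l) (z := Φ 0 (c l) z) (by
        rw [← Real.exp_neg]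
        exact (hd l le_rfl).trans_lt (Real.exp_lt_exp.2 (by linarith)))
      have h3 : Real.exp (-(3 * c l)) ≤ Real.exp (-(c0 * c l)) := Real.exp_le_exp.2 (by linarith)
      have h4 : Real.exp (-(c0 * c l)) ≤ Real.exp (2 - c0 * c l) / 4 :=
        exp_le_div (by norm_num) (four_le_exp le_rfl) (by linarith)
      have h5 := norm_le_insert' (OO P l (chi Φ c N P 0 z)) (N l (Φ 0 (c l) z))
      have h6 := hd l le_rfl
      have h7 := Real.exp_pos (2 - c0 * c l)
      simp only [hχ]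
      linarith
    have h3 := three_circ (f := OO P l) (x1 := x1) (x3 := 2 * ρ - x1)
      (R := Real.exp (2 * ρ - x1) + 1) (θ := 1 / 2) (by linarith) (by linarith)
      (OO_diff G.hol l).differentiableOn (by linarith) (by norm_num) (by norm_num) hsm hhit
      (z := x) (by
        have h1 : 1 / 2 * x1 + (1 - 1 / 2) * (2 * ρ - x1) = ρ := by ring
        have h2 : 0 < max R (t2 / 2) := lt_max_of_lt_right (by positivity)
        rw [h1]
        calc ‖x‖ ≤ max R (t2 / 2) := (mem_closedBall_zero_iff.1 hx).trans (le_max_left _ _)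
          _ = Real.exp (Real.log (max R (t2 / 2))) := (Real.exp_log h2).symm
          _ ≤ _ := Real.exp_le_exp.2 (by linarith))
    have h4 : ‖OO P l x‖ ≤ Real.exp (-(c0 / 8 * c l)) / 2 :=
      h3.trans (exp_le_div (by norm_num) (two_le_exp le_rfl) (by linarith))
    obtain ⟨z, hz, hzx⟩ := (hemb l).2.2 (Real.exp (-(c0 / 8 * c l))) (Real.exp_pos _).le
      (by
        rw [hs2]
        have := Real.exp_le_exp.2 (neg_le_neg hb2)
        linarith [Real.exp_pos (-(δ * c l))])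
      (show OO P l x ∈ closedBall (h l 0) _ by rw [hh0]; exact mem_closedBall_zero_iff.2 h4)
    exact ⟨z, hz, (OO P l).injective hzx⟩

/-- all orbits have one and the same exponent -/
theorem unif_dec (hc : Coc Φ r κ) (hh : NAHyp Φ r σ)
    (H : ∀ (m : ℕ) (β : ℝ) (J0 : ℕ), 0 < β → NFP Φ m β J0) {c0 : ℝ} (T : Tiny Φ r c0) {ρ : ℝ}
    (hρ1 : ρ ≤ r / κ / κ) (hρ2 : ρ ≤ r * Real.exp (-1)) (j : ℕ) :
    ∃ k0, j ≤ k0 ∧ ∀ k, k0 ≤ k → ∀ z ∈ ball (0 : EE n) ρ,
      ‖Φ j k z‖ ≤ Real.exp (-(c0 * (c0 / 8) * k)) := by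
  have hr := hc.r_pos
  have hκ := hc.one_le
  have hc0 := T.pos
  have hc1 := T.le
  have hρ3 : ρ ≤ r / κ := hρ1.trans (div_le_self (by positivity) hκ)
  set δ := min (c0 / (j + 1)) (c0 / 8) with hδ
  obtain ⟨c, χ, K⟩ := core hc hh H T (δ := δ) (by positivity) (min_le_right _ _)
  obtain ⟨k1, hjk1, hk1⟩ := T.ch j
  obtain ⟨k2, hk2⟩ := T.sm (c0 / 8) (by positivity) (by linarith)
  have hin : ∀ l, k1 ≤ l → ∀ z ∈ ball (0 : EE n) ρ,
      Φ j (c l) z ∈ ball (0 : EE n) (2 * Real.exp (-(δ * c l))) := fun l hl z hz => by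
    have h1 := hk1 (c l) (hl.trans (K.mono.id_le l)) z ((mem_ball_zero_iff.1 hz).le.trans hρ2)
    have h2 : Real.exp (-(c0 / (j + 1) * c l)) ≤ Real.exp (-(δ * c l)) :=
      Real.exp_le_exp.2 (neg_le_neg (by gcongr; exact min_le_left _ _))
    rw [mem_ball_zero_iff]
    linarith [Real.exp_pos (-(δ * c l))]
  obtain ⟨R, hR⟩ := K.bdd k1
  obtain ⟨l, hl, hon⟩ := K.onto R (max k1 k2)
  have hl1 : k1 ≤ l := (le_max_left _ _).trans hl
  have hjl : j ≤ c l := (hjk1.trans hl1).trans (K.mono.id_le l)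
  refine ⟨c l, hjl, fun k hk z hz => ?_⟩
  have hz' : z ∈ ball (0 : EE n) (r / κ) := ball_subset_ball hρ3 hz
  have h1 : ‖χ j z‖ ≤ R := by
    rw [← K.coc j (c k1) (hjk1.trans (K.mono.id_le k1)) z hz']
    exact hR _ (hin k1 le_rfl z hz)
  obtain ⟨w, hw, hwz⟩ := hon (mem_closedBall_zero_iff.2 h1)
  have hw1 := mem_closedBall_zero_iff.1 hw
  have h2 : w = Φ j (c l) z := by
    refine K.inj l ?_ (hin l hl1 z hz) (by rw [hwz, K.coc j (c l) hjl z hz'])
    have h2 : Real.exp (-(c0 / 8 * c l)) ≤ Real.exp (-(δ * c l)) :=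
      Real.exp_le_exp.2 (neg_le_neg (by gcongr; exact min_le_right _ _))
    rw [mem_ball_zero_iff]
    linarith [Real.exp_pos (-(δ * c l))]
  rw [← hc.coc j (c l) k hjl hk z hz', ← h2]
  exact hk2 (c l) (((le_max_right _ _).trans hl).trans (K.mono.id_le l)) w
    (by linarith [Real.exp_pos (-(c0 / 8 * c l))]) k hk

/-- **leaf END of the module NA** -/
theorem endNaStmt (n : ℕ) : EndNaStmt n := by
  intro Φ r κ σ hc hh hD H
  have hr := hc.r_pos
  have hκ := hc.one_le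
  obtain ⟨c0, T⟩ := exists_tiny hr hD
  have hc0 := T.pos
  have hc1 := T.le
  obtain ⟨ρ1, hρ1, hinj⟩ := phi_inj hc hh
  set ρ := min ρ1 (min (r / κ / κ) (r * Real.exp (-1))) with hρ
  have hρ0 : 0 < ρ := by positivity
  have hρa : ρ ≤ r / κ / κ := (min_le_right _ _).trans (min_le_left _ _)
  have hρb : ρ ≤ r / κ := hρa.trans (div_le_self (by positivity) hκ)
  have hρc : ρ ≤ r := hρb.trans (div_le_self hr.le hκ)
  set δ := c0 * (c0 / 8) with hδ
  obtain ⟨c, χ, K⟩ := core hc hh H T (δ := δ) (by positivity) (by rw [hδ]; nlinarith)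
  have key : ∀ j, ∃ l, j ≤ c l ∧ MapsTo (Φ j (c l)) (ball 0 ρ)
      (ball (0 : EE n) (2 * Real.exp (-(δ * c l)))) := fun j => by
    obtain ⟨k0, hj, hk0⟩ := unif_dec hc hh H T hρa ((min_le_right _ _).trans (min_le_right _ _)) j
    refine ⟨k0, hj.trans (K.mono.id_le k0), fun z hz => ?_⟩
    have := hk0 (c k0) (K.mono.id_le k0) z hz
    rw [mem_ball_zero_iff]
    linarith [Real.exp_pos (-(δ * c k0))]
  have heq : ∀ j l, j ≤ c l → EqOn (χ j) (χ (c l) ∘ Φ j (c l)) (ball 0 ρ) := fun j l hj z hz =>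
    (K.coc j (c l) hj z (ball_subset_ball hρb hz)).symm
  refine ⟨ρ, χ, hρ0, hρc, fun j => ?_, fun j => ?_, fun j w hw => ?_, K.zero,
    fun j k hjk w hw => K.coc j k hjk w (ball_subset_ball (by gcongr) hw), fun R => ?_⟩
  · obtain ⟨l, hj, hm⟩ := key j
    exact ((K.hol l).comp ((hc.hol j _ hj).mono (ball_subset_ball hρc)) hm).congr (heq j l hj)
  · obtain ⟨l, hj, hm⟩ := key j
    exact (((K.inj l).comp ((hinj j _ hj).mono (ball_subset_ball (min_le_left _ _))) hm)).congr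
      (heq j l hj).symm
  · obtain ⟨l, hj, hm⟩ := key j
    have h1 : χ j =ᶠ[𝓝 w] χ (c l) ∘ Φ j (c l) :=
      (heq j l hj).eventuallyEq_of_mem (isOpen_ball.mem_nhds hw)
    have hw' : w ∈ ball (0 : EE n) r := ball_subset_ball hρc hw
    rw [h1.fderiv_eq, fderiv_comp w ((K.hol l).differentiableAt (isOpen_ball.mem_nhds (hm hw)))
      ((hc.hol j _ hj).differentiableAt (isOpen_ball.mem_nhds hw'))]
    exact det_ne_of_inj ((K.imm l _ (hm hw)).comp (hc.imm j _ hj w hw'))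
  · obtain ⟨k0, hk0⟩ := ev_exp (a := c0 / 8) (by positivity) (2 / (ρ / κ))
    obtain ⟨l, hl, hon⟩ := K.onto R k0
    refine ⟨c l, hon.trans (image_mono (closedBall_subset_ball ?_))⟩
    have hρκ : 0 < ρ / κ := by positivity
    have h1 := hk0 (c l) (hl.trans (K.mono.id_le l))
    rw [div_le_iff₀ hρκ] at h1
    rw [Real.exp_neg, inv_eq_one_div, div_lt_iff₀ (Real.exp_pos _)]
    linarith

end Crest.Agent.T223.NaE
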