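import Mathlib

/-!
# Row 223, module DYN (helper20): the jet engine, definitions and exact statements

All maps live on `EE n = EuclideanSpace ℂ (Fin n)` (the same type as `R275.Geo.Cn n`).

* `hev c`  : homogeneous polynomial map of degree `d` with coefficient array `c` (indexed by words)
* `divg g` : divergence, `dg ρ` : the diagonal map `diag (exp (-ρ l))`
* `Aut D b σ` : automorphism of `ℂⁿ` with Jacobian one, tangent to the identity, with bounds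
* `Box`, `Lya` : Lyapunov boxes and their invariance
* `NFD`, `NFD.Ok`, `NFStmt` : the non-autonomous normal form (fine pieces: keep triangular terms,
  crude pieces: keep everything)
* leaves : `JetStmt`, `DivStmt`, `RealStmt`, `RealKStmt`, `HomStmt`, `LyapStmt`
-/

set_option autoImplicit false

open Set Filter Topology Metric Asymptotics

namespace Crest.Agent.T223.Dyn

noncomputable section

/-- model space -/
abbrev EE (n : ℕ) : Type := EuclideanSpace ℂ (Fin n)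

/-- coefficient arrays of homogeneous maps of degree `d` (sup norm of Euclidean norms) -/
abbrev Arr (n d : ℕ) : Type := (Fin d → Fin n) → EE n

variable {n : ℕ}

/-- the monomial of a word -/
def mono {d : ℕ} (w : Fin d → Fin n) (x : EE n) : ℂ := ∏ k, x (w k)

/-- the homogeneous polynomial map with coefficient array `c` -/
def hev {d : ℕ} (c : Arr n d) (x : EE n) : EE n := ∑ w, mono w x • c w

/-- divergence -/
def divg (g : EE n → EE n) (x : EE n) : ℂ := ∑ l, fderiv ℂ g x (EuclideanSpace.single l 1) l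

/-- the diagonal map `x l ↦ exp (-ρ l) x l` -/
def dg (ρ : Fin n → ℝ) (x : EE n) : EE n :=
  WithLp.toLp 2 fun l => ((Real.exp (-ρ l) : ℝ) : ℂ) * x l

/-- only triangular (kept) monomials occur -/
def Kept {d : ℕ} (wt : Fin n → ℝ) (c : Arr n d) : Prop :=
  ∀ w l, c w l ≠ 0 → ∑ k, wt (w k) ≤ wt l

/-- an automorphism of `ℂⁿ` of Jacobian one, tangent to the identity, with bounds -/
structure Aut (D b : ℝ) (σ : EE n ≃ EE n) : Prop where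
  hol : Differentiable ℂ σ
  hol' : Differentiable ℂ σ.symm
  det : ∀ x, (fderiv ℂ σ x).det = 1
  near : ∀ x, ‖x‖ ≤ Real.exp (-b) → ‖σ x - x‖ ≤ Real.exp b * ‖x‖ ^ 2
  near' : ∀ x, ‖x‖ ≤ Real.exp (-b) → ‖σ.symm x - x‖ ≤ Real.exp b * ‖x‖ ^ 2
  grow : ∀ (Z : ℝ) x, 0 ≤ Z → ‖x‖ ≤ Real.exp Z → ‖σ x‖ ≤ Real.exp (D * (Z + b))

/-- Lyapunov box -/
def Box (wt : Fin n → ℝ) (Y C : ℝ) : Set (EE n) := {x | ∀ l, ‖x l‖ ≤ Real.exp (Y * wt l - C)}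

/-- `σ` preserves the Lyapunov boxes up to the factor `exp M` -/
def Lya (wt : Fin n → ℝ) (M b : ℝ) (σ : EE n → EE n) : Prop :=
  ∀ Y C : ℝ, 0 ≤ Y → b ≤ C → MapsTo σ (Box wt Y C) (Box wt Y (C - M))

/-- linear data of a sequence of pieces: `L i` goes from node `i` to node `i + 1`; on a fine piece
`L i = J i ∘ diag (exp (-(len i * wt i l + e i)))` -/
structure LinD (n : ℕ) where
  L : ℕ → EE n ≃L[ℂ] EE n
  J : ℕ → EE n ≃L[ℂ] EE n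
  wt : ℕ → Fin n → ℝ
  len : ℕ → ℝ
  e : ℕ → ℝ
  fine : ℕ → Prop
  b : ℕ → ℝ
  cst : ℕ → ℝ

/-- the hypotheses on the linear data, `a` is the constant of the normal form -/
structure LinD.Ok (X : LinD n) (a : ℝ) : Prop where
  b_ge : ∀ i, 1 ≤ X.b i
  cst_ge : ∀ i, 0 ≤ X.cst i
  b_next : ∀ i, X.fine (i + 1) → X.b (i + 1) ≤ 2 * X.b i
  L_le : ∀ i x, ‖X.L i x‖ ≤ Real.exp (X.b i) * ‖x‖
  L_inv : ∀ i x, ‖(X.L i).symm x‖ ≤ Real.exp (X.b i) * ‖x‖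
  L_eq : ∀ i, X.fine i → ∀ x, X.L i x = X.J i (dg (fun l => X.len i * X.wt i l + X.e i) x)
  J_le : ∀ i, X.fine i → ∀ x, ‖X.J i x‖ ≤ Real.exp (X.cst i) * ‖x‖
  J_inv : ∀ i, X.fine i → ∀ x, ‖(X.J i).symm x‖ ≤ Real.exp (X.cst i) * ‖x‖
  wt_pos : ∀ i, X.fine i → ∀ l, 0 < X.wt i l
  len_pos : ∀ i, X.fine i → 0 < X.len i
  e_ge : ∀ i, X.fine i → 0 ≤ X.e i
  rho_le : ∀ i, X.fine i → ∀ l, X.len i * X.wt i l + X.e i ≤ X.b i
  gain : ∀ i, X.fine i → X.fine (i + 1) →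
    a * (1 + X.cst i + max (X.b (i + 1) - X.b i) 0) ≤ X.e i

/-- the non-linear data: `f i` from node `i` to node `i + 1`, `V i` the volume normalisation -/
structure MapOk (X : LinD n) (f V : ℕ → EE n → EE n) : Prop where
  f_hol : ∀ i, DifferentiableOn ℂ (f i) (ball 0 (Real.exp (-X.b i)))
  f_bd : ∀ i, ∀ x ∈ ball (0 : EE n) (Real.exp (-X.b i)), ‖f i x‖ ≤ Real.exp (X.b i) * ‖x‖
  f_der : ∀ i, HasFDerivAt (f i) (X.L i : EE n →L[ℂ] EE n) 0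
  V_hol : ∀ i, DifferentiableOn ℂ (V i) (ball 0 (Real.exp (-X.b i)))
  V_hol' : ∀ i, DifferentiableOn ℂ (V (i + 1)) (ball 0 (Real.exp (-X.b i)))
  V_near : ∀ i, ∀ x ∈ ball (0 : EE n) (Real.exp (-X.b i)),
    ‖V i x - x‖ ≤ Real.exp (X.b i) * ‖x‖ ^ 2
  V_near' : ∀ i, ∀ x ∈ ball (0 : EE n) (Real.exp (-X.b i)),
    ‖V (i + 1) x - x‖ ≤ Real.exp (X.b i) * ‖x‖ ^ 2
  vol : ∀ i, ∀ᶠ x in 𝓝 (0 : EE n),
    (fderiv ℂ (V (i + 1)) (f i x)).det * (fderiv ℂ (f i) x).det =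
      (X.L i : EE n →L[ℂ] EE n).det * (fderiv ℂ (V i) x).det

end

/-- **normal form**: `N i = ν i ∘ V i`, `P i = L i ∘ σ i`, `N (i+1) ∘ f i = P i ∘ N i + O(m+1)` -/
def NFStmt (n : ℕ) : Prop :=
  ∀ m : ℕ, ∃ a D : ℝ, 1 ≤ a ∧ 1 ≤ D ∧ ∀ (X : LinD n) (f V : ℕ → EE n → EE n),
    X.Ok a → MapOk X f V → ∃ ν σ : ℕ → EE n ≃ EE n,
      (∀ i, Aut D (a * X.b i) (ν i)) ∧ (∀ i, ¬ X.fine i → ν i = Equiv.refl _) ∧
      (∀ i, Aut D (a * X.b i) (σ i)) ∧ (∀ i, X.fine i → Lya (X.wt i) a (a * X.b i) (σ i)) ∧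
      ∀ i x, ‖x‖ ≤ Real.exp (-(a * X.b i)) →
        ‖ν (i + 1) (V (i + 1) (f i x)) - X.L i (σ i (ν i (V i x)))‖ ≤
          Real.exp (a * X.b i) * ‖x‖ ^ (m + 1)

/-- leaf JET: the homogeneous part of lowest degree, with Cauchy bounds -/
def JetStmt (n : ℕ) : Prop :=
  ∀ d : ℕ, ∃ C : ℝ, 1 ≤ C ∧ ∀ (g : EE n → EE n) (r β : ℝ), 0 < r →
    DifferentiableOn ℂ g (ball 0 r) → (∀ x ∈ ball (0 : EE n) r, ‖g x‖ ≤ β) →
    (g =O[𝓝 0] fun x => ‖x‖ ^ d) →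
    ∃ c : Arr n d, ‖c‖ ≤ C * β / r ^ d ∧
      (fun x => g x - hev c x) =O[𝓝 0] fun x => ‖x‖ ^ (d + 1)

/-- leaf DIV: equal Jacobians force the defect of lowest degree to be divergence free -/
def DivStmt (n : ℕ) : Prop :=
  ∀ (d : ℕ) (A B : EE n → EE n) (L : EE n ≃L[ℂ] EE n) (c : Arr n d), 2 ≤ d →
    (∀ᶠ x in 𝓝 (0 : EE n), DifferentiableAt ℂ A x) →
    (∀ᶠ x in 𝓝 (0 : EE n), DifferentiableAt ℂ B x) →
    HasFDerivAt B (L : EE n →L[ℂ] EE n) 0 →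
    (∀ᶠ x in 𝓝 (0 : EE n), (fderiv ℂ A x).det = (fderiv ℂ B x).det) →
    ((fun x => A x - B x - hev c x) =O[𝓝 0] fun x => ‖x‖ ^ (d + 1)) →
    ∀ x, divg (fun y => L.symm (hev c y)) x = 0

/-- leaf REAL (Andersén): a divergence free homogeneous field is the jet of an automorphism -/
def RealStmt (n : ℕ) : Prop :=
  ∀ d : ℕ, 2 ≤ d → ∃ C D : ℝ, 1 ≤ C ∧ 1 ≤ D ∧ ∀ (c : Arr n d) (b : ℝ), 0 ≤ b →
    ‖c‖ ≤ Real.exp b → (∀ x, divg (hev c) x = 0) →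
    ∃ σ : EE n ≃ EE n, Aut D (b + C) σ ∧
      (fun x => σ x - x - hev c x) =O[𝓝 0] fun x => ‖x‖ ^ (d + 1)

/-- leaf REALK: a triangular homogeneous field is the jet of a product of monomial shears -/
def RealKStmt (n : ℕ) : Prop :=
  ∀ d : ℕ, 2 ≤ d → ∃ C D : ℝ, 1 ≤ C ∧ 1 ≤ D ∧ ∀ (c : Arr n d) (b : ℝ) (wt : Fin n → ℝ), 0 ≤ b →
    ‖c‖ ≤ Real.exp b → (∀ l, 0 < wt l) → Kept wt c →
    ∃ σ : EE n ≃ EE n, Aut D (b + C) σ ∧ Lya wt C (b + C) σ ∧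
      (fun x => σ x - x - hev c x) =O[𝓝 0] fun x => ‖x‖ ^ (d + 1)

/-- leaf HOM: the homological equation in degree `d` (sources of size `exp (s * b i)`) -/
def HomStmt (n : ℕ) : Prop :=
  ∀ (d : ℕ) (s : ℝ), 2 ≤ d → 1 ≤ s → ∃ a : ℝ, s ≤ a ∧ ∀ (X : LinD n) (c : ℕ → Arr n d),
    X.Ok a → (∀ i, ‖c i‖ ≤ Real.exp (s * X.b i)) →
    (∀ i x, divg (fun y => (X.L i).symm (hev (c i) y)) x = 0) →
    ∃ q p : ℕ → Arr n d,
      (∀ i, ‖q i‖ ≤ Real.exp (a * X.b i)) ∧ (∀ i, ‖p i‖ ≤ Real.exp (a * X.b i)) ∧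
      (∀ i x, divg (hev (q i)) x = 0) ∧ (∀ i x, divg (hev (p i)) x = 0) ∧
      (∀ i, ¬ X.fine i → q i = 0) ∧ (∀ i, X.fine i → Kept (X.wt i) (p i)) ∧
      ∀ i x, hev (q (i + 1)) (X.L i x) + hev (c i) x = X.L i (hev (p i) x + hev (q i) x)

/-- the composition `P (i-1) ∘ ⋯ ∘ P 0` -/
def orb {α : Type*} (P : ℕ → α → α) : ℕ → α → α
  | 0 => id
  | i + 1 => P i ∘ orb P i

/-- leaf LYAP: every ball enters the unit ball at arbitrarily late nodes.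
Block `k` consists of the pieces `I k ≤ i < I (k+1)`, has length `ℓ k` and mean slope `m k`;
block `k + 1` is fine iff there is no jump at `k` and at `k + 1`. -/
def LyapStmt (n : ℕ) : Prop :=
  ∀ (a D Λ c B : ℝ) (q : ℕ), 1 ≤ a → 1 ≤ D → 1 ≤ Λ → 0 < c → c ≤ 1 → 1 ≤ B →
    ∃ K0 : ℝ, 1 ≤ K0 ∧ ∀ K : ℝ, K0 ≤ K →
    ∀ (X : LinD n) (σ : ℕ → EE n ≃ EE n) (I : ℕ → ℕ) (m ℓ η : ℕ → ℝ),
      X.Ok a → (∀ i, Aut D (a * X.b i) (σ i)) →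
      (∀ i, X.fine i → Lya (X.wt i) a (a * X.b i) (σ i)) →
      StrictMono I → (∀ k, 0 < m k) → Monotone m → (∀ k, 0 < ℓ k) → ¬ Summable ℓ →
      (∀ k, m (k + 1) * ℓ (k + 1) ≤ Λ * (m k * ℓ k)) →
      (∀ k i, I k ≤ i → i < I (k + 1) → X.b i ≤ B * (m k * ℓ k)) →
      (∀ i, 0 ≤ η i) → Summable η →
      -- crude blocks
      (∀ k, ¬ (m (k + 1) ≤ K * m k ∧ m (k + 2) ≤ K * m (k + 1)) →
        I (k + 2) ≤ I (k + 1) + q ∧ ∀ i, I (k + 1) ≤ i → i < I (k + 2) → ¬ X.fine i) →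
      -- fine blocks
      (∀ k, m (k + 1) ≤ K * m k ∧ m (k + 2) ≤ K * m (k + 1) →
        ℓ (k + 1) ≤ ∑ i ∈ Finset.Ico (I (k + 1)) (I (k + 2)), X.len i ∧
        ∀ i, I (k + 1) ≤ i → i < I (k + 2) → X.fine i ∧
          ∀ l, c * m k ≤ X.wt i l ∧ X.wt i l ≤ m (k + 2)) →
      -- junctions
      (∀ i, X.fine i → a + X.cst i + n ≤ a * X.b i) →
      (∀ i, X.fine i → X.fine (i + 1) → ∀ k,
        a * max (X.b (i + 1) - X.b i) 0 + a + X.cst i + n ≤ X.len i * X.wt (i + 1) k / 4 ∧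
        ∀ l, X.J i (EuclideanSpace.single l 1) k ≠ 0 → X.wt i l ≤ (1 + η i) * X.wt (i + 1) k) →
      ∀ (R : ℝ) (i0 : ℕ), ∃ i, i0 ≤ i ∧ ∀ x : EE n, ‖x‖ ≤ R →
        ‖orb (fun j y => X.L j (σ j y)) i x‖ ≤ 1

end Crest.Agent.T223.Dyn
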