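import Crest.Agent.T223.TrDef_90
import Crest.Agent.T223.DynDef_20

/-!
# Row 223, module NA (helper80): the non-autonomous basin theorem, statement and leaves

* `Lm Φ j k` : linear part of the transition `Φ j k`
* `NAHyp Φ r σ` : the hypotheses (nodes `j` have `log det` growth `j`, `σ j = log t_j`)
* `NAStmt n`  : `Coc → NAHyp → Basin`
* leaves : `DecStmt` (uniform decay on small balls), `VolStmt` (Jacobian normalisation),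
  `FlagStmt` (adapted coordinates), `SchedStmt` (`NFP` for all parameters), `EndNaStmt`
-/

set_option autoImplicit false

open Set Filter Topology Metric

namespace Crest.Agent.T223.Na

open Crest.Agent.T223.Tr Crest.Agent.T223.Dyn

noncomputable section

variable {n : ℕ}

/-- linear part of the transition map -/
def Lm (Φ : ℕ → ℕ → EE n → EE n) (j k : ℕ) : EE n →L[ℂ] EE n := fderiv ℂ (Φ j k) 0

/-- `s ↦ log |ξ|_s` is convex for every fixed covector `ξ` (`ζ` represents `ξ` at time `k`) -/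
def Cvx (L : ℕ → ℕ → EE n →L[ℂ] EE n) (σ : ℕ → ℝ) : Prop :=
  ∀ i j k, i < j → j < k → ∀ ζ : EE n, ζ ≠ 0 →
    (σ k - σ i) * Real.log ‖ContinuousLinearMap.adjoint (L j k) ζ‖ ≤
      (σ k - σ j) * Real.log ‖ContinuousLinearMap.adjoint (L i k) ζ‖ +
        (σ j - σ i) * Real.log ‖ζ‖

/-- hypotheses of the basin theorem (application: `sg (t j) = sg (t 0) + 2 j`, `σ j = log (t j)`) -/
structure NAHyp (Φ : ℕ → ℕ → EE n → EE n) (r : ℝ) (σ : ℕ → ℝ) : Prop where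
  mono : StrictMono σ
  top : Tendsto σ atTop atTop
  conc : ∀ j, σ (j + 2) - σ (j + 1) ≤ σ (j + 1) - σ j
  nrm : ∀ j k, j ≤ k → ∀ v, ‖Lm Φ j k v‖ ≤ ‖v‖
  inv : ∀ j k : ℕ, j ≤ k → ∀ v, ‖v‖ ≤ Real.exp ((k : ℝ) - j) * ‖Lm Φ j k v‖
  cvx : Cvx (Lm Φ) σ
  dec : ∀ j : ℕ, ∃ ε C : ℝ, 0 < ε ∧ ∀ k : ℕ, j ≤ k → ∀ w ∈ ball (0 : EE n) r,
    ‖Φ j k w‖ ≤ C * Real.exp (-(ε * k))

/-- `f` is tangent to the identity at the scale `1 / X` -/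
def Tan (X : ℝ) (f : EE n → EE n) : Prop :=
  DifferentiableOn ℂ f (ball 0 X⁻¹) ∧ ∀ z ∈ ball (0 : EE n) X⁻¹, ‖f z - z‖ ≤ X * ‖z‖ ^ 2

/-- uniform decay of the true orbits of small balls -/
def Dec (Φ : ℕ → ℕ → EE n → EE n) (r : ℝ) : Prop :=
  ∃ c C : ℝ, 0 < c ∧ 1 ≤ C ∧ ∀ (j k : ℕ) (x : ℝ) (z : EE n), j ≤ k → 0 < x →
    ‖z‖ ≤ r * Real.exp (-x) → ‖Φ j k z‖ ≤ C * Real.exp (-(c * k * min 1 (x / (j + 1))))

/-- normalisation of the Jacobians -/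
def Vol (Φ : ℕ → ℕ → EE n → EE n) : Prop :=
  ∃ (C : ℝ) (p : ℕ) (V : ℕ → EE n → EE n), 1 ≤ C ∧ (∀ j : ℕ, Tan (C * (j + 1) ^ p) (V j)) ∧
    ∀ j k, j ≤ k → ∀ᶠ x in 𝓝 (0 : EE n),
      (fderiv ℂ (V k) (Φ j k x)).det * (fderiv ℂ (Φ j k) x).det =
        (Lm Φ j k).det * (fderiv ℂ (V j) x).det

/-- normal form package of order `m` and size `β`, starting after the node `J0` -/
def NFP (Φ : ℕ → ℕ → EE n → EE n) (m : ℕ) (β : ℝ) (J0 : ℕ) : Prop :=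
  ∃ (c : ℕ → ℕ) (N : ℕ → EE n → EE n) (Q : ℕ → EE n ≃ EE n),
    StrictMono c ∧ J0 ≤ c 0 ∧ (∀ i, c (i + 1) ≤ 2 * c i) ∧
    (∀ i, Tan (Real.exp (β * c i)) (N i)) ∧
    (∀ i, Differentiable ℂ (Q i)) ∧ (∀ i, Differentiable ℂ (Q i).symm) ∧
    (∀ i, Tan (Real.exp (β * c i)) (Q i)) ∧ (∀ i, Tan (Real.exp (β * c i)) (Q i).symm) ∧
    (∀ i x, ‖x‖ ≤ Real.exp (-(β * c i)) →
      ‖N (i + 1) (Φ (c i) (c (i + 1)) x) - Lm Φ (c i) (c (i + 1)) (Q i (N i x))‖ ≤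
        Real.exp (β * c i) * ‖x‖ ^ (m + 1)) ∧
    ∀ (R : ℝ) (i0 : ℕ), ∃ i, i0 ≤ i ∧ ∀ x : EE n, ‖x‖ ≤ R →
      ‖orb (fun j y => Lm Φ (c j) (c (j + 1)) (Q j y)) i x‖ ≤ Real.exp (β * c i)

end

/-- **the non-autonomous basin theorem** -/
def NAStmt (n : ℕ) : Prop :=
  ∀ (Φ : ℕ → ℕ → EE n → EE n) (r κ : ℝ) (σ : ℕ → ℝ), Coc Φ r κ → NAHyp Φ r σ → Basin Φ r κ

/-- leaf DEC (three circles; `Φ 0 j` covers a ball of radius `c exp (-2 j)`) -/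
def DecStmt (n : ℕ) : Prop :=
  ∀ (Φ : ℕ → ℕ → EE n → EE n) (r κ : ℝ) (σ : ℕ → ℝ), Coc Φ r κ → NAHyp Φ r σ → Dec Φ r

/-- leaf VOL -/
def VolStmt (n : ℕ) : Prop :=
  ∀ (Φ : ℕ → ℕ → EE n → EE n) (r κ : ℝ) (σ : ℕ → ℝ), 1 ≤ n → Coc Φ r κ → NAHyp Φ r σ →
    Dec Φ r → Vol Φ

/-- leaf FLAG: adapted coordinates for the fine pieces `c i → c (i+1)`; `t i` is an intermediate
node, `κ i` the tolerance of the junction, `cst i` its cost -/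
def FlagStmt (n : ℕ) : Prop :=
  ∃ C : ℝ, 1 ≤ C ∧ ∀ (L : ℕ → ℕ → EE n →L[ℂ] EE n) (σ : ℕ → ℝ) (c t : ℕ → ℕ) (fine : ℕ → Prop)
    (lo hi κ cst : ℕ → ℝ), StrictMono σ → StrictMono c →
    (∀ i j k, i ≤ j → j ≤ k → (L j k).comp (L i j) = L i k) →
    (∀ j k, j ≤ k → Function.Injective (L j k)) → Cvx L σ →
    (∀ i, fine i → 0 ≤ lo i ∧ C ≤ cst i ∧ ∀ v,
      ‖L (c i) (c (i + 1)) v‖ ≤ Real.exp (-(lo i * (σ (c (i + 1)) - σ (c i)))) * ‖v‖ ∧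
      ‖v‖ ≤ Real.exp (hi i * (σ (c (i + 1)) - σ (c i))) * ‖L (c i) (c (i + 1)) v‖) →
    (∀ i, fine i → fine (i + 1) → c i < t i ∧ t i < c (i + 1) ∧ 0 < κ i ∧
      C ≤ κ i * (σ (c (i + 1)) - σ (t i)) ∧
      C * (1 + (σ (c (i + 1)) - σ (t i)) * (hi (i + 1) + κ i)) ≤ cst i ∧
      C * cst (i + 1) ≤ κ i * (σ (c (i + 2)) - σ (c (i + 1)))) →
    ∃ (As Ae : ℕ → EE n ≃L[ℂ] EE n) (lam : ℕ → Fin n → ℝ), ∀ i, fine i →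
      (∀ x, ‖As i x‖ ≤ Real.exp (cst i) * ‖x‖) ∧
      (∀ x, ‖(As i).symm x‖ ≤ Real.exp (cst i) * ‖x‖) ∧
      (∀ x, ‖Ae i x‖ ≤ Real.exp (cst i) * ‖x‖) ∧
      (∀ x, ‖(Ae i).symm x‖ ≤ Real.exp (cst i) * ‖x‖) ∧
      (∀ l, lo i ≤ lam i l ∧ lam i l ≤ hi i) ∧
      (∀ x, Ae i (L (c i) (c (i + 1)) x) =
        dg (fun l => (σ (c (i + 1)) - σ (c i)) * lam i l) (As i x)) ∧
      (fine (i + 1) → ∀ k l, As (i + 1) ((Ae i).symm (EuclideanSpace.single l 1)) k ≠ 0 →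
        lam i l ≤ lam (i + 1) k + κ i)

/-- leaf SCHED: the schedule of fine and crude pieces -/
def SchedStmt (n : ℕ) : Prop :=
  ∀ (Φ : ℕ → ℕ → EE n → EE n) (r κ : ℝ) (σ : ℕ → ℝ), 1 ≤ n → Coc Φ r κ → NAHyp Φ r σ → Vol Φ →
    ∀ (m : ℕ) (β : ℝ) (J0 : ℕ), 0 < β → NFP Φ m β J0

/-- leaf END: shadowing, three circles -/
def EndNaStmt (n : ℕ) : Prop :=
  ∀ (Φ : ℕ → ℕ → EE n → EE n) (r κ : ℝ) (σ : ℕ → ℝ), Coc Φ r κ → NAHyp Φ r σ → Dec Φ r →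
    (∀ (m : ℕ) (β : ℝ) (J0 : ℕ), 0 < β → NFP Φ m β J0) → Basin Φ r κ

theorem naStmt_of {n : ℕ} (hn : 1 ≤ n) (hD : DecStmt n) (hV : VolStmt n) (hS : SchedStmt n)
    (hE : EndNaStmt n) : NAStmt n := fun Φ r κ σ hc hh =>
  hE Φ r κ σ hc hh (hD Φ r κ σ hc hh)
    (hS Φ r κ σ hn hc hh (hV Φ r κ σ hn hc hh (hD Φ r κ σ hc hh)))

end Crest.Agent.T223.Na
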