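import Crest.Agent.T223.NaFlA_23
import Crest.Agent.T223.NaDef_80
import Crest.Agent.T223.DynBas_20

/-!
# Row 223, module NA (helper23): the flag lemma `flagStmt n : FlagStmt n`
-/

set_option autoImplicit false

open Set Filter Topology Metric
open scoped InnerProductSpace

namespace Crest.Agent.T223.Na.Fl23

open Crest.Agent.T223.Dyn ContinuousLinearMap

noncomputable section

variable {n : ℕ}

/-- quadruples `(As, As⁻¹, Ae, Ae⁻¹)` -/
abbrev XX (n : ℕ) : Type :=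
  (EE n →L[ℂ] EE n) × (EE n →L[ℂ] EE n) × (EE n →L[ℂ] EE n) × (EE n →L[ℂ] EE n)

/-- adapted coordinates for `M` with bound `R` -/
def KK (M D : EE n →L[ℂ] EE n) (R : ℝ) : Set (XX n) :=
  closedBall 0 R ∩ {q | q.1 * q.2.1 = 1 ∧ q.2.1 * q.1 = 1 ∧ q.2.2.1 * q.2.2.2 = 1 ∧
    q.2.2.2 * q.2.2.1 = 1 ∧ q.2.2.1 * M = D * q.1}

theorem isCompact_KK (M D : EE n →L[ℂ] EE n) (R : ℝ) : IsCompact (KK M D R) := by
  have : ProperSpace (EE n →L[ℂ] EE n) := FiniteDimensional.proper ℂ _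
  refine (isCompact_closedBall _ _).inter_right ?_
  refine (isClosed_eq (by fun_prop) (by fun_prop)).inter
    ((isClosed_eq (by fun_prop) (by fun_prop)).inter
      ((isClosed_eq (by fun_prop) (by fun_prop)).inter
        ((isClosed_eq (by fun_prop) (by fun_prop)).inter
          (isClosed_eq (by fun_prop) (by fun_prop)))))

/-- a linear isometry as a continuous linear map -/
abbrev cl (U : EE n ≃ₗᵢ[ℂ] EE n) : EE n →L[ℂ] EE n := U.toContinuousLinearEquiv

theorem mem_KK {M : EE n →L[ℂ] EE n} {ρ : Fin n → ℝ} {U V : EE n ≃ₗᵢ[ℂ] EE n}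
    (h : ∀ x, U (M x) = dgL ρ (V x)) {R : ℝ} {S G S' G' : EE n →L[ℂ] EE n}
    (h1 : G * S = 1) (h2 : S * G = 1) (h3 : G' * S' = 1) (h4 : S' * G' = 1)
    (h5 : S * dgL ρ = dgL ρ * S') (b1 : ‖G‖ ≤ R) (b2 : ‖S‖ ≤ R) (b3 : ‖G'‖ ≤ R) (b4 : ‖S'‖ ≤ R) :
    (G' * cl V, cl V.symm * S', G * cl U, cl U.symm * S) ∈ KK M (dgL ρ) R := by
  have hR : 0 ≤ R := (norm_nonneg _).trans b1
  have e1 : ∀ W : EE n ≃ₗᵢ[ℂ] EE n, cl W * cl W.symm = 1 := fun W => by
    ext1 x; simp [cl]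
  have e2 : ∀ W : EE n ≃ₗᵢ[ℂ] EE n, cl W.symm * cl W = 1 := fun W => by
    ext1 x; simp [cl]
  have n1 : ∀ (W : EE n ≃ₗᵢ[ℂ] EE n) (A : EE n →L[ℂ] EE n), ‖A‖ ≤ R → ‖A * cl W‖ ≤ R :=
    fun W A hA => opNorm_le_bound _ hR fun x => by
      simpa [cl] using A.le_of_opNorm_le hA (W x)
  have n2 : ∀ (W : EE n ≃ₗᵢ[ℂ] EE n) (A : EE n →L[ℂ] EE n), ‖A‖ ≤ R → ‖cl W * A‖ ≤ R :=
    fun W A hA => opNorm_le_bound _ hR fun x => by
      simpa [cl] using A.le_of_opNorm_le hA x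
  refine ⟨?_, ?_, ?_, ?_, ?_, ?_⟩
  · rw [mem_closedBall_zero_iff]
    simp only [norm_prod_le_iff]
    exact ⟨n1 _ _ b3, n2 _ _ b4, n1 _ _ b1, n2 _ _ b2⟩
  · change G' * cl V * (cl V.symm * S') = 1
    rw [mul_assoc, ← mul_assoc (cl V), e1, one_mul, h3]
  · change cl V.symm * S' * (G' * cl V) = 1
    rw [mul_assoc, ← mul_assoc S', h4, one_mul, e2]
  · change G * cl U * (cl U.symm * S) = 1
    rw [mul_assoc, ← mul_assoc (cl U), e1, one_mul, h1]
  · change cl U.symm * S * (G * cl U) = 1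
    rw [mul_assoc, ← mul_assoc S, h2, one_mul, e2]
  · change G * cl U * M = dgL ρ * (G' * cl V)
    have e3 : cl U * M = dgL ρ * cl V := by ext1 x; exact h x
    have e4 : G * dgL ρ = dgL ρ * G' := by
      calc G * dgL ρ = G * (dgL ρ * S') * G' := by rw [mul_assoc, mul_assoc, h4, mul_one]
        _ = _ := by rw [← h5, ← mul_assoc, h1, one_mul]
    rw [mul_assoc, e3, ← mul_assoc, e4, mul_assoc]

theorem norm_adjoint_le {A : EE n →L[ℂ] EE n} {R : ℝ} (h : ‖A‖ ≤ R) (x : EE n) :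
    ‖adjoint A x‖ ≤ R * ‖x‖ :=
  (adjoint A).le_of_opNorm_le (by rwa [LinearIsometryEquiv.norm_map]) x

theorem adjoint_mul_apply (A B : EE n →L[ℂ] EE n) (x : EE n) :
    adjoint (A * B) x = adjoint B (adjoint A x) := by
  rw [mul_def, adjoint_comp]; rfl

variable {L : ℕ → ℕ → EE n →L[ℂ] EE n} {σ : ℕ → ℝ}

/-- lower bound at the intermediate time, from the next piece -/
theorem lower (hσ : StrictMono σ)
    (hco : ∀ i j k, i ≤ j → j ≤ k → (L j k).comp (L i j) = L i k)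
    (hinj : ∀ j k, j ≤ k → Function.Injective (L j k)) (hcv : Cvx L σ) {t b b' : ℕ}
    (htb : t < b) (hbb : b < b') {lam' : Fin n → ℝ} {cst' : ℝ} {q' : XX n}
    (hq' : q' ∈ KK (L b b') (dgL fun l => (σ b' - σ b) * lam' l) (Real.exp cst'))
    {μ e : ℝ} (he : 2 * cst' ≤ e * (σ b' - σ b)) (a : EE n) (ha : ∀ k, a k ≠ 0 → lam' k ≤ μ) :
    Real.exp (-((σ b - σ t) * (μ + e))) * ‖adjoint q'.1 a‖ ≤
      ‖adjoint (L t b) (adjoint q'.1 a)‖ := by
  obtain ⟨hb, h1, -, -, -, h5⟩ := hq'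
  rw [mem_closedBall_zero_iff] at hb
  simp only [norm_prod_le_iff] at hb
  obtain ⟨-, b2, b3, -⟩ := hb
  have hh : 0 < σ b - σ t := sub_pos.2 (hσ htb)
  have hl : 0 < σ b' - σ b := sub_pos.2 (hσ hbb)
  set ρ : Fin n → ℝ := fun l => (σ b' - σ b) * lam' l with hρ
  set η := adjoint q'.1 a with hη
  set ζ := adjoint q'.2.2.1 (dgL (-ρ) a) with hζ
  have e1 : adjoint (L b b') ζ = η := by
    rw [hζ, ← adjoint_mul_apply, h5, adjoint_mul_apply, adjoint_dgL, dgL_cancel]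
  rcases eq_or_ne η 0 with h0 | h0
  · rw [h0]; simp
  have hζ0 : ζ ≠ 0 := fun h => h0 (by rw [← e1, h, map_zero])
  have hH0 : adjoint (L t b) η ≠ 0 := fun h => h0 (adjoint_injective _ (hinj t b htb.le) h)
  have e2 : ‖a‖ ≤ Real.exp cst' * ‖η‖ := by
    have : a = adjoint q'.2.1 η := by
      rw [hη, ← adjoint_mul_apply, h1, one_def, adjoint_id]; rfl
    conv_lhs => rw [this]
    exact norm_adjoint_le b2 η
  have e3 : ‖dgL (-ρ) a‖ ≤ Real.exp ((σ b' - σ b) * μ) * ‖a‖ := by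
    refine norm_dia_le _ (Real.exp_pos _).le a fun l hl' => ?_
    rw [Complex.norm_real, Real.norm_of_nonneg (Real.exp_pos _).le, Pi.neg_apply, neg_neg]
    exact Real.exp_le_exp.2 (mul_le_mul_of_nonneg_left (ha l hl') hl.le)
  have e4 : ‖ζ‖ ≤ Real.exp ((σ b' - σ b) * (μ + e)) * ‖η‖ := by
    calc ‖ζ‖ ≤ Real.exp cst' * (Real.exp ((σ b' - σ b) * μ) * (Real.exp cst' * ‖η‖)) :=
          (norm_adjoint_le b3 _).trans (by gcongr; exact e3.trans (by gcongr))
      _ = Real.exp (2 * cst' + (σ b' - σ b) * μ) * ‖η‖ := by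
          rw [Real.exp_add, two_mul, Real.exp_add]; ring
      _ ≤ _ := by gcongr; linarith
  have hη0 : 0 < ‖η‖ := norm_pos_iff.2 h0
  have e5 : Real.log ‖ζ‖ ≤ (σ b' - σ b) * (μ + e) + Real.log ‖η‖ := by
    have := Real.log_le_log (norm_pos_iff.2 hζ0) e4
    rwa [Real.log_mul (Real.exp_pos _).ne' hη0.ne', Real.log_exp] at this
  have e6 := hcv t b b' htb hbb ζ hζ0
  rw [← hco t b b' htb.le hbb.le, adjoint_comp, ContinuousLinearMap.comp_apply, e1] at e6
  have e7 : -((σ b - σ t) * (μ + e)) + Real.log ‖η‖ ≤ Real.log ‖adjoint (L t b) η‖ := by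
    refine le_of_mul_le_mul_left ?_ hl
    have := mul_le_mul_of_nonneg_left e5 hh.le
    nlinarith
  have e8 := Real.exp_le_exp.2 e7
  rwa [Real.exp_add, Real.exp_log hη0, Real.exp_log (norm_pos_iff.2 hH0)] at e8

/-- upper bound at the intermediate time for the singular covectors -/
theorem upper (hσ : StrictMono σ) (hcv : Cvx L σ) {a t b : ℕ} (hat : a < t) (htb : t < b)
    {U V : EE n ≃ₗᵢ[ℂ] EE n} {lam : Fin n → ℝ}
    (h : ∀ x, U (L a b x) = dgL (fun l => (σ b - σ a) * lam l) (V x)) (j : Fin n) :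
    ‖adjoint (L t b) (U.symm (ee j))‖ ≤ Real.exp (-((σ b - σ t) * lam j)) := by
  have hl : 0 < σ b - σ a := sub_pos.2 (hσ (hat.trans htb))
  have e1 : adjoint (L a b) (U.symm (ee j)) =
      V.symm (dgL (fun l => (σ b - σ a) * lam l) (ee j)) := by
    refine ext_inner_right ℂ fun x => ?_
    rw [adjoint_inner_left, ← U.inner_map_map, U.apply_symm_apply, h,
      ← V.inner_map_map (V.symm _) x, V.apply_symm_apply, ← adjoint_inner_left, adjoint_dgL]
  have e2 : ‖U.symm (ee j)‖ = 1 := by simp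
  have e3 := hcv a t b hat htb (U.symm (ee j)) (by rw [← norm_pos_iff, e2]; exact one_pos)
  rw [e1, e2, Real.log_one, V.symm.norm_map, norm_dgL_ee, Real.log_exp] at e3
  refine (Real.le_exp_log _).trans (Real.exp_le_exp.2 (le_of_mul_le_mul_left ?_ hl))
  linarith

/-- the constant -/
def CC (n : ℕ) : ℝ := (n + 1) * (2 * n ^ 2 + 1) + 4 * n + 4

theorem CC_ge (n : ℕ) : 4 * n + 4 ≤ CC n := by
  unfold CC
  have : (0 : ℝ) ≤ (n + 1) * (2 * n ^ 2 + 1) := by positivity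
  linarith

/-- transversality -/
theorem transv (hn : 0 < n) {H : EE n →L[ℂ] EE n} {U : EE n ≃ₗᵢ[ℂ] EE n} {lam : Fin n → ℝ}
    {h κ μ hi' : ℝ} (hh : 0 < h) (hκ : 0 < κ) (hC : 4 * n ≤ κ * h) (hlam : ∀ j, 0 ≤ lam j)
    (hup : ∀ j, ‖H (U.symm (ee j))‖ ≤ Real.exp (-(h * lam j))) (l : Fin n) (hμ : μ + κ ≤ lam l)
    (hμ' : μ ≤ hi') (η : EE n) (hlow : Real.exp (-(h * (μ + κ / 2))) * ‖η‖ ≤ ‖H η‖) :
    (2 * n * Real.exp (h * (hi' + κ)))⁻¹ * ‖U η‖ ≤ ‖pr (fun j => lam j < lam l) (U η)‖ := by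
  have hn' : (0 : ℝ) < n := Nat.cast_pos.2 hn
  set y := U η with hy
  set p := ‖pr (fun j => lam j < lam l) y‖ with hp
  have hp0 : 0 ≤ p := norm_nonneg _
  have hy0 : 0 ≤ ‖y‖ := norm_nonneg _
  have e1 : ‖H η‖ ≤ n * (p + Real.exp (-(h * lam l)) * ‖y‖) := by
    have e2 := norm_map_le (H ∘L cl U.symm) y
    have e3 : (H ∘L cl U.symm) y = H η := by simp [hy, cl]
    rw [e3] at e2
    refine e2.trans ?_
    calc _ ≤ ∑ _j : Fin n, (p + Real.exp (-(h * lam l)) * ‖y‖) := Finset.sum_le_sum fun j _ => ?_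
      _ = _ := by simp; ring
    have e4 : ‖(H ∘L cl U.symm) (ee j)‖ ≤ Real.exp (-(h * lam j)) := hup j
    by_cases hj : lam j < lam l
    · have e5 : ‖y j‖ ≤ p := by
        have := PiLp.norm_apply_le (pr (fun j => lam j < lam l) y) j
        rwa [pr_coord, if_pos hj] at this
      have e6 : Real.exp (-(h * lam j)) ≤ 1 :=
        Real.exp_le_one_iff.2 (neg_nonpos.2 (mul_nonneg hh.le (hlam j)))
      have := mul_le_mul e5 (e4.trans e6) (norm_nonneg _) hp0
      have : 0 ≤ Real.exp (-(h * lam l)) * ‖y‖ := by positivity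
      linarith
    · have e6 : Real.exp (-(h * lam j)) ≤ Real.exp (-(h * lam l)) :=
        Real.exp_le_exp.2 (neg_le_neg (mul_le_mul_of_nonneg_left (not_lt.1 hj) hh.le))
      have := mul_le_mul (PiLp.norm_apply_le y j) (e4.trans e6) (norm_nonneg _) hy0
      linarith
  have e7 : ‖η‖ = ‖y‖ := (U.norm_map η).symm
  rw [e7] at hlow
  set E := Real.exp (-(h * (μ + κ / 2))) with hE
  have hE0 : 0 < E := Real.exp_pos _
  have e8 : 2 * n * Real.exp (-(h * lam l)) ≤ E := by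
    have e9 : 2 * n ≤ Real.exp (κ * h / 2) := by
      have := Real.add_one_le_exp (κ * h / 2)
      linarith
    calc 2 * n * Real.exp (-(h * lam l)) ≤ Real.exp (κ * h / 2) * Real.exp (-(h * lam l)) := by
          gcongr
      _ ≤ E := by
          rw [← Real.exp_add]
          refine Real.exp_le_exp.2 ?_
          have := mul_le_mul_of_nonneg_left hμ hh.le
          linarith
  have e10 : E * ‖y‖ ≤ 2 * n * p := by
    have := mul_le_mul_of_nonneg_right e8 hy0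
    linarith
  have e11 : Real.exp (-(h * (hi' + κ))) ≤ E := by
    refine Real.exp_le_exp.2 (neg_le_neg (mul_le_mul_of_nonneg_left ?_ hh.le))
    linarith
  rw [mul_inv, ← Real.exp_neg, mul_assoc, inv_mul_le_iff₀ (by positivity)]
  exact (mul_le_mul_of_nonneg_right e11 hy0).trans e10

/-- one backward step -/
theorem step (hn : 0 < n) (hσ : StrictMono σ)
    (hco : ∀ i j k, i ≤ j → j ≤ k → (L j k).comp (L i j) = L i k)
    (hinj : ∀ j k, j ≤ k → Function.Injective (L j k)) (hcv : Cvx L σ) {a t b b' : ℕ}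
    (hat : a < t) (htb : t < b) (hbb : b < b') {U V : EE n ≃ₗᵢ[ℂ] EE n} {lam lam' : Fin n → ℝ}
    (h : ∀ x, U (L a b x) = dgL (fun l => (σ b - σ a) * lam l) (V x)) (hlam : ∀ l, 0 ≤ lam l)
    {hi' κ cst cst' : ℝ} (hlam' : ∀ l, lam' l ≤ hi') (hhi : 0 ≤ hi') (hκ : 0 < κ)
    (hc' : 0 ≤ cst') (h1 : CC n ≤ κ * (σ b - σ t))
    (h2 : CC n * (1 + (σ b - σ t) * (hi' + κ)) ≤ cst) (h3 : CC n * cst' ≤ κ * (σ b' - σ b))
    {q' : XX n} (hq' : q' ∈ KK (L b b') (dgL fun l => (σ b' - σ b) * lam' l) (Real.exp cst')) :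
    ∃ q ∈ KK (L a b) (dgL fun l => (σ b - σ a) * lam l) (Real.exp cst),
      ∀ k l, lam' k + κ < lam l → q'.1 (q.2.2.2 (ee l)) k = 0 := by
  have hn' : (0 : ℝ) < n := Nat.cast_pos.2 hn
  have hh : 0 < σ b - σ t := sub_pos.2 (hσ htb)
  have hl : 0 < σ b - σ a := sub_pos.2 (hσ (hat.trans htb))
  have hC := CC_ge n
  set Y := (σ b - σ t) * (hi' + κ) with hY
  have hY0 : 0 ≤ Y := by positivity
  set B := 2 * n * Real.exp Y with hB
  have hB0 : 0 < B := by positivity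
  have key : ∀ l, ∃ v : EE n, (∀ j, v j ≠ 0 → lam j < lam l) ∧ ‖v‖ ≤ B ∧
      ∀ k, lam' k + κ < lam l → ⟪U (adjoint q'.1 (ee k)), v⟫_ℂ =
        ⟪U (adjoint q'.1 (ee k)), ee l⟫_ℂ := by
    intro l
    let A : EE n →L[ℂ] EE n := cl U ∘L adjoint q'.1 ∘L pr (fun k => lam' k + κ < lam l)
    obtain ⟨z, hz1, hz2⟩ := riesz (LinearMap.range (A : EE n →ₗ[ℂ] EE n))
      (pr fun j => lam j < lam l) (inner_pr _) (inv_pos.2 hB0) (by
        rintro _ ⟨x, rfl⟩
        refine transv (μ := min (lam l - κ) hi') hn hh hκ (by linarith) hlam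
          (upper hσ hcv hat htb h) l (by linarith [min_le_left (lam l - κ) hi'])
          (min_le_right _ _) _ ?_
        refine lower hσ hco hinj hcv htb hbb hq' (by nlinarith) _ fun k hk => ?_
        change pr (fun k => lam' k + κ < lam l) x k ≠ 0 at hk
        rw [pr_coord] at hk
        refine le_min ?_ (hlam' k)
        by_contra hk'
        exact hk (if_neg fun h' => hk' (by linarith))) (ee l)
    refine ⟨_, fun j hj => ?_, ?_, fun k hk => hz2 _ ⟨ee k, ?_⟩⟩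
    · rw [pr_coord] at hj
      by_contra hj'
      exact hj (if_neg hj')
    · rw [inv_mul_le_iff₀ hB0] at hz1
      simpa using hz1
    · change U (adjoint q'.1 (pr (fun k => lam' k + κ < lam l) (ee k))) = _
      rw [pr_ee (S := fun k => lam' k + κ < lam l) hk]
  choose v hv1 hv2 hv3 using key
  let N : EE n →L[ℂ] EE n := ∑ l, (EuclideanSpace.proj l : EE n →L[ℂ] ℂ).smulRight (v l)
  have hN : ∀ l, N (ee l) = v l := fun l => by
    simp [N]
  set ρ : Fin n → ℝ := fun l => (σ b - σ a) * lam l with hρ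
  let N' : EE n →L[ℂ] EE n := dgL (-ρ) * N * dgL ρ
  have hN' : ∀ l, N' (ee l) = dia (fun j => ((Real.exp (ρ j - ρ l) : ℝ) : ℂ)) (v l) := fun l => by
    ext j
    change dgL (-ρ) (N (dia _ (ee l))) j = _
    rw [dia_ee, map_smul, hN, dgL_coord, dia_coord, PiLp.smul_apply, smul_eq_mul, ← mul_assoc,
      ← Complex.ofReal_mul, ← Real.exp_add, Pi.neg_apply, neg_neg, sub_eq_add_neg]
  obtain ⟨G, g1, g2, g3, g4⟩ := unip lam N hB0.le (fun l j hj => hv1 l j (hN l ▸ hj))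
    fun l => hN l ▸ hv2 l
  obtain ⟨G', g1', g2', g3', g4'⟩ := unip lam N' hB0.le
    (fun l j hj => hv1 l j (by rw [hN', dia_coord] at hj; exact right_ne_zero_of_mul hj))
    fun l => by
      rw [hN']
      refine (norm_dia_le _ zero_le_one _ fun j hj => ?_).trans (by rw [one_mul]; exact hv2 l)
      rw [Complex.norm_real, Real.norm_of_nonneg (Real.exp_pos _).le, Real.exp_le_one_iff,
        sub_nonpos]
      exact mul_le_mul_of_nonneg_left (hv1 l j hj).le hl.le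
  have hR : (1 + n * B) ^ (n + 1) ≤ Real.exp cst := by
    have a1 : 1 + n * B ≤ Real.exp (2 * n ^ 2 + Y) := by
      have a2 := Real.add_one_le_exp (2 * (n : ℝ) ^ 2)
      have a3 := Real.one_le_exp hY0
      rw [Real.exp_add]
      calc 1 + n * B ≤ (2 * n ^ 2 + 1) * Real.exp Y := by rw [hB]; nlinarith
        _ ≤ _ := by gcongr
    calc (1 + n * B) ^ (n + 1) ≤ Real.exp (2 * n ^ 2 + Y) ^ (n + 1) := by gcongr
      _ = Real.exp ((n + 1 : ℕ) * (2 * n ^ 2 + Y)) := (Real.exp_nat_mul _ _).symm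
      _ ≤ _ := by
        refine Real.exp_le_exp.2 (le_trans ?_ h2)
        have a4 : ((n : ℝ) + 1) * (2 * n ^ 2 + 1) ≤ CC n := by unfold CC; linarith
        have a5 : 0 ≤ ((n : ℝ) + 1) * (2 * n ^ 2) * Y := by positivity
        push_cast
        calc ((n : ℝ) + 1) * (2 * n ^ 2 + Y) ≤ (n + 1) * (2 * n ^ 2 + 1) * (1 + Y) := by nlinarith
          _ ≤ _ := by gcongr
  have e5 : (1 - N) * dgL ρ = dgL ρ * (1 - N') := by
    simp only [N']
    rw [sub_mul, mul_sub, one_mul, mul_one, ← mul_assoc, ← mul_assoc, dgL_mul_neg, one_mul]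
  refine ⟨_, mem_KK h g1 g2 g1' g2' e5 (g3.trans hR) (g4.trans hR) (g3'.trans hR) (g4'.trans hR),
    fun k l hk => ?_⟩
  change q'.1 (U.symm (ee l - N (ee l))) k = 0
  rw [← inner_ee, ← adjoint_inner_left, ← U.inner_map_map, U.apply_symm_apply, inner_sub_right, hN,
    hv3 l k hk, sub_self]

end

open Crest.Agent.T223.Dyn in
/-- **the flag lemma** -/
theorem flagStmt (n : ℕ) : FlagStmt n := by
  have hC := CC_ge n
  have hn0 : (0 : ℝ) ≤ n := Nat.cast_nonneg n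
  refine ⟨CC n, by linarith, fun L σ c t fine lo hi κ cst hσ hc hco hinj hcv hf hj => ?_⟩
  have hcc : ∀ i, c i < c (i + 1) := fun i => hc (Nat.lt_succ_self i)
  have hl : ∀ i, 0 < σ (c (i + 1)) - σ (c i) := fun i => sub_pos.2 (hσ (hcc i))
  choose U V ρ hρ using fun i => svd (L (c i) (c (i + 1))) (hinj _ _ (hcc i).le)
  let lam : ℕ → Fin n → ℝ := fun i l => ρ i l / (σ (c (i + 1)) - σ (c i))
  have hlρ : ∀ i, (fun l => (σ (c (i + 1)) - σ (c i)) * lam i l) = ρ i := fun i => by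
    funext l
    exact mul_div_cancel₀ _ (hl i).ne'
  have hsvd : ∀ i x, U i (L (c i) (c (i + 1)) x) =
      dgL (fun l => (σ (c (i + 1)) - σ (c i)) * lam i l) (V i x) := fun i x => by
    rw [hlρ, hρ]
  have hlam : ∀ i, fine i → ∀ l, lo i ≤ lam i l ∧ lam i l ≤ hi i := fun i hi' l => by
    obtain ⟨a1, a2⟩ := (hf i hi').2.2 ((V i).symm (ee l))
    have a3 : ‖L (c i) (c (i + 1)) ((V i).symm (ee l))‖ = Real.exp (-ρ i l) := by
      rw [← (U i).norm_map, hρ, (V i).apply_symm_apply, norm_dgL_ee]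
    have a4 : ‖(V i).symm (ee l)‖ = 1 := by simp
    rw [a3, a4] at a1 a2
    rw [mul_one, Real.exp_le_exp] at a1
    rw [← Real.exp_add, Real.one_le_exp_iff] at a2
    exact ⟨(le_div_iff₀ (hl i)).2 (by linarith), (div_le_iff₀ (hl i)).2 (by linarith)⟩
  let K : ℕ → Set (XX n) := fun i => KK (L (c i) (c (i + 1)))
    (dgL fun l => (σ (c (i + 1)) - σ (c i)) * lam i l) (Real.exp |cst i|)
  have hne : ∀ i, (K i).Nonempty := fun i => by
    have a1 : ‖(1 : EE n →L[ℂ] EE n)‖ ≤ Real.exp |cst i| :=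
      ContinuousLinearMap.norm_id_le.trans (Real.one_le_exp (abs_nonneg _))
    exact ⟨_, mem_KK (hsvd i) (mul_one 1) (mul_one 1) (mul_one 1) (mul_one 1)
      (by rw [one_mul, mul_one]) a1 a1 a1 a1⟩
  have hcst : ∀ i, fine i → 0 ≤ cst i := fun i hi' => by linarith [(hf i hi').2.1]
  obtain ⟨q, hq⟩ := invlim K (fun i q q' => fine i → fine (i + 1) → ∀ k l,
      lam (i + 1) k + κ i < lam i l → q'.1 (q.2.2.2 (ee l)) k = 0)
    (fun i => isCompact_KK _ _ _) hne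
    (fun i => by
      simp only [ofPred_forall]
      refine isClosed_iInter fun _ => isClosed_iInter fun _ => isClosed_iInter fun k =>
        isClosed_iInter fun l => isClosed_iInter fun _ => isClosed_eq ?_ continuous_const
      fun_prop)
    (fun i y hy => by
      by_cases hfi : fine i ∧ fine (i + 1)
      · rcases Nat.eq_zero_or_pos n with rfl | hn
        · obtain ⟨x, hx⟩ := hne i
          exact ⟨x, hx, fun _ _ k => k.elim0⟩
        obtain ⟨j1, j2, j3, j4, j5, j6⟩ := hj i hfi.1 hfi.2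
        have a1 := hlam (i + 1) hfi.2 ⟨0, hn⟩
        simp only [K, abs_of_nonneg (hcst _ hfi.1), abs_of_nonneg (hcst _ hfi.2)] at hy ⊢
        obtain ⟨x, hx, hx'⟩ := step hn hσ hco hinj hcv j1 j2 (hcc (i + 1)) (hsvd i)
          (fun l => (hf i hfi.1).1.trans (hlam i hfi.1 l).1) (fun l => (hlam _ hfi.2 l).2)
          (((hf _ hfi.2).1.trans a1.1).trans a1.2) j3 (hcst _ hfi.2) j4 j5 j6 hy
        exact ⟨x, hx, fun _ _ => hx'⟩
      · obtain ⟨x, hx⟩ := hne i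
        exact ⟨x, hx, fun h1 h2 => absurd ⟨h1, h2⟩ hfi⟩)
  refine ⟨fun i => ContinuousLinearEquiv.equivOfInverse' (q i).1 (q i).2.1 (hq i).1.2.1
      (hq i).1.2.2.1,
    fun i => ContinuousLinearEquiv.equivOfInverse' (q i).2.2.1 (q i).2.2.2 (hq i).1.2.2.2.1
      (hq i).1.2.2.2.2.1, lam, fun i hi' => ?_⟩
  have hb := (hq i).1.1
  rw [mem_closedBall_zero_iff, abs_of_nonneg (hcst i hi')] at hb
  simp only [norm_prod_le_iff] at hb
  refine ⟨(q i).1.le_of_opNorm_le hb.1, (q i).2.1.le_of_opNorm_le hb.2.1,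
    (q i).2.2.1.le_of_opNorm_le hb.2.2.1, (q i).2.2.2.le_of_opNorm_le hb.2.2.2, hlam i hi',
    fun x => DFunLike.congr_fun (hq i).1.2.2.2.2.2 x, fun hi'' k l hkl => ?_⟩
  by_contra hlt
  exact hkl ((hq i).2 hi' hi'' k l (not_le.1 hlt))

end Crest.Agent.T223.Na.Fl23
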