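import Crest.Agent.T223.CovMass_25

/-!
# T223, module COVER (helper25): transport of the Monge-Ampere mass by holomorphic maps
-/

set_option autoImplicit false

open Set Filter Topology Complex MeasureTheory Metric
open scoped ContDiff Matrix ComplexConjugate ComplexOrder

namespace Crest.Agent.T223.Cov

open Crest.Agent.R275.Geo
open Crest.Agent.R273.Hess_333 Crest.Agent.R273.HessB_333

variable {n : ℕ}

/-- the matrix of a linear map -/
noncomputable def jac (L : Cn n →L[ℂ] Cn n) : Matrix (Fin n) (Fin n) ℂ :=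
  fun c a => L (EuclideanSpace.single a 1) c

theorem det_jac (L : Cn n →L[ℂ] Cn n) : (jac L).det = L.det := by
  have h := LinearMap.det_toMatrix (EuclideanSpace.basisFun (Fin n) ℂ).toBasis
    (L : Cn n →ₗ[ℂ] Cn n)
  rw [ContinuousLinearMap.det, ← h]
  congr 1

theorem det_real (L : Cn n →L[ℂ] Cn n) :
    (L.restrictScalars ℝ).det = Complex.normSq L.det := by
  have h1 : (L.restrictScalars ℝ).det =
    LinearMap.det ((L : Cn n →ₗ[ℂ] Cn n).restrictScalars ℝ) := rfl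
  rw [h1, LinearMap.det_restrictScalars, Algebra.norm_complex_apply]

theorem hess_comp_mat {u : Cn n → ℝ} {T : Cn n → Cn n} {z : Cn n} (hu : ContDiffAt ℝ ∞ u (T z))
    (hT : ∀ᶠ w in 𝓝 z, DifferentiableAt ℂ T w) :
    hess (fun w => u (T w)) z =
      (jac (fderiv ℂ T z))ᵀ * hess u (T z) * ((jac (fderiv ℂ T z))ᵀ)ᴴ := by
  ext a b
  rw [hess_comp hu hT, Matrix.mul_apply, Finset.sum_comm]
  refine Finset.sum_congr rfl fun d _ => ?_
  rw [Matrix.mul_apply, Finset.sum_mul]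
  rfl

theorem det_hess_comp {u : Cn n → ℝ} {T : Cn n → Cn n} {z : Cn n} (hu : ContDiffAt ℝ ∞ u (T z))
    (hT : ∀ᶠ w in 𝓝 z, DifferentiableAt ℂ T w) :
    (hess (fun w => u (T w)) z).det.re =
      Complex.normSq (fderiv ℂ T z).det * (hess u (T z)).det.re := by
  rw [hess_comp_mat hu hT, Matrix.det_mul, Matrix.det_mul, Matrix.det_conjTranspose,
    Matrix.det_transpose, det_jac, mul_right_comm, Complex.star_def, Complex.mul_conj,
    Complex.re_ofReal_mul]

theorem psd_hess_comp {u : Cn n → ℝ} {T : Cn n → Cn n} {z : Cn n} (hu : ContDiffAt ℝ ∞ u (T z))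
    (hT : ∀ᶠ w in 𝓝 z, DifferentiableAt ℂ T w) (hp : (hess u (T z)).PosSemidef) :
    (hess (fun w => u (T w)) z).PosSemidef := by
  rw [hess_comp_mat hu hT]
  exact hp.mul_mul_conjTranspose_same _

theorem contDiffOn_hol {F : Type} [NormedAddCommGroup F] [NormedSpace ℂ F] [CompleteSpace F]
    {T : Cn n → F} {U : Set (Cn n)} (hU : IsOpen U) (hT : DifferentiableOn ℂ T U) :
    ContDiffOn ℂ ω T U :=
  Crest.Agent.R266.SCV.contDiffOn_omega_of_differentiableOn hU hT

theorem diff_det {T : Cn n → Cn n} {U : Set (Cn n)} (hU : IsOpen U)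
    (hT : DifferentiableOn ℂ T U) : DifferentiableOn ℂ (fun w => (fderiv ℂ T w).det) U := by
  have h1 : ContDiffOn ℂ ω (fderiv ℂ T) U :=
    (contDiffOn_hol hU hT).fderiv_of_isOpen hU (by simp)
  have h3 : ∀ c a, ContDiffOn ℂ ω (fun w => jac (fderiv ℂ T w) c a) U := by
    intro c a
    have h4 : ContDiffOn ℂ ω (fun w => fderiv ℂ T w (EuclideanSpace.single a 1)) U :=
      h1.clm_apply contDiffOn_const
    exact (EuclideanSpace.proj (𝕜 := ℂ) c).contDiff.comp_contDiffOn h4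
  simp only [← det_jac, Matrix.det_apply']
  refine DifferentiableOn.fun_sum fun σ _ => ?_
  exact ((contDiffOn_prod fun i _ => h3 _ _).differentiableOn (by simp)).const_mul _

theorem ev_diff {F : Type} [NormedAddCommGroup F] [NormedSpace ℂ F]
    {T : Cn n → F} {U : Set (Cn n)} (hU : IsOpen U) (hT : DifferentiableOn ℂ T U) {w : Cn n}
    (hw : w ∈ U) : ∀ᶠ x in 𝓝 w, DifferentiableAt ℂ T x :=
  eventually_of_mem (hU.mem_nhds hw) fun x hx => (hT x hx).differentiableAt (hU.mem_nhds hx)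

theorem contDiffAt_hol {F : Type} [NormedAddCommGroup F] [NormedSpace ℂ F] [CompleteSpace F]
    {T : Cn n → F} {U : Set (Cn n)} (hU : IsOpen U) (hT : DifferentiableOn ℂ T U) {w : Cn n}
    (hw : w ∈ U) : ContDiffAt ℝ ∞ T w :=
  (((contDiffOn_hol hU hT).restrict_scalars ℝ).of_le le_top).contDiffAt (hU.mem_nhds hw)

theorem contDiffAt_logdet {T : Cn n → Cn n} {U : Set (Cn n)} (hU : IsOpen U)
    (hT : DifferentiableOn ℂ T U) {w : Cn n} (hw : w ∈ U) (hd : (fderiv ℂ T w).det ≠ 0) :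
    ContDiffAt ℝ ∞ (fun x => Real.log (‖(fderiv ℂ T x).det‖ ^ 2)) w := by
  have h1 := contDiffAt_hol hU (diff_det hU hT) hw
  exact (h1.norm_sq ℂ).log (pow_ne_zero 2 (norm_ne_zero_iff.2 hd))

/-- functions which differ by `log |det DF|²` have the same complex Hessian -/
theorem hess_rel {F : Cn n → Cn n} {U : Set (Cn n)} (hU : IsOpen U)
    (hF : DifferentiableOn ℂ F U) {a b : Cn n → ℝ} {w : Cn n} (hw : w ∈ U)
    (hd : (fderiv ℂ F w).det ≠ 0) (hb : ContDiffAt ℝ ∞ b w)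
    (hab : ∀ x ∈ U, a (F x) = b x + Real.log (‖(fderiv ℂ F x).det‖ ^ 2)) :
    hess (fun x => a (F x)) w = hess b w := by
  have h1 : (fun x => a (F x)) =ᶠ[𝓝 w] fun x => b x + Real.log (‖(fderiv ℂ F x).det‖ ^ 2) :=
    eventually_of_mem (hU.mem_nhds hw) hab
  rw [hess_congr h1, hess_add hb (contDiffAt_logdet hU hF hw hd),
    hess_log_norm (ev_diff hU (diff_det hU hF) hw) hd, add_zero]

/-- transport of mass -/
theorem mass_tr (μ : Measure (Cn n)) [μ.IsAddHaarMeasure] {F : Cn n → Cn n} {U K : Set (Cn n)}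
    (hU : IsOpen U) (hF : DifferentiableOn ℂ F U) {a b : Cn n → ℝ} (hK : MeasurableSet K)
    (hKU : K ⊆ U) (hi : InjOn F K) (hd : ∀ w ∈ K, (fderiv ℂ F w).det ≠ 0)
    (ha : ∀ w ∈ K, ContDiffAt ℝ ∞ a (F w)) (hb : ∀ w ∈ K, ContDiffAt ℝ ∞ b w)
    (hab : ∀ x ∈ U, a (F x) = b x + Real.log (‖(fderiv ℂ F x).det‖ ^ 2)) :
    ∫⁻ z in F '' K, ENNReal.ofReal (hess a z).det.re ∂μ =
      ∫⁻ w in K, ENNReal.ofReal (hess b w).det.re ∂μ := by
  rw [lintegral_image_eq_lintegral_abs_det_fderiv_mul μ hK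
    (f' := fun w => (fderiv ℂ F w).restrictScalars ℝ) (fun w hw =>
      (((hF w (hKU hw)).differentiableAt (hU.mem_nhds (hKU hw))).hasFDerivAt.restrictScalars
        ℝ).hasFDerivWithinAt) hi]
  refine setLIntegral_congr_fun hK fun w hw => ?_
  rw [← hess_rel hU hF (hKU hw) (hd w hw) (hb w hw) hab,
    det_hess_comp (ha w hw) (ev_diff hU hF (hKU hw)), det_real,
    abs_of_nonneg (Complex.normSq_nonneg _), ENNReal.ofReal_mul (Complex.normSq_nonneg _)]

/-- determinants are bounded on balls -/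
theorem det_bound (n : ℕ) (Λ : ℝ) :
    ∃ D : ℝ, 1 ≤ D ∧ ∀ L : Cn n →L[ℂ] Cn n, ‖L‖ ≤ Λ → ‖L.det‖ ≤ D := by
  have : ProperSpace (Cn n →L[ℂ] Cn n) := FiniteDimensional.proper ℂ _
  obtain ⟨D, hD⟩ := (isCompact_closedBall (0 : Cn n →L[ℂ] Cn n) Λ).exists_bound_of_continuousOn
    (ContinuousLinearMap.continuous_det (𝕜 := ℂ) (E := Cn n)).continuousOn
  exact ⟨max D 1, le_max_right _ _, fun L hL =>
    (hD L (mem_closedBall_zero_iff.2 hL)).trans (le_max_left _ _)⟩

end Crest.Agent.T223.Cov
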