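import Crest.Agent.T223.NaDef_80
import Crest.Agent.T223.DynBas_20
import Crest.Agent.T223.CovTr_25
import Crest.Agent.R266.SCV

/-!
# Row 223, module NA, leaf VOL (helper85): normalisation of the Jacobians

`volStmt : VolStmt n`.  The normalised Jacobians `J j k = det D(Φ j k) / det Lm j k` converge on
balls of radius `c / (j+1)` to `ν j`; `V j` is a shear with Jacobian `ν j`.
-/

set_option autoImplicit false
set_option linter.unusedVariables false

open Set Filter Topology Metric Asymptotics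

namespace Crest.Agent.T223.Na

open Crest.Agent.T223.Tr Crest.Agent.T223.Dyn

namespace Vol85

variable {n : ℕ}

/-- convergence of a product of holomorphic functions -/
theorem prodlim {f : ℕ → EE n → ℂ} {R X : ℝ} {a : ℕ → ℝ}
    (hf : ∀ k, DifferentiableOn ℂ (f k) (ball 0 R)) (h0 : ∀ z ∈ ball (0 : EE n) R, f 0 z = 1)
    (ha : ∀ k, 0 ≤ a k) (hs : ∀ k, ∑ i ∈ Finset.range k, a i ≤ X) (hX : X * R ≤ 1)
    (hst : ∀ k, ∀ z ∈ ball (0 : EE n) R, ‖f (k + 1) z - f k z‖ ≤ ‖f k z‖ * (a k * ‖z‖)) :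
    ∃ ν : EE n → ℂ, DifferentiableOn ℂ ν (ball 0 R) ∧
      (∀ z ∈ ball (0 : EE n) R, Tendsto (fun k => f k z) atTop (𝓝 (ν z))) ∧
      ∀ z ∈ ball (0 : EE n) R, ‖ν z - 1‖ ≤ 3 * X * ‖z‖ := by
  have hX0 : 0 ≤ X := by simpa using hs 0
  have hb : ∀ z ∈ ball (0 : EE n) R, ∀ k,
      ‖f k z‖ ≤ Real.exp ((∑ i ∈ Finset.range k, a i) * ‖z‖) := by
    intro z hz k
    induction k with
    | zero => simp [h0 z hz]
    | succ k ih =>
      have h1 := hst k z hz
      have h2 : ‖f (k + 1) z‖ ≤ ‖f k z‖ * (a k * ‖z‖ + 1) := by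
        have := norm_le_insert' (f (k + 1) z) (f k z)
        nlinarith
      rw [Finset.sum_range_succ, add_mul, Real.exp_add]
      exact h2.trans (mul_le_mul ih (Real.add_one_le_exp _)
        (by have := ha k; positivity) (Real.exp_pos _).le)
  have hb3 : ∀ z ∈ ball (0 : EE n) R, ∀ k, ‖f k z‖ ≤ 3 := by
    intro z hz k
    have hz' := mem_ball_zero_iff.1 hz
    refine (hb z hz k).trans ((Real.exp_le_exp.2 ?_).trans (Real.exp_one_lt_three).le)
    calc (∑ i ∈ Finset.range k, a i) * ‖z‖ ≤ X * R :=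
          mul_le_mul (hs k) hz'.le (norm_nonneg _) hX0
      _ ≤ 1 := hX
  have hg : ∀ k, ∀ z ∈ ball (0 : EE n) R, ‖f (k + 1) z - f k z‖ ≤ 3 * (a k * ‖z‖) :=
    fun k z hz => (hst k z hz).trans
      (mul_le_mul_of_nonneg_right (hb3 z hz k) (by have := ha k; positivity))
  have hsum : Summable a := summable_of_sum_range_le ha hs
  have hT := tendstoUniformlyOn_tsum_nat (f := fun k z => f (k + 1) z - f k z)
    (u := fun k => 3 * (a k * R)) (s := ball (0 : EE n) R) ((hsum.mul_right R).mul_left 3)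
    (fun k z hz => (hg k z hz).trans (by
      have := (mem_ball_zero_iff.1 hz).le
      have := ha k
      gcongr))
  have htel : ∀ k, ∀ z ∈ ball (0 : EE n) R,
      ∑ i ∈ Finset.range k, (f (i + 1) z - f i z) = f k z - 1 := by
    intro k z hz
    rw [Finset.sum_range_sub (fun i => f i z), h0 z hz]
  have hT' : TendstoUniformlyOn (fun k z => f k z - 1)
      (fun z => ∑' k, (f (k + 1) z - f k z)) atTop (ball (0 : EE n) R) :=
    hT.congr (Eventually.of_forall fun k z hz => htel k z hz)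
  have hA := Crest.Agent.R266.SCV.analyticOnNhd_of_tendstoLocallyUniformlyOn isOpen_ball
    hT'.tendstoLocallyUniformlyOn (Eventually.of_forall fun k => (hf k).sub_const 1)
  refine ⟨fun z => (∑' k, (f (k + 1) z - f k z)) + 1, hA.differentiableOn.add_const 1,
    fun z hz => ?_, fun z hz => ?_⟩
  · simpa using (hT'.tendsto_at hz).add_const 1
  · rw [add_sub_cancel_right]
    refine le_of_tendsto' (hT'.tendsto_at hz).norm fun k => ?_
    rw [← htel k z hz]
    refine (norm_sum_le _ _).trans ((Finset.sum_le_sum fun i _ => hg i z hz).trans ?_)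
    rw [← Finset.mul_sum, ← Finset.sum_mul, mul_assoc]
    have := hs k
    gcongr

/-- a shear with prescribed Jacobian -/
theorem prim (hn : 1 ≤ n) {μ : EE n → ℂ} {R S : ℝ} (hR : 0 < R) (hS : 0 ≤ S)
    (hμ : DifferentiableOn ℂ μ (ball 0 R)) (hb : ∀ z ∈ ball (0 : EE n) R, ‖μ z‖ ≤ S * ‖z‖) :
    ∃ V : EE n → EE n, DifferentiableOn ℂ V (ball 0 (R / 3)) ∧
      (∀ z ∈ ball (0 : EE n) (R / 3), ‖V z - z‖ ≤ 2 * S * ‖z‖ ^ 2) ∧
      ∀ z ∈ ball (0 : EE n) (R / 3), (fderiv ℂ V z).det = 1 + μ z := by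
  set i0 : Fin n := ⟨0, hn⟩
  set e : EE n := EuclideanSpace.single i0 1 with he
  have hen : ‖e‖ = 1 := by simp [he]
  have hz0 : ∀ z : EE n, ‖z i0‖ ≤ ‖z‖ := fun z => PiLp.norm_apply_le z i0
  set T : ℝ → EE n → EE n := fun s z => z - ((1 - (s : ℂ)) * z i0) • e with hT
  have hTn : ∀ s ∈ uIcc (0 : ℝ) 1, ∀ z, ‖T s z‖ ≤ 2 * ‖z‖ := by
    intro s hs z
    rw [uIcc_of_le zero_le_one] at hs
    refine (norm_sub_le _ _).trans ?_
    rw [norm_smul, hen, mul_one, norm_mul]
    have h1 : ‖(1 - (s : ℂ))‖ ≤ 1 := by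
      rw [← Complex.ofReal_one, ← Complex.ofReal_sub, Complex.norm_real, Real.norm_eq_abs,
        abs_le]
      constructor <;> linarith [hs.1, hs.2]
    have := hz0 z
    nlinarith [norm_nonneg (z i0), norm_nonneg (1 - (s : ℂ))]
  have hTm : ∀ s ∈ uIcc (0 : ℝ) 1, ∀ z ∈ ball (0 : EE n) (R / 3), T s z ∈ ball (0 : EE n) R := by
    intro s hs z hz
    rw [mem_ball_zero_iff] at hz ⊢
    linarith [hTn s hs z, norm_nonneg z]
  set I : EE n → ℂ := fun z => ∫ s in (0 : ℝ)..1, μ (T s z) with hI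
  have hIa : AnalyticOnNhd ℂ I (ball 0 (R / 3)) := by
    refine Crest.Agent.R266.SCV.analyticOnNhd_intervalIntegral
      (f := fun q : EE n × ℝ => μ (T q.2 q.1)) isOpen_ball ?_ ?_
    · refine hμ.continuousOn.comp (Continuous.continuousOn ?_) fun q hq => hTm _ hq.2 _ hq.1
      simp only [hT]
      fun_prop
    · intro s hs
      refine hμ.comp (Differentiable.differentiableOn ?_) fun z hz => hTm s hs z hz
      simp only [hT]
      fun_prop
  set h : EE n → ℂ := fun z => z i0 * I z with hh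
  have hhd : DifferentiableOn ℂ h (ball 0 (R / 3)) :=
    (Differentiable.differentiableOn (by fun_prop)).mul hIa.differentiableOn
  refine ⟨fun z => z + h z • e, differentiableOn_id.add (hhd.smul_const e), fun z hz => ?_,
    fun z hz => ?_⟩
  · rw [add_sub_cancel_left, norm_smul, hen, mul_one, hh, norm_mul]
    have h1 : ‖I z‖ ≤ S * (2 * ‖z‖) * |1 - 0| := by
      refine intervalIntegral.norm_integral_le_of_norm_le_const fun s hs => ?_
      have hs' := uIoc_subset_uIcc hs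
      exact (hb _ (hTm s hs' z hz)).trans (mul_le_mul_of_nonneg_left (hTn s hs' z) hS)
    have h2 := hz0 z
    calc ‖z i0‖ * ‖I z‖ ≤ ‖z‖ * (S * (2 * ‖z‖) * |1 - 0|) := by gcongr
      _ = _ := by simp; ring
  · have hz' := mem_ball_zero_iff.1 hz
    have hd := ((hhd z hz).differentiableAt (isOpen_ball.mem_nhds hz)).hasFDerivAt
    have hV : HasFDerivAt (fun z => z + h z • e)
        (ContinuousLinearMap.id ℂ (EE n) + (fderiv ℂ h z).smulRight e) z :=
      (hasFDerivAt_id z).add (hd.smul_const e)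
    rw [hV.fderiv]
    have hdet : (ContinuousLinearMap.id ℂ (EE n) + (fderiv ℂ h z).smulRight e).det =
        1 + fderiv ℂ h z e := by
      exact LinearMap.transvection.det (R := ℂ) (V := EE n) (fderiv ℂ h z).toLinearMap e
    rw [hdet]
    congr 1
    -- the derivative in the direction `e`
    set P : EE n := z - z i0 • e with hP
    have hPn : ‖P‖ ≤ 2 * ‖z‖ := by
      have := hTn 0 left_mem_uIcc z
      simpa [hT, hP] using this
    have hm : DifferentiableOn ℂ (fun w : ℂ => μ (P + w • e)) (ball 0 (R / 3)) := by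
      refine hμ.comp (Differentiable.differentiableOn (by fun_prop)) fun w hw => ?_
      rw [mem_ball_zero_iff] at hw ⊢
      have := norm_add_le P (w • e)
      rw [norm_smul, hen, mul_one] at this
      linarith
    obtain ⟨G, hG⟩ := hm.isExactOn_ball
    have hkey : ∀ w ∈ ball (0 : ℂ) (R / 3), h (P + w • e) = G w - G 0 := by
      intro w hw
      have hw0 : (P + w • e) i0 = w := by simp [hP, he]
      have hTs : ∀ s : ℝ, T s (P + w • e) = P + ((s : ℂ) * w) • e := by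
        intro s
        simp only [hT, hw0]
        module
      have hmem : ∀ s ∈ uIcc (0 : ℝ) 1, (s : ℂ) * w ∈ ball (0 : ℂ) (R / 3) := by
        intro s hs
        rw [uIcc_of_le zero_le_one] at hs
        rw [mem_ball_zero_iff] at hw ⊢
        rw [norm_mul, Complex.norm_real, Real.norm_of_nonneg hs.1]
        nlinarith [norm_nonneg w, hs.1, hs.2]
      simp only [hh, hI, hw0, hTs]
      rw [← intervalIntegral.integral_const_mul]
      have hder : ∀ s ∈ uIcc (0 : ℝ) 1, HasDerivAt (fun s : ℝ => G ((s : ℂ) * w))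
          (w * μ (P + ((s : ℂ) * w) • e)) s := by
        intro s hs
        have h1 : HasDerivAt (fun y : ℂ => G (y * w)) (μ (P + ((s : ℂ) * w) • e) * (1 * w))
            (s : ℂ) := (hG _ (hmem s hs)).comp (s : ℂ) ((hasDerivAt_id (s : ℂ)).mul_const w)
        have h2 := h1.comp_ofReal
        convert h2 using 1
        ring
      have hint : IntervalIntegrable (fun s : ℝ => w * μ (P + ((s : ℂ) * w) • e))
          MeasureTheory.volume 0 1 := by
        refine ContinuousOn.intervalIntegrable (continuousOn_const.mul ?_)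
        exact hm.continuousOn.comp (f := fun s : ℝ => (s : ℂ) * w)
          (Continuous.continuousOn (by fun_prop)) hmem
      rw [intervalIntegral.integral_eq_sub_of_hasDerivAt hder hint]
      simp
    have hzi : z i0 ∈ ball (0 : ℂ) (R / 3) := mem_ball_zero_iff.2 ((hz0 z).trans_lt hz')
    have hPz : P + z i0 • e = z := by simp [hP]
    have h1 : HasDerivAt (fun w : ℂ => h (P + w • e)) (μ z) (z i0) := by
      have h2 := (hG _ hzi).sub_const (G 0)
      simp only [hPz] at h2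
      exact h2.congr_of_eventuallyEq (eventually_of_mem (isOpen_ball.mem_nhds hzi) hkey)
    have h3 : HasDerivAt (fun w : ℂ => h (P + w • e)) (fderiv ℂ h z e) (z i0) := by
      have h4 : HasDerivAt (fun w : ℂ => P + w • e) e (z i0) := by
        simpa using ((hasDerivAt_id (z i0)).smul_const e).const_add P
      have h5 : HasFDerivAt h (fderiv ℂ h z) (P + z i0 • e) := by rw [hPz]; exact hd
      exact h5.comp_hasDerivAt (z i0) h4
    exact h3.unique h1

/-- uniform bound of the inverse determinant -/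
theorem det_inv_bound (n : ℕ) (a b : ℝ) : ∃ D : ℝ, 0 ≤ D ∧ ∀ L : EE n →L[ℂ] EE n, ‖L‖ ≤ a →
    (∀ v, ‖v‖ ≤ b * ‖L v‖) → ‖(L.det)⁻¹‖ ≤ D := by
  have : ProperSpace (EE n →L[ℂ] EE n) := FiniteDimensional.proper ℂ _
  have hcl : IsClosed {L : EE n →L[ℂ] EE n | ∀ v, ‖v‖ ≤ b * ‖L v‖} := by
    simp only [ofPred_forall]
    exact isClosed_iInter fun v => isClosed_le continuous_const (by fun_prop)
  have hK := (isCompact_closedBall (0 : EE n →L[ℂ] EE n) a).inter_right hcl
  obtain ⟨D, hD⟩ := hK.exists_bound_of_continuousOn (f := fun L => (L.det)⁻¹)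
    ((ContinuousLinearMap.continuous_det (𝕜 := ℂ) (E := EE n)).continuousOn.inv₀ fun L hL => by
      have hinj : Function.Injective (L : EE n →ₗ[ℂ] EE n) := by
        rw [injective_iff_map_eq_zero]
        intro v hv
        have := hL.2 v
        have hv' : L v = 0 := hv
        rw [hv', norm_zero, mul_zero] at this
        exact norm_le_zero_iff.1 this
      rw [ContinuousLinearMap.det]
      intro h0
      exact (LinearMap.det_eq_zero_iff_ker_ne_bot.1 h0) (LinearMap.ker_eq_bot.2 hinj))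
  exact ⟨max D 0, le_max_right _ _, fun L h1 h2 =>
    (hD L ⟨mem_closedBall_zero_iff.2 h1, h2⟩).trans (le_max_left _ _)⟩

theorem det_ne {L : EE n →L[ℂ] EE n} (h : Function.Injective L) : L.det ≠ 0 := by
  rw [ContinuousLinearMap.det]
  intro h0
  exact (LinearMap.det_eq_zero_iff_ker_ne_bot.1 h0) (LinearMap.ker_eq_bot.2 h)

theorem geom_le {c y : ℝ} (hc : 0 < c) (hy : 1 ≤ y) (k : ℕ) :
    ∑ i ∈ Finset.range k, Real.exp (-(c / y)) ^ i ≤ (1 + 1 / c) * y := by
  have hy0 : 0 < y := by linarith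
  have hq0 : 0 < Real.exp (-(c / y)) := Real.exp_pos _
  have hcy : 0 < c / y := by positivity
  have hq : Real.exp (-(c / y)) * (c / y + 1) ≤ 1 := by
    have := Real.add_one_le_exp (c / y)
    calc Real.exp (-(c / y)) * (c / y + 1) ≤ Real.exp (-(c / y)) * Real.exp (c / y) := by gcongr
      _ = 1 := by rw [← Real.exp_add]; simp
  have hq1 : Real.exp (-(c / y)) < 1 := by nlinarith
  set q := Real.exp (-(c / y))
  have h1 : (∑ i ∈ Finset.range k, q ^ i) * (1 - q) ≤ 1 := by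
    have := geom_sum_mul_neg q k
    rw [this]
    have := pow_pos hq0 k
    linarith
  have hS : 0 ≤ ∑ i ∈ Finset.range k, q ^ i := Finset.sum_nonneg fun i _ => by positivity
  set S := ∑ i ∈ Finset.range k, q ^ i
  -- `1 - q ≥ (c/y) / (c/y + 1)`
  have h2 : S * (c / y) ≤ c / y + 1 := by nlinarith
  have h3 : S * c ≤ c + y := by
    have := mul_le_mul_of_nonneg_right h2 hy0.le
    field_simp at this
    linarith
  have h4 : S ≤ (c + y) / c := by rw [le_div_iff₀ hc]; exact h3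
  refine h4.trans ?_
  rw [div_le_iff₀ hc]
  field_simp
  nlinarith

/-- the normalised Jacobian -/
noncomputable def J (Φ : ℕ → ℕ → EE n → EE n) (j k : ℕ) (z : EE n) : ℂ :=
  (fderiv ℂ (Φ j k) z).det * ((Lm Φ j k).det)⁻¹

variable {Φ : ℕ → ℕ → EE n → EE n} {r κ : ℝ}

theorem mem_r (hc : Coc Φ r κ) {z : EE n} (hz : z ∈ ball (0 : EE n) (r / κ)) :
    z ∈ ball (0 : EE n) r :=
  ball_subset_ball (div_le_self hc.r_pos.le hc.one_le) hz

theorem map_r (hc : Coc Φ r κ) {j k : ℕ} (hjk : j ≤ k) {z : EE n}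
    (hz : z ∈ ball (0 : EE n) (r / κ)) : Φ j k z ∈ ball (0 : EE n) r := by
  have hκ : 0 < κ := by linarith [hc.one_le]
  have h1 := hc.bd j k hjk z (mem_r hc hz)
  rw [mem_ball_zero_iff] at hz ⊢
  rw [lt_div_iff₀ hκ] at hz
  linarith

theorem det_coc (hc : Coc Φ r κ) {j k l : ℕ} (hjk : j ≤ k) (hkl : k ≤ l) {z : EE n}
    (hz : z ∈ ball (0 : EE n) (r / κ)) :
    (fderiv ℂ (Φ j l) z).det = (fderiv ℂ (Φ k l) (Φ j k z)).det * (fderiv ℂ (Φ j k) z).det := by
  have h1 : Φ j l =ᶠ[𝓝 z] Φ k l ∘ Φ j k :=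
    eventually_of_mem (isOpen_ball.mem_nhds hz) fun w hw => (hc.coc j k l hjk hkl w hw).symm
  have h2 := (hc.hol j k hjk z (mem_r hc hz)).differentiableAt (isOpen_ball.mem_nhds (mem_r hc hz))
  have h3 := (hc.hol k l hkl _ (map_r hc hjk hz)).differentiableAt
    (isOpen_ball.mem_nhds (map_r hc hjk hz))
  rw [h1.fderiv_eq, fderiv_comp z h3 h2, Aut.det_comp']

theorem det_Lm_ne (hc : Coc Φ r κ) {j k : ℕ} (hjk : j ≤ k) : (Lm Φ j k).det ≠ 0 :=
  det_ne (hc.imm j k hjk 0 (mem_ball_self hc.r_pos))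

theorem J_coc (hc : Coc Φ r κ) {j k l : ℕ} (hjk : j ≤ k) (hkl : k ≤ l) {z : EE n}
    (hz : z ∈ ball (0 : EE n) (r / κ)) : J Φ j l z = J Φ k l (Φ j k z) * J Φ j k z := by
  have hκ : 0 < κ := by linarith [hc.one_le]
  have h0 := det_coc hc hjk hkl (mem_ball_self (div_pos hc.r_pos hκ))
  rw [hc.zero j k hjk] at h0
  simp only [J, Lm]
  rw [det_coc hc hjk hkl hz, h0, mul_inv]
  ring

theorem J_zero (hc : Coc Φ r κ) {j k : ℕ} (hjk : j ≤ k) : J Φ j k 0 = 1 :=
  mul_inv_cancel₀ (det_Lm_ne hc hjk)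

theorem J_self (hc : Coc Φ r κ) (j : ℕ) {z : EE n} (hz : z ∈ ball (0 : EE n) r) :
    J Φ j j z = 1 := by
  have h : ∀ w ∈ ball (0 : EE n) r, fderiv ℂ (Φ j j) w = ContinuousLinearMap.id ℂ (EE n) := by
    intro w hw
    have h1 : Φ j j =ᶠ[𝓝 w] id :=
      eventually_of_mem (isOpen_ball.mem_nhds hw) fun y hy => hc.self j y hy
    rw [h1.fderiv_eq, fderiv_id]
  have h2 := J_zero hc (le_refl j)
  simp only [J, Lm] at h2 ⊢
  rw [h z hz]
  rwa [h 0 (mem_ball_self hc.r_pos)] at h2 ⊢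

theorem J_diff (hc : Coc Φ r κ) {j k : ℕ} (hjk : j ≤ k) :
    DifferentiableOn ℂ (J Φ j k) (ball 0 r) :=
  (Cov.diff_det isOpen_ball (hc.hol j k hjk)).mul_const _

/-- a Schwarz lemma for maps with prescribed value at the centre -/
theorem schwarz1 {F : Type*} [NormedAddCommGroup F] [NormedSpace ℂ F] {g : EE n → F} {R β : ℝ}
    (hg : DifferentiableOn ℂ g (ball 0 R)) (h0 : g 0 = 0)
    (hb : ∀ x ∈ ball (0 : EE n) R, ‖g x‖ ≤ β) {x : EE n} (hx : x ∈ ball (0 : EE n) R) :
    ‖g x‖ ≤ β / R * ‖x‖ := by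
  have hR : 0 < R := (norm_nonneg x).trans_lt (mem_ball_zero_iff.1 hx)
  have hd := (hg 0 (mem_ball_self hR)).differentiableAt (isOpen_ball.mem_nhds (mem_ball_self hR))
  have ho : g =O[𝓝 0] fun x : EE n => ‖x‖ ^ 1 := by
    have := hd.isBigO_sub
    simpa [h0] using this.norm_right
  have := schwarz_ord hg hb ho x hx
  rw [pow_one] at this
  exact this.trans_eq (by ring)

theorem J_step {σ : ℕ → ℝ} (hc : Coc Φ r κ) (hh : NAHyp Φ r σ) :
    ∃ A : ℝ, 0 ≤ A ∧ ∀ k, ∀ w ∈ ball (0 : EE n) r, ‖J Φ k (k + 1) w - 1‖ ≤ A * ‖w‖ := by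
  obtain ⟨D, hD1, hD⟩ := Cov.det_bound n κ
  obtain ⟨D', hD'0, hD'⟩ := det_inv_bound n κ (Real.exp 1)
  refine ⟨(D * D' + 1) / r, by have := hc.r_pos; positivity, fun k w hw => ?_⟩
  refine schwarz1 ((J_diff hc (Nat.le_succ k)).sub_const 1)
    (by rw [J_zero hc (Nat.le_succ k), sub_self]) (fun x hx => ?_) hw
  refine (norm_sub_le _ _).trans ?_
  rw [norm_one, J, norm_mul]
  have h1 := hD _ (hc.lip k (k + 1) (Nat.le_succ k) x hx)
  have h2 := hD' (Lm Φ k (k + 1)) (hc.lip k (k + 1) (Nat.le_succ k) 0 (mem_ball_self hc.r_pos))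
    (fun v => by simpa using hh.inv k (k + 1) (Nat.le_succ k) v)
  gcongr

theorem phi_dec (hc : Coc Φ r κ) (hd : Dec Φ r) : ∃ c B : ℝ, 0 < c ∧ 0 ≤ B ∧
    ∀ j i : ℕ, ∀ z ∈ ball (0 : EE n) (r * Real.exp (-1)),
      ‖Φ j (j + i) z‖ ≤ B * Real.exp (-(c / (j + 1))) ^ i * ‖z‖ := by
  obtain ⟨c, C, hc0, hC, h⟩ := hd
  have hρ : 0 < r * Real.exp (-1) := mul_pos hc.r_pos (Real.exp_pos _)
  have hρr : r * Real.exp (-1) ≤ r :=
    mul_le_of_le_one_right hc.r_pos.le (Real.exp_le_one_iff.2 (by norm_num))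
  refine ⟨c, C / (r * Real.exp (-1)), hc0, by positivity, fun j i z hz => ?_⟩
  have hj : (1 : ℝ) ≤ j + 1 := by have := Nat.cast_nonneg (α := ℝ) j; linarith
  have := schwarz1 (β := C * Real.exp (-(c / (j + 1))) ^ i)
    ((hc.hol j (j + i) (Nat.le_add_right j i)).mono (ball_subset_ball hρr))
    (hc.zero j (j + i) (Nat.le_add_right j i)) (fun x hx => by
      refine (h j (j + i) 1 x (Nat.le_add_right j i) one_pos (mem_ball_zero_iff.1 hx).le).trans ?_
      rw [min_eq_right (by rw [div_le_one (by linarith)]; exact hj), ← Real.exp_nat_mul]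
      gcongr
      push_cast
      have h1 : 0 ≤ c * j * (1 / (j + 1)) := by positivity
      have h2 : c * (j + i) * (1 / ((j : ℝ) + 1)) =
          c * j * (1 / (j + 1)) + i * (c / (j + 1)) := by ring
      linarith) hz
  exact this.trans_eq (by ring)

end Vol85

open Vol85 in
theorem volStmt (n : ℕ) : VolStmt n := by
  intro Φ r κ σ hn hc hh hd
  have hκ : 0 < κ := by linarith [hc.one_le]
  have hr := hc.r_pos
  obtain ⟨A, hA, hJ⟩ := J_step hc hh
  obtain ⟨c, B, hc0, hB, hΦ⟩ := phi_dec hc hd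
  obtain ⟨X, hX1, hX2, hX3, hX4⟩ : ∃ X : ℝ, 1 ≤ X ∧ A * B * (1 + 1 / c) ≤ X ∧ (r / κ)⁻¹ ≤ X ∧
      (r * Real.exp (-1))⁻¹ ≤ X :=
    ⟨max (max 1 (A * B * (1 + 1 / c))) (max (r / κ)⁻¹ (r * Real.exp (-1))⁻¹),
      (le_max_left _ _).trans (le_max_left _ _), (le_max_right _ _).trans (le_max_left _ _),
      (le_max_left _ _).trans (le_max_right _ _), (le_max_right _ _).trans (le_max_right _ _)⟩
  have hj : ∀ j : ℕ, (1 : ℝ) ≤ j + 1 := fun j => by
    have := Nat.cast_nonneg (α := ℝ) j; linarith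
  have hXj : ∀ j : ℕ, X ≤ X * (j + 1) := fun j => le_mul_of_one_le_right (by linarith) (hj j)
  have hXp : ∀ j : ℕ, 0 < X * (j + 1) := fun j => by linarith [hXj j]
  have hs1 : ∀ j : ℕ, ball (0 : EE n) (X * (j + 1))⁻¹ ⊆ ball 0 (r / κ) := fun j =>
    ball_subset_ball (inv_le_of_inv_le₀ (by positivity) (hX3.trans (hXj j)))
  have hs2 : ∀ j : ℕ, ball (0 : EE n) (X * (j + 1))⁻¹ ⊆ ball 0 (r * Real.exp (-1)) := fun j =>
    ball_subset_ball (inv_le_of_inv_le₀ (by positivity) (hX4.trans (hXj j)))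
  have hν : ∀ j : ℕ, ∃ ν : EE n → ℂ, DifferentiableOn ℂ ν (ball 0 (X * (j + 1))⁻¹) ∧
      (∀ z ∈ ball (0 : EE n) (X * (j + 1))⁻¹,
        Tendsto (fun i => J Φ j (j + i) z) atTop (𝓝 (ν z))) ∧
      ∀ z ∈ ball (0 : EE n) (X * (j + 1))⁻¹, ‖ν z - 1‖ ≤ 3 * (X * (j + 1)) * ‖z‖ := by
    intro j
    refine prodlim (f := fun i => J Φ j (j + i))
      (a := fun i => A * B * Real.exp (-(c / (j + 1))) ^ i)
      (fun i => (J_diff hc (Nat.le_add_right j i)).mono fun z hz => mem_r hc (hs1 j hz))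
      (fun z hz => J_self hc j (mem_r hc (hs1 j hz))) (fun i => by positivity) (fun k => ?_)
      (mul_inv_cancel₀ (hXp j).ne').le (fun i z hz => ?_)
    · rw [← Finset.mul_sum]
      calc A * B * ∑ i ∈ Finset.range k, Real.exp (-(c / (j + 1))) ^ i
          ≤ A * B * ((1 + 1 / c) * (j + 1)) := by
            have := geom_le hc0 (hj j) k
            gcongr
        _ = A * B * (1 + 1 / c) * (j + 1) := by ring
        _ ≤ X * (j + 1) := by gcongr
    · have h1 := J_coc hc (Nat.le_add_right j i) (Nat.le_succ (j + i)) (hs1 j hz)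
      have h2 := hJ (j + i) _ (map_r hc (Nat.le_add_right j i) (hs1 j hz))
      have h3 := hΦ j i z (hs2 j hz)
      show ‖J Φ j (j + i + 1) z - J Φ j (j + i) z‖ ≤ _
      rw [h1, ← sub_one_mul, norm_mul, mul_comm]
      gcongr
      calc _ ≤ A * ‖Φ j (j + i) z‖ := h2
        _ ≤ A * (B * Real.exp (-(c / (j + 1))) ^ i * ‖z‖) := by gcongr
        _ = _ := by ring
  choose ν hν1 hν2 hν3 using hν
  have hV : ∀ j : ℕ, ∃ V : EE n → EE n, DifferentiableOn ℂ V (ball 0 ((X * (j + 1))⁻¹ / 3)) ∧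
      (∀ z ∈ ball (0 : EE n) ((X * (j + 1))⁻¹ / 3),
        ‖V z - z‖ ≤ 2 * (3 * (X * (j + 1))) * ‖z‖ ^ 2) ∧
      ∀ z ∈ ball (0 : EE n) ((X * (j + 1))⁻¹ / 3), (fderiv ℂ V z).det = 1 + (ν j z - 1) :=
    fun j => prim hn (inv_pos.2 (hXp j)) (by have := hXp j; positivity)
      ((hν1 j).sub_const 1) (hν3 j)
  choose V hV1 hV2 hV3 using hV
  have hlim : ∀ j : ℕ, ∀ z ∈ ball (0 : EE n) (X * (j + 1))⁻¹,
      Tendsto (fun l => J Φ j l z) atTop (𝓝 (ν j z)) := by
    intro j z hz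
    rw [← tendsto_add_atTop_iff_nat j]
    simpa only [add_comm j] using hν2 j z hz
  have hthird : ∀ j : ℕ, ball (0 : EE n) ((X * (j + 1))⁻¹ / 3) ⊆ ball 0 (X * (j + 1))⁻¹ :=
    fun j => ball_subset_ball (by have := inv_pos.2 (hXp j); linarith)
  refine ⟨6 * X, 1, V, by linarith, fun j => ?_, fun j k hjk => ?_⟩
  · have hsub : ball (0 : EE n) (6 * X * ((j : ℝ) + 1) ^ 1)⁻¹ ⊆
        ball 0 ((X * (j + 1))⁻¹ / 3) := by
      refine ball_subset_ball ?_
      have := hXp j
      rw [pow_one, mul_assoc, mul_inv]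
      have := inv_pos.2 (hXp j)
      linarith
    exact ⟨(hV1 j).mono hsub, fun z hz => (hV2 j z (hsub hz)).trans_eq (by ring)⟩
  · have hcont : Tendsto (Φ j k) (𝓝 0) (𝓝 0) := by
      have := ((hc.hol j k hjk 0 (mem_ball_self hr)).differentiableAt
        (isOpen_ball.mem_nhds (mem_ball_self hr))).continuousAt.tendsto
      rwa [hc.zero j k hjk] at this
    have hp : ∀ j : ℕ, 0 < (X * ((j : ℝ) + 1))⁻¹ / 3 := fun j => by
      have := hXp j; positivity
    filter_upwards [ball_mem_nhds (0 : EE n) (hp j), hcont (ball_mem_nhds (0 : EE n) (hp k))]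
      with x hx hx'
    rw [hV3 j x hx, hV3 k _ hx', add_sub_cancel, add_sub_cancel]
    have h1 : ν j x = ν k (Φ j k x) * J Φ j k x := by
      refine tendsto_nhds_unique (hlim j x (hthird j hx))
        (((hlim k _ (hthird k hx')).mul_const (J Φ j k x)).congr' ?_)
      filter_upwards [eventually_ge_atTop k] with l hl
      exact (J_coc hc hjk hl (hs1 j (hthird j hx))).symm
    rw [h1, J]
    have := det_Lm_ne hc hjk
    field_simp

end Crest.Agent.T223.Na
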