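import Crest.Agent.T223.NaSch_80
import Crest.Agent.T223.DynAll_20
import Crest.Agent.T223.And_22
import Crest.Agent.T223.NaDec_37
import Crest.Agent.T223.NaVol_85
import Crest.Agent.T223.NaFl_23
import Crest.Agent.T223.NaE4_6

/-!
# Row 223, module NA (helper80): the non-autonomous basin theorem
-/

set_option autoImplicit false

namespace Crest.Agent.T223.Na

theorem naStmt {n : ℕ} (hn : 1 ≤ n) : NAStmt n :=
  naStmt_of hn (decStmt n) (volStmt n)
    (schedStmt (Fl23.flagStmt n) (Dyn.nfStmt_of_and (And.andStmt n)) (Dyn.lyapStmt n))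
    (NaE.endNaStmt n)

end Crest.Agent.T223.Na
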