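import Crest.Agent.T223.Hm0_77

/-!
# Row 223, module HOER (helper61), part 1: matrix algebra, local calculus, transformation laws
-/

set_option autoImplicit false
set_option linter.unusedSectionVars false

open Set Filter Topology Complex Matrix MeasureTheory
open scoped ContDiff Matrix ComplexConjugate ComplexOrder MatrixOrder

namespace Crest.Agent.T223.Hm

open Crest.Agent.R275 Crest.Agent.R275.Geo Crest.Agent.R275.Core144
open Crest.Agent.R275.OmT75 (dl dl_chain db_chain dl_J_symm)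
open Crest.Agent.R275.SerG398 (dens dens_eq detJ)
open Crest.Agent.R273.Defs_333 Crest.Agent.R273.Kah_333 Crest.Agent.R273.Vm_333
open Crest.Agent.R273.Calc_243 Crest.Agent.R273.StV_37
open Crest.Agent.R273.BKNa_37 (J_J dl_eq_dS db_eq_dS sm_rd smAt_of_sm w_law smM_Jr Jr)

noncomputable section

variable {n : ℕ} {M : Type} [TopologicalSpace M] {A : Atl n M} {N L : LB A}

/-! ### matrix algebra -/

/-- the sesquilinear form behind `hU` -/
def hC (g U V : Mx n) : ℂ := Matrix.trace (Uᴴ * (g⁻¹)ᵀ * V * g⁻¹)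

theorem hU_eq (g U : Mx n) : hU g U = (hC g U U).re := rfl

theorem hU_nonneg {g : Mx n} (hg : g.PosDef) (U : Mx n) : 0 ≤ hU g U := by
  have hP : (g⁻¹).PosSemidef := hg.inv.posSemidef
  obtain ⟨B, hB⟩ := CStarAlgebra.nonneg_iff_eq_star_mul_self.mp hP.nonneg
  have h1 : (Uᴴ * (g⁻¹)ᵀ * U).PosSemidef := hP.transpose.conjTranspose_mul_mul_same U
  have h2 := (h1.mul_mul_conjTranspose_same B).trace_nonneg
  rw [Matrix.trace_mul_cycle, Matrix.trace_mul_comm, ← Matrix.star_eq_conjTranspose B, ← hB] at h2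
  exact (Complex.nonneg_iff.1 h2).1

theorem hC_transpose (g U V : Mx n) : hC g Uᵀ Vᵀ = hC g U V := by
  unfold hC
  rw [← Matrix.trace_transpose]
  simp only [Matrix.transpose_mul, Matrix.transpose_transpose]
  rw [show (Uᵀᴴ)ᵀ = Uᴴ from rfl, Matrix.mul_assoc, Matrix.mul_assoc, Matrix.trace_mul_comm Uᴴ]
  simp only [Matrix.mul_assoc]

theorem hC_add_add (g U V : Mx n) :
    hC g (U + V) (U + V) = hC g U U + hC g U V + hC g V U + hC g V V := by
  simp only [hC, Matrix.conjTranspose_add, Matrix.add_mul, Matrix.mul_add, Matrix.trace_add]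
  ring

theorem hC_sub_sub (g U V : Mx n) :
    hC g (U - V) (U - V) = hC g U U - hC g U V - hC g V U + hC g V V := by
  simp only [hC, Matrix.conjTranspose_sub, Matrix.sub_mul, Matrix.mul_sub, Matrix.trace_sub]
  ring

/-- the metric free quadratic term -/
def tB (B : Mx n) : ℂ := Matrix.trace (B.map conj * B)

theorem hC_tB {g : Mx n} (hg : g.PosDef) (B : Mx n) : hC g (B * g)ᵀ (B * g) = tB B := by
  have hu : IsUnit g.det := hg.det_pos.ne'.isUnit
  have h1 : ((B * g)ᵀ)ᴴ = B.map conj * gᵀ := by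
    rw [← hg.isHermitian.eq, Matrix.transpose_mul, Matrix.conjTranspose_mul, hg.isHermitian.eq]
    congr 1
    conv_rhs => rw [← hg.isHermitian.eq]
    rfl
  unfold hC tB
  rw [h1, Matrix.mul_assoc _ gᵀ, ← Matrix.transpose_mul, Matrix.nonsing_inv_mul _ hu,
    Matrix.transpose_one, Matrix.mul_one, Matrix.mul_assoc, Matrix.mul_assoc,
    Matrix.mul_nonsing_inv _ hu, Matrix.mul_one]

theorem neg_tB_le {g : Mx n} (hg : g.PosDef) (B : Mx n) :
    -(tB B).re ≤ hU g (B * g - (B * g)ᵀ) := by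
  have h1 := hU_nonneg hg (B * g - (B * g)ᵀ)
  have h2 := hU_nonneg hg (B * g + (B * g)ᵀ)
  have e1 := hC_tB hg B
  have e2 : hC g (B * g) (B * g)ᵀ = tB B := by
    rw [← hC_transpose, Matrix.transpose_transpose, e1]
  rw [hU_eq, hC_add_add, e1, e2] at h2
  rw [hU_eq, hC_sub_sub, e1, e2] at h1 ⊢
  simp only [Complex.add_re, Complex.sub_re] at h1 h2 ⊢
  linarith

section alg

variable {J J' : Mx n} (hJ : J * J' = 1)
include hJ

theorem inv_law {g : Mx n} (hg : g.PosDef) :
    (Jᵀ * g * J.map conj)⁻¹ = J'.map conj * g⁻¹ * J'ᵀ := by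
  have hu : IsUnit g.det := hg.det_pos.ne'.isUnit
  refine Matrix.inv_eq_right_inv ?_
  have h1 : J.map conj * J'.map conj = 1 := by
    rw [← Matrix.map_mul, hJ, Matrix.map_one _ (map_zero _) (map_one _)]
  have h2 : Jᵀ * J'ᵀ = 1 := by
    rw [← Matrix.transpose_mul, mul_eq_one_comm.1 hJ, Matrix.transpose_one]
  calc _ = Jᵀ * (g * (J.map conj * J'.map conj) * g⁻¹) * J'ᵀ := by simp only [Matrix.mul_assoc]
    _ = 1 := by rw [h1, Matrix.mul_one, Matrix.mul_nonsing_inv _ hu, Matrix.mul_one, h2]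

theorem hC_law {g : Mx n} (hg : g.PosDef) (c : ℂ) (U : Mx n) :
    hC (Jᵀ * g * J.map conj) (c • (Jᴴ * U * J.map conj)) (c • (Jᴴ * U * J.map conj)) =
      c * conj c * hC g U U := by
  have h1 : J.map conj * J'.map conj = 1 := by
    rw [← Matrix.map_mul, hJ, Matrix.map_one _ (map_zero _) (map_one _)]
  have h2 : J'ᵀ * Jᵀ = 1 := by rw [← Matrix.transpose_mul, hJ, Matrix.transpose_one]
  have h3 : J'ᴴ * Jᴴ = 1 := by rw [← Matrix.conjTranspose_mul, hJ, Matrix.conjTranspose_one]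
  have h4 : (J.map conj)ᴴ = Jᵀ := by ext a b; simp
  have h5 : (J'.map conj)ᵀ = J'ᴴ := rfl
  unfold hC
  rw [inv_law hJ hg]
  simp only [Matrix.conjTranspose_smul, Matrix.conjTranspose_mul, Matrix.transpose_mul,
    Matrix.conjTranspose_conjTranspose, Matrix.transpose_transpose, h4, h5, Matrix.smul_mul,
    Matrix.mul_smul, Matrix.trace_smul, smul_eq_mul]
  have e : Jᵀ * (Uᴴ * J) * (J' * ((g⁻¹)ᵀ * J'ᴴ)) * (Jᴴ * U * J.map conj) *
      (J'.map conj * g⁻¹ * J'ᵀ) = Jᵀ * (Uᴴ * (J * J') * (g⁻¹)ᵀ * (J'ᴴ * Jᴴ) * U *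
        (J.map conj * J'.map conj) * g⁻¹ * J'ᵀ) := by simp only [Matrix.mul_assoc]
  rw [e, hJ, h1, h3, Matrix.trace_mul_comm Jᵀ, Matrix.mul_assoc _ J'ᵀ, h2]
  simp only [Matrix.mul_one, star_def]
  ring

theorem tB_law (c : ℂ) (B : Mx n) : tB (c • (Jᴴ * B * J'ᵀ)) = c * conj c * tB B := by
  have h2 : J'ᵀ * Jᵀ = 1 := by rw [← Matrix.transpose_mul, hJ, Matrix.transpose_one]
  have h3 : J'ᴴ * Jᴴ = 1 := by rw [← Matrix.conjTranspose_mul, hJ, Matrix.conjTranspose_one]
  have h4 : (c • (Jᴴ * B * J'ᵀ)).map conj = conj c • (Jᵀ * B.map conj * J'ᴴ) := by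
    have h5 : Jᴴ.map conj = Jᵀ := by ext a b; simp
    have h6 : J'ᵀ.map conj = J'ᴴ := rfl
    rw [← h5, ← h6, ← Matrix.map_mul, ← Matrix.map_mul]
    ext a b
    simp only [Matrix.map_apply, Matrix.smul_apply, smul_eq_mul, map_mul]
  unfold tB
  rw [h4]
  simp only [Matrix.smul_mul, Matrix.mul_smul, Matrix.trace_smul, smul_eq_mul]
  have e : Jᵀ * B.map conj * J'ᴴ * (Jᴴ * B * J'ᵀ) = Jᵀ * (B.map conj * (J'ᴴ * Jᴴ) * B * J'ᵀ) := by
    simp only [Matrix.mul_assoc]
  rw [e, h3, Matrix.trace_mul_comm Jᵀ, Matrix.mul_assoc _ J'ᵀ, h2]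
  simp only [Matrix.mul_one]
  ring

end alg

theorem transpose_law (J g : Mx n) : (Jᵀ * g * J.map conj)ᵀ = Jᴴ * gᵀ * J := by
  rw [Matrix.transpose_mul, Matrix.transpose_mul, Matrix.transpose_transpose, Matrix.mul_assoc]
  rfl

theorem star_dot_law {J : Mx n} {c : ℂ} {v v' : Fin n → ℂ} (h : J *ᵥ v = c • v') (u : Fin n → ℂ) :
    star v ⬝ᵥ (Jᴴ *ᵥ u) = conj c * (star v' ⬝ᵥ u) := by
  rw [Matrix.dotProduct_mulVec, ← Matrix.star_mulVec, h, star_smul, smul_dotProduct]
  rfl

/-! ### local calculus -/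

/-- smooth at `x`, read in the chart `i` -/
def SA (A : Atl n M) (i : A.ι) (x : M) (f : M → ℂ) : Prop :=
  Sm (A.e i x) fun z => f ((A.e i).symm z)

/-- `∂` (`s = -I`) and `∂̄` (`s = I`) in the chart `i` -/
def dd (A : Atl n M) (s : ℂ) (i : A.ι) (a : Fin n) (f : M → ℂ) (x : M) : ℂ :=
  dS s a (fun z => f ((A.e i).symm z)) (A.e i x)

theorem dl_eq (i : A.ι) (a : Fin n) (f : M → ℂ) : dl A i a f = dd A (-I) i a f :=
  funext fun x => dl_eq_dS i a f x

theorem db_eq (i : A.ι) (a : Fin n) (f : M → ℂ) : A.db i a f = dd A I i a f := rfl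

section loc

variable {i j : A.ι} {x : M} {f g : M → ℂ} {s t : ℂ} {a b : Fin n}

theorem tendsto_symm (hx : x ∈ (A.e i).source) : Tendsto (A.e i).symm (𝓝 (A.e i x)) (𝓝 x) := by
  have := (A.e i).continuousAt_symm ((A.e i).map_source hx)
  rwa [ContinuousAt, (A.e i).left_inv hx] at this

theorem sa_of (hf : A.SmAt i f) (hx : x ∈ (A.e i).source) : SA A i x f :=
  sm_rd hf ((A.e i).map_source hx)

theorem smAt_of_sa (h : ∀ x ∈ (A.e i).source, SA A i x f) : A.SmAt i f :=
  smAt_of_sm fun z hz => by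
    have := h _ ((A.e i).map_target hz)
    rwa [SA, (A.e i).right_inv hz] at this

theorem SA.diff (hf : SA A i x f) :
    DifferentiableAt ℝ (fun z => f ((A.e i).symm z)) (A.e i x) := Sm.diff hf

theorem SA.congr (hf : SA A i x f) (hx : x ∈ (A.e i).source) (h : g =ᶠ[𝓝 x] f) : SA A i x g :=
  ContDiffAt.congr_of_eventuallyEq hf ((tendsto_symm hx).eventually h)

/-- change of the chart -/
theorem SA.chg (hf : SA A j x f) (hx : x ∈ (A.e i).source ∩ (A.e j).source) : SA A i x f := by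
  have h3 : ContDiffAt ℝ ∞ (OmT75.tr A i j) (A.e i x) :=
    ((((OmT75.tr_analytic i j) _ (mem_ov hx)).contDiffAt (n := ω)).restrict_scalars ℝ).of_le le_top
  rw [SA, ← OmT75.tr_val hx] at hf
  exact (ContDiffAt.comp (A.e i x) hf h3).congr_of_eventuallyEq (OmT75.read_eq f hx)

theorem sa_const (c : ℂ) : SA A i x fun _ => c := contDiffAt_const

theorem SA.add (hf : SA A i x f) (hg : SA A i x g) : SA A i x fun y => f y + g y :=
  ContDiffAt.add hf hg

theorem SA.sub (hf : SA A i x f) (hg : SA A i x g) : SA A i x fun y => f y - g y :=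
  ContDiffAt.sub hf hg

theorem SA.mul (hf : SA A i x f) (hg : SA A i x g) : SA A i x fun y => f y * g y :=
  ContDiffAt.mul hf hg

theorem SA.conj (hf : SA A i x f) : SA A i x fun y => conj (f y) := Sm.conj hf

theorem SA.inv (hf : SA A i x f) (hx : x ∈ (A.e i).source) (h0 : f x ≠ 0) :
    SA A i x fun y => (f y)⁻¹ :=
  ContDiffAt.inv hf (by rwa [(A.e i).left_inv hx])

theorem SA.sum {τ : Type*} (T : Finset τ) {F : τ → M → ℂ} (h : ∀ k ∈ T, SA A i x (F k)) :
    SA A i x fun y => ∑ k ∈ T, F k y := ContDiffAt.sum h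

theorem dd_read (hx : x ∈ (A.e i).source) :
    (fun z => dd A s i a f ((A.e i).symm z)) =ᶠ[𝓝 (A.e i x)]
      dS s a fun z => f ((A.e i).symm z) := by
  filter_upwards [(A.e i).open_target.mem_nhds ((A.e i).map_source hx)] with z hz
  rw [dd, (A.e i).right_inv hz]

theorem SA.dd (hf : SA A i x f) (hx : x ∈ (A.e i).source) (s : ℂ) (a : Fin n) :
    SA A i x (dd A s i a f) :=
  ContDiffAt.congr_of_eventuallyEq (Sm.dS hf s a) (dd_read hx)

theorem sa_hol {U : Set M} (h : HolAt A i U f) (hU : IsOpen U) (hx : x ∈ (A.e i).source)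
    (hxU : x ∈ U) : SA A i x f :=
  (h.contDiffOn hU).contDiffAt ((isOpen_ti hU).mem_nhds
    ⟨(A.e i).map_source hx, by rw [mem_preimage, (A.e i).left_inv hx]; exact hxU⟩)

theorem sa_w (h : HM L) (hx : x ∈ (A.e i).source) : SA A i x fun y => (h.w i y : ℂ) :=
  sa_of (C1d194.smAt_ofReal (h.sm i)) hx

theorem sa_g (L : LB A) (hx : x ∈ (A.e i).source ∩ (A.e j).source) : SA A i x (L.g i j) :=
  sa_hol (L.hol i j) (A.e j).open_source hx.1 hx.2

theorem sa_J (hx : x ∈ (A.e i).source ∩ (A.e j).source) (b a : Fin n) :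
    SA A i x fun y => A.J i j y b a := sa_hol (holAt_J i j b a) (A.e j).open_source hx.1 hx.2

theorem dd_congr (hx : x ∈ (A.e i).source) (h : f =ᶠ[𝓝 x] g) : dd A s i a f x = dd A s i a g x :=
  dS_congr ((tendsto_symm hx).eventually h)

theorem ev_src (hx : x ∈ (A.e i).source) : ∀ᶠ y in 𝓝 x, y ∈ (A.e i).source :=
  (A.e i).open_source.mem_nhds hx

theorem ev_ov (hx : x ∈ (A.e i).source ∩ (A.e j).source) :
    ∀ᶠ y in 𝓝 x, y ∈ (A.e i).source ∩ (A.e j).source :=
  ((A.e i).open_source.inter (A.e j).open_source).mem_nhds hx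

theorem dd_const (c : ℂ) : dd A s i a (fun _ => c) x = 0 := dS_const

theorem dd_add (hf : SA A i x f) (hg : SA A i x g) :
    dd A s i a (fun y => f y + g y) x = dd A s i a f x + dd A s i a g x := dS_add hf.diff hg.diff

theorem dd_mul (hf : SA A i x f) (hg : SA A i x g) (hx : x ∈ (A.e i).source) :
    dd A s i a (fun y => f y * g y) x = dd A s i a f x * g x + f x * dd A s i a g x := by
  have := dS_mul (s := s) (a := a) hf.diff hg.diff
  rwa [(A.e i).left_inv hx] at this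

theorem dd_sum {τ : Type*} (T : Finset τ) {F : τ → M → ℂ} (h : ∀ k ∈ T, SA A i x (F k)) :
    dd A s i a (fun y => ∑ k ∈ T, F k y) x = ∑ k ∈ T, dd A s i a (F k) x :=
  dS_sum T fun k hk => (h k hk).diff

theorem dd_comm (hf : SA A i x f) (hx : x ∈ (A.e i).source) :
    dd A s i a (dd A t i b f) x = dd A t i b (dd A s i a f) x := by
  rw [dd, dd, dS_congr (dd_read hx), dS_congr (dd_read hx), dS_comm hf]

theorem dl_conj' : dd A (-I) i a (fun y => conj (f y)) x = conj (dd A I i a f x) := by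
  rw [← dl_eq, dl_conj, db_eq]

theorem db_conj' : dd A I i a (fun y => conj (f y)) x = conj (dd A (-I) i a f x) := by
  rw [← dl_eq, ← db_eq, db_conj]

theorem dl_chain' (hf : SA A j x f) (hx : x ∈ (A.e i).source ∩ (A.e j).source) :
    dd A (-I) i a f x = ∑ b, A.J i j x b a * dd A (-I) j b f x := by
  simp only [← dl_eq]
  exact dl_chain hf.diff hx a

theorem db_chain' (hf : SA A j x f) (hx : x ∈ (A.e i).source ∩ (A.e j).source) :
    dd A I i a f x = ∑ b, conj (A.J i j x b a) * dd A I j b f x := db_chain hf.diff hx a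

theorem db_g (L : LB A) (hx : x ∈ (A.e i).source ∩ (A.e j).source) :
    dd A I i a (L.g i j) x = 0 := (L.hol i j).db_zero (A.e j).open_source hx.1 hx.2 a

theorem db_J' (hx : x ∈ (A.e i).source ∩ (A.e j).source) (c b : Fin n) :
    dd A I i a (fun y => A.J j i y c b) x = 0 := by
  rw [db_chain' (sa_J ⟨hx.2, hx.1⟩ c b) hx]
  exact Finset.sum_eq_zero fun k _ => by
    rw [← db_eq, OmT75.db_J j i ⟨hx.2, hx.1⟩, mul_zero]

theorem dd_zero_off [T2Space M] {C : Set M} (hC : IsCompact C) (h : ∀ y ∉ C, f y = 0)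
    (hx : x ∈ (A.e i).source) (hxC : x ∉ C) : dd A s i a f x = 0 := by
  rw [dd_congr (g := fun _ => 0) hx, dd_const]
  filter_upwards [hC.isClosed.isOpen_compl.mem_nhds hxC] with y hy using h y hy

end loc

/-! ### transformation laws -/

section laws

variable {v : A.ι → M → Fin n → ℂ} {s : A.ι → M → ℂ} {i j : A.ι} {x : M}

theorem IsF.tr' (hv : IsF N v) (hx : x ∈ (A.e i).source ∩ (A.e j).source) :
    Jm A i j x *ᵥ v i x = N.g i j x • v j x := by
  rw [hv.tr i j x hx, Matrix.mulVec_smul, Matrix.mulVec_mulVec, J_J ⟨hx.2, hx.1⟩,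
    Matrix.one_mulVec]

theorem IsF.sa (hv : IsF N v) (hx : x ∈ (A.e i).source) (a : Fin n) :
    SA A i x fun y => v i y a := sa_of (hv.sm i a) hx

theorem IsS.sa (hs : IsS N s) (hx : x ∈ (A.e i).source) : SA A i x (s i) := sa_of (hs.sm i) hx

theorem w_ne (h : HM L) (hx : x ∈ (A.e i).source) : (h.w i x : ℂ) ≠ 0 := by
  exact_mod_cast (h.pos i x hx).ne'

/-- the matrix `∂̄_k v^a` -/
def dbM (v : A.ι → M → Fin n → ℂ) (i : A.ι) (x : M) : Mx n :=
  Matrix.of fun k a => dd A I i k (fun y => v i y a) x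

theorem dbM_law (hv : IsF N v) (hx : x ∈ (A.e i).source ∩ (A.e j).source) :
    dbM v i x = N.g i j x • ((Jm A i j x)ᴴ * dbM v j x * (Jm A j i x)ᵀ) := by
  ext k a
  have h1 : (fun y => v i y a) =ᶠ[𝓝 x] fun y => N.g i j y * ∑ b, A.J j i y a b * v j y b := by
    filter_upwards [ev_ov hx] with y hy
    rw [hv.tr i j y hy]
    rfl
  have h2 : ∀ b, SA A i x fun y => A.J j i y a b := fun b => (sa_J ⟨hx.2, hx.1⟩ a b).chg hx
  have h3 : ∀ b, SA A i x fun y => v j y b := fun b => (hv.sa hx.2 b).chg hx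
  rw [dbM, Matrix.of_apply, dd_congr hx.1 h1,
    dd_mul (sa_g N hx) (SA.sum _ fun b _ => (h2 b).mul (h3 b)) hx.1, db_g N hx, zero_mul, zero_add,
    dd_sum _ fun b _ => (h2 b).mul (h3 b), Matrix.smul_apply, smul_eq_mul, Matrix.mul_apply]
  congr 1
  refine Finset.sum_congr rfl fun b _ => ?_
  rw [dd_mul (h2 b) (h3 b) hx.1, db_J' hx, zero_mul, zero_add, db_chain' (hv.sa hx.2 b) hx,
    mul_comm, Matrix.mul_apply]
  rfl

theorem dbM_sa (hv : IsF N v) (hx : x ∈ (A.e i).source) (k a : Fin n) :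
    SA A i x fun y => dbM v i y k a := (hv.sa hx a).dd hx I k

theorem sa_K (K : Kah A) (hx : x ∈ (A.e i).source) (a b : Fin n) :
    SA A i x fun y => K.g i y a b := sa_of (K.sm i a b) hx

theorem lw_apply (K : Kah A) (v : A.ι → M → Fin n → ℂ) (i : A.ι) (x : M) (l : Fin n) :
    lw K v i x l = ∑ a, K.g i x a l * v i x a := rfl

theorem lw_sa (K : Kah A) (hv : IsF N v) (hx : x ∈ (A.e i).source) (l : Fin n) :
    SA A i x fun y => lw K v i y l := by
  simp only [lw_apply]
  exact SA.sum _ fun a _ => (sa_K K hx a l).mul (hv.sa hx a)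

theorem lw_sm (K : Kah A) (hv : IsF N v) (i : A.ι) (l : Fin n) :
    A.SmAt i fun y => lw K v i y l := smAt_of_sa fun _ hx => lw_sa K hv hx l

theorem lw_law (K : Kah A) (hv : IsF N v) (hx : x ∈ (A.e i).source ∩ (A.e j).source) :
    lw K v i x = N.g i j x • ((Jm A i j x)ᴴ *ᵥ lw K v j x) := by
  rw [lw, lw, K.tr i j x hx, transpose_law, ← Matrix.mulVec_mulVec, hv.tr' hx,
    Matrix.mulVec_smul, Matrix.mulVec_mulVec]

theorem al_sm (K : Kah A) (hv : IsF N v) (i : A.ι) (k l : Fin n) :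
    A.SmAt i fun y => al K v i y k l :=
  smAt_of_sa fun _ hx => ((lw_sa K hv hx l).dd hx I k).sub ((lw_sa K hv hx k).dd hx I l)

/-- the Kaehler condition removes the derivatives of the metric -/
theorem al_eq (K : Kah A) (hv : IsF N v) (hx : x ∈ (A.e i).source) :
    al K v i x = dbM v i x * K.g i x - (dbM v i x * K.g i x)ᵀ := by
  have h1 : ∀ k l, dd A I i k (fun y => lw K v i y l) x =
      ∑ a, dd A I i k (fun y => K.g i y a l) x * v i x a + (dbM v i x * K.g i x) k l := by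
    intro k l
    simp only [lw_apply]
    rw [dd_sum _ fun a _ => (sa_K K hx a l).mul (hv.sa hx a), Matrix.mul_apply,
      ← Finset.sum_add_distrib]
    refine Finset.sum_congr rfl fun a _ => ?_
    rw [dd_mul (sa_K K hx a l) (hv.sa hx a) hx, mul_comm (K.g i x a l)]
    rfl
  have h2 : ∀ k l a, dd A I i k (fun y => K.g i y a l) x = dd A I i l (fun y => K.g i y a k) x :=
    fun k l a => by
      have := K.closed' i _ ((A.e i).map_source hx) a l k
      rwa [R273.BKNa_37.wd_eq_dS', R273.BKNa_37.wd_eq_dS'] at this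
  ext k l
  rw [al, Matrix.of_apply, db_eq, db_eq, h1, h1, Matrix.sub_apply, Matrix.transpose_apply]
  simp only [h2 k l]
  ring

theorem al_law (K : Kah A) (hv : IsF N v) (hx : x ∈ (A.e i).source ∩ (A.e j).source) :
    al K v i x = N.g i j x • ((Jm A i j x)ᴴ * al K v j x * (Jm A i j x).map conj) := by
  have h2 : (Jm A j i x)ᵀ * (Jm A i j x)ᵀ = 1 := by
    rw [← Matrix.transpose_mul, J_J ⟨hx.2, hx.1⟩, Matrix.transpose_one]
  have h1 : dbM v i x * K.g i x =
      N.g i j x • ((Jm A i j x)ᴴ * (dbM v j x * K.g j x) * (Jm A i j x).map conj) := by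
    rw [dbM_law hv hx, K.tr i j x hx, Matrix.smul_mul]
    congr 1
    calc _ = (Jm A i j x)ᴴ * (dbM v j x * ((Jm A j i x)ᵀ * (Jm A i j x)ᵀ) * K.g j x) *
          (Jm A i j x).map conj := by simp only [Matrix.mul_assoc]
      _ = _ := by rw [h2, Matrix.mul_one]
  rw [al_eq K hv hx.1, al_eq K hv hx.2, h1, Matrix.mul_sub, Matrix.sub_mul, smul_sub,
    Matrix.transpose_smul, Matrix.transpose_mul _ ((Jm A i j x).map conj),
    Matrix.transpose_mul (Jm A i j x)ᴴ, ← Matrix.mul_assoc ((Jm A i j x).map conj)ᵀ]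
  rfl

theorem dbs_sa (hs : IsS N s) (hx : x ∈ (A.e i).source) (a : Fin n) :
    SA A i x fun y => dbs s i y a := (hs.sa hx).dd hx I a

theorem dbs_law (hs : IsS N s) (hx : x ∈ (A.e i).source ∩ (A.e j).source) :
    dbs s i x = N.g i j x • ((Jm A i j x)ᴴ *ᵥ dbs s j x) := by
  funext a
  have h1 : s i =ᶠ[𝓝 x] fun y => N.g i j y * s j y := by
    filter_upwards [ev_ov hx] with y hy using hs.tr i j y hy
  rw [dbs, db_eq, dd_congr hx.1 h1, dd_mul (sa_g N hx) ((hs.sa hx.2).chg hx) hx.1, db_g N hx,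
    zero_mul, zero_add, db_chain' (hs.sa hx.2) hx]
  rfl

theorem smM_inv {m : Cn n → Mx n} {z : Cn n} (hm : SmM z m) (h : (m z).det ≠ 0) :
    SmM z fun y => (m y)⁻¹ := by
  intro a b
  have h1 : (fun y => (m y)⁻¹ a b) =
      fun y => ((m y).det)⁻¹ * ((m y).updateRow b (Pi.single a 1)).det := by
    funext y
    rw [Matrix.inv_def, Matrix.smul_apply, Ring.inverse_eq_inv', smul_eq_mul,
      Matrix.adjugate_apply]
  rw [h1]
  refine ((SmM.det hm).inv h).mul (SmM.det fun i j => ?_)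
  by_cases hi : i = b
  · subst hi
    simp only [Matrix.updateRow_self]
    exact contDiffAt_const
  · simp only [Matrix.updateRow_ne hi]
    exact hm i j

theorem sa_Kinv (K : Kah A) (hx : x ∈ (A.e i).source) (a b : Fin n) :
    SA A i x fun y => (K.g i y)⁻¹ a b :=
  smM_inv (m := fun z => K.g i ((A.e i).symm z)) (sa_K K hx)
    (by rw [(A.e i).left_inv hx]; exact (K.pos i x hx).det_pos.ne') a b

theorem sh_sm (K : Kah A) (hs : IsS N s) (i : A.ι) (a : Fin n) :
    A.SmAt i fun y => sh K s i y a := by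
  refine smAt_of_sa fun x hx => ?_
  simp only [sh, ← Matrix.transpose_nonsing_inv, Matrix.mulVec, dotProduct, Matrix.transpose_apply]
  exact SA.sum _ fun b _ => (sa_Kinv K hx b a).mul (dbs_sa hs hx b)

theorem isUnit_gT (K : Kah A) (hx : x ∈ (A.e i).source) : IsUnit (K.g i x)ᵀ.det := by
  rw [Matrix.det_transpose]
  exact (K.pos i x hx).det_pos.ne'.isUnit

theorem lw_sh (K : Kah A) (s : A.ι → M → ℂ) (hx : x ∈ (A.e i).source) :
    lw K (sh K s) i x = dbs s i x := by
  rw [lw, sh, Matrix.mulVec_mulVec, Matrix.mul_nonsing_inv _ (isUnit_gT K hx), Matrix.one_mulVec]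

theorem sh_isF (K : Kah A) (hs : IsS N s) : IsF N (sh K s) where
  sm := sh_sm K hs
  tr i j x hx := by
    have h1 : (K.g i x)ᵀ *ᵥ (N.g i j x • (Jm A j i x *ᵥ sh K s j x)) = dbs s i x := by
      rw [dbs_law hs hx, ← lw_sh K s hx.2, lw, K.tr i j x hx, transpose_law, Matrix.mulVec_smul,
        Matrix.mulVec_mulVec, Matrix.mulVec_mulVec, Matrix.mul_assoc _ (Jm A i j x),
        J_J ⟨hx.2, hx.1⟩, Matrix.mul_one]
    rw [sh, ← h1, Matrix.mulVec_mulVec, Matrix.nonsing_inv_mul _ (isUnit_gT K hx.1),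
      Matrix.one_mulVec]

theorem al_sh (K : Kah A) (hs : IsS N s) (hx : x ∈ (A.e i).source) : al K (sh K s) i x = 0 := by
  ext k l
  have h1 : ∀ a, (fun y => lw K (sh K s) i y a) =ᶠ[𝓝 x] dd A I i a (s i) := fun a => by
    filter_upwards [ev_src hx] with y hy
    rw [lw_sh K s hy]
    rfl
  rw [al, Matrix.of_apply, db_eq, db_eq, dd_congr hx (h1 l), dd_congr hx (h1 k),
    dd_comm (hs.sa hx) hx, sub_self, Matrix.zero_apply]

theorem dv_def (h : HM L) (v : A.ι → M → Fin n → ℂ) (i : A.ι) (x : M) :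
    dv h v i x = ((h.w i x : ℂ))⁻¹ * ∑ a, dd A (-I) i a (fun y => (h.w i y : ℂ) * v i y a) x := by
  simp only [dv, dl_eq]

theorem dv_sa (h : HM L) (hv : IsF N v) (hx : x ∈ (A.e i).source) : SA A i x (dv h v i) := by
  rw [show dv h v i = _ from funext (dv_def h v i)]
  exact ((sa_w h hx).inv hx (w_ne h hx)).mul
    (SA.sum _ fun a _ => ((sa_w h hx).mul (hv.sa hx a)).dd hx _ a)

theorem dv_sm (h : HM L) (hv : IsF N v) (i : A.ι) : A.SmAt i (dv h v i) :=
  smAt_of_sa fun _ hx => dv_sa h hv hx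

/-- divergence of a twisted vector density (Piola) -/
theorem div_law {Y Y' : M → Fin n → ℂ} {e : M → ℂ} (hx : x ∈ (A.e i).source ∩ (A.e j).source)
    (hY : ∀ a, SA A i x fun y => Y y a) (hY' : ∀ a, SA A j x fun y => Y' y a) (he : SA A i x e)
    (he0 : ∀ k, dd A (-I) i k e x = 0)
    (h : ∀ᶠ y in 𝓝 x, Jm A i j y *ᵥ Y y = ((Jm A i j y).det * e y) • Y' y) :
    ∑ a, dd A (-I) i a (fun y => Y y a) x =
      (Jm A i j x).det * e x * ∑ b, dd A (-I) j b (fun y => Y' y b) x := by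
  have hJ : Jm A j i x * Jm A i j x = 1 := J_J hx
  have hJ' : Jm A i j x * Jm A j i x = 1 := J_J ⟨hx.2, hx.1⟩
  have hD : SA A i x fun y => (Jm A i j y).det := SmM.det (smM_Jr (mem_ov hx))
  obtain ⟨dJ, hdJ⟩ : ∃ dJ : Fin n → Fin n → Fin n → ℂ,
      ∀ k b a, dJ k b a = dd A (-I) i k (fun y => A.J i j y b a) x := ⟨_, fun _ _ _ => rfl⟩
  have hs : ∀ k b a, dJ k b a = dJ a b k := fun k b a => by
    rw [hdJ, hdJ, ← dl_eq, ← dl_eq, dl_J_symm hx]
  have hadj : (Jm A i j x).adjugate = (Jm A i j x).det • Jm A j i x := by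
    rw [← Matrix.mul_one (adjugate _), ← hJ', ← Matrix.mul_assoc, Matrix.adjugate_mul,
      Matrix.smul_mul, Matrix.one_mul]
  have hdD : ∀ k, dd A (-I) i k (fun y => (Jm A i j y).det) x =
      (Jm A i j x).det * ∑ c, ∑ b, Jm A j i x c b * dJ k b c := fun k => by
    have := R273.DelLaw_37.dS_det (s := -I) (a := k) (smM_Jr (mem_ov hx))
    refine this.trans ?_
    simp only [Jr, (A.e i).left_inv hx.1, hadj, Finset.mul_sum, Matrix.smul_apply, smul_eq_mul,
      hdJ, mul_assoc]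
    rfl
  have hYx : Y x = ((Jm A i j x).det * e x) • (Jm A j i x *ᵥ Y' x) := by
    rw [← Matrix.mulVec_smul, ← h.self_of_nhds, Matrix.mulVec_mulVec, hJ, Matrix.one_mulVec]
  have key : ∀ k b, ∑ a, (dJ k b a * Y x a + Jm A i j x b a * dd A (-I) i k (fun y => Y y a) x) =
      (Jm A i j x).det * (∑ c, ∑ b, Jm A j i x c b * dJ k b c) * e x * Y' x b +
        (Jm A i j x).det * e x * ∑ c, Jm A i j x c k * dd A (-I) j c (fun y => Y' y b) x := by
    intro k b
    have h1 : (fun y => ∑ a, A.J i j y b a * Y y a) =ᶠ[𝓝 x]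
        fun y => (Jm A i j y).det * e y * Y' y b := by
      filter_upwards [h] with y hy using congrFun hy b
    have h2 := dd_congr (s := -I) (a := k) hx.1 h1
    rw [dd_sum _ fun a _ => (sa_J hx b a).mul (hY a), dd_mul (hD.mul he) ((hY' b).chg hx) hx.1,
      dd_mul hD he hx.1, he0, mul_zero, add_zero, hdD, dl_chain' (hY' b) hx] at h2
    refine Eq.trans ?_ h2
    exact Finset.sum_congr rfl fun a _ => by rw [dd_mul (sa_J hx b a) (hY a) hx.1, hdJ]; rfl
  have k1 : ∀ (F : Fin n → Fin n → ℂ), ∑ k, ∑ b, Jm A j i x k b * ∑ a, Jm A i j x b a * F k a =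
      ∑ k, F k k := fun F => Finset.sum_congr rfl fun k _ => by
    have := congrFun (Matrix.mulVec_mulVec (F k) (Jm A j i x) (Jm A i j x)) k
    rw [hJ, Matrix.one_mulVec] at this
    exact this
  have k2 : ∀ (F : Fin n → Fin n → ℂ), ∑ k, ∑ b, Jm A j i x k b * ∑ c, Jm A i j x c k * F c b =
      ∑ b, F b b := fun F => by
    rw [Finset.sum_comm]
    refine Finset.sum_congr rfl fun b _ => ?_
    have := congrFun (Matrix.vecMul_vecMul (fun c => F c b) (Jm A i j x) (Jm A j i x)) b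
    rw [hJ', Matrix.vecMul_one] at this
    rw [← this]
    simp only [Matrix.vecMul, dotProduct, mul_comm]
  have k3 : ∑ k, ∑ b, Jm A j i x k b * ∑ a, dJ k b a * Y x a =
      ∑ k, ∑ b, Jm A j i x k b *
        ((Jm A i j x).det * (∑ c, ∑ b, Jm A j i x c b * dJ k b c) * e x * Y' x b) := by
    calc _ = ∑ a, (∑ c, ∑ b, Jm A j i x c b * dJ a b c) * Y x a := by
          simp only [Finset.mul_sum, Finset.sum_mul]
          rw [Finset.sum_comm]
          conv_rhs => rw [Finset.sum_comm]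
          rw [Finset.sum_comm]
          refine Finset.sum_congr rfl fun k _ => ?_
          rw [Finset.sum_comm]
          exact Finset.sum_congr rfl fun a _ => Finset.sum_congr rfl fun b _ => by
            rw [hs k b a]; ring
      _ = _ := Finset.sum_congr rfl fun k _ => by
          rw [hYx, Pi.smul_apply, smul_eq_mul, Matrix.mulVec, dotProduct, Finset.mul_sum,
            Finset.mul_sum]
          exact Finset.sum_congr rfl fun b _ => by ring
  have k4 := Finset.sum_congr rfl fun k (_ : k ∈ Finset.univ) =>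
    Finset.sum_congr rfl fun b (_ : b ∈ Finset.univ) => congrArg (Jm A j i x k b * ·) (key k b)
  simp only [Finset.sum_add_distrib, mul_add] at k4
  rw [k3, add_right_inj, k1 fun k a => dd A (-I) i k (fun y => Y y a) x] at k4
  rw [k4, ← k2 fun c b => dd A (-I) j c (fun y => Y' y b) x, Finset.mul_sum]
  refine Finset.sum_congr rfl fun k _ => ?_
  rw [Finset.mul_sum]
  exact Finset.sum_congr rfl fun b _ => by ring

theorem dv_isS (h : HM ((KB A)⁻¹ * N)) (hv : IsF N v) : IsS N (dv h v) where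
  sm := dv_sm h hv
  tr i j x hx := by
    have hw : ∀ y ∈ (A.e i).source ∩ (A.e j).source, (h.w i y : ℂ) * N.g i j y =
        (Jm A i j y).det * conj ((KB A * N⁻¹).g i j y) * h.w j y := fun y hy => by
      have h0 : conj (N.g i j y) ≠ 0 := (map_ne_zero _).2 (N.ne_zero i j y)
      have h1 := w_law h hy
      rw [dens_eq] at h1
      rw [LB.mul_g, LB.inv_g, KB_g hy, map_mul, map_inv₀]
      refine mul_right_cancel₀ h0 ?_
      rw [mul_assoc, h1]
      change (Jm A i j y).det * conj (Jm A i j y).det * _ = _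
      field_simp
    have key := div_law (Y := fun y a => (h.w i y : ℂ) * v i y a)
      (Y' := fun y a => (h.w j y : ℂ) * v j y a) (e := fun y => conj ((KB A * N⁻¹).g i j y)) hx
      (fun a => (sa_w h hx.1).mul (hv.sa hx.1 a)) (fun a => (sa_w h hx.2).mul (hv.sa hx.2 a))
      (sa_g _ hx).conj (fun k => by rw [dl_conj', db_g _ hx, map_zero]) (by
        filter_upwards [ev_ov hx] with y hy
        change Jm A i j y *ᵥ ((h.w i y : ℂ) • v i y) = _ • (h.w j y : ℂ) • v j y
        rw [Matrix.mulVec_smul, hv.tr' hy, smul_smul, smul_smul, hw y hy])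
    rw [dv_def, dv_def, key]
    have h1 := w_ne h hx.1
    have h2 := w_ne h hx.2
    rw [show (Jm A i j x).det * conj ((KB A * N⁻¹).g i j x) = h.w i x * N.g i j x * (h.w j x : ℂ)⁻¹
      by rw [hw x hx, mul_inv_cancel_right₀ h2]]
    field_simp

end laws

theorem law : LawStmt := fun _ _ _ _ K _ h =>
  ⟨fun _ hv => dv_isS h hv, fun _ hs => sh_isF K hs, fun _ hv _ _ _ hx => al_law K hv hx⟩

end

end Crest.Agent.T223.Hm
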