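import Crest.Agent.T223.Ref_61
import Crest.Agent.T223.HmBa_61

/-!
# Row 223 (helper61): cut-off functions from a smooth exhaustion with bounded gradient
-/

set_option autoImplicit false
set_option linter.unusedSectionVars false

open Set Filter Topology Complex
open scoped ContDiff Matrix ComplexConjugate ComplexOrder

namespace Crest.Agent.T223.Ref

open Crest.Agent.R275.Geo Crest.Agent.R275.Core144 Crest.Agent.R275.EDR890
open Crest.Agent.R275.OmT75 (dl)
open Crest.Agent.R273.Kah_333 Crest.Agent.R273.RMan4_798 Crest.Agent.R273.Ric_798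
open Crest.Agent.R273.Calc_243
open Crest.Agent.T223.Br Crest.Agent.T223.U0 Crest.Agent.T223.Hm

noncomputable section

variable {n : ℕ} {M : Type} [TopologicalSpace M] {A : Atl n M}

theorem exists_bound_deriv_st : ∃ B : ℝ, 0 < B ∧ ∀ t, |deriv Real.smoothTransition t| ≤ B := by
  have hc : Continuous (deriv Real.smoothTransition) :=
    (Real.smoothTransition.contDiff (n := 1)).continuous_deriv le_rfl
  obtain ⟨B, hB⟩ := (isCompact_Icc (a := (0 : ℝ)) (b := 1)).exists_bound_of_continuousOn
    hc.continuousOn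
  refine ⟨|B| + 1, by positivity, fun t => ?_⟩
  by_cases ht : t ∈ Icc (0 : ℝ) 1
  · exact (hB t ht).trans (by linarith [le_abs_self B])
  have h0 : deriv Real.smoothTransition t = 0 := by
    rcases lt_or_ge t 0 with h | h
    · have : Real.smoothTransition =ᶠ[𝓝 t] fun _ => 0 := by
        filter_upwards [Iio_mem_nhds h] with s hs using Real.smoothTransition.zero_of_nonpos hs.le
      rw [this.deriv_eq, deriv_const]
    · have h1 : 1 < t := lt_of_not_ge fun h1 => ht ⟨h, h1⟩
      have : Real.smoothTransition =ᶠ[𝓝 t] fun _ => 1 := by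
        filter_upwards [Ioi_mem_nhds h1] with s hs using Real.smoothTransition.one_of_one_le hs.le
      rw [this.deriv_eq, deriv_const]
  rw [h0, abs_zero]
  positivity

/-- `∑ ∂_a u v^a = (du(v) - i du(iv)) / 2` -/
theorem sum_dS {u : Cn n → ℝ} {z : Cn n} (hu : DifferentiableAt ℝ u z) (v : Cn n) :
    ∑ a, dS (-I) a (fun w => (u w : ℂ)) z * v a =
      (1 / 2 : ℂ) * ((fderiv ℝ u z v : ℝ) - I * (fderiv ℝ u z (I • v) : ℝ)) := by
  have h1 : fderiv ℝ (fun w => (u w : ℂ)) z = Complex.ofRealCLM.comp (fderiv ℝ u z) :=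
    (Complex.ofRealCLM.hasFDerivAt.comp z hu.hasFDerivAt).fderiv
  have h2 := wdL_vec false (fderiv ℝ (fun w => (u w : ℂ)) z) v
  simp only [cI_false, smul_eq_mul, cj_false] at h2
  calc _ = ∑ a, v a * wdL (false, a) (fderiv ℝ (fun w => (u w : ℂ)) z) :=
        Finset.sum_congr rfl fun a _ => by
          simp only [dS, wdL, cI_false, smul_eq_mul]
          ring
    _ = _ := by
        rw [← h2, h1]
        simp only [ContinuousLinearMap.comp_apply, Complex.ofRealCLM_apply]
        ring

theorem G_eq_hq (K : Kah A) {i : A.ι} {x : M} (hx : x ∈ (A.e i).source) (v : Cn n) :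
    G (KK K i) (A.e i x) v v = hq (K.g i x) v.ofLp := by
  rw [G, KK, (A.e i).left_inv hx, hq]

theorem hq_I (P : Mx n) (v : Fin n → ℂ) : hq P (I • v) = hq P v := by
  rw [hq, hq, Matrix.mulVec_smul, dotProduct_smul, star_smul, smul_dotProduct, smul_smul]
  simp

/-- a function with `|du| ≤ c` has `|∂u|² ≤ c² / 2` (crude constant) -/
theorem norm_dl_le (K : Kah A) {u : M → ℝ} {i : A.ι} {x : M} (hx : x ∈ (A.e i).source)
    (hu : DifferentiableAt ℝ (fun z => u ((A.e i).symm z)) (A.e i x)) {c : ℝ}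
    (h : ∀ v : Cn n, (fderiv ℝ (fun z => u ((A.e i).symm z)) (A.e i x) v) ^ 2 ≤
      c * G (KK K i) (A.e i x) v v) (v : Fin n → ℂ) :
    ‖∑ a, dl A i a (fun y => (u y : ℂ)) x * v a‖ ^ 2 ≤ c / 2 * hq (K.g i x) v := by
  have h1 := sum_dS hu (WithLp.toLp 2 v)
  have h2 := h (WithLp.toLp 2 v)
  have h3 := h (I • WithLp.toLp 2 v)
  rw [G_eq_hq K hx] at h2 h3
  rw [WithLp.ofLp_smul, hq_I] at h3
  simp only [dl_eq, dd]
  rw [h1, norm_mul, mul_pow, Complex.sq_norm (_ - _), Complex.normSq_apply]
  simp only [one_div, norm_inv, Complex.norm_ofNat, sub_re, ofReal_re, mul_re, I_re, zero_mul,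
    I_im, ofReal_im, mul_zero, sub_zero, sub_im, mul_im, one_mul, zero_add, zero_sub]
  nlinarith

/-- **cut-off functions** -/
theorem cut_of_exh {K : Kah A} {ρ : M → ℝ} (h : Exh K ρ) : Cut K := by
  intro C hC ε hε
  obtain ⟨B, hB0, hB⟩ := exists_bound_deriv_st
  have hρ : Continuous ρ := sm_continuous h.sm
  obtain ⟨c, hc⟩ := hC.bddAbove_image hρ.continuousOn
  set δ : ℝ := Real.sqrt ε / B with hδ
  have hδ0 : 0 < δ := div_pos (Real.sqrt_pos.2 hε) hB0
  refine ⟨fun x => Real.smoothTransition (1 - δ * (ρ x - c)), fun i => ?_, ?_, fun x hx => ?_,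
    fun x => ⟨Real.smoothTransition.nonneg _, Real.smoothTransition.le_one _⟩,
    fun i x hx v => ?_⟩
  · exact Real.smoothTransition.contDiff.comp_contDiffOn
      (contDiffOn_const.sub (contDiffOn_const.mul ((h.sm i).sub contDiffOn_const)))
  · refine HasCompactSupport.intro' (h.cpt (c + 1 / δ)) (isClosed_le hρ continuous_const)
      fun x hx => Real.smoothTransition.zero_of_nonpos ?_
    have h1 : 1 / δ < ρ x - c := by
      have : c + 1 / δ < ρ x := lt_of_not_ge hx
      linarith
    rw [div_lt_iff₀ hδ0] at h1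
    linarith
  · have h1 : ρ x ≤ c := hc ⟨x, hx, rfl⟩
    exact Real.smoothTransition.one_of_one_le (by nlinarith)
  have hz := (A.e i).map_source hx
  have h1 : HasFDerivAt (fun z => ρ ((A.e i).symm z)) _ (A.e i x) :=
    (((h.sm i).contDiffAt ((A.e i).open_target.mem_nhds hz)).differentiableAt
      (by simp)).hasFDerivAt
  have h2 := (((Real.smoothTransition.contDiff (n := 1)).differentiable (by simp)
    (1 - δ * (ρ ((A.e i).symm (A.e i x)) - c))).hasDerivAt.comp_hasFDerivAt (A.e i x)
    (((h1.sub_const c).const_mul δ).const_sub 1))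
  have hq0 : 0 ≤ hq (K.g i x) v := by
    have := ((K.pos i x hx).transpose.posSemidef.dotProduct_mulVec_nonneg v)
    exact (Complex.nonneg_iff.1 this).1
  refine (norm_dl_le K (c := ε) hx h2.differentiableAt (fun w => ?_) v).trans (by nlinarith)
  erw [h2.fderiv]
  have h3 := h.grad i _ hz w
  have h4 := hB (1 - δ * (ρ ((A.e i).symm (A.e i x)) - c))
  have h5 : (deriv Real.smoothTransition (1 - δ * (ρ ((A.e i).symm (A.e i x)) - c)) * δ) ^ 2 ≤ ε := by
    have h6 : B * δ = Real.sqrt ε := by rw [hδ]; field_simp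
    rw [← Real.sq_sqrt hε.le, ← h6, mul_pow, mul_pow, ← sq_abs]
    gcongr
  simp only [_root_.smul_apply, _root_.neg_apply, smul_eq_mul]
  rw [mul_neg, neg_sq, ← mul_assoc, mul_pow]
  exact mul_le_mul h5 h3 (sq_nonneg _) hε.le

theorem cut_of_hyp [T2Space M] [ConnectedSpace M] {K : Kah A} (h : Hyp K) : Cut K :=
  h.exh.elim fun _ => cut_of_exh

/-- `NFStmt` for countable atlases with a partition of unity and cut-off functions -/
def NFdStmt (n : ℕ) : Prop :=
  ∀ (M : Type) [TopologicalSpace M] [T2Space M] [ConnectedSpace M] [SecondCountableTopology M]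
    [NoncompactSpace M] (A : Atl n M) [Countable A.ι] (_ : Part A) (K0 : Kah A) (p : M),
    Hyp K0 → Cut K0 → NF K0 (dK K0 p)

theorem nfStmt_of' (h : NFdStmt n) : NFStmt n :=
  nfStmt_of fun M _ _ _ _ _ A _ P K p H => h M A P K p H (cut_of_hyp H)

end

end Crest.Agent.T223.Ref
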