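import Crest.Agent.T223.OsDef_21
import Crest.Agent.T223.FrA_38
import Crest.Agent.T223.EvLA_41

/-!
# Row 223 (helper81): `Os.InitGStmt`, affine charts of a small radius are good
-/

set_option autoImplicit false

open Set Filter Topology Metric
open scoped ContDiff ComplexConjugate Matrix ComplexOrder

namespace Crest.Agent.T223.Os

open Crest.Agent.R275.Geo Crest.Agent.R275.EDR890 Crest.Agent.R273.Kah_333
open Crest.Agent.R273.Hess_333
open Crest.Agent.T223.Br Crest.Agent.T223.Tr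

noncomputable section

namespace G81

variable {n : ℕ}

section calc81
variable {E F : Type*} [NormedAddCommGroup E] [NormedSpace ℝ E] [NormedAddCommGroup F]
  [NormedSpace ℝ F]

theorem bdd_iter {f : E → F} {O K : Set E} (hO : IsOpen O) (hK : IsCompact K) (hKO : K ⊆ O)
    (hf : ContDiffOn ℝ ∞ f O) (k : ℕ) :
    ∃ B : ℝ, 0 ≤ B ∧ ∀ j ≤ k, ∀ z ∈ K, ‖iteratedFDeriv ℝ j f z‖ ≤ B := by
  have h : ∀ j : ℕ, ∃ C : ℝ, ∀ z ∈ K, ‖iteratedFDeriv ℝ j f z‖ ≤ C := fun j =>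
    hK.exists_bound_of_continuousOn fun z hz =>
      ((hf.contDiffAt (hO.mem_nhds (hKO hz))).continuousAt_iteratedFDeriv
        (by exact_mod_cast le_top)).continuousWithinAt
  choose C hC using h
  refine ⟨∑ j ∈ Finset.range (k + 1), |C j|, Finset.sum_nonneg fun _ _ => abs_nonneg _,
    fun j hj z hz => (hC j z hz).trans ((le_abs_self _).trans ?_)⟩
  exact Finset.single_le_sum (f := fun j => |C j|) (fun _ _ => abs_nonneg _)
    (Finset.mem_range.2 (by omega))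

/-- iterated derivatives along an affine map -/
theorem iter_aff {f : E → F} {O : Set E} (hO : IsOpen O) (hf : ContDiffOn ℝ ∞ f O) (z : E)
    (L : E →L[ℝ] E) {w : E} (hw : z + L w ∈ O) (j : ℕ) :
    ‖iteratedFDeriv ℝ j (fun y => f (z + L y)) w‖ ≤ ‖iteratedFDeriv ℝ j f (z + L w)‖ * ‖L‖ ^ j := by
  have hO' : IsOpen ((fun y => z + y) ⁻¹' O) := hO.preimage (continuous_const.add continuous_id)
  have hf' : ContDiffOn ℝ ∞ (fun y => f (z + y)) ((fun y => z + y) ⁻¹' O) :=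
    hf.comp (contDiff_const.add contDiff_id).contDiffOn fun _ h => h
  have hO'' : IsOpen (L ⁻¹' ((fun y => z + y) ⁻¹' O)) := hO'.preimage L.continuous
  have h := L.iteratedFDerivWithin_comp_right hf' hO'.uniqueDiffOn hO''.uniqueDiffOn (x := w) hw
    (i := j) (by exact_mod_cast le_top)
  rw [iteratedFDerivWithin_of_isOpen j hO'' (show w ∈ _ from hw),
    iteratedFDerivWithin_of_isOpen j hO' (show L w ∈ _ from hw), iteratedFDeriv_comp_add_left] at h
  have h2 := (iteratedFDeriv ℝ j f (z + L w)).norm_compContinuousLinearMap_le fun _ => L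
  rw [← h, Finset.prod_const, Finset.card_univ, Fintype.card_fin] at h2
  exact h2

end calc81

/-- `|dφ (v)|² ≤ 4 |∂φ|² |v|²` -/
theorem fderiv_sq_le {g : Cn n → Mat n} {φ : Cn n → ℝ} {z : Cn n} (hg : (g z).PosDef)
    (hφ : DifferentiableAt ℝ φ z) (v : Cn n) :
    fderiv ℝ φ z v ^ 2 ≤ 4 * (gsq g φ z * nq (g z) v) := by
  set ξ := dz φ z with hξ
  have hop : ∀ v : Cn n, nq (Matrix.of fun a b => ξ a * conj (ξ b)) v = ‖∑ a, ξ a * v a‖ ^ 2 := by
    intro v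
    have : (∑ a, ∑ b, (Matrix.of fun a b => ξ a * conj (ξ b)) a b * v a * conj (v b)) =
        (∑ a, ξ a * v a) * conj (∑ a, ξ a * v a) := by
      rw [map_sum, Finset.sum_mul_sum]
      refine Finset.sum_congr rfl fun a _ => Finset.sum_congr rfl fun b _ => ?_
      simp only [Matrix.of_apply, map_mul]; ring
    rw [nq, this, Complex.mul_conj, Complex.normSq_eq_norm_sq]
    exact Complex.ofReal_re _
  have h1 := Ev.nq_le_trg hg (A := Matrix.of fun a b => ξ a * conj (ξ b)) (b := 0)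
    (by ext a b; simp [Matrix.conjTranspose_apply, mul_comm])
    (fun v => by rw [hop, zero_mul, add_zero]; positivity) v
  rw [hop, zero_mul, add_zero, mul_zero, add_zero, ← nqi_eq_trg] at h1
  have h2 : fderiv ℝ (cu φ) z = Complex.ofRealCLM.comp (fderiv ℝ φ z) :=
    (Complex.ofRealCLM.hasFDerivAt.comp z hφ.hasFDerivAt).fderiv
  have h3 := wdL_vec false (fderiv ℝ (cu φ) z) v
  have h4 : ∑ a, cj false (v a) • wdL (false, a) (fderiv ℝ (cu φ) z) = ∑ a, ξ a * v a :=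
    Finset.sum_congr rfl fun a _ => by rw [smul_eq_mul, mul_comm]; rfl
  rw [h4, h2] at h3
  have h5 : fderiv ℝ φ z v / 2 = (∑ a, ξ a * v a).re := by
    rw [← h3]; simp; ring
  have h6 := Complex.abs_re_le_norm (∑ a, ξ a * v a)
  rw [← h5] at h6
  have h7 := pow_le_pow_left₀ (abs_nonneg _) h6 2
  rw [sq_abs] at h7
  unfold gsq
  linarith

theorem abs_nq_le {H : Mat n} {c : ℝ} (h : ∀ a b, ‖H a b‖ ≤ c) (v : Cn n) :
    |nq H v| ≤ n ^ 2 * c * ‖v‖ ^ 2 := by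
  refine (Complex.abs_re_le_norm _).trans ((norm_sum_le _ _).trans ?_)
  refine (Finset.sum_le_card_nsmul _ _ (n * (c * ‖v‖ ^ 2)) fun a _ => ?_).trans (by simp; linarith)
  refine (norm_sum_le _ _).trans
    ((Finset.sum_le_card_nsmul _ _ (c * ‖v‖ ^ 2) fun b _ => ?_).trans (by simp))
  rw [norm_mul, norm_mul, RCLike.norm_conj, sq, ← mul_assoc]
  have hc := (norm_nonneg _).trans (h a b)
  have h1 := PiLp.norm_apply_le v a
  have h2 := PiLp.norm_apply_le v b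
  gcongr
  exact h a b

/-- an orthonormal frame -/
theorem exists_frame {g : Mat n} (hg : g.PosDef) :
    ∃ L : Cn n →L[ℂ] Cn n, (mat L)ᵀ * g * (mat L).map conj = 1 := by
  obtain ⟨T, -, h, -, -⟩ := Ev.exists_diag hg hg.1
  refine ⟨Matrix.toEuclideanCLM (𝕜 := ℂ) (T.map conj), ?_⟩
  have e : mat (Matrix.toEuclideanCLM (𝕜 := ℂ) (T.map conj)) = T.map conj := by
    ext b a
    show ((T.map conj) *ᵥ (Pi.single a 1)) b = _
    simp
  rw [e, ← h]
  congr 1
  ext a b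
  simp

theorem mat_smul (r : ℝ) (L : Cn n →L[ℂ] Cn n) : mat ((r : ℂ) • L) = (r : ℂ) • mat L := by
  ext b a
  simp [mat]

theorem norm_mat_le (L : Cn n →L[ℂ] Cn n) (b a : Fin n) : ‖mat L b a‖ ≤ ‖L‖ := by
  refine (PiLp.norm_apply_le (L (EuclideanSpace.single a 1)) b).trans ((L.le_opNorm _).trans ?_)
  simp

/-- the pulled back metric in an affine chart -/
def pa (g : Cn n → Mat n) (z : Cn n) (L : Cn n →L[ℂ] Cn n) (w : Cn n) : Mat n :=
  (mat L)ᵀ * g (z + L w) * (mat L).map conj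

theorem pa_apply (g : Cn n → Mat n) (z : Cn n) (L : Cn n →L[ℂ] Cn n) (a b : Fin n) :
    (fun w => pa g z L w a b) = fun w => ∑ p : Fin n × Fin n,
      (mat L p.2 a * conj (mat L p.1 b)) • g (z + L w) p.2 p.1 := by
  funext w
  simp only [pa, Matrix.mul_apply, Matrix.transpose_apply, Matrix.map_apply, Finset.sum_mul,
    Fintype.sum_prod_type, smul_eq_mul]
  exact Finset.sum_congr rfl fun _ _ => Finset.sum_congr rfl fun _ _ => by ring

theorem cd_aff {F : Type*} [NormedAddCommGroup F] [NormedSpace ℝ F] {f : Cn n → F}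
    {O : Set (Cn n)} (hO : IsOpen O) (hf : ContDiffOn ℝ ∞ f O) (z : Cn n) (L : Cn n →L[ℂ] Cn n)
    {w : Cn n} (hw : z + L w ∈ O) : ContDiffAt ℝ ∞ (fun y => f (z + L y)) w :=
  (hf.contDiffAt (hO.mem_nhds hw)).comp w
    (contDiff_const.add (L.restrictScalars ℝ).contDiff).contDiffAt

theorem iter_pa {g : Cn n → Mat n} {O : Set (Cn n)} (hO : IsOpen O)
    (hg : ∀ a b, ContDiffOn ℝ ∞ (fun z => g z a b) O) (z : Cn n) (L : Cn n →L[ℂ] Cn n) {w : Cn n}
    (hw : z + L w ∈ O) (j : ℕ) {B : ℝ}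
    (hB : ∀ a b, ‖iteratedFDeriv ℝ j (fun z => g z a b) (z + L w)‖ ≤ B) (a b : Fin n) :
    ‖iteratedFDeriv ℝ j (fun w => pa g z L w a b) w‖ ≤ n ^ 2 * (‖L‖ ^ 2 * (B * ‖L‖ ^ j)) := by
  have hc : ∀ c d, ContDiffAt ℝ j (fun y => g (z + L y) c d) w := fun c d =>
    (cd_aff hO (hg c d) z L hw).of_le (by exact_mod_cast le_top)
  rw [pa_apply, iteratedFDeriv_fun_sum_apply fun p _ => (hc _ _).const_smul _]
  refine (norm_sum_le _ _).trans ((Finset.sum_le_card_nsmul _ _ (‖L‖ ^ 2 * (B * ‖L‖ ^ j))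
    fun p _ => ?_).trans (by simp [sq]))
  rw [iteratedFDeriv_const_smul_apply' (hc _ _), norm_smul, norm_mul, RCLike.norm_conj, sq]
  have h1 := iter_aff hO (hg p.2 p.1) z (L.restrictScalars ℝ) hw j
  rw [ContinuousLinearMap.norm_restrictScalars] at h1
  refine mul_le_mul (mul_le_mul (norm_mat_le _ _ _) (norm_mat_le _ _ _) (norm_nonneg _)
    (norm_nonneg _)) (h1.trans ?_) (norm_nonneg _) (by positivity)
  exact mul_le_mul_of_nonneg_right (hB _ _) (by positivity)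

theorem arith {r Λ B N : ℝ} (hr : 0 < r) (hΛ : 1 ≤ Λ) (hB : 1 ≤ B) (hN : 1 ≤ N)
    (h : r * (10 * N ^ 2 * Λ ^ 3 * B) ≤ 1) :
    r * Λ ^ 3 * B * N ^ 2 ≤ 1 / 10 ∧ r * Λ ^ 3 * B * N ≤ 1 / 10 ∧ B * (r * Λ) ≤ 1 ∧ r * Λ ≤ 1 ∧
      B * (r * Λ) ^ 2 ≤ 4 * r := by
  have hq : r * Λ ^ 3 * B * N ^ 2 ≤ 1 / 10 := by linarith
  have hq0 : 0 ≤ r * Λ ^ 3 * B := by positivity
  have hq1 : r * Λ ^ 3 * B * N ≤ 1 / 10 :=
    le_trans (mul_le_mul_of_nonneg_left (le_self_pow₀ hN two_ne_zero) hq0) hq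
  have hq2 : r * Λ ^ 3 * B ≤ 1 / 10 := (le_mul_of_one_le_right hq0 hN).trans hq1
  have hΛ2 : Λ ≤ Λ ^ 2 := le_self_pow₀ hΛ two_ne_zero
  have hΛ3 : Λ ^ 2 ≤ Λ ^ 3 := pow_le_pow_right₀ hΛ (by norm_num)
  have hq3 : r * Λ ^ 2 * B ≤ 1 / 10 := le_trans (by gcongr) hq2
  have hq4 : r * Λ * B ≤ 1 / 10 := le_trans (by gcongr) hq3
  have hq5 : r * Λ ≤ r * Λ * B := le_mul_of_one_le_right (by positivity) hB
  exact ⟨hq, hq1, by linarith, by linarith, by nlinarith⟩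

set_option maxHeartbeats 400000 in
/-- the statement in one chart -/
theorem loc {g : Cn n → Mat n} {u ρ : Cn n → ℝ} {O : Set (Cn n)} (hO : IsOpen O) {z0 : Cn n}
    (h0 : z0 ∈ O) (hg : ∀ a b, ContDiffOn ℝ ∞ (fun z => g z a b) O) (hp : ∀ z ∈ O, (g z).PosDef)
    (hu : ContDiffOn ℝ ∞ u O) (hρ : ContDiffOn ℝ ∞ ρ O) (hs : ∀ z ∈ O, gsq g ρ z ≤ 1) :
    ∃ ε r0 : ℝ, 0 < ε ∧ 0 < r0 ∧ ∀ r, 0 < r → r ≤ r0 → ∀ z ∈ ball z0 ε,
      ∃ L : Cn n →L[ℂ] Cn n, (∀ w ∈ ball (0 : Cn n) 1, z + L w ∈ O) ∧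
        pa g z L 0 = ((r ^ 2 : ℝ) : ℂ) • (1 : Mat n) ∧
        (∀ w ∈ ball (0 : Cn n) 1, ∀ v, |nq (pa g z L w) v - r ^ 2 * ‖v‖ ^ 2| ≤
          1 / 10 * r ^ 2 * ‖v‖ ^ 2) ∧
        (∀ j, 1 ≤ j → j ≤ 8 → ∀ w ∈ ball (0 : Cn n) 1, ∀ a b,
          ‖iteratedFDeriv ℝ j (fun y => pa g z L y a b) w‖ ≤ r ^ 2) ∧
        (∀ j, 1 ≤ j → j ≤ 4 → ∀ w ∈ ball (0 : Cn n) 1,
          ‖iteratedFDeriv ℝ j (fun y => u (z + L y)) w‖ ≤ 1) ∧
        (∀ w ∈ ball (0 : Cn n) 1, ‖fderiv ℝ (fun y => ρ (z + L y)) w‖ ≤ 4 * r) ∧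
        ∀ j, 1 ≤ j → j ≤ 4 → ∀ w ∈ ball (0 : Cn n) 1,
          ‖iteratedFDeriv ℝ j (fun y => ρ (z + L y)) w‖ ≤ 4 * r := by
  obtain ⟨ε2, hε2, hK⟩ := Metric.nhds_basis_closedBall.mem_iff.1 (hO.mem_nhds h0)
  have hc := isCompact_closedBall z0 ε2
  choose Bg hBg0 hBg using fun a b => bdd_iter hO hc hK (hg a b) 8
  obtain ⟨Bu, hBu0, hBu⟩ := bdd_iter hO hc hK hu 8
  obtain ⟨Bρ, hBρ0, hBρ⟩ := bdd_iter hO hc hK hρ 8
  obtain ⟨Λ0, hΛ0⟩ := hc.exists_bound_of_continuousOn (f := fun z => trg (g z) 1) fun z hz =>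
    (cd_trg (H := fun _ => 1) (fun a b => (hg a b).contDiffAt (hO.mem_nhds (hK hz)))
      (hp z (hK hz)).det_pos.ne' fun a b => contDiffAt_const).continuousAt.continuousWithinAt
  set Λ := |Λ0| + 1 with hΛ
  have hΛ1 : 1 ≤ Λ := by linarith [abs_nonneg Λ0]
  have hs0 : 0 ≤ ∑ a, ∑ b, Bg a b :=
    Finset.sum_nonneg fun a _ => Finset.sum_nonneg fun b _ => hBg0 a b
  set B := 1 + ∑ a, ∑ b, Bg a b + Bu + Bρ with hB
  have hB1 : 1 ≤ B := by linarith
  have hBgB : ∀ a b, Bg a b ≤ B := fun a b => by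
    have h1 := Finset.single_le_sum (f := fun b => Bg a b) (fun b _ => hBg0 a b) (Finset.mem_univ b)
    have h2 := Finset.single_le_sum (f := fun a => ∑ b, Bg a b)
      (fun a _ => Finset.sum_nonneg fun b _ => hBg0 a b) (Finset.mem_univ a)
    linarith
  set N : ℝ := (n : ℝ) ^ 2 + 1 with hN
  have hN1 : 1 ≤ N := le_add_of_nonneg_left (sq_nonneg _)
  have hnN : (n : ℝ) ^ 2 ≤ N := by linarith
  refine ⟨ε2 / 2, min (ε2 / (2 * Λ)) (1 / (10 * N ^ 2 * Λ ^ 3 * B)), by positivity, by positivity,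
    fun r hr hr0 z hz => ?_⟩
  have hr1 : r * Λ ≤ ε2 / 2 := by
    have := hr0.trans (min_le_left _ _)
    rw [le_div_iff₀ (by positivity)] at this
    linarith
  have hr2 : r * (10 * N ^ 2 * Λ ^ 3 * B) ≤ 1 := by
    have := hr0.trans (min_le_right _ _)
    rwa [le_div_iff₀ (by positivity)] at this
  have hzK : z ∈ closedBall z0 ε2 := by
    rw [mem_ball] at hz; rw [mem_closedBall]; linarith
  obtain ⟨L0, hL0⟩ := exists_frame (hp z (hK hzK))
  have hL0n : ‖L0‖ ≤ Λ := by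
    refine L0.opNorm_le_bound (by linarith) fun v => ?_
    have h1 := Ev.nq_le_trg (hp z (hK hzK)) (A := 1) (b := 0) Matrix.isHermitian_one
      (fun v => by rw [nq_one, zero_mul, add_zero]; positivity) (L0 v)
    rw [nq_one, zero_mul, add_zero, mul_zero, add_zero, ← nq_pull, hL0, nq_one] at h1
    have h2 : trg (g z) 1 ≤ Λ ^ 2 := by
      have := (le_abs_self _).trans ((hΛ0 z hzK).trans (le_abs_self Λ0))
      have h3 : Λ ≤ Λ ^ 2 := le_self_pow₀ hΛ1 two_ne_zero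
      linarith
    refine abs_le_of_sq_le_sq' ?_ (by positivity) |>.2
    rw [mul_pow]
    exact h1.trans (mul_le_mul_of_nonneg_right h2 (by positivity))
  set L : Cn n →L[ℂ] Cn n := (r : ℂ) • L0 with hL
  have hLn : ‖L‖ ≤ r * Λ := by
    rw [hL, norm_smul, Complex.norm_real, Real.norm_eq_abs, abs_of_pos hr]
    gcongr
  have hL0' := norm_nonneg L
  obtain ⟨hq, hq1, hq4, hq5, hq6⟩ := arith hr hΛ1 hB1 hN1 hr2
  have hL1 : ‖L‖ ≤ 1 := hLn.trans hq5
  have hmem : ∀ w ∈ ball (0 : Cn n) 1, z + L w ∈ closedBall z0 ε2 := fun w hw => by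
    rw [mem_ball_zero_iff] at hw
    rw [mem_ball, dist_eq_norm] at hz
    rw [mem_closedBall, dist_eq_norm, add_sub_right_comm]
    have h1 := (L.le_opNorm w).trans (mul_le_of_le_one_right hL0' hw.le)
    have h2 := norm_add_le (z - z0) (L w)
    linarith
  have hpow : ∀ j, 1 ≤ j → ‖L‖ ^ j ≤ r * Λ := fun j hj =>
    (pow_le_of_le_one hL0' hL1 (by omega)).trans hLn
  have hdG : ∀ j, 1 ≤ j → j ≤ 8 → ∀ w ∈ ball (0 : Cn n) 1, ∀ a b,
      ‖iteratedFDeriv ℝ j (fun y => pa g z L y a b) w‖ ≤ r * Λ ^ 3 * B * N * r ^ 2 := by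
    intro j h1 h8 w hw a b
    refine (iter_pa hO hg z L (hK (hmem w hw)) j
      (fun c d => (hBg c d j h8 _ (hmem w hw)).trans (hBgB c d)) a b).trans ?_
    calc _ ≤ N * ((r * Λ) ^ 2 * (B * (r * Λ))) := by have := hpow j h1; gcongr
      _ = _ := by ring
  have hc0 : pa g z L 0 = ((r ^ 2 : ℝ) : ℂ) • (1 : Mat n) := by
    rw [pa, map_zero, add_zero, hL, mat_smul, ← hL0]
    ext a b
    simp only [Matrix.mul_apply, Matrix.transpose_apply, Matrix.map_apply, Matrix.smul_apply,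
      smul_eq_mul, map_mul, Complex.conj_ofReal, Finset.mul_sum, Finset.sum_mul]
    refine Finset.sum_congr rfl fun _ _ => Finset.sum_congr rfl fun _ _ => ?_
    push_cast
    ring
  have hnq : ∀ w ∈ ball (0 : Cn n) 1, ∀ v, |nq (pa g z L w) v - r ^ 2 * ‖v‖ ^ 2| ≤
      1 / 10 * r ^ 2 * ‖v‖ ^ 2 := by
    intro w hw v
    have h1 : ∀ a b, ‖(pa g z L w - pa g z L 0) a b‖ ≤ r * Λ ^ 3 * B * N * r ^ 2 := by
      intro a b
      have h2 := (convex_ball (0 : Cn n) 1).norm_image_sub_le_of_norm_fderiv_le (𝕜 := ℝ)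
        (f := fun y => pa g z L y a b) (C := r * Λ ^ 3 * B * N * r ^ 2) (fun y hy => by
          rw [pa_apply]
          exact DifferentiableAt.fun_sum fun p _ => ((cd_aff hO (hg _ _) z L
            (hK (hmem y hy))).differentiableAt (by simp)).fun_const_smul _)
        (fun y hy => by
          rw [← norm_iteratedFDeriv_one]; exact hdG 1 le_rfl (by norm_num) y hy a b)
        (mem_ball_self one_pos) hw
      refine h2.trans (mul_le_of_le_one_right (by positivity) ?_)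
      rw [sub_zero]
      exact (mem_ball_zero_iff.1 hw).le
    have h3 := abs_nq_le h1 v
    rw [nq_sub, hc0, nq_smul, nq_one] at h3
    refine h3.trans ?_
    calc _ ≤ N * (r * Λ ^ 3 * B * N * r ^ 2) * ‖v‖ ^ 2 := by gcongr
      _ = r * Λ ^ 3 * B * N ^ 2 * r ^ 2 * ‖v‖ ^ 2 := by ring
      _ ≤ _ := by gcongr
  have hρ1 : ∀ w ∈ ball (0 : Cn n) 1, ‖fderiv ℝ (fun y => ρ (z + L y)) w‖ ≤ 4 * r := by
    intro w hw
    have hy := hK (hmem w hw)
    have hd : DifferentiableAt ℝ ρ (z + L w) :=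
      (hρ.contDiffAt (hO.mem_nhds hy)).differentiableAt (by simp)
    have h1 : HasFDerivAt (fun y => ρ (z + L y))
        ((fderiv ℝ ρ (z + L w)).comp (L.restrictScalars ℝ)) w :=
      hd.hasFDerivAt.comp w ((L.restrictScalars ℝ).hasFDerivAt.const_add z)
    rw [h1.fderiv]
    refine ContinuousLinearMap.opNorm_le_bound _ (by positivity) fun v => ?_
    have h2 := fderiv_sq_le (g := g) (hp _ hy) hd (L v)
    have h3 : nq (g (z + L w)) (L v) = nq (pa g z L w) v := (nq_pull _ _ _).symm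
    have h4 := (abs_le.1 (hnq w hw v)).2
    have h5 := mul_le_mul_of_nonneg_right (hs _ hy) (nq_nonneg (hp _ hy).posSemidef (L v))
    have h6 : 0 ≤ r ^ 2 * ‖v‖ ^ 2 := by positivity
    refine abs_le_of_sq_le_sq ?_ (by positivity)
    show fderiv ℝ ρ (z + L w) (L v) ^ 2 ≤ _
    rw [mul_pow, mul_pow]
    linarith
  refine ⟨L, fun w hw => hK (hmem w hw), hc0, hnq, fun j h1 h8 w hw a b =>
    (hdG j h1 h8 w hw a b).trans (mul_le_of_le_one_left (by positivity) (by linarith)),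
    fun j h1 h4 w hw => ?_, hρ1, fun j h1 h4 w hw => ?_⟩
  · have h := iter_aff hO hu z (L.restrictScalars ℝ) (hK (hmem w hw)) j
    rw [ContinuousLinearMap.norm_restrictScalars] at h
    refine h.trans ((mul_le_mul ((hBu j (by omega) _ (hmem w hw)).trans (by linarith : Bu ≤ B))
      (hpow j h1) (by positivity) (by positivity)).trans hq4)
  · rcases h1.eq_or_lt with rfl | h2
    · rw [norm_iteratedFDeriv_one]; exact hρ1 w hw
    have h := iter_aff hO hρ z (L.restrictScalars ℝ) (hK (hmem w hw)) j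
    rw [ContinuousLinearMap.norm_restrictScalars] at h
    have h3 : ‖L‖ ^ j ≤ (r * Λ) ^ 2 :=
      (pow_le_pow_of_le_one hL0' hL1 h2).trans (pow_le_pow_left₀ hL0' hLn 2)
    refine h.trans ((mul_le_mul ((hBρ j (by omega) _ (hmem w hw)).trans (by linarith : Bρ ≤ B))
      h3 (by positivity) (by positivity)).trans hq6)

end G81

open G81

theorem initGStmt (n : ℕ) : InitGStmt n := by
  intro M _ _ A K0 u ρ W Z hW hZ hZW hu hρ hs
  refine hZ.induction_on (p := fun S => ∃ r0 : ℝ, 0 < r0 ∧ ∀ r, 0 < r → r ≤ r0 → ∀ x ∈ S,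
    ∃ ψ, Good (gc K0) u ρ W r 4 x ψ) ⟨1, one_pos, fun _ _ _ x hx => hx.elim⟩
    (fun S T hST ⟨r0, h0, h⟩ => ⟨r0, h0, fun r h1 h2 x hx => h r h1 h2 x (hST hx)⟩)
    (fun S T ⟨r0, h0, h⟩ ⟨r1, h1, h'⟩ => ⟨min r0 r1, lt_min h0 h1, fun r h2 h3 x hx =>
      hx.elim (h r h2 (h3.trans (min_le_left _ _)) x) (h' r h2 (h3.trans (min_le_right _ _)) x)⟩)
    fun x0 hx0 => ?_
  obtain ⟨i, hi⟩ := A.cover x0
  set O : Set (Cn n) := (A.e i).target ∩ (A.e i).symm ⁻¹' W with hO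
  have hOo : IsOpen O := (A.e i).symm.isOpen_inter_preimage hW
  have h0 : A.e i x0 ∈ O := ⟨(A.e i).map_source hi, by
    show (A.e i).symm (A.e i x0) ∈ W
    rw [(A.e i).left_inv hi]; exact hZW hx0⟩
  obtain ⟨ε, r0, hε, hr0, h⟩ := loc (g := gc K0 i) (u := inC A i u) (ρ := inC A i ρ) hOo h0
    (fun a b => (K0.sm i a b).mono inter_subset_left)
    (fun z hz => K0.pos i _ ((A.e i).map_target hz.1)) ((hu i).mono inter_subset_left)
    ((hρ i).mono inter_subset_left) fun z hz => hs i z hz.1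
  refine ⟨(A.e i).source ∩ A.e i ⁻¹' ball (A.e i x0) ε, mem_nhdsWithin_of_mem_nhds
    (((A.e i).isOpen_inter_preimage isOpen_ball).mem_nhds ⟨hi, mem_ball_self hε⟩),
    r0, hr0, fun r h1 h2 x hx => ?_⟩
  obtain ⟨L, hL, hc0, hnq, hdG, hdu, hρ1, hdρ⟩ := h r h1 h2 _ hx.2
  set z := A.e i x with hz
  set ψ : Cn n → M := fun w => (A.e i).symm (z + L w) with hψ
  have hsrc : ∀ w ∈ ball (0 : Cn n) 1, ψ w ∈ (A.e i).source := fun w hw =>
    (A.e i).map_target (hL w hw).1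
  have hrd : ∀ w ∈ ball (0 : Cn n) 1, HasFDerivAt (rd A i ψ) L w := fun w hw => by
    refine (L.hasFDerivAt.const_add z).congr_of_eventuallyEq ?_
    filter_upwards [isOpen_ball.mem_nhds hw] with y hy
    exact (A.e i).right_inv (hL y hy).1
  have hhol : Hol A ψ (ball 0 1) := fun w hw => by
    have hc : ContinuousAt ψ w := ((A.e i).continuousAt_symm (hL w hw).1).comp
      (f := fun w => z + L w) (continuous_const.add L.continuous).continuousAt
    exact ⟨hc, fun j hj => (rd_trans hc (hsrc w hw) hj (hrd w hw).differentiableAt).1⟩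
  have hpm : ∀ w, pull (gc K0) ψ w = pbm K0 ψ w := fun w => by
    unfold pull pbF pbm pbi gc
    rw [OpenPartialHomeomorph.left_inv _ (A.cover (ψ w)).choose_spec]
  have hpa : ∀ w ∈ ball (0 : Cn n) 1, pull (gc K0) ψ w = pa (gc K0 i) z L w := fun w hw => by
    rw [hpm, pbm_eq K0 hhol hw (hsrc w hw), pbi, jac_eq, (hrd w hw).fderiv]
    rfl
  refine ⟨ψ, ⟨⟨hhol, fun w hw j hj => ?_⟩, fun w hw => (hL w hw).2, ?_, ?_, fun w hw v => ?_,
    fun w hw v => ?_⟩, fun j a1 a2 w hw a b => ?_, hdu, hρ1, hdρ⟩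
  · refine (injective_iff_map_eq_zero _).2 fun v hv => ?_
    have a1 := nq_pbm K0 hhol hw hj v
    rw [hv, ← hpm, hpa w hw] at a1
    have a2 := (abs_le.1 (hnq w hw v)).1
    rw [a1, show nq (K0.g j (ψ w)) 0 = 0 by simp [nq]] at a2
    have a3 : ‖v‖ ^ 2 ≤ 0 := by
      by_contra a4
      have := mul_pos (pow_pos h1 2) (not_le.1 a4)
      linarith
    exact norm_eq_zero.1 (pow_eq_zero_iff two_ne_zero |>.1 (le_antisymm a3 (sq_nonneg _)))
  · simp only [hψ, map_zero, add_zero, hz]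
    exact (A.e i).left_inv hx.1
  · rw [hpa 0 (mem_ball_self one_pos), hc0]
  · rw [hpa w hw]; linarith [(abs_le.1 (hnq w hw v)).1]
  · rw [hpa w hw]; linarith [(abs_le.1 (hnq w hw v)).2]
  · have e : (fun y => pull (gc K0) ψ y a b) =ᶠ[𝓝 w] fun y => pa (gc K0 i) z L y a b := by
      filter_upwards [isOpen_ball.mem_nhds hw] with y hy
      rw [hpa y hy]
    rw [(e.iteratedFDeriv ℝ j).self_of_nhds]
    exact hdG j a1 a2 w hw a b

end

end Crest.Agent.T223.Os
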