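import Crest.Agent.T223.LoSt_18
import Crest.Agent.T223.OsBas_21
import Crest.Agent.T223.FrB_38
import Crest.Agent.T223.TrRic_90

/-!
# T223, module OSG, leaf (e) (helper18): `leStmt : Os.LeStmt n`

Ordinary differential inequalities along the time lines.
-/

set_option autoImplicit false
set_option linter.unusedSectionVars false
set_option linter.unusedVariables false

open Set Filter Topology Metric
open scoped ContDiff ComplexConjugate Matrix ComplexOrder

noncomputable section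

namespace Crest.Agent.T223.Lo

open Crest.Agent.R275.Geo Crest.Agent.R273.Kah_333 Crest.Agent.R273.Hess_333
open Crest.Agent.T223.Br Crest.Agent.T223.Tr Crest.Agent.T223.Os
open Crest.Agent.T223.Db (dom SmST)

theorem le_add_of_deriv {f f' : ℝ → ℝ} {a b c : ℝ} (hab : a ≤ b) (hc : ContinuousOn f (Icc a b))
    (hd : ∀ s ∈ Ioo a b, HasDerivAt f (f' s) s ∧ f' s ≤ c) : f b ≤ f a + c * (b - a) := by
  have h1 : AntitoneOn (fun s => f s - c * s) (Icc a b) := by
    refine antitoneOn_of_deriv_nonpos (convex_Icc a b)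
      (hc.sub (continuousOn_const.mul continuousOn_id)) ?_ ?_
    · intro s hs
      rw [interior_Icc] at hs
      exact ((hd s hs).1.sub ((hasDerivAt_id s).const_mul c)).differentiableAt.differentiableWithinAt
    · intro s hs
      rw [interior_Icc] at hs
      have h2 : HasDerivAt (fun s => f s - c * s) (f' s - c * 1) s :=
        (hd s hs).1.sub ((hasDerivAt_id s).const_mul c)
      rw [h2.deriv]
      linarith [(hd s hs).2]
  have h2 := h1 ⟨le_rfl, hab⟩ ⟨hab, le_rfl⟩ hab
  simp only at h2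
  linarith

theorem le_exp_of_deriv {f f' : ℝ → ℝ} {a b c : ℝ} (hab : a ≤ b) (hc : ContinuousOn f (Icc a b))
    (hd : ∀ s ∈ Ioo a b, HasDerivAt f (f' s) s ∧ f' s ≤ c * f s) :
    f b ≤ Real.exp (c * (b - a)) * f a := by
  have h1 := le_add_of_deriv (f := fun s => Real.exp (-(c * s)) * f s)
    (f' := fun s => Real.exp (-(c * s)) * (f' s - c * f s)) (c := 0) hab
    (((continuousOn_const.mul continuousOn_id).neg.rexp).mul hc) fun s hs => by
      have h2 : HasDerivAt (fun s => Real.exp (-(c * s))) (Real.exp (-(c * s)) * -(c * 1)) s :=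
        ((hasDerivAt_id s).const_mul c).neg.exp
      refine ⟨(h2.mul (hd s hs).1).congr_deriv (by ring), ?_⟩
      exact mul_nonpos_of_nonneg_of_nonpos (Real.exp_pos _).le (by linarith [(hd s hs).2])
  rw [zero_mul, add_zero] at h1
  have h3 : f b = Real.exp (c * b) * (Real.exp (-(c * b)) * f b) := by
    rw [← mul_assoc, ← Real.exp_add]; simp
  rw [h3]
  calc Real.exp (c * b) * (Real.exp (-(c * b)) * f b)
      ≤ Real.exp (c * b) * (Real.exp (-(c * a)) * f a) :=
        mul_le_mul_of_nonneg_left h1 (Real.exp_pos _).le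
    _ = _ := by rw [← mul_assoc, ← Real.exp_add]; congr 2; ring

variable {n : ℕ} {M : Type} [TopologicalSpace M] {A : Atl n M}

section flow

variable {a b : ℝ} {U : Set M} {g : ℝ → MF A} {i : A.ι} {x : M}

theorem cont_g (h : FlowOn a b U g) (hi : x ∈ (A.e i).source) (hx : x ∈ U) (k l : Fin n) :
    ContinuousOn (fun s => g s i (A.e i x) k l) (Icc a b) :=
  (h.sm i k l).continuousOn.comp (f := fun s => (s, A.e i x))
    (continuousOn_id.prodMk continuousOn_const) fun s hs => ⟨hs, mem_dom hi hx⟩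

theorem cont_nq (h : FlowOn a b U g) (hi : x ∈ (A.e i).source) (hx : x ∈ U) (v : Cn n) :
    ContinuousOn (fun s => nq (g s i (A.e i x)) v) (Icc a b) := by
  refine Complex.continuous_re.comp_continuousOn ?_
  exact continuousOn_finsetSum _ fun k _ => continuousOn_finsetSum _ fun l _ =>
    ((cont_g h hi hx k l).mul continuousOn_const).mul continuousOn_const

theorem pos_g (h : FlowOn a b U g) {s : ℝ} (hs : s ∈ Icc a b) (hi : x ∈ (A.e i).source)
    (hx : x ∈ U) : (g s i (A.e i x)).PosDef := ((h.kah s hs).kah i x hi hx).posDef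

/-- `log det g` is jointly smooth up to the end points -/
theorem sm_ldet (h : FlowOn a b U g) (i : A.ι) :
    ContDiffOn ℝ ∞ (fun q : ℝ × Cn n => ldet (g q.1 i) q.2) (Icc a b ×ˢ dom A i U) := by
  have h1 := Crest.Agent.R273.Ric_798.contDiffOn_det (K := fun q : ℝ × Cn n => g q.1 i q.2)
    (h.sm i)
  refine (Complex.reCLM.contDiff.comp_contDiffOn h1).log fun q hq => ?_
  have h2 := pos_g h hq.1 ((A.e i).map_target hq.2.1) hq.2.2
  rw [(A.e i).right_inv hq.2.1] at h2
  exact (det_re_pos h2).ne'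

theorem lv_eq (K0 : Kah A) {G : MF A} (hG : KahOn G U) (hi : x ∈ (A.e i).source) (hx : x ∈ U) :
    lv K0 G x = lvol K0 G i x :=
  lvol_indep K0 hG.tr (ch_mem A x) hi hx (hG.kah i x hi hx).posDef

theorem smST_lv (K0 : Kah A) (h : FlowOn a b U g) :
    SmST A (Icc a b) U fun s x => lv K0 (g s) x := by
  intro i
  have h1 : ContDiffOn ℝ ∞ (fun q : ℝ × Cn n => ldet (gc K0 i) q.2) (Icc a b ×ˢ dom A i U) :=
    fun q hq => (ContDiffAt.comp (g := ldet (gc K0 i)) (f := fun q : ℝ × Cn n => q.2) q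
      (kah_ldet (kahAt_gc K0 hq.2.1)) contDiffAt_snd).contDiffWithinAt
  refine (h1.sub (sm_ldet h i)).congr fun q hq => ?_
  change lv K0 (g q.1) ((A.e i).symm q.2) = _
  rw [lv_eq K0 (h.kah q.1 hq.1) ((A.e i).map_target hq.2.1) hq.2.2]
  unfold lvol
  rw [(A.e i).right_inv hq.2.1]

theorem cont_line {I : Set ℝ} {f : ℝ → M → ℝ} (h : SmST A I U f) (hx : x ∈ U) :
    ContinuousOn (fun s => f s x) I :=
  (continuousOn_of_SmST h).comp (f := fun s => (s, x))
    (continuousOn_id.prodMk continuousOn_const) fun s hs => ⟨hs, hx⟩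

theorem hasDerivAt_lv (K0 : Kah A) (h : FlowOn a b U g) {s : ℝ} (hs : s ∈ Ioo a b) (hx : x ∈ U) :
    HasDerivAt (fun s => lv K0 (g s) x) (Sc (g s) x) s := by
  have h1 := krf_ldet (h.krf s hs _ x (ch_mem A x) hx)
  have h2 := (hasDerivAt_const s (ldet (gc K0 (ch A x)) (A.e (ch A x) x))).sub h1
  refine h2.congr_deriv ?_
  simp [Sc]

theorem scal_ge {G : Cn n → Mat n} {z : Cn n} (h : KahAt G z) {l : ℝ} (hl : BKge G z l) :
    -(n ^ 2 * l) ≤ scal G z := by
  have h1 := Ev.trg_lower h.posDef h.ric_herm (b := n * l) fun v => by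
    have := ric_ge_of_BKge h hl v
    linarith
  unfold scal
  nlinarith

theorem bkge_of_lyh {G : MF A} {τ κ θ : ℝ} (h : LyhGe G τ κ θ x) (hi : x ∈ (A.e i).source) :
    BKge (G i) (A.e i x) θ := by
  intro v w
  have h1 := h i hi 0 w v
  simp only [lyhS, norm_zero, map_zero, zero_mul, Complex.zero_re, mul_zero, add_zero, zero_add,
    ne_eq, OfNat.ofNat_ne_zero, not_false_eq_true, zero_pow] at h1
  linarith [mul_comm (nq (G i (A.e i x)) v) (nq (G i (A.e i x)) w),
    show θ * nq (G i (A.e i x)) v * nq (G i (A.e i x)) w =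
      θ * nq (G i (A.e i x)) w * nq (G i (A.e i x)) v by ring]

end flow

variable [T2Space M] [ConnectedSpace M] {K0 : Kah A} {p : M} {P : Par} {I : Init K0 p} {a : ℝ}

theorem oe_of (hn : 1 ≤ n) (h : P.Ok) (hK : 2 * n ^ 2 * P.K * Real.exp (2 * P.K) ≤ P.K1)
    (hB : 2 * Real.exp (2 * P.K) ≤ P.B) (S : Stp P I a) (hA : S.OA) : S.OE := by
  have hn1 : (1 : ℝ) ≤ n := by exact_mod_cast hn
  have hK0 := h.K0
  have hK1 := h.K10
  have he := Real.exp_pos (2 * P.K)
  have hq := S.q_pos h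
  have hqr := S.q_r h
  have hsub : ∀ {s : ℝ}, s ∈ Icc S.t S.t' → Icc S.t s ⊆ Icc S.t S.b := fun hs =>
    Icc_subset_Icc_right (Stp.mem_Icc h hs).2
  have hmem : ∀ {s s' : ℝ}, s ∈ Icc S.t S.t' → s' ∈ Ioo S.t s → s' ∈ Icc S.t S.t' := fun hs hs' =>
    ⟨hs'.1.le, hs'.2.le.trans hs.2⟩
  -- `q (s - t) ≤ 1`
  have hqs : ∀ {s : ℝ}, s ∈ Icc S.t S.t' → S.q * (s - S.t) ≤ 1 := fun hs => by
    rw [← hqr]; exact mul_le_mul_of_nonneg_left (Stp.sub_le h hs) hq.le
  -- the lower bound for `lv`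
  have hlv : ∀ s ∈ Icc S.t S.t', ∀ x ∈ S.Kc, -(P.K1 * S.E s x) ≤ lv K0 (S.g s) x := by
    intro s hs x hx
    have hE := Stp.E_pos (S := S) s x
    have h1 := le_add_of_deriv (f := fun s => -lv K0 (S.g s) x) (f' := fun s => -Sc (S.g s) x)
      (c := n ^ 2 * (P.K * S.q * (Real.exp (2 * P.K) * S.E s x))) hs.1
      ((cont_line (smST_lv K0 S.flow) hx.1).mono (hsub hs)).neg fun s' hs' => by
        have hs'' := hmem hs hs'
        refine ⟨(hasDerivAt_lv K0 S.flow (Stp.mem_Ioo h hs'' hs'.1) hx.1).neg, ?_⟩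
        have h2 := scal_ge ((S.flow.kah s' (Stp.mem_Icc h hs'')).kah _ x (ch_mem A x) hx.1)
          (bkge_of_lyh (hA s' hs'' x hx) (ch_mem A x))
        have h3 := Stp.E_le_E h hs hs'' hs'.2.le hx
        have h4 : (n : ℝ) ^ 2 * (P.K * S.q * S.E s' x) ≤
            n ^ 2 * (P.K * S.q * (Real.exp (2 * P.K) * S.E s x)) := by gcongr
        unfold Sc
        linarith
    have h2 := (S.init' hx).ie.2.1
    have h3 := Stp.e0_le h hs hx
    have h4 : (n : ℝ) ^ 2 * (P.K * S.q * (Real.exp (2 * P.K) * S.E s x)) * (s - S.t) ≤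
        P.K1 / 2 * S.E s x := by
      calc _ = (n ^ 2 * P.K * Real.exp (2 * P.K) * S.E s x) * (S.q * (s - S.t)) := by ring
        _ ≤ (n ^ 2 * P.K * Real.exp (2 * P.K) * S.E s x) * 1 :=
            mul_le_mul_of_nonneg_left (hqs hs) (by positivity)
        _ ≤ _ := by rw [mul_one]; exact mul_le_mul_of_nonneg_right (by linarith) hE.le
    have h5 := mul_le_mul_of_nonneg_left h3 hK1.le
    have h6 := mul_pos hK1 hE
    linarith
  intro s hs x hx
  have hE := Stp.E_pos (S := S) s x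
  have h3 := Stp.e0_le h hs hx
  have h5 := mul_le_mul_of_nonneg_left h3 hK1.le
  have h6 := mul_pos hK1 hE
  refine ⟨fun i hi v => ?_, hlv s hs x hx, ?_⟩
  · have h1 := le_exp_of_deriv (f := fun s => nq (S.g s i (A.e i x)) v)
      (f' := fun s => -nq (ric (S.g s i) (A.e i x)) v)
      (c := n * (P.K * S.q * (Real.exp (2 * P.K) * S.E s x))) hs.1
      ((cont_nq S.flow hi hx.1 v).mono (hsub hs)) fun s' hs' => by
        have hs'' := hmem hs hs'
        have hk := S.flow.krf s' (Stp.mem_Ioo h hs'' hs'.1) i x hi hx.1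
        refine ⟨krf_nq hk v, ?_⟩
        have h2 := ric_ge_of_BKge hk.kahAt (bkge_of_lyh (hA s' hs'' x hx) hi) v
        have h7 := Stp.E_le_E h hs hs'' hs'.2.le hx
        have h8 : 0 ≤ nq (S.g s' i (A.e i x)) v := nq_nonneg (krf_pos hk).posSemidef v
        have h4 : (n : ℝ) * (P.K * S.q * S.E s' x) * nq (S.g s' i (A.e i x)) v ≤
            n * (P.K * S.q * (Real.exp (2 * P.K) * S.E s x)) * nq (S.g s' i (A.e i x)) v := by
          gcongr
        linarith
    have h2 := (S.init' hx).ie.1 i hi v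
    have h0 : 0 ≤ nq (K0.g i x) v := nq_nonneg (K0.pos i x hi).posSemidef v
    have h4 : (n : ℝ) * (P.K * S.q * (Real.exp (2 * P.K) * S.E s x)) * (s - S.t) ≤
        P.K1 / 2 * S.E s x := by
      have hnn : (n : ℝ) ≤ n ^ 2 := by nlinarith
      have h9 : n * P.K * Real.exp (2 * P.K) ≤ n ^ 2 * P.K * Real.exp (2 * P.K) := by gcongr
      calc _ = (n * P.K * Real.exp (2 * P.K) * S.E s x) * (S.q * (s - S.t)) := by ring
        _ ≤ (n * P.K * Real.exp (2 * P.K) * S.E s x) * 1 :=
            mul_le_mul_of_nonneg_left (hqs hs) (by positivity)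
        _ ≤ _ := by rw [mul_one]; exact mul_le_mul_of_nonneg_right (by linarith) hE.le
    calc nq (S.g s i (A.e i x)) v ≤ _ := h1
      _ ≤ Real.exp (P.K1 / 2 * S.E s x) *
          (Real.exp (P.K1 * (min (S.E S.t x) 1 / P.J)) * nq (K0.g i x) v) :=
        mul_le_mul (Real.exp_le_exp.2 h4) h2
          (nq_nonneg (pos_g S.flow ⟨le_rfl, (S.t_lt h).le.trans S.lt'.le⟩ hi hx.1).posSemidef v)
          (Real.exp_pos _).le
      _ ≤ _ := by
        rw [← mul_assoc, ← Real.exp_add]
        exact mul_le_mul_of_nonneg_right (Real.exp_le_exp.2 (by linarith)) h0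
  · have h1 := le_add_of_deriv (f := fun s => S.v s x) (f' := fun s => -lv K0 (S.g s) x)
      (c := P.K1 * (Real.exp (2 * P.K) * S.E s x)) hs.1
      ((cont_line S.hv.sm hx.1).mono (hsub hs)) fun s' hs' => by
        have hs'' := hmem hs hs'
        refine ⟨S.hv.dt s' (Stp.mem_Ioo h hs'' hs'.1) x hx.1, ?_⟩
        have h2 := hlv s' hs'' x hx
        have h7 := mul_le_mul_of_nonneg_left (Stp.E_le_E h hs hs'' hs'.2.le hx) hK1.le
        linarith
    have h2 := (S.init' hx).ie.2.2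
    have hr := S.r_pos h
    have h7 : Real.exp (2 * P.K) * (s - S.t) ≤ 1 / 2 := by
      have h8 := S.mul_r_le h hB
      have h9 := Stp.sub_le h hs
      have h10 := S.r_le_one h
      have h11 : s - S.t ≤ S.r := by nlinarith
      nlinarith
    have h8 : P.K1 * (Real.exp (2 * P.K) * S.E s x) * (s - S.t) ≤ P.K1 * S.E s x / 2 := by
      calc _ = (P.K1 * S.E s x) * (Real.exp (2 * P.K) * (s - S.t)) := by ring
        _ ≤ (P.K1 * S.E s x) * (1 / 2) := mul_le_mul_of_nonneg_left h7 h6.le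
        _ = _ := by ring
    have ht0 := S.t0
    have h9 : P.K1 * (1 + S.t) * (min (S.E S.t x) 1 / P.J) ≤ P.K1 * (1 + s) * (S.E s x / 16) := by
      have := (Stp.e0_pos h (S := S) x).le
      have hs1 := hs.1
      have hs0 : 0 ≤ s := ht0.trans hs1
      gcongr
    have h10 : P.K1 * S.E s x ≤ P.K1 * (1 + s) * S.E s x := by
      have : 0 ≤ s := ht0.trans hs.1
      nlinarith
    linarith

/-- **leaf (e)** -/
theorem leStmt (hn : 1 ≤ n) : LeStmt n := by
  unfold LeStmt Leaf
  refine Os.Ev.of_thr (fun _ => 0) (fun _ _ => 0)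
    (fun _ K _ => 2 * n ^ 2 * K * Real.exp (2 * K)) (fun _ K _ _ _ _ => 2 * Real.exp (2 * K)) ?_
  intro P h _ _ hK hB M _ _ _ A K0 p I a S hA
  exact oe_of hn h hK hB S hA

end Crest.Agent.T223.Lo
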