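import Crest.Agent.T223.Tch_45

/-!
Row 223, module OSG: the geometry-free HISTORY of restarts (moving domains `D j`, barriers `E j`),
jump inequality, backward decay, maximum principles over the whole history.
-/

set_option autoImplicit false

open Set Filter Topology

namespace Crest.Agent.T223.Tch

variable {X : Type*} [TopologicalSpace X]

/-- data of a history of restarts -/
structure HD (X : Type*) where
  /-- number of steps -/
  N : ℕ
  t : ℕ → ℝ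
  r : ℕ → ℝ
  σ : ℕ → ℝ
  W : ℕ → Set X
  ρ : ℕ → ℝ × X → ℝ
  V : ℝ
  δ : ℝ
  m : ℝ
  m₀ : ℝ

namespace HD

variable (H : HD X)

/-- the moving radius in step `j` -/
noncomputable def sg (j : ℕ) (s : ℝ) : ℝ := H.σ j - H.V * (s - H.t j) / H.r j

/-- the moving domain of step `j` -/
def D (j : ℕ) : Set (ℝ × X) := MD (H.t j) (H.t (j + 1)) (H.W j) (H.ρ j) (H.sg j)

/-- the barrier of step `j` -/
noncomputable def E (j : ℕ) (p : ℝ × X) : ℝ := Real.exp (-(H.sg j p.1 - H.ρ j p) / H.r j)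

/-- the axioms -/
structure Ok : Prop where
  δ_pos : 0 < H.δ
  m_nonneg : 0 ≤ H.m
  gap : 1 ≤ H.m₀ - H.V * H.δ
  r_pos : ∀ j, j < H.N → 0 < H.r j
  r_mono : ∀ j, j + 1 < H.N → H.r j ≤ H.r (j + 1)
  t_succ : ∀ j, j < H.N → H.t (j + 1) = H.t j + H.δ * H.r j ^ 2
  σ_succ : ∀ j, j + 1 < H.N → H.σ (j + 1) ≤ H.σ j - H.m₀ * H.r j
  cpt : ∀ j, j < H.N → IsCompact (H.W j)
  cont : ∀ j, j < H.N → ContinuousOn (H.ρ j) (Icc (H.t j) (H.t (j + 1)) ×ˢ H.W j)
  int : ∀ j, j < H.N → ∀ p ∈ H.D j, H.W j ∈ 𝓝 p.2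
  sub : ∀ j, j + 1 < H.N → H.W (j + 1) ⊆ H.W j
  deep : ∀ j, j + 1 < H.N → ∀ x ∈ H.W (j + 1),
    H.ρ j (H.t (j + 1), x) ≤ H.σ j - (H.V * H.δ + H.m) * H.r j
  glue : ∀ j, j + 1 < H.N → ∀ x ∈ H.W (j + 1),
    H.ρ (j + 1) (H.t (j + 1), x) = H.ρ j (H.t (j + 1), x)
  slow : ∀ j, j < H.N → ∀ x ∈ H.W j, ∀ s' s, H.t j ≤ s' → s' ≤ s → s ≤ H.t (j + 1) →
    H.ρ j (s', x) ≤ H.ρ j (s, x) + H.V * (s - s') / H.r j

omit [TopologicalSpace X] in
theorem E_pos (j : ℕ) (p : ℝ × X) : 0 < H.E j p := Real.exp_pos _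

omit [TopologicalSpace X] in
theorem mem_D {j : ℕ} {p : ℝ × X} :
    p ∈ H.D j ↔ H.t j ≤ p.1 ∧ p.1 ≤ H.t (j + 1) ∧ p.2 ∈ H.W j ∧ H.ρ j p ≤ H.sg j p.1 := Iff.rfl

omit [TopologicalSpace X] in
theorem E_lat {j : ℕ} {p : ℝ × X} (h : H.ρ j p = H.sg j p.1) : H.E j p = 1 := by
  simp [E, h]

omit [TopologicalSpace X] in
theorem sg_start (j : ℕ) : H.sg j (H.t j) = H.σ j := by simp [sg]

omit [TopologicalSpace X] in
theorem continuous_sg (j : ℕ) : Continuous (H.sg j) := by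
  unfold sg; fun_prop

variable {H}

namespace Ok

theorem t_lt (h : H.Ok) {j : ℕ} (hj : j < H.N) : H.t j < H.t (j + 1) := by
  rw [h.t_succ j hj]
  have := h.r_pos j hj
  have := h.δ_pos
  have : 0 < H.δ * H.r j ^ 2 := by positivity
  linarith

theorem sg_end (h : H.Ok) {j : ℕ} (hj : j < H.N) :
    H.sg j (H.t (j + 1)) = H.σ j - H.V * H.δ * H.r j := by
  have := (h.r_pos j hj).ne'
  rw [sg, h.t_succ j hj]; field_simp; ring

theorem E_le_one (h : H.Ok) {j : ℕ} (hj : j < H.N) {p : ℝ × X} (hp : p ∈ H.D j) :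
    H.E j p ≤ 1 := by
  rw [E, Real.exp_le_one_iff]
  exact div_nonpos_of_nonpos_of_nonneg (by linarith [hp.2.2.2]) (h.r_pos j hj).le

theorem isCompact_D [T2Space X] (h : H.Ok) {j : ℕ} (hj : j < H.N) : IsCompact (H.D j) :=
  isCompact_MD (h.cpt j hj) (h.cont j hj) (H.continuous_sg j).continuousOn

theorem D_sub (_h : H.Ok) (j : ℕ) : H.D j ⊆ Icc (H.t j) (H.t (j + 1)) ×ˢ H.W j :=
  fun _ hp => ⟨⟨hp.1, hp.2.1⟩, hp.2.2.1⟩

theorem continuousOn_E (h : H.Ok) {j : ℕ} (hj : j < H.N) :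
    ContinuousOn (H.E j) (Icc (H.t j) (H.t (j + 1)) ×ˢ H.W j) := by
  unfold E
  exact ((((H.continuous_sg j).comp continuous_fst).continuousOn.sub (h.cont j hj)).neg.div_const
    _).rexp

/-- a point of the next region is in the top slice of the domain -/
theorem top_mem (h : H.Ok) {j : ℕ} (hj : j + 1 < H.N) {x : X} (hx : x ∈ H.W (j + 1)) :
    (H.t (j + 1), x) ∈ H.D j := by
  have hj' : j < H.N := by omega
  refine ⟨(h.t_lt hj').le, le_rfl, h.sub j hj hx, ?_⟩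
  show H.ρ j (H.t (j + 1), x) ≤ H.sg j (H.t (j + 1))
  rw [h.sg_end hj']
  have := h.deep j hj x hx
  have := mul_nonneg h.m_nonneg (h.r_pos j hj').le
  nlinarith

/-- … at depth at least `m r` -/
theorem E_top (h : H.Ok) {j : ℕ} (hj : j + 1 < H.N) {x : X} (hx : x ∈ H.W (j + 1)) :
    H.E j (H.t (j + 1), x) ≤ Real.exp (-H.m) := by
  have hj' : j < H.N := by omega
  rw [E, Real.exp_le_exp, div_le_iff₀ (h.r_pos j hj')]
  show -(H.sg j (H.t (j + 1)) - H.ρ j (H.t (j + 1), x)) ≤ _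
  rw [h.sg_end hj']
  have := h.deep j hj x hx
  nlinarith

/-- JUMP: the barrier jumps up by the factor `exp (m₀ - V δ)` at a restart -/
theorem jump (h : H.Ok) {j : ℕ} (hj : j + 1 < H.N) {x : X}
    (hx : (H.t (j + 1), x) ∈ H.D (j + 1)) :
    Real.exp (H.m₀ - H.V * H.δ) * H.E j (H.t (j + 1), x) ≤ H.E (j + 1) (H.t (j + 1), x) := by
  have hj' : j < H.N := by omega
  have r0 := h.r_pos j hj'
  have r1 := h.r_pos _ hj
  have hz : H.ρ (j + 1) (H.t (j + 1), x) ≤ H.σ (j + 1) := by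
    have := hx.2.2.2
    rwa [show H.sg (j + 1) (H.t (j + 1), x).1 = H.σ (j + 1) from H.sg_start _] at this
  rw [E, E, ← Real.exp_add, Real.exp_le_exp]
  show H.m₀ - H.V * H.δ + -(H.sg j (H.t (j + 1)) - H.ρ j (H.t (j + 1), x)) / H.r j ≤
    -(H.sg (j + 1) (H.t (j + 1)) - H.ρ (j + 1) (H.t (j + 1), x)) / H.r (j + 1)
  rw [h.sg_end hj', H.sg_start, ← h.glue j hj x hx.2.2.1]
  set z := H.σ (j + 1) - H.ρ (j + 1) (H.t (j + 1), x) with hzdef
  have hz0 : 0 ≤ z := by linarith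
  have a1 : -z / H.r j ≤ -z / H.r (j + 1) := by
    rw [neg_div, neg_div, neg_le_neg_iff]
    exact div_le_div_of_nonneg_left hz0 r0 (h.r_mono j hj)
  refine le_trans ?_ a1
  rw [add_div' _ _ _ r0.ne', div_le_div_iff_of_pos_right r0]
  have := h.σ_succ j hj
  nlinarith

/-- depth is monotone backwards inside a step -/
theorem past_mem (h : H.Ok) {j : ℕ} (hj : j < H.N) {s s' : ℝ} {x : X} (hp : (s, x) ∈ H.D j)
    (h1 : H.t j ≤ s') (h2 : s' ≤ s) :
    (s', x) ∈ H.D j ∧ H.E j (s', x) ≤ H.E j (s, x) := by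
  have r0 := h.r_pos j hj
  have hs := h.slow j hj x hp.2.2.1 s' s h1 h2 hp.2.1
  have e : H.sg j s' = H.sg j s + H.V * (s - s') / H.r j := by
    unfold sg; field_simp; ring
  have h4 : H.ρ j (s, x) ≤ H.sg j s := hp.2.2.2
  refine ⟨⟨h1, le_trans h2 hp.2.1, hp.2.2.1, ?_⟩, ?_⟩
  · show H.ρ j (s', x) ≤ H.sg j s'
    linarith
  · rw [E, E, Real.exp_le_exp, div_le_div_iff_of_pos_right r0]
    show -(H.sg j s' - H.ρ j (s', x)) ≤ -(H.sg j s - H.ρ j (s, x))
    linarith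

/-- BACKWARD DECAY: the whole past of a point of `D j` lies in the domains, and the barrier decays
geometrically -/
theorem decay (h : H.Ok) {x : X} : ∀ (k i : ℕ), i + k < H.N → ∀ s, (s, x) ∈ H.D (i + k) →
    ∀ s', H.t i ≤ s' → s' ≤ H.t (i + 1) → s' ≤ s →
      (s', x) ∈ H.D i ∧ H.E i (s', x) ≤ Real.exp (-(k : ℝ)) * H.E (i + k) (s, x) := by
  intro k
  induction k with
  | zero =>
    intro i hi s hp s' h1 _ h3
    simpa using h.past_mem hi hp h1 h3
  | succ k ih =>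
    intro i hi s hp s' h1 h2 _
    have hi1 : i + 1 < H.N := by omega
    have hi0 : i < H.N := by omega
    have e : i + (k + 1) = i + 1 + k := by omega
    rw [e] at hi hp ⊢
    have hts : H.t (i + 1) ≤ s := by
      have : ∀ l, i + 1 + l < H.N → H.t (i + 1) ≤ H.t (i + 1 + l) := by
        intro l
        induction l with
        | zero => intro _; simp
        | succ l ihl =>
          intro hl
          have := ihl (by omega)
          have h5 := h.t_lt (j := i + 1 + l) (by omega)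
          rw [show i + 1 + (l + 1) = i + 1 + l + 1 by omega]
          linarith
      exact le_trans (this k hi) hp.1
    obtain ⟨a1, a2⟩ := ih (i + 1) hi s hp (H.t (i + 1)) le_rfl (h.t_lt hi1).le hts
    have a3 := h.top_mem hi1 a1.2.2.1
    obtain ⟨b1, b2⟩ := h.past_mem hi0 a3 h1 h2
    refine ⟨b1, ?_⟩
    have j1 := h.jump hi1 a1
    have j2 : Real.exp 1 * H.E i (H.t (i + 1), x) ≤ H.E (i + 1) (H.t (i + 1), x) :=
      le_trans (mul_le_mul_of_nonneg_right (Real.exp_le_exp.mpr h.gap) (H.E_pos _ _).le) j1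
    have j3 : H.E i (H.t (i + 1), x) ≤ Real.exp (-1) * H.E (i + 1) (H.t (i + 1), x) := by
      rw [Real.exp_neg, ← div_eq_inv_mul, le_div_iff₀ (Real.exp_pos 1)]; linarith
    calc H.E i (s', x) ≤ Real.exp (-1) * H.E (i + 1) (H.t (i + 1), x) := le_trans b2 j3
      _ ≤ Real.exp (-1) * (Real.exp (-(k : ℝ)) * H.E (i + 1 + k) (s, x)) :=
          mul_le_mul_of_nonneg_left a2 (Real.exp_pos _).le
      _ = _ := by
          rw [← mul_assoc, ← Real.exp_add]; congr 2; push_cast; ring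

/-- ACCUMULATION: increments bounded by `A · E` in every step add up to at most `2 A E`. -/
theorem accum (h : H.Ok) {x : X} {φ : ℕ → ℝ → ℝ} {A : ℝ} (hA : 0 ≤ A)
    (hinc : ∀ i, i < H.N → ∀ s, (s, x) ∈ H.D i → φ i s ≤ φ i (H.t i) + A * H.E i (s, x))
    (hglue : ∀ i, i + 1 < H.N → x ∈ H.W (i + 1) →
      φ (i + 1) (H.t (i + 1)) ≤ φ i (H.t (i + 1))) :
    ∀ j, j < H.N → ∀ s, (s, x) ∈ H.D j → φ j s ≤ φ 0 (H.t 0) + 2 * A * H.E j (s, x) := by
  intro j
  induction j with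
  | zero =>
    intro hj s hp
    have := hinc 0 hj s hp
    have := mul_nonneg hA (H.E_pos 0 (s, x)).le
    linarith
  | succ j ih =>
    intro hj s hp
    obtain ⟨a1, a2⟩ := h.past_mem hj hp le_rfl hp.1
    have a3 := h.top_mem hj a1.2.2.1
    have b1 := ih (by omega) _ a3
    have b2 := hinc _ hj s hp
    have b3 := hglue j hj a1.2.2.1
    have j1 := h.jump hj a1
    have e2 : (2 : ℝ) ≤ Real.exp (H.m₀ - H.V * H.δ) := by
      have := Real.add_one_le_exp (H.m₀ - H.V * H.δ)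
      linarith [h.gap]
    have j2 : 2 * H.E j (H.t (j + 1), x) ≤ H.E (j + 1) (s, x) :=
      le_trans (le_trans (mul_le_mul_of_nonneg_right e2 (H.E_pos _ _).le) j1) a2
    have := mul_le_mul_of_nonneg_left j2 hA
    nlinarith

/-- ACCUMULATION from a derivative bound `φ' ≤ A E / r²` along the time line of `x`. -/
theorem accum_deriv (h : H.Ok) {x : X} {φ φ' : ℕ → ℝ → ℝ} {A : ℝ} (hA : 0 ≤ A)
    (hc : ∀ i, i < H.N → x ∈ H.W i → ContinuousOn (φ i) (Icc (H.t i) (H.t (i + 1))))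
    (hd : ∀ i, i < H.N → ∀ s, (s, x) ∈ H.D i → H.t i < s → s < H.t (i + 1) →
      HasDerivAt (φ i) (φ' i s) s ∧ φ' i s ≤ A * H.E i (s, x) / H.r i ^ 2)
    (hglue : ∀ i, i + 1 < H.N → x ∈ H.W (i + 1) →
      φ (i + 1) (H.t (i + 1)) ≤ φ i (H.t (i + 1))) :
    ∀ j, j < H.N → ∀ s, (s, x) ∈ H.D j →
      φ j s ≤ φ 0 (H.t 0) + 2 * (A * H.δ) * H.E j (s, x) := by
  refine h.accum (mul_nonneg hA h.δ_pos.le) ?_ hglue
  intro i hi s hp
  have r0 := h.r_pos i hi
  have hs1 : H.t i ≤ s := hp.1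
  have hs2 : s ≤ H.t (i + 1) := hp.2.1
  have hc' : ContinuousOn (φ i) (Icc (H.t i) s) :=
    (hc i hi hp.2.2.1).mono (Icc_subset_Icc le_rfl hs2)
  have key : ∀ y ∈ interior (Icc (H.t i) s),
      HasDerivAt (φ i) (φ' i y) y ∧ φ' i y ≤ A * H.E i (s, x) / H.r i ^ 2 := by
    intro y hy
    rw [interior_Icc] at hy
    obtain ⟨a1, a2⟩ := h.past_mem hi hp hy.1.le hy.2.le
    obtain ⟨b1, b2⟩ := hd i hi y a1 hy.1 (lt_of_lt_of_le hy.2 hs2)
    refine ⟨b1, le_trans b2 ?_⟩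
    gcongr
  have hm := (convex_Icc (H.t i) s).image_sub_le_mul_sub_of_deriv_le hc'
    (fun y hy => (key y hy).1.differentiableAt.differentiableWithinAt)
    (C := A * H.E i (s, x) / H.r i ^ 2)
    (fun y hy => by rw [(key y hy).1.deriv]; exact (key y hy).2)
    (H.t i) ⟨le_rfl, hs1⟩ s ⟨hs1, le_rfl⟩ hs1
  have ht : s - H.t i ≤ H.δ * H.r i ^ 2 := by linarith [h.t_succ i hi]
  have hE := H.E_pos i (s, x)
  have : A * H.E i (s, x) / H.r i ^ 2 * (s - H.t i) ≤ A * H.δ * H.E i (s, x) := by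
    calc A * H.E i (s, x) / H.r i ^ 2 * (s - H.t i)
        ≤ A * H.E i (s, x) / H.r i ^ 2 * (H.δ * H.r i ^ 2) :=
          mul_le_mul_of_nonneg_left ht (by positivity)
      _ = _ := by field_simp
  linarith

/-- HISTORY maximum principle, scalar version: `F ≤ a + K w_j E_j` on every `D j`.
The lateral hypothesis may use the conclusion for the earlier steps. -/
theorem hist [T2Space X] (h : H.Ok) {F a : ℕ → ℝ × X → ℝ} {w : ℕ → ℝ} {K : ℝ} (hK : 0 ≤ K)
    (hw : ∀ j, j < H.N → 0 < w j)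
    (hwj : ∀ j, j + 1 < H.N → w j ≤ Real.exp (H.m₀ - H.V * H.δ) * w (j + 1))
    (hF : ∀ j, j < H.N → UpperSemicontinuousOn (F j) (H.D j))
    (ha : ∀ j, j < H.N → ContinuousOn (a j) (H.D j))
    (hglue : ∀ j, j + 1 < H.N → ∀ x ∈ H.W (j + 1),
      F (j + 1) (H.t (j + 1), x) - a (j + 1) (H.t (j + 1), x) ≤
        F j (H.t (j + 1), x) - a j (H.t (j + 1), x))
    (h0 : ∀ p ∈ H.D 0, p.1 = H.t 0 → F 0 p ≤ a 0 p + K * (w 0 * H.E 0 p))
    (hlat : ∀ j, j < H.N →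
      (∀ i, i < j → ∀ p ∈ H.D i, F i p ≤ a i p + K * (w i * H.E i p)) →
      ∀ p ∈ H.D j, H.ρ j p = H.sg j p.1 → F j p ≤ a j p + K * w j)
    (hI : ∀ j, j < H.N → ∀ p ∈ H.D j, H.t j < p.1 → H.ρ j p < H.sg j p.1 → ∀ Λ, K < Λ →
      F j p = a j p + Λ * (w j * H.E j p) →
      (∀ q ∈ H.D j, q.1 ≤ p.1 → F j q ≤ a j q + Λ * (w j * H.E j q)) →
      (∀ᶠ q in 𝓝[{q | q.1 ≤ p.1}] p, F j q ≤ a j q + Λ * (w j * H.E j q)) → False) :
    ∀ j, j < H.N → ∀ p ∈ H.D j, F j p ≤ a j p + K * (w j * H.E j p) := by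
  intro j
  induction j using Nat.strong_induction_on with
  | _ j ih =>
    intro hj
    have IH : ∀ i, i < j → ∀ p ∈ H.D i, F i p ≤ a i p + K * (w i * H.E i p) :=
      fun i hi => ih i hi (by omega)
    refine touch_MD (b := fun p => w j * H.E j p) (h.cpt j hj) (h.cont j hj)
      (H.continuous_sg j).continuousOn (h.int j hj) (hF j hj) (ha j hj)
      (continuousOn_const.mul ((h.continuousOn_E hj).mono (h.D_sub j)))
      (fun p _ => mul_pos (hw j hj) (H.E_pos j p)) ?_ ?_ (hI j hj)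
    · intro p hp hpt
      rcases j with _ | j
      · exact h0 p hp hpt
      · obtain ⟨s, x⟩ := p
        obtain rfl : s = H.t (j + 1) := hpt
        have a1 := IH j (Nat.lt_succ_self j) _ (h.top_mem hj hp.2.2.1)
        have a2 := hglue j hj x hp.2.2.1
        have a3 := h.jump hj hp
        have a4 : w j * H.E j (H.t (j + 1), x) ≤ w (j + 1) * H.E (j + 1) (H.t (j + 1), x) := by
          calc w j * H.E j (H.t (j + 1), x)
              ≤ (Real.exp (H.m₀ - H.V * H.δ) * w (j + 1)) * H.E j (H.t (j + 1), x) :=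
                mul_le_mul_of_nonneg_right (hwj j hj) (H.E_pos _ _).le
            _ = w (j + 1) * (Real.exp (H.m₀ - H.V * H.δ) * H.E j (H.t (j + 1), x)) := by ring
            _ ≤ _ := mul_le_mul_of_nonneg_left a3 (hw _ hj).le
        have a5 := mul_le_mul_of_nonneg_left a4 hK
        show F (j + 1) (H.t (j + 1), x) ≤ a (j + 1) (H.t (j + 1), x) +
          K * (w (j + 1) * H.E (j + 1) (H.t (j + 1), x))
        linarith
    · intro p hp hl
      show F j p ≤ a j p + K * (w j * H.E j p)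
      rw [H.E_lat hl, mul_one]
      exact hlat j hj IH p hp hl

/-- HISTORY maximum principle from the step OSCILLATION: `F ≤ 0` at the start on `W 0`, `F` grows
by at most `A` in every step, no interior contact with a multiple `Λ > 2` of `A E`; needs `m ≥ 1`. -/
theorem hist_osc [T2Space X] (h : H.Ok) (hm : 1 ≤ H.m) {F : ℕ → ℝ × X → ℝ} {A : ℝ} (hA : 0 < A)
    (hF : ∀ j, j < H.N → UpperSemicontinuousOn (F j) (H.D j))
    (hglue : ∀ j, j + 1 < H.N → ∀ x ∈ H.W (j + 1),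
      F (j + 1) (H.t (j + 1), x) ≤ F j (H.t (j + 1), x))
    (h0 : ∀ x ∈ H.W 0, F 0 (H.t 0, x) ≤ 0)
    (hosc : ∀ j, j < H.N → ∀ p ∈ H.D j, F j p ≤ F j (H.t j, p.2) + A)
    (hI : ∀ j, j < H.N → ∀ p ∈ H.D j, H.t j < p.1 → H.ρ j p < H.sg j p.1 → ∀ Λ, 2 * A < Λ →
      F j p = Λ * H.E j p → (∀ᶠ q in 𝓝[{q | q.1 ≤ p.1}] p, F j q ≤ Λ * H.E j q) → False) :
    ∀ j, j < H.N → ∀ p ∈ H.D j, F j p ≤ 2 * A * H.E j p := by
  have key := h.hist (F := F) (a := fun _ _ => 0) (w := fun _ => 1) (K := 2 * A) (by linarith)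
    (fun _ _ => one_pos) (fun j _ => by
      have := Real.add_one_le_exp (H.m₀ - H.V * H.δ)
      linarith [h.gap]) hF (fun _ _ => continuousOn_const)
    (fun j hj x hx => by simpa using hglue j hj x hx) ?_ ?_ ?_
  · intro j hj p hp
    simpa using key j hj p hp
  · intro p hp hpt
    obtain ⟨s, x⟩ := p
    obtain rfl : s = H.t 0 := hpt
    have := h0 x hp.2.2.1
    have := H.E_pos 0 (H.t 0, x)
    nlinarith
  · intro j hj IH p hp _
    have a1 := hosc j hj p hp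
    rcases j with _ | j
    · have := h0 p.2 hp.2.2.1
      linarith
    · have a2 := IH j (Nat.lt_succ_self j) _ (h.top_mem hj hp.2.2.1)
      have a3 := h.E_top hj hp.2.2.1
      have a4 := hglue j hj p.2 hp.2.2.1
      have a5 : Real.exp (-H.m) ≤ 1 / 2 := by
        rw [Real.exp_neg, ← one_div]
        refine one_div_le_one_div_of_le two_pos ?_
        have := Real.add_one_le_exp H.m
        linarith
      have a6 : 2 * A * (1 * H.E j (H.t (j + 1), p.2)) ≤ 2 * A * (1 / 2) :=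
        mul_le_mul_of_nonneg_left (by linarith) (by linarith)
      linarith
  · intro j hj p hp h1 h2 Λ hΛ he _ hev
    refine hI j hj p hp h1 h2 Λ hΛ (by simpa using he) ?_
    filter_upwards [hev] with q hq
    simpa using hq

theorem hist_pred_step [T2Space X] (h : H.Ok) (S : ℕ → ℝ → ℝ × X → Prop) {w : ℕ → ℝ} {K : ℝ}
    (_hK : 0 ≤ K) (hw : ∀ j, j < H.N → 0 < w j)
    (hmono : ∀ j, j < H.N → ∀ p ∈ H.D j, ∀ b b', S j b p → b ≤ b' → S j b' p)
    (hopen : ∀ j, j < H.N → ∀ p ∈ H.D j, ∀ b, S j b p → ∀ᶠ q in 𝓝[H.D j] p, S j b q)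
    (hlow : ∀ j, j < H.N → ∀ p ∈ H.D j, ∀ b, S j b p → ∃ b', b' < b ∧ S j b' p)
    (hfin : ∀ j, j < H.N → ∀ p ∈ H.D j, ∃ b, S j b p)
    (hlat : ∀ j, j < H.N → ∀ p ∈ H.D j, H.ρ j p = H.sg j p.1 → ∀ b, K * w j < b → S j b p)
    (hI : ∀ j, j < H.N → ∀ p ∈ H.D j, H.t j < p.1 → H.ρ j p < H.sg j p.1 → ∀ Λ, K < Λ →
      ¬ S j (Λ * (w j * H.E j p)) p →
      (∀ᶠ q in 𝓝[{q | q.1 ≤ p.1}] p, ∀ b, Λ * (w j * H.E j q) < b → S j b q) → False)
    (j : ℕ) (hj : j < H.N)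
    (hbot : ∀ p ∈ H.D j, p.1 = H.t j → ∀ b, K * (w j * H.E j p) < b → S j b p) :
    ∀ p ∈ H.D j, ∀ b, K * (w j * H.E j p) < b → S j b p := by
  have hb0 : ∀ p, 0 < w j * H.E j p := fun p => mul_pos (hw j hj) (H.E_pos j p)
  have hbc : ContinuousOn (fun p => w j * H.E j p) (H.D j) :=
    continuousOn_const.mul ((h.continuousOn_E hj).mono (h.D_sub j))
  have conv : ∀ p L b, L * (w j * H.E j p) < b →
      L < b / (w j * H.E j p) ∧ b / (w j * H.E j p) * (w j * H.E j p) = b := fun p L b hb =>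
    ⟨by rw [lt_div_iff₀ (hb0 p)]; exact hb, div_mul_cancel₀ _ (hb0 p).ne'⟩
  have key := touch_MD_pred (K := K) (h.cpt j hj) (h.cont j hj)
    (H.continuous_sg j).continuousOn (h.int j hj)
    (fun L p => S j (L * (w j * H.E j p)) p) ?_ ?_ ?_ ?_ ?_ ?_ ?_
  · intro p hp b hb
    obtain ⟨c1, c2⟩ := conv p K b hb
    have := key p hp _ c1
    simpa only [c2] using this
  · intro p hp L L' hS hL
    exact hmono j hj p hp _ _ hS (mul_le_mul_of_nonneg_right hL (hb0 p).le)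
  · intro p hp L hS
    obtain ⟨b', h1, h2⟩ := hlow j hj p hp _ hS
    have e1 := hopen j hj p hp _ h2
    have e2 : ∀ᶠ q in 𝓝[H.D j] p, b' < L * (w j * H.E j q) :=
      (continuousWithinAt_const.mul (hbc p hp)).eventually (lt_mem_nhds h1)
    filter_upwards [e1, e2, self_mem_nhdsWithin] with q a1 a2 a3
    exact hmono j hj q a3 _ _ a1 a2.le
  · intro p hp L hS
    obtain ⟨b', h1, h2⟩ := hlow j hj p hp _ hS
    refine ⟨b' / (w j * H.E j p), by rw [div_lt_iff₀ (hb0 p)]; exact h1, ?_⟩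
    show S j (b' / (w j * H.E j p) * (w j * H.E j p)) p
    rw [div_mul_cancel₀ _ (hb0 p).ne']; exact h2
  · intro p hp
    obtain ⟨b, hb⟩ := hfin j hj p hp
    refine ⟨b / (w j * H.E j p), ?_⟩
    show S j (b / (w j * H.E j p) * (w j * H.E j p)) p
    rw [div_mul_cancel₀ _ (hb0 p).ne']; exact hb
  · intro p hp hpt L hL
    exact hbot p hp hpt _ (mul_lt_mul_of_pos_right hL (hb0 p))
  · intro p hp hl L hL
    refine hlat j hj p hp hl _ ?_
    rw [H.E_lat hl, mul_one]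
    exact mul_lt_mul_of_pos_right hL (hw j hj)
  · intro p hp h1 h2 L hL hS hev
    refine hI j hj p hp h1 h2 L hL hS ?_
    filter_upwards [hev] with q hq b hb
    obtain ⟨c1, c2⟩ := conv q L b hb
    have := hq _ c1
    simpa only [c2] using this

/-- HISTORY maximum principle, predicate (tensor) version. `S j b p` is the strict inequality with
the NUMBER `b` as the coefficient of the norm; the barrier is `b = Λ w_j E_j p`. -/
theorem hist_pred [T2Space X] (h : H.Ok) (S : ℕ → ℝ → ℝ × X → Prop) {w : ℕ → ℝ} {K : ℝ}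
    (hK : 0 ≤ K) (hw : ∀ j, j < H.N → 0 < w j)
    (hwj : ∀ j, j + 1 < H.N → w j ≤ Real.exp (H.m₀ - H.V * H.δ) * w (j + 1))
    (hmono : ∀ j, j < H.N → ∀ p ∈ H.D j, ∀ b b', S j b p → b ≤ b' → S j b' p)
    (hopen : ∀ j, j < H.N → ∀ p ∈ H.D j, ∀ b, S j b p → ∀ᶠ q in 𝓝[H.D j] p, S j b q)
    (hlow : ∀ j, j < H.N → ∀ p ∈ H.D j, ∀ b, S j b p → ∃ b', b' < b ∧ S j b' p)
    (hfin : ∀ j, j < H.N → ∀ p ∈ H.D j, ∃ b, S j b p)
    (hglue : ∀ j, j + 1 < H.N → ∀ x ∈ H.W (j + 1), ∀ b,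
      S j b (H.t (j + 1), x) → S (j + 1) b (H.t (j + 1), x))
    (h0 : ∀ p ∈ H.D 0, p.1 = H.t 0 → ∀ b, K * (w 0 * H.E 0 p) < b → S 0 b p)
    (hlat : ∀ j, j < H.N → ∀ p ∈ H.D j, H.ρ j p = H.sg j p.1 → ∀ b, K * w j < b → S j b p)
    (hI : ∀ j, j < H.N → ∀ p ∈ H.D j, H.t j < p.1 → H.ρ j p < H.sg j p.1 → ∀ Λ, K < Λ →
      ¬ S j (Λ * (w j * H.E j p)) p →
      (∀ᶠ q in 𝓝[{q | q.1 ≤ p.1}] p, ∀ b, Λ * (w j * H.E j q) < b → S j b q) → False) :
    ∀ j, j < H.N → ∀ p ∈ H.D j, ∀ b, K * (w j * H.E j p) < b → S j b p := by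
  intro j
  induction j with
  | zero => intro hj; exact hist_pred_step h S hK hw hmono hopen hlow hfin hlat hI 0 hj h0
  | succ j ih =>
    intro hj
    refine hist_pred_step h S hK hw hmono hopen hlow hfin hlat hI (j + 1) hj ?_
    intro p hp hpt b hb
    obtain ⟨s, x⟩ := p
    obtain rfl : s = H.t (j + 1) := hpt
    refine hglue j hj x hp.2.2.1 b (ih (by omega) _ (h.top_mem hj hp.2.2.1) b ?_)
    have a3 := h.jump hj hp
    have a4 : w j * H.E j (H.t (j + 1), x) ≤ w (j + 1) * H.E (j + 1) (H.t (j + 1), x) := by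
      calc w j * H.E j (H.t (j + 1), x)
          ≤ (Real.exp (H.m₀ - H.V * H.δ) * w (j + 1)) * H.E j (H.t (j + 1), x) :=
            mul_le_mul_of_nonneg_right (hwj j hj) (H.E_pos _ _).le
        _ = w (j + 1) * (Real.exp (H.m₀ - H.V * H.δ) * H.E j (H.t (j + 1), x)) := by ring
        _ ≤ _ := mul_le_mul_of_nonneg_left a3 (hw _ hj).le
    exact lt_of_le_of_lt (mul_le_mul_of_nonneg_left a4 hK) hb

end Ok

end HD

end Crest.Agent.T223.Tch
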