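import Crest.Agent.T223.Fr_38
import Crest.Agent.T223.EvLA_41
import Crest.Agent.T223.TchH_45
import Crest.Agent.R273.HessB_333

/-!
# Row 223 (helper45): scalar calculus of `box`, `lap`, `dz`, `gsq` (names of `Fr_38`)

`Rg φ t z` : the two slices of `φ` through `(t, z)` are regular (that is all `box` sees).
Maximum principle, linearity, chain rules, product rule, Cauchy-Schwarz, the barrier `E`.
-/

set_option autoImplicit false

open Set Filter Topology
open scoped ContDiff ComplexConjugate Matrix ComplexOrder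

namespace Crest.Agent.T223.Bx

open Crest.Agent.R275.Geo Crest.Agent.R275.EDR890 Crest.Agent.R273.Hess_333
open Crest.Agent.R273.HessB_333
open Crest.Agent.T223.Tr

noncomputable section

variable {n : ℕ}

/-! ## linear algebra -/

/-- `ξ_a conj η_b` -/
def op (ξ η : Cn n) : Mat n := Matrix.of fun a b => ξ a * conj (η b)

/-- `re g^{a b̄} ξ_a conj η_b` -/
def ipi (G : Mat n) (ξ η : Cn n) : ℝ := trg G (op ξ η)

theorem trg_add (G A B : Mat n) : trg G (A + B) = trg G A + trg G B := Ev.trg_add G A B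
theorem trg_sub (G A B : Mat n) : trg G (A - B) = trg G A - trg G B := Ev.trg_sub G A B
theorem trg_neg (G A : Mat n) : trg G (-A) = -trg G A := Ev.trg_neg G A
theorem trg_smul (G A : Mat n) (c : ℝ) : trg G ((c : ℂ) • A) = c * trg G A := Ev.trg_smul G A c
theorem trg_zero (G : Mat n) : trg G 0 = 0 := by simp [trg]

theorem ipi_eq (G : Mat n) (ξ η : Cn n) :
    ipi G ξ η = (∑ a, ∑ b, G⁻¹ b a * ξ a * conj (η b)).re := by
  unfold ipi trg op
  congr 1
  simp only [Matrix.trace, Matrix.diag_apply, Matrix.mul_apply, Matrix.of_apply]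
  rw [Finset.sum_comm]
  exact Finset.sum_congr rfl fun a _ => Finset.sum_congr rfl fun b _ => by ring

theorem ipi_self (G : Mat n) (ξ : Cn n) : ipi G ξ ξ = nqi G ξ := ipi_eq G ξ ξ

theorem ipi_comm {G : Mat n} (hG : G.IsHermitian) (ξ η : Cn n) : ipi G ξ η = ipi G η ξ := by
  rw [ipi_eq, ipi_eq, ← Complex.conj_re, Finset.sum_comm]
  congr 1
  simp only [map_sum, map_mul, Complex.conj_conj]
  refine Finset.sum_congr rfl fun a _ => Finset.sum_congr rfl fun b _ => ?_
  have : conj (G⁻¹ a b) = G⁻¹ b a := hG.inv.apply b a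
  rw [this]; ring

theorem op_herm (ξ : Cn n) : (op ξ ξ).IsHermitian := by
  ext a b
  simp [op, Matrix.conjTranspose_apply, mul_comm]

theorem nq_op (ξ v : Cn n) : nq (op ξ ξ) v = ‖∑ a, ξ a * v a‖ ^ 2 := by
  have : (∑ a, ∑ b, op ξ ξ a b * v a * conj (v b)) =
      (∑ a, ξ a * v a) * conj (∑ a, ξ a * v a) := by
    rw [map_sum, Finset.sum_mul_sum]
    refine Finset.sum_congr rfl fun a _ => Finset.sum_congr rfl fun b _ => ?_
    simp only [op, Matrix.of_apply, map_mul]; ring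
  rw [nq, this, Complex.mul_conj, Complex.normSq_eq_norm_sq]
  exact Complex.ofReal_re _

theorem nqi_nonneg {G : Mat n} (hG : G.PosDef) (ξ : Cn n) : 0 ≤ nqi G ξ := by
  have := Ev.trg_lower hG (op_herm ξ) (b := 0) fun v => by
    have h : nq (op ξ ξ) v = _ := nq_op ξ v
    rw [h, zero_mul, add_zero]; positivity
  rw [← ipi_self]
  rw [mul_zero, add_zero] at this
  exact this

theorem nqi_lin {G : Mat n} (hG : G.IsHermitian) (a b : ℝ) (ξ η : Cn n) :
    nqi G ((a : ℂ) • ξ + (b : ℂ) • η) =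
      a ^ 2 * nqi G ξ + 2 * a * b * ipi G ξ η + b ^ 2 * nqi G η := by
  have h : op ((a : ℂ) • ξ + (b : ℂ) • η) ((a : ℂ) • ξ + (b : ℂ) • η) =
      ((a ^ 2 : ℝ) : ℂ) • op ξ ξ + ((a * b : ℝ) : ℂ) • op ξ η + ((a * b : ℝ) : ℂ) • op η ξ +
        ((b ^ 2 : ℝ) : ℂ) • op η η := by
    ext i j
    simp [op]; ring
  rw [← ipi_self, ipi, h, trg_add, trg_add, trg_add, trg_smul, trg_smul, trg_smul, trg_smul]
  have e1 := ipi_self G ξ
  have e2 := ipi_self G η
  have e3 := ipi_comm hG η ξ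
  unfold ipi at e1 e2 e3 ⊢
  rw [e1, e2, e3]; ring

theorem nqi_smul (G : Mat n) (a : ℝ) (ξ : Cn n) : nqi G ((a : ℂ) • ξ) = a ^ 2 * nqi G ξ := by
  have h : op ((a : ℂ) • ξ) ((a : ℂ) • ξ) = ((a ^ 2 : ℝ) : ℂ) • op ξ ξ := by
    ext i j
    simp [op]; ring
  rw [← ipi_self, ipi, h, trg_smul, ← ipi_self]; rfl

theorem ipi_smul (G : Mat n) (a b : ℝ) (ξ η : Cn n) :
    ipi G ((a : ℂ) • ξ) ((b : ℂ) • η) = a * b * ipi G ξ η := by
  have h : op ((a : ℂ) • ξ) ((b : ℂ) • η) = ((a * b : ℝ) : ℂ) • op ξ η := by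
    ext i j
    simp [op]; ring
  rw [ipi, h, trg_smul]; rfl

/-- `2 |⟨ξ, η⟩| ≤ ε |ξ|² + |η|² / ε` -/
theorem two_abs_ipi_le {G : Mat n} (hG : G.PosDef) (ξ η : Cn n) {ε : ℝ} (hε : 0 < ε) :
    2 * |ipi G ξ η| ≤ ε * nqi G ξ + nqi G η / ε := by
  have h1 := nqi_nonneg hG (((ε : ℝ) : ℂ) • ξ + ((1 : ℝ) : ℂ) • η)
  have h2 := nqi_nonneg hG (((ε : ℝ) : ℂ) • ξ + ((-1 : ℝ) : ℂ) • η)
  rw [nqi_lin hG.1] at h1 h2
  have e : ε * nqi G ξ + nqi G η / ε = (ε ^ 2 * nqi G ξ + nqi G η) / ε := by field_simp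
  rw [e, le_div_iff₀ hε]
  rcases abs_cases (ipi G ξ η) with ⟨h, _⟩ | ⟨h, _⟩ <;> rw [h] <;> nlinarith

theorem ipi_sq_le {G : Mat n} (hG : G.PosDef) (ξ η : Cn n) :
    ipi G ξ η ^ 2 ≤ nqi G ξ * nqi G η := by
  have h : ∀ x : ℝ, 0 ≤ nqi G ξ * (x * x) + 2 * ipi G ξ η * x + nqi G η := fun x => by
    have h1 := nqi_nonneg hG (((x : ℝ) : ℂ) • ξ + ((1 : ℝ) : ℂ) • η)
    rw [nqi_lin hG.1] at h1
    nlinarith
  have := discrim_le_zero h
  rw [discrim] at this
  nlinarith

theorem nqi_add_le {G : Mat n} (hG : G.PosDef) (ξ η : Cn n) :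
    nqi G (ξ + η) ≤ 2 * nqi G ξ + 2 * nqi G η := by
  have h1 := nqi_lin hG.1 1 1 ξ η
  have h2 := two_abs_ipi_le hG ξ η one_pos
  have h3 := le_abs_self (ipi G ξ η)
  simp only [Complex.ofReal_one, one_smul] at h1
  rw [h1]; linarith

/-! ## static calculus -/

section static

variable {u v : Cn n → ℝ} {z : Cn n} {g : Cn n → Mat n}

theorem fderiv_cu (hu : DifferentiableAt ℝ u z) :
    fderiv ℝ (cu u) z = Complex.ofRealCLM.comp (fderiv ℝ u z) :=
  (Complex.ofRealCLM.hasFDerivAt.comp z hu.hasFDerivAt).fderiv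

theorem diff_cu (hu : DifferentiableAt ℝ u z) : DifferentiableAt ℝ (cu u) z :=
  Complex.ofRealCLM.differentiableAt.comp z hu

theorem wd_chain {F : ℝ → ℝ} {F' : ℝ} (hF : HasDerivAt F F' (u z)) (hu : DifferentiableAt ℝ u z)
    (s : WI n) : wd s (cu fun w => F (u w)) z = (F' : ℂ) * wd s (cu u) z := by
  have h1 : HasFDerivAt (fun w => F (u w)) (F' • fderiv ℝ u z) z :=
    hF.comp_hasFDerivAt z hu.hasFDerivAt
  rw [wd, wd, fderiv_cu h1.differentiableAt, fderiv_cu hu, h1.fderiv]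
  simp only [wdL, ContinuousLinearMap.comp_apply, _root_.smul_apply, smul_eq_mul,
    Complex.ofRealCLM_apply, Complex.ofReal_mul]
  ring

theorem wdb_eq (hu : DifferentiableAt ℝ u z) (b : Fin n) :
    wd (true, b) (cu u) z = conj (dz u z b) := (conj_wd_real (false, b) hu).symm

theorem ev_diff (hu : ContDiffAt ℝ ∞ u z) : ∀ᶠ w in 𝓝 z, DifferentiableAt ℝ u w := by
  have := (hu.of_le (m := 1) (by exact_mod_cast le_top)).eventually (by simp)
  filter_upwards [this] with w hw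
  exact hw.differentiableAt (by simp)

theorem dz_congr (h : u =ᶠ[𝓝 z] v) : dz u z = dz v z := by
  ext a
  refine wd_congr ?_ _
  filter_upwards [h] with w hw
  simp [cu, hw]

theorem dz_chain {F : ℝ → ℝ} {F' : ℝ} (hF : HasDerivAt F F' (u z)) (hu : DifferentiableAt ℝ u z) :
    dz (fun w => F (u w)) z = (F' : ℂ) • dz u z := by
  ext a
  exact wd_chain hF hu _

theorem dz_const (c : ℝ) (z : Cn n) : dz (fun _ => c) z = 0 := by
  ext a
  exact wd_const (c : ℂ) z _

theorem dz_add (hu : DifferentiableAt ℝ u z) (hv : DifferentiableAt ℝ v z) :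
    dz (fun w => u w + v w) z = dz u z + dz v z := by
  ext a
  have h : cu (fun w => u w + v w) = fun w => cu u w + cu v w := by funext w; simp [cu]
  show wd _ (cu fun w => u w + v w) z = wd _ (cu u) z + wd _ (cu v) z
  rw [h, wd_add (diff_cu hu) (diff_cu hv)]

theorem dz_const_mul (c : ℝ) (hu : DifferentiableAt ℝ u z) :
    dz (fun w => c * u w) z = (c : ℂ) • dz u z :=
  dz_chain (F := fun y => c * y) (by simpa using (hasDerivAt_id (u z)).const_mul c) hu

theorem dz_add_const (c : ℝ) (hu : DifferentiableAt ℝ u z) :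
    dz (fun w => u w + c) z = dz u z := by
  rw [dz_add hu (differentiableAt_const c), dz_const, add_zero]

theorem dz_sub (hu : DifferentiableAt ℝ u z) (hv : DifferentiableAt ℝ v z) :
    dz (fun w => u w - v w) z = dz u z - dz v z := by
  have h : (fun w => u w - v w) = fun w => u w + (-1) * v w := by funext w; ring
  rw [h, dz_add hu (hv.const_mul _), dz_const_mul _ hv]
  simp [sub_eq_add_neg]

theorem dz_mul (hu : DifferentiableAt ℝ u z) (hv : DifferentiableAt ℝ v z) :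
    dz (fun w => u w * v w) z = (u z : ℂ) • dz v z + (v z : ℂ) • dz u z := by
  ext a
  have h : cu (fun w => u w * v w) = fun w => cu u w * cu v w := by funext w; simp [cu]
  show wd _ (cu fun w => u w * v w) z = (u z : ℂ) * wd _ (cu v) z + (v z : ℂ) * wd _ (cu u) z
  rw [h, wd_mul (diff_cu hu) (diff_cu hv)]
  simp only [cu]; ring

theorem dz_eq_zero_of_max (hm : IsLocalMax u z) (hu : DifferentiableAt ℝ u z) : dz u z = 0 := by
  ext a
  show wd _ (cu u) z = 0
  rw [wd, fderiv_cu hu, hm.fderiv_eq_zero]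
  simp [wdL]

/-- chain rule for the complex Hessian -/
theorem hess_chain {F F' : ℝ → ℝ} {F'' : ℝ} (hF : ∀ᶠ y in 𝓝 (u z), HasDerivAt F (F' y) y)
    (hF' : HasDerivAt F' F'' (u z)) (hu : ContDiffAt ℝ ∞ u z) :
    hess (fun w => F (u w)) z =
      ((F' (u z) : ℝ) : ℂ) • hess u z + (F'' : ℂ) • op (dz u z) (dz u z) := by
  have hd : DifferentiableAt ℝ u z := hu.differentiableAt (by simp)
  ext a b
  have h1 : wd (true, b) (cu fun w => F (u w)) =ᶠ[𝓝 z]
      fun w => cu (fun y => F' (u y)) w * wd (true, b) (cu u) w := by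
    filter_upwards [ev_diff hu, hd.continuousAt.eventually hF] with w h1 h2
    exact wd_chain h2 h1 _
  have h2 : DifferentiableAt ℝ (fun y => F' (u y)) z := hF'.differentiableAt.comp z hd
  rw [hess_apply, wd_congr h1, wd_mul (diff_cu h2)
    ((contDiffAt_wd (contDiffAt_cu hu) _).differentiableAt (by simp)), wd_chain hF' hd, wdb_eq hd]
  simp only [Matrix.add_apply, Matrix.smul_apply, smul_eq_mul, op, Matrix.of_apply, hess_apply, cu]
  have : wd (false, a) (cu u) z = dz u z a := rfl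
  rw [this]; ring

/-- product rule for the complex Hessian -/
theorem hess_mul (hu : ContDiffAt ℝ ∞ u z) (hv : ContDiffAt ℝ ∞ v z) :
    hess (fun w => u w * v w) z = ((u z : ℝ) : ℂ) • hess v z + ((v z : ℝ) : ℂ) • hess u z +
      op (dz u z) (dz v z) + op (dz v z) (dz u z) := by
  have hdu : DifferentiableAt ℝ u z := hu.differentiableAt (by simp)
  have hdv : DifferentiableAt ℝ v z := hv.differentiableAt (by simp)
  ext a b
  have h : cu (fun w => u w * v w) = fun w => cu u w * cu v w := by funext w; simp [cu]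
  have h1 : wd (true, b) (cu fun w => u w * v w) =ᶠ[𝓝 z]
      fun w => wd (true, b) (cu u) w * cu v w + cu u w * wd (true, b) (cu v) w := by
    filter_upwards [ev_diff hu, ev_diff hv] with w h1 h2
    rw [h, wd_mul (diff_cu h1) (diff_cu h2)]
  have a1 := (contDiffAt_wd (contDiffAt_cu hu) (true, b)).differentiableAt (by simp)
  have a2 := (contDiffAt_wd (contDiffAt_cu hv) (true, b)).differentiableAt (by simp)
  rw [hess_apply, wd_congr h1, wd_add (a1.fun_mul (diff_cu hdv)) ((diff_cu hdu).fun_mul a2),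
    wd_mul a1 (diff_cu hdv), wd_mul (diff_cu hdu) a2, wdb_eq hdu, wdb_eq hdv]
  simp only [Matrix.add_apply, Matrix.smul_apply, smul_eq_mul, op, Matrix.of_apply, hess_apply, cu]
  have e1 : wd (false, a) (cu u) z = dz u z a := rfl
  have e2 : wd (false, a) (cu v) z = dz v z a := rfl
  rw [e1, e2]; ring

theorem hess_const (c : ℝ) (z : Cn n) : hess (fun _ => c) z = 0 := by
  ext a b
  have h : wd (true, b) (cu fun _ : Cn n => c) = fun _ => 0 := by
    funext w; exact wd_const (c : ℂ) w _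
  rw [hess_apply, h]; exact wd_const _ _ _

theorem fderiv2_nonpos (hu : ContDiffAt ℝ ∞ u z) (hm : IsLocalMax u z) (x : Cn n) :
    fderiv ℝ (fderiv ℝ u) z x x ≤ 0 := by
  set l : ℝ → Cn n := fun t => z + t • x with hl
  have hld : ∀ t, HasDerivAt l x t := fun t => by
    simpa [hl] using ((hasDerivAt_id t).smul_const x).const_add z
  have hl0 : l 0 = z := by simp [hl]
  have htend : Tendsto l (𝓝 0) (𝓝 z) := by
    have := (hld 0).continuousAt.tendsto
    rwa [hl0] at this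
  have h2 : DifferentiableAt ℝ (fderiv ℝ u) (l 0) := by
    rw [hl0]; exact (hu.fderiv_right (m := 1) (by norm_cast)).differentiableAt (by simp)
  have e1 : deriv (fun t => u (l t)) =ᶠ[𝓝 0] fun t => fderiv ℝ u (l t) x := by
    filter_upwards [htend.eventually (ev_diff hu)] with t ht
    exact (ht.hasFDerivAt.comp_hasDerivAt t (hld t)).deriv
  have e2 : HasDerivAt (fun t => fderiv ℝ u (l t) x) (fderiv ℝ (fderiv ℝ u) z x x) 0 := by
    have h3 := (h2.hasFDerivAt.comp_hasDerivAt (0 : ℝ) (hld 0)).clm_apply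
      (hasDerivAt_const (0 : ℝ) x)
    simpa [hl0] using h3
  have hmax : IsLocalMax (fun t => u (l t)) 0 := by
    filter_upwards [htend.eventually hm] with t ht
    simpa [hl0] using ht
  have hc : ContinuousAt (fun t => u (l t)) 0 := by
    have : ContinuousAt u (l 0) := by rw [hl0]; exact hu.continuousAt
    exact this.comp (hld 0).continuousAt
  by_contra hpos
  push Not at hpos
  have h10 : deriv (deriv fun t => u (l t)) 0 = fderiv ℝ (fderiv ℝ u) z x x := by
    rw [e1.deriv_eq, e2.deriv]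
  have hmin := isLocalMin_of_deriv_deriv_pos (by rw [h10]; exact hpos) hmax.deriv_eq_zero hc
  have hev : (fun t => u (l t)) =ᶠ[𝓝 0] fun _ => u (l 0) := by
    filter_upwards [hmax, hmin] with s h1 h2
    exact le_antisymm h1 h2
  have h11 : deriv (deriv fun t => u (l t)) 0 = deriv (deriv fun _ : ℝ => u (l 0)) 0 :=
    hev.deriv.deriv_eq
  rw [h10] at h11
  simp at h11
  linarith

theorem nq_hess_nonpos (hu : ContDiffAt ℝ ∞ u z) (hm : IsLocalMax u z) (x : Cn n) :
    nq (hess u z) x ≤ 0 := by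
  have h : nq (hess u z) x = (hq u z x).re := rfl
  rw [h, hq_re hu, R273.Defs_333.lev, iteratedFDeriv_two_apply, iteratedFDeriv_two_apply]
  have h1 := fderiv2_nonpos hu hm x
  have h2 := fderiv2_nonpos hu hm (Complex.I • x)
  simp only [Matrix.cons_val_zero, Matrix.cons_val_one] at *
  linarith

theorem lap_nonpos_of_max (hg : (g z).PosDef) (hu : ContDiffAt ℝ ∞ u z) (hm : IsLocalMax u z) :
    lap g u z ≤ 0 := by
  have := Ev.trg_upper hg (hess_herm hu) (b := 0) fun x => by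
    have h : nq (hess u z) x ≤ 0 := nq_hess_nonpos hu hm x
    simpa using h
  rw [mul_zero] at this
  exact this

/-- `re g^{a b̄} u_a v_{b̄}` -/
def gip (g : Cn n → Mat n) (u v : Cn n → ℝ) (z : Cn n) : ℝ := ipi (g z) (dz u z) (dz v z)

theorem gip_self : gip g u u z = gsq g u z := ipi_self _ _

theorem gip_comm (hg : (g z).IsHermitian) : gip g u v z = gip g v u z := ipi_comm hg _ _

theorem gsq_nonneg (hg : (g z).PosDef) : 0 ≤ gsq g u z := nqi_nonneg hg _

theorem two_abs_gip_le (hg : (g z).PosDef) {ε : ℝ} (hε : 0 < ε) :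
    2 * |gip g u v z| ≤ ε * gsq g u z + gsq g v z / ε := two_abs_ipi_le hg _ _ hε

theorem gip_sq_le (hg : (g z).PosDef) : gip g u v z ^ 2 ≤ gsq g u z * gsq g v z :=
  ipi_sq_le hg _ _

theorem gsq_congr (h : u =ᶠ[𝓝 z] v) : gsq g u z = gsq g v z := by rw [gsq, gsq, dz_congr h]

theorem gsq_chain {F : ℝ → ℝ} {F' : ℝ} (hF : HasDerivAt F F' (u z)) (hu : DifferentiableAt ℝ u z) :
    gsq g (fun w => F (u w)) z = F' ^ 2 * gsq g u z := by
  rw [gsq, dz_chain hF hu, nqi_smul]; rfl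

theorem gsq_const_mul (c : ℝ) (hu : DifferentiableAt ℝ u z) :
    gsq g (fun w => c * u w) z = c ^ 2 * gsq g u z := by
  rw [gsq, dz_const_mul c hu, nqi_smul]; rfl

theorem gsq_add_le (hg : (g z).PosDef) (hu : DifferentiableAt ℝ u z)
    (hv : DifferentiableAt ℝ v z) :
    gsq g (fun w => u w + v w) z ≤ 2 * gsq g u z + 2 * gsq g v z := by
  rw [gsq, dz_add hu hv]; exact nqi_add_le hg _ _

theorem lap_congr (h : u =ᶠ[𝓝 z] v) : lap g u z = lap g v z := by rw [lap, lap, hess_congr h]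

theorem lap_const (c : ℝ) : lap g (fun _ => c) z = 0 := by rw [lap, hess_const, trg_zero]

theorem lap_add (hu : ContDiffAt ℝ ∞ u z) (hv : ContDiffAt ℝ ∞ v z) :
    lap g (fun w => u w + v w) z = lap g u z + lap g v z := by
  rw [lap, hess_add hu hv, trg_add]; rfl

theorem lap_sub (hu : ContDiffAt ℝ ∞ u z) (hv : ContDiffAt ℝ ∞ v z) :
    lap g (fun w => u w - v w) z = lap g u z - lap g v z := by
  rw [lap, hess_sub hu hv, trg_sub]; rfl

theorem lap_const_mul (c : ℝ) (hu : ContDiffAt ℝ ∞ u z) :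
    lap g (fun w => c * u w) z = c * lap g u z := by
  rw [lap, hess_const_mul c hu, trg_smul]; rfl

theorem lap_chain {F F' : ℝ → ℝ} {F'' : ℝ} (hF : ∀ᶠ y in 𝓝 (u z), HasDerivAt F (F' y) y)
    (hF' : HasDerivAt F' F'' (u z)) (hu : ContDiffAt ℝ ∞ u z) :
    lap g (fun w => F (u w)) z = F' (u z) * lap g u z + F'' * gsq g u z := by
  rw [lap, hess_chain hF hF' hu, trg_add, trg_smul, trg_smul, ← gip_self]; rfl

theorem lap_mul (hg : (g z).IsHermitian) (hu : ContDiffAt ℝ ∞ u z) (hv : ContDiffAt ℝ ∞ v z) :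
    lap g (fun w => u w * v w) z = u z * lap g v z + v z * lap g u z + 2 * gip g u v z := by
  have e : trg (g z) (op (dz v z) (dz u z)) = gip g u v z := gip_comm hg
  have e' : trg (g z) (op (dz u z) (dz v z)) = gip g u v z := rfl
  rw [lap, hess_mul hu hv, trg_add, trg_add, trg_add, trg_smul, trg_smul, e, e']
  unfold lap; ring

end static

/-! ## space-time calculus -/

section time

variable {φ ψ : ℝ → Cn n → ℝ} {t : ℝ} {z : Cn n} {g : ℝ → Cn n → Mat n}

/-- regularity of the two slices through `(t, z)` -/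
structure Rg (φ : ℝ → Cn n → ℝ) (t : ℝ) (z : Cn n) : Prop where
  sp : ContDiffAt ℝ ∞ (φ t) z
  tm : DifferentiableAt ℝ (fun s => φ s z) t

theorem Rg.of_joint (h : ContDiffAt ℝ ∞ (fun q : ℝ × Cn n => φ q.1 q.2) (t, z)) : Rg φ t z :=
  ⟨h.comp z (contDiffAt_const.prodMk contDiffAt_id),
    (h.comp t (contDiffAt_id.prodMk contDiffAt_const)).differentiableAt (by simp)⟩

theorem Rg.dsp (h : Rg φ t z) : DifferentiableAt ℝ (φ t) z := h.sp.differentiableAt (by simp)

theorem Rg.add (h : Rg φ t z) (k : Rg ψ t z) : Rg (fun s w => φ s w + ψ s w) t z :=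
  ⟨h.sp.add k.sp, h.tm.add k.tm⟩

theorem Rg.sub (h : Rg φ t z) (k : Rg ψ t z) : Rg (fun s w => φ s w - ψ s w) t z :=
  ⟨h.sp.sub k.sp, h.tm.sub k.tm⟩

theorem Rg.mul (h : Rg φ t z) (k : Rg ψ t z) : Rg (fun s w => φ s w * ψ s w) t z :=
  ⟨h.sp.mul k.sp, h.tm.mul k.tm⟩

theorem Rg.const (c : ℝ) : Rg (fun _ _ => c) t z := ⟨contDiffAt_const, differentiableAt_const _⟩

theorem Rg.const_mul (c : ℝ) (h : Rg φ t z) : Rg (fun s w => c * φ s w) t z := (Rg.const c).mul h

theorem Rg.static {u : Cn n → ℝ} (h : ContDiffAt ℝ ∞ u z) : Rg (fun _ => u) t z :=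
  ⟨h, differentiableAt_const _⟩

theorem Rg.time {a : ℝ → ℝ} (h : DifferentiableAt ℝ a t) : Rg (fun s _ => a s) t z :=
  ⟨contDiffAt_const, h⟩

theorem Rg.comp {F : ℝ → ℝ} (hF : ContDiffAt ℝ ∞ F (φ t z)) (h : Rg φ t z) :
    Rg (fun s w => F (φ s w)) t z :=
  ⟨hF.comp z h.sp, (hF.differentiableAt (by simp)).comp t h.tm⟩

theorem Rg.comp₂ {F : ℝ → ℝ → ℝ}
    (hF : ContDiffAt ℝ ∞ (fun q : ℝ × ℝ => F q.1 q.2) (t, φ t z)) (h : Rg φ t z) :
    Rg (fun s w => F s (φ s w)) t z :=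
  ⟨ContDiffAt.comp (g := fun q : ℝ × ℝ => F q.1 q.2) (f := fun w => (t, φ t w)) z hF
      (contDiffAt_const.prodMk h.sp),
    DifferentiableAt.comp (g := fun q : ℝ × ℝ => F q.1 q.2) (f := fun s => (s, φ s z)) t
      (hF.differentiableAt (by simp)) (differentiableAt_id.prodMk h.tm)⟩

theorem Rg.exp (h : Rg φ t z) : Rg (fun s w => Real.exp (φ s w)) t z :=
  h.comp Real.contDiff_exp.contDiffAt

theorem box_congr (h1 : φ t =ᶠ[𝓝 z] ψ t) (h2 : (fun s => φ s z) =ᶠ[𝓝 t] fun s => ψ s z) :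
    box g φ t z = box g ψ t z := by
  rw [box, box, lap_congr h1, h2.deriv_eq]

theorem box_congr' (h : ∀ᶠ q : ℝ × Cn n in 𝓝 (t, z), φ q.1 q.2 = ψ q.1 q.2) :
    box g φ t z = box g ψ t z :=
  box_congr ((continuous_const.prodMk continuous_id).continuousAt.eventually h)
    ((continuous_id.prodMk continuous_const).continuousAt.eventually h)

theorem box_add (h : Rg φ t z) (k : Rg ψ t z) :
    box g (fun s w => φ s w + ψ s w) t z = box g φ t z + box g ψ t z := by
  rw [box, box, box, deriv_fun_add h.tm k.tm, lap_add h.sp k.sp]; ring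

theorem box_sub (h : Rg φ t z) (k : Rg ψ t z) :
    box g (fun s w => φ s w - ψ s w) t z = box g φ t z - box g ψ t z := by
  rw [box, box, box, deriv_fun_sub h.tm k.tm, lap_sub h.sp k.sp]; ring

theorem box_const_mul (c : ℝ) (h : Rg φ t z) :
    box g (fun s w => c * φ s w) t z = c * box g φ t z := by
  rw [box, box, deriv_const_mul c h.tm, lap_const_mul c h.sp]; ring

theorem box_time {a : ℝ → ℝ} {a' : ℝ} (h : HasDerivAt a a' t) :
    box g (fun s _ => a s) t z = a' := by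
  rw [box, h.deriv, lap_const]; ring

theorem box_const (c : ℝ) : box g (fun _ _ => c) t z = 0 := box_time (hasDerivAt_const t c)

theorem box_static (u : Cn n → ℝ) : box g (fun _ => u) t z = -lap (g t) u z := by
  rw [box]; simp

theorem box_mul (hg : (g t z).IsHermitian) (h : Rg φ t z) (k : Rg ψ t z) :
    box g (fun s w => φ s w * ψ s w) t z =
      φ t z * box g ψ t z + ψ t z * box g φ t z - 2 * gip (g t) (φ t) (ψ t) z := by
  rw [box, box, box, deriv_fun_mul h.tm k.tm, lap_mul hg h.sp k.sp]; ring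

theorem box_time_mul {a : ℝ → ℝ} {a' : ℝ} (ha : HasDerivAt a a' t) (h : Rg φ t z) :
    box g (fun s w => a s * φ s w) t z = a' * φ t z + a t * box g φ t z := by
  rw [box, box, deriv_fun_mul ha.differentiableAt h.tm, ha.deriv, lap_const_mul _ h.sp]; ring

/-- chain rule -/
theorem box_chain {F F' : ℝ → ℝ} {F'' : ℝ} (hF : ∀ᶠ y in 𝓝 (φ t z), HasDerivAt F (F' y) y)
    (hF' : HasDerivAt F' F'' (φ t z)) (h : Rg φ t z) :
    box g (fun s w => F (φ s w)) t z =
      F' (φ t z) * box g φ t z - F'' * gsq (g t) (φ t) z := by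
  have h1 : HasDerivAt (fun s => F (φ s z)) (F' (φ t z) * deriv (fun s => φ s z) t) t :=
    HasDerivAt.comp (h₂ := F) (h := fun s => φ s z) t hF.self_of_nhds h.tm.hasDerivAt
  rw [box, box, h1.deriv, lap_chain hF hF' h.sp]; ring

/-- chain rule for `F (t, φ)` -/
theorem box_chain₂ {F : ℝ → ℝ → ℝ} {F' : ℝ → ℝ} {Ft F'' : ℝ}
    (hD : DifferentiableAt ℝ (fun q : ℝ × ℝ => F q.1 q.2) (t, φ t z))
    (hFt : HasDerivAt (fun s => F s (φ t z)) Ft t)
    (hF : ∀ᶠ y in 𝓝 (φ t z), HasDerivAt (F t) (F' y) y)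
    (hF' : HasDerivAt F' F'' (φ t z)) (h : Rg φ t z) :
    box g (fun s w => F s (φ s w)) t z =
      Ft + F' (φ t z) * box g φ t z - F'' * gsq (g t) (φ t) z := by
  set L := fderiv ℝ (fun q : ℝ × ℝ => F q.1 q.2) (t, φ t z) with hL
  have a1 : HasDerivAt (fun s => F s (φ t z)) (L (1, 0)) t :=
    HasFDerivAt.comp_hasDerivAt (l := fun q : ℝ × ℝ => F q.1 q.2) (f := fun s => (s, φ t z)) t
      hD.hasFDerivAt ((hasDerivAt_id t).prodMk (hasDerivAt_const t _))
  have a2 : HasDerivAt (F t) (L (0, 1)) (φ t z) :=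
    HasFDerivAt.comp_hasDerivAt (l := fun q : ℝ × ℝ => F q.1 q.2) (f := fun y => (t, y)) (φ t z)
      hD.hasFDerivAt ((hasDerivAt_const _ t).prodMk (hasDerivAt_id _))
  have a3 : HasDerivAt (fun s => F s (φ s z)) (L (1, deriv (fun s => φ s z) t)) t :=
    HasFDerivAt.comp_hasDerivAt (l := fun q : ℝ × ℝ => F q.1 q.2) (f := fun s => (s, φ s z)) t
      hD.hasFDerivAt ((hasDerivAt_id t).prodMk h.tm.hasDerivAt)
  have e : L (1, deriv (fun s => φ s z) t) = Ft + F' (φ t z) * deriv (fun s => φ s z) t := by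
    have : ((1 : ℝ), deriv (fun s => φ s z) t) =
        ((1 : ℝ), (0 : ℝ)) + deriv (fun s => φ s z) t • ((0 : ℝ), (1 : ℝ)) := by simp
    rw [this, map_add, map_smul, ← hFt.unique a1, ← hF.self_of_nhds.unique a2, smul_eq_mul]
    ring
  rw [box, box, a3.deriv, e, lap_chain hF hF' h.sp]; ring

theorem box_exp (h : Rg φ t z) : box g (fun s w => Real.exp (φ s w)) t z =
    Real.exp (φ t z) * (box g φ t z - gsq (g t) (φ t) z) := by
  rw [box_chain (Eventually.of_forall Real.hasDerivAt_exp) (Real.hasDerivAt_exp _) h]; ring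

theorem box_sq (h : Rg φ t z) : box g (fun s w => φ s w ^ 2) t z =
    2 * φ t z * box g φ t z - 2 * gsq (g t) (φ t) z := by
  rw [box_chain (F := fun y => y ^ 2) (F' := fun y => 2 * y) (F'' := 2)
    (Eventually.of_forall fun y => by simpa using hasDerivAt_pow 2 y)
    (by simpa using (hasDerivAt_id (φ t z)).const_mul 2) h]

/-! ### the maximum principle -/

theorem past_space {P : ℝ × Cn n → Prop} (h : ∀ᶠ q in past t z, P q) : ∀ᶠ w in 𝓝 z, P (t, w) := by
  have : Tendsto (fun w : Cn n => (t, w)) (𝓝 z) (past t z) :=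
    tendsto_nhdsWithin_iff.2 ⟨(continuous_const.prodMk continuous_id).continuousAt,
      Eventually.of_forall fun _ => le_refl t⟩
  exact this.eventually h

theorem past_time {P : ℝ × Cn n → Prop} (h : ∀ᶠ q in past t z, P q) :
    ∀ᶠ s in 𝓝[<] t, P (s, z) := by
  have : Tendsto (fun s : ℝ => (s, z)) (𝓝[<] t) (past t z) :=
    tendsto_nhdsWithin_iff.2 ⟨(continuous_id.prodMk continuous_const).continuousAt.mono_left
      nhdsWithin_le_nhds, by
        filter_upwards [self_mem_nhdsWithin] with s hs using le_of_lt hs⟩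
  exact this.eventually h

theorem deriv_nonneg_of_left {f : ℝ → ℝ} {f' : ℝ} (hf : HasDerivAt f f' t)
    (h : ∀ᶠ s in 𝓝[<] t, f s ≤ f t) : 0 ≤ f' := by
  have h1 : Tendsto (slope f t) (𝓝[<] t) (𝓝 f') :=
    (hasDerivAt_iff_tendsto_slope.1 hf).mono_left
      (nhdsWithin_mono _ fun s hs => ne_of_lt hs)
  refine ge_of_tendsto h1 ?_
  filter_upwards [h, self_mem_nhdsWithin] with s h2 h3
  rw [slope_def_field]
  exact div_nonneg_of_nonpos (by linarith) (by linarith [mem_Iio.1 h3])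

/-- maximum over the past -/
theorem box_nonneg_of_max (hg : (g t z).PosDef) (h : Rg φ t z)
    (hm : ∀ᶠ q in past t z, φ q.1 q.2 ≤ φ t z) : 0 ≤ box g φ t z := by
  have h1 := deriv_nonneg_of_left h.tm.hasDerivAt (past_time hm)
  have h2 := lap_nonpos_of_max (g := g t) hg h.sp (past_space hm)
  rw [box]; linarith

/-- TOUCHING: `φ ≤ ψ` in the past, equality at the point -/
theorem box_le_of_touch (hg : (g t z).PosDef) (h : Rg φ t z) (k : Rg ψ t z)
    (hm : ∀ᶠ q in past t z, φ q.1 q.2 ≤ ψ q.1 q.2) (he : φ t z = ψ t z) :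
    box g ψ t z ≤ box g φ t z := by
  have := box_nonneg_of_max hg (h.sub k) (by
    filter_upwards [hm] with q hq
    show φ q.1 q.2 - ψ q.1 q.2 ≤ φ t z - ψ t z
    linarith)
  rw [box_sub h k] at this
  linarith

theorem dz_eq_of_touch (h : Rg φ t z) (k : Rg ψ t z)
    (hm : ∀ᶠ q in past t z, φ q.1 q.2 ≤ ψ q.1 q.2) (he : φ t z = ψ t z) :
    dz (φ t) z = dz (ψ t) z := by
  have h1 : IsLocalMax (fun w => φ t w - ψ t w) z := by
    filter_upwards [past_space hm] with w hw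
    show φ t w - ψ t w ≤ φ t z - ψ t z
    linarith
  have h2 := dz_eq_zero_of_max h1 (h.dsp.sub k.dsp)
  rw [dz_sub h.dsp k.dsp] at h2
  exact sub_eq_zero.1 h2

/-! ### the barrier -/

/-- the barrier `exp (-(σ - V (s - t₀) / r - ρ) / r)` in a chart -/
def Eb (σ V t₀ r : ℝ) (ρ : ℝ → Cn n → ℝ) (s : ℝ) (w : Cn n) : ℝ :=
  Real.exp (-(σ - V * (s - t₀) / r - ρ s w) / r)

theorem Eb_pos (σ V t₀ r : ℝ) (ρ : ℝ → Cn n → ℝ) (s : ℝ) (w : Cn n) : 0 < Eb σ V t₀ r ρ s w :=
  Real.exp_pos _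

theorem Eb_expo (σ V t₀ r : ℝ) (ρ : ℝ → Cn n → ℝ) :
    (fun s w => -(σ - V * (s - t₀) / r - ρ s w) / r) =
      fun s w => (-(σ - V * (s - t₀) / r) / r) + r⁻¹ * ρ s w := by
  funext s w; ring

theorem hasDerivAt_Eb_time (σ V t₀ r t : ℝ) :
    HasDerivAt (fun s => -(σ - V * (s - t₀) / r) / r) (V / r ^ 2) t := by
  have := (((((hasDerivAt_id t).sub_const t₀).const_mul V).div_const r).const_sub σ).neg.div_const r
  refine this.congr_deriv ?_
  ring

theorem Rg.Eb {σ V t₀ r : ℝ} {ρ : ℝ → Cn n → ℝ} (h : Rg ρ t z) : Rg (Eb σ V t₀ r ρ) t z := by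
  have : Rg (fun s w => -(σ - V * (s - t₀) / r - ρ s w) / r) t z := by
    rw [Eb_expo]
    exact (Rg.time (hasDerivAt_Eb_time σ V t₀ r t).differentiableAt).add (h.const_mul _)
  exact this.exp

theorem contDiffAt_Eb {σ V t₀ r : ℝ} {ρ : ℝ → Cn n → ℝ}
    (h : ContDiffAt ℝ ∞ (fun q : ℝ × Cn n => ρ q.1 q.2) (t, z)) :
    ContDiffAt ℝ ∞ (fun q : ℝ × Cn n => Eb σ V t₀ r ρ q.1 q.2) (t, z) :=
  (((contDiffAt_const.sub ((contDiffAt_const.mul (contDiffAt_fst.sub contDiffAt_const)).div_const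
    r)).sub h).neg.div_const r).exp

theorem box_Eb {σ V t₀ r : ℝ} {ρ : ℝ → Cn n → ℝ} (h : Rg ρ t z) :
    box g (Eb σ V t₀ r ρ) t z =
      Eb σ V t₀ r ρ t z * (V / r ^ 2 + box g ρ t z / r - gsq (g t) (ρ t) z / r ^ 2) := by
  have hd := hasDerivAt_Eb_time σ V t₀ r t
  have h1 : Rg (fun s w => (-(σ - V * (s - t₀) / r) / r) + r⁻¹ * ρ s w) t z :=
    (Rg.time hd.differentiableAt).add (h.const_mul _)
  have e : Eb σ V t₀ r ρ =
      fun s w => Real.exp ((-(σ - V * (s - t₀) / r) / r) + r⁻¹ * ρ s w) := by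
    funext s w; unfold Eb; congr 1; ring
  have e2 : gsq (g t) (fun w => (-(σ - V * (t - t₀) / r) / r) + r⁻¹ * ρ t w) z =
      r⁻¹ ^ 2 * gsq (g t) (ρ t) z := by
    rw [gsq, dz_add (differentiableAt_const _) (h.dsp.const_mul _), dz_const, zero_add,
      dz_const_mul _ h.dsp, nqi_smul]; rfl
  rw [e, box_exp h1, box_add (Rg.time hd.differentiableAt) (h.const_mul _), box_time hd,
    box_const_mul _ h, e2]
  ring

theorem gsq_Eb {σ V t₀ r : ℝ} {ρ : ℝ → Cn n → ℝ} (h : Rg ρ t z) :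
    gsq (g t) (Eb σ V t₀ r ρ t) z = (Eb σ V t₀ r ρ t z / r) ^ 2 * gsq (g t) (ρ t) z := by
  have hF : HasDerivAt (fun y => Real.exp (-(σ - V * (t - t₀) / r - y) / r))
      (Eb σ V t₀ r ρ t z / r) (ρ t z) := by
    have := (((hasDerivAt_id (ρ t z)).const_sub (σ - V * (t - t₀) / r)).neg.div_const r).exp
    refine this.congr_deriv ?_
    simp only [Eb, id, Pi.neg_apply]; ring
  exact gsq_chain hF h.dsp

/-- the barrier is a strict supersolution: `box E ≥ (V - K) E / r²` -/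
theorem box_Eb_ge {σ V t₀ r K : ℝ} {ρ : ℝ → Cn n → ℝ} (hr : 0 < r) (h : Rg ρ t z)
    (h0 : 0 ≤ box g ρ t z) (hK : gsq (g t) (ρ t) z ≤ K) :
    (V - K) / r ^ 2 * Eb σ V t₀ r ρ t z ≤ box g (Eb σ V t₀ r ρ) t z := by
  rw [box_Eb h, mul_comm]
  refine mul_le_mul_of_nonneg_left ?_ (Eb_pos ..).le
  have h1 : 0 ≤ box g ρ t z / r := div_nonneg h0 hr.le
  have h2 : gsq (g t) (ρ t) z / r ^ 2 ≤ K / r ^ 2 := by gcongr
  rw [sub_div]; linarith

/-- `HD.E` read in a chart is `Eb` -/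
theorem E_eq_Eb {X : Type*} (H : Tch.HD X) (j : ℕ) (e : Cn n → X) (s : ℝ) (w : Cn n) :
    H.E j (s, e w) = Eb (H.σ j) H.V (H.t j) (H.r j) (fun s w => H.ρ j (s, e w)) s w := rfl

end time

end

end Crest.Agent.T223.Bx
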