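import Crest.Agent.T223.OsBas_21
import Crest.Agent.T223.Bx_45
import Crest.Agent.T223.FrB_38

/-!
# Row 223, module OSG (helper24): scalar barriers on one step

* `past_chart` : the past on `ℝ × M` read in a chart
* local readings at interior times: `krfAt`, `cd_ρ`, `rg_ρ`, `box_ρ`, `Gr_eqT`, `EC`, `box_EC_ge`
* `touch`, `touchE` : the maximum principle on `{ρ ≤ sg - c r}` and with the barrier `E`
-/

set_option autoImplicit false
set_option linter.unusedVariables false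
set_option linter.unusedSectionVars false

open Set Filter Topology Metric
open scoped ContDiff ComplexConjugate Matrix ComplexOrder

namespace Crest.Agent.T223.Os.T24

open Crest.Agent.R275.Geo Crest.Agent.R273.Kah_333 Crest.Agent.R273.Hess_333
open Crest.Agent.T223.Br Crest.Agent.T223.Tr
open Crest.Agent.T223.Db (dom SmST)
open Crest.Agent.T223.Bx (Rg)

noncomputable section

variable {n : ℕ} {M : Type} [TopologicalSpace M] {A : Atl n M}

/-- the past on `ℝ × M`, read in a chart -/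
theorem past_chart {i : A.ι} {x : M} (hi : x ∈ (A.e i).source) {s : ℝ} {Q : ℝ × M → Prop}
    (hQ : ∀ᶠ q in 𝓝[{q | q.1 ≤ s}] (s, x), Q q) :
    ∀ᶠ q in past s (A.e i x), Q (q.1, (A.e i).symm q.2) := by
  have h1 : Tendsto (fun q : ℝ × Cn n => ((q.1, (A.e i).symm q.2) : ℝ × M))
      (𝓝 (s, A.e i x)) (𝓝 (s, x)) := by
    have h2 : Tendsto (A.e i).symm (𝓝 (A.e i x)) (𝓝 x) := by
      have := (A.e i).continuousAt_symm ((A.e i).map_source hi)
      rwa [ContinuousAt, (A.e i).left_inv hi] at this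
    exact (continuous_fst.tendsto _).prodMk_nhds (h2.comp (continuous_snd.tendsto _))
  have h3 : Tendsto (fun q : ℝ × Cn n => ((q.1, (A.e i).symm q.2) : ℝ × M))
      (past s (A.e i x)) (𝓝[{q | q.1 ≤ s}] (s, x)) :=
    tendsto_nhdsWithin_iff.2 ⟨h1.mono_left nhdsWithin_le_nhds, self_mem_nhdsWithin⟩
  exact h3.eventually hQ

/-- joint smoothness at interior times -/
theorem cd_of_SmST {a b : ℝ} {U : Set M} (hU : IsOpen U) {f : ℝ → M → ℝ}
    (hf : SmST A (Icc a b) U f) {s : ℝ} (hs : s ∈ Ioo a b) {i : A.ι} {x : M}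
    (hi : x ∈ (A.e i).source) (hx : x ∈ U) :
    ContDiffAt ℝ ∞ (fun q : ℝ × Cn n => inC A i (f q.1) q.2) (s, A.e i x) :=
  (hf i).contDiffAt (prod_mem_nhds (Icc_mem_nhds hs.1 hs.2)
    ((isOpen_dom i hU).mem_nhds (mem_dom hi hx)))

/-- `Gr` in any chart -/
theorem Gr_eqT {G : MF A} {U : Set M} (hU : IsOpen U) (hG : TrOn G U) {f : M → ℝ}
    (hf : SmOn A U f) {i : A.ι} {x : M} (hi : x ∈ (A.e i).source) (hx : x ∈ U) :
    Gr G f x = gsq (G i) (inC A i f) (A.e i x) :=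
  hG.gsq_indep (ch_mem A x) hi hx ((hf.contDiffAt hU hi hx).differentiableAt (by simp))

/-- space derivatives of a function that is smooth up to the end points -/
theorem cdOn_fderiv_slice {E W : Type} [NormedAddCommGroup E] [NormedSpace ℝ E]
    [NormedAddCommGroup W] [NormedSpace ℝ W] {a b : ℝ} (hab : a < b) {D : Set E} (hD : IsOpen D)
    {f : ℝ → E → W} (hf : ContDiffOn ℝ ∞ (fun q : ℝ × E => f q.1 q.2) (Icc a b ×ˢ D)) :
    ContDiffOn ℝ ∞ (fun q : ℝ × E => fderiv ℝ (f q.1) q.2) (Icc a b ×ˢ D) := by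
  have hu : UniqueDiffOn ℝ (Icc a b ×ˢ D) := (uniqueDiffOn_Icc hab).prod hD.uniqueDiffOn
  have h1 : ContDiffOn ℝ ∞ (fderivWithin ℝ (fun q : ℝ × E => f q.1 q.2) (Icc a b ×ˢ D))
      (Icc a b ×ˢ D) := hf.fderivWithin hu (by simp)
  have h2 : ContDiffOn ℝ ∞ (fun q : ℝ × E =>
      (fderivWithin ℝ (fun q : ℝ × E => f q.1 q.2) (Icc a b ×ˢ D) q).comp
        (ContinuousLinearMap.inr ℝ ℝ E)) (Icc a b ×ˢ D) := h1.clm_comp contDiffOn_const
  refine h2.congr fun q hq => ?_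
  have h3 := (hf.differentiableOn (by simp) q hq).hasFDerivWithinAt
  have h4 : HasFDerivAt (fun w : E => ((q.1, w) : ℝ × E)) (ContinuousLinearMap.inr ℝ ℝ E) q.2 :=
    hasFDerivAt_prodMk_right q.1 q.2
  have h6 : MapsTo (fun w : E => ((q.1, w) : ℝ × E)) D (Icc a b ×ˢ D) := fun w hw => ⟨hq.1, hw⟩
  have h5 := h3.comp q.2 (h4.hasFDerivWithinAt (s := D)) h6
  exact (h5.hasFDerivAt (hD.mem_nhds hq.2)).fderiv

theorem cdOn_dz {a b : ℝ} (hab : a < b) {D : Set (Cn n)} (hD : IsOpen D)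
    {f : ℝ → Cn n → ℝ} (hf : ContDiffOn ℝ ∞ (fun q : ℝ × Cn n => f q.1 q.2) (Icc a b ×ˢ D))
    (k : Fin n) : ContDiffOn ℝ ∞ (fun q : ℝ × Cn n => dz (f q.1) q.2 k) (Icc a b ×ˢ D) := by
  have h1 : ContDiffOn ℝ ∞ (fun q : ℝ × Cn n => cu (f q.1) q.2) (Icc a b ×ˢ D) :=
    Complex.ofRealCLM.contDiff.comp_contDiffOn hf
  have h2 := cdOn_fderiv_slice hab hD (f := fun s => cu (f s)) h1
  have h3 : ContDiff ℝ ∞ fun L : Cn n →L[ℝ] ℂ => Crest.Agent.R275.EDR890.wdL (false, k) L := by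
    unfold Crest.Agent.R275.EDR890.wdL
    fun_prop
  exact h3.comp_contDiffOn h2

theorem contOn_inv {X : Type} [TopologicalSpace X] {D : Set X} {G : X → Mat n}
    (h : ∀ a b, ContinuousOn (fun q => G q a b) D) (h0 : ∀ q ∈ D, (G q).det ≠ 0) (a b : Fin n) :
    ContinuousOn (fun q => (G q)⁻¹ a b) D := by
  have h1 : ContinuousOn G D := continuousOn_pi.2 fun a => continuousOn_pi.2 fun b => h a b
  have h2 : ContinuousOn (fun q => (G q)⁻¹) D := by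
    intro q hq
    have h3 : ContinuousAt Ring.inverse (G q).det := by
      rw [Ring.inverse_eq_inv']
      exact continuousAt_inv₀ (h0 q hq)
    exact (continuousAt_matrix_inv _ h3).comp_continuousWithinAt (h1 q hq)
  exact continuousOn_pi.1 (continuousOn_pi.1 h2 a) b

/-- a function on `I × U` that is continuous in every chart is continuous -/
theorem continuousOn_of_charts {I : Set ℝ} {U : Set M} {f : ℝ → M → ℝ} {F : A.ι → ℝ × Cn n → ℝ}
    (h : ∀ i, ContinuousOn (F i) (I ×ˢ dom A i U))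
    (he : ∀ i, ∀ s ∈ I, ∀ x ∈ (A.e i).source, x ∈ U → f s x = F i (s, A.e i x)) :
    ContinuousOn (fun q : ℝ × M => f q.1 q.2) (I ×ˢ U) := by
  rintro ⟨s, x⟩ ⟨hs, hx⟩
  have hi := ch_mem A x
  set i := ch A x
  have h1 : ContinuousWithinAt (fun q : ℝ × M => ((q.1, A.e i q.2) : ℝ × Cn n))
      ((I ×ˢ U) ∩ {q | q.2 ∈ (A.e i).source}) (s, x) := by
    refine ContinuousAt.continuousWithinAt ?_
    exact continuousAt_fst.prodMk (((A.e i).continuousAt hi).comp continuousAt_snd)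
  have h2 := ContinuousWithinAt.comp (f := fun q : ℝ × M => ((q.1, A.e i q.2) : ℝ × Cn n))
    (x := (s, x)) (h i (s, A.e i x) ⟨hs, mem_dom hi hx⟩) h1
    (fun q hq => ⟨hq.1.1, mem_dom hq.2 hq.1.2⟩)
  have h3 : ContinuousWithinAt (fun q : ℝ × M => f q.1 q.2)
      ((I ×ˢ U) ∩ {q | q.2 ∈ (A.e i).source}) (s, x) :=
    h2.congr (fun q hq => he i q.1 hq.1.1 q.2 hq.2 hq.1.2) (he i s hs x hi hx)
  refine (continuousWithinAt_inter ?_).1 h3
  exact continuousAt_snd.preimage_mem_nhds ((A.e i).open_source.mem_nhds hi)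

/-- `Gr (g s) (f s) x` is continuous up to the end points -/
theorem cont_Gr {a b : ℝ} (hab : a < b) {U : Set M} (hU : IsOpen U) {g : ℝ → MF A}
    (hg : FlowOn a b U g) {f : ℝ → M → ℝ} (hf : SmST A (Icc a b) U f) :
    ContinuousOn (fun q : ℝ × M => Gr (g q.1) (f q.1) q.2) (Icc a b ×ˢ U) := by
  refine continuousOn_of_charts (f := fun s x => Gr (g s) (f s) x)
    (F := fun i q => gsq (g q.1 i) (inC A i (f q.1)) q.2) (fun i => ?_)
    fun i s hs x hi hx => Gr_eqT hU (hg.kah s hs).tr (smOn_of_SmST hf hs) hi hx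
  have h1 := fun k => (cdOn_dz hab (isOpen_dom i hU) (f := fun s => inC A i (f s)) (hf i)
    k).continuousOn
  have h2 := contOn_inv (G := fun q : ℝ × Cn n => g q.1 i q.2)
    (fun k l => (hg.sm i k l).continuousOn) fun q hq => by
      have h3 := ((hg.kah q.1 hq.1).kah i _ ((A.e i).map_target hq.2.1) hq.2.2).det_ne
      rwa [(A.e i).right_inv hq.2.1] at h3
  unfold gsq nqi
  refine Complex.continuous_re.comp_continuousOn ?_
  exact continuousOn_finsetSum _ fun k _ => continuousOn_finsetSum _ fun l _ =>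
    ((h2 l k).mul (h1 k)).mul (Complex.continuous_conj.comp_continuousOn (h1 l))

variable [T2Space M] [ConnectedSpace M] {K0 : Kah A} {p : M}

section step

open Stp

variable {P : Par} {I : Init K0 p} {a : ℝ} {S : Stp P I a}

section loc

variable {s : ℝ} (hs : s ∈ Ioo S.t S.b) {i : A.ι} {x : M} (hi : x ∈ (A.e i).source) (hx : x ∈ S.U)
include hs hi hx

theorem krfAt : KRFat (fun s => S.g s i) s (A.e i x) := S.flow.krf s hs i x hi hx

theorem posDef : (S.g s i (A.e i x)).PosDef := (krfAt hs hi hx).kahAt.posDef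

theorem cd_ρ : ContDiffAt ℝ ∞ (fun q : ℝ × Cn n => inC A i (S.ρ q.1) q.2) (s, A.e i x) :=
  cd_of_SmST S.op S.hρ.sm hs hi hx

theorem cd_u : ContDiffAt ℝ ∞ (fun q : ℝ × Cn n => inC A i (S.u q.1) q.2) (s, A.e i x) :=
  cd_of_SmST S.op S.hu.sm hs hi hx

theorem cd_v : ContDiffAt ℝ ∞ (fun q : ℝ × Cn n => inC A i (S.v q.1) q.2) (s, A.e i x) :=
  cd_of_SmST S.op S.hv.sm hs hi hx

theorem rg_ρ : Rg (fun s => inC A i (S.ρ s)) s (A.e i x) := Rg.of_joint (cd_ρ hs hi hx)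

theorem rg_u : Rg (fun s => inC A i (S.u s)) s (A.e i x) := Rg.of_joint (cd_u hs hi hx)

theorem rg_v : Rg (fun s => inC A i (S.v s)) s (A.e i x) := Rg.of_joint (cd_v hs hi hx)

theorem box_ρ : box (fun s => S.g s i) (fun s => inC A i (S.ρ s)) s (A.e i x) = 0 :=
  S.hρ.eq s hs i x hi hx

theorem box_u : box (fun s => S.g s i) (fun s => inC A i (S.u s)) s (A.e i x) = 0 :=
  S.hu.eq s hs i x hi hx

/-- interior times and points of `U` near `(s, e i x)` -/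
theorem ev_loc : ∀ᶠ q : ℝ × Cn n in 𝓝 (s, A.e i x), q.1 ∈ Ioo S.t S.b ∧
    (A.e i).symm q.2 ∈ (A.e i).source ∧ (A.e i).symm q.2 ∈ S.U ∧ A.e i ((A.e i).symm q.2) = q.2 := by
  have h1 : Ioo S.t S.b ×ˢ dom A i S.U ∈ 𝓝 ((s, A.e i x) : ℝ × Cn n) :=
    prod_mem_nhds (Ioo_mem_nhds hs.1 hs.2) ((isOpen_dom i S.op).mem_nhds (mem_dom hi hx))
  filter_upwards [h1] with q hq
  exact ⟨hq.1, (A.e i).map_target hq.2.1, hq.2.2, (A.e i).right_inv hq.2.1⟩

theorem Gr_ρ : Gr (S.g s) (S.ρ s) x = gsq (S.g s i) (inC A i (S.ρ s)) (A.e i x) :=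
  Gr_eqT S.op (S.flow.kah s (Ioo_subset_Icc_self hs)).tr
    (smOn_of_SmST S.hρ.sm (Ioo_subset_Icc_self hs)) hi hx

theorem Gr_u : Gr (S.g s) (S.u s) x = gsq (S.g s i) (inC A i (S.u s)) (A.e i x) :=
  Gr_eqT S.op (S.flow.kah s (Ioo_subset_Icc_self hs)).tr
    (smOn_of_SmST S.hu.sm (Ioo_subset_Icc_self hs)) hi hx

theorem gsq_ρ_le : gsq (S.g s i) (inC A i (S.ρ s)) (A.e i x) ≤ P.K := by
  rw [← Gr_ρ hs hi hx]
  exact (S.crude s (Ioo_subset_Icc_self hs) x hx).gρ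

end loc

/-- the barrier read in the chart `i` -/
def EC (S : Stp P I a) (i : A.ι) : ℝ → Cn n → ℝ :=
  Bx.Eb S.σ P.V S.t S.r fun s => inC A i (S.ρ s)

theorem EC_eq (i : A.ι) (s : ℝ) (w : Cn n) : EC S i s w = S.E s ((A.e i).symm w) := rfl

theorem EC_apply {i : A.ι} {x : M} (hi : x ∈ (A.e i).source) (s : ℝ) :
    EC S i s (A.e i x) = S.E s x := by rw [EC_eq, (A.e i).left_inv hi]

section loc2

variable {s : ℝ} (hs : s ∈ Ioo S.t S.b) {i : A.ι} {x : M} (hi : x ∈ (A.e i).source) (hx : x ∈ S.U)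
include hs hi hx

theorem cd_EC : ContDiffAt ℝ ∞ (fun q : ℝ × Cn n => EC S i q.1 q.2) (s, A.e i x) :=
  Bx.contDiffAt_Eb (cd_ρ hs hi hx)

theorem rg_EC : Rg (EC S i) s (A.e i x) := (rg_ρ hs hi hx).Eb

/-- `box E ≥ (V - K) q E` -/
theorem box_EC_ge (h : P.Ok) :
    (P.V - P.K) * S.q * S.E s x ≤ box (fun s => S.g s i) (EC S i) s (A.e i x) := by
  have h1 := Bx.box_Eb_ge (g := fun s => S.g s i) (σ := S.σ) (V := P.V) (t₀ := S.t) (S.r_pos h)
    (rg_ρ hs hi hx) (box_ρ hs hi hx).ge (gsq_ρ_le hs hi hx)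
  rw [S.div_r h] at h1
  rw [← EC_apply hi s]
  exact h1

/-- `|∂ E|² ≤ K q E²` -/
theorem gsq_EC_le (h : P.Ok) :
    gsq (S.g s i) (EC S i s) (A.e i x) ≤ P.K * S.q * S.E s x ^ 2 := by
  have h1 := Bx.gsq_Eb (g := fun s => S.g s i) (σ := S.σ) (V := P.V) (t₀ := S.t) (r := S.r)
    (rg_ρ hs hi hx)
  have h2 := gsq_ρ_le hs hi hx
  change gsq (S.g s i) (EC S i s) (A.e i x) = (EC S i s (A.e i x) / S.r) ^ 2 * _ at h1
  rw [h1, EC_apply hi s, div_pow, S.div_r h]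
  have h3 : 0 ≤ S.E s x ^ 2 * S.q := mul_nonneg (sq_nonneg _) (S.q_pos h).le
  nlinarith

end loc2

variable (h : P.Ok)
include h

theorem cont_GrK {f : ℝ → M → ℝ} (hf : SmST A (Icc S.t S.b) S.U f) :
    ContinuousOn (fun q : ℝ × M => Gr (S.g q.1) (f q.1) q.2) (Icc S.t S.t' ×ˢ S.Kc) :=
  (cont_Gr ((S.t_lt h).trans S.lt') S.op S.flow hf).mono (cyl_sub h)

theorem cont_K {f : ℝ → M → ℝ} (hf : SmST A (Icc S.t S.b) S.U f) :
    ContinuousOn (fun q : ℝ × M => f q.1 q.2) (Icc S.t S.t' ×ˢ S.Kc) :=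
  (continuousOn_of_SmST hf).mono (cyl_sub h)

/-- **maximum principle on `{ρ ≤ sg - c r}`**, ratio form -/
theorem touch {c : ℝ} (hc : 0 ≤ c) {F α β : ℝ → M → ℝ} {Λ0 : ℝ}
    (hF : UpperSemicontinuousOn (fun q : ℝ × M => F q.1 q.2) (Icc S.t S.t' ×ˢ S.Kc))
    (hα : ContinuousOn (fun q : ℝ × M => α q.1 q.2) (Icc S.t S.t' ×ˢ S.Kc))
    (hβ : ContinuousOn (fun q : ℝ × M => β q.1 q.2) (Icc S.t S.t' ×ˢ S.Kc))
    (hβ0 : ∀ s ∈ Icc S.t S.t', ∀ x ∈ S.Kc, S.ρ s x ≤ S.sg s - c * S.r → 0 < β s x)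
    (hbot : ∀ x ∈ S.Kc, S.ρ S.t x ≤ S.sg S.t - c * S.r → F S.t x ≤ α S.t x + Λ0 * β S.t x)
    (hlat : ∀ s ∈ Icc S.t S.t', ∀ x ∈ S.Kc, S.ρ s x = S.sg s - c * S.r →
      F s x ≤ α s x + Λ0 * β s x)
    (hI : ∀ s ∈ Icc S.t S.t', S.t < s → ∀ x ∈ S.Kc, S.ρ s x < S.sg s - c * S.r → ∀ Λ, Λ0 < Λ →
      F s x = α s x + Λ * β s x →
      (∀ s' ∈ Icc S.t S.t', s' ≤ s → ∀ y ∈ S.Kc, S.ρ s' y ≤ S.sg s' - c * S.r →
        F s' y ≤ α s' y + Λ * β s' y) →
      (∀ i, x ∈ (A.e i).source → ∀ᶠ q in past s (A.e i x),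
        inC A i (F q.1) q.2 ≤ inC A i (α q.1) q.2 + Λ * inC A i (β q.1) q.2) → False) :
    ∀ s ∈ Icc S.t S.t', ∀ x ∈ S.Kc, S.ρ s x ≤ S.sg s - c * S.r → F s x ≤ α s x + Λ0 * β s x := by
  have hsub : Tch.MD S.t S.t' S.Kc (fun q => S.ρ q.1 q.2) (fun s => S.sg s - c * S.r) ⊆
      Icc S.t S.t' ×ˢ S.Kc := fun q hq => ⟨⟨hq.1, hq.2.1⟩, hq.2.2.1⟩
  have hcr : 0 ≤ c * S.r := mul_nonneg hc (S.r_pos h).le
  have key := Tch.touch_MD (t₁ := S.t) (t₂ := S.t') S.cptK (ρ := fun q => S.ρ q.1 q.2)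
    (σ := fun s => S.sg s - c * S.r) (cont_ρK h)
    (continuous_sg.sub continuous_const).continuousOn
    (fun q hq => hint h ⟨hq.1, hq.2.1⟩ hq.2.2.1 (by linarith [hq.2.2.2]))
    (h := fun q => F q.1 q.2) (a := fun q => α q.1 q.2) (b := fun q => β q.1 q.2) (K := Λ0)
    (hF.mono hsub) (hα.mono hsub) (hβ.mono hsub)
    (fun q hq => hβ0 q.1 ⟨hq.1, hq.2.1⟩ q.2 hq.2.2.1 hq.2.2.2)
    (fun q hq e => by
      have h1 := hq.2.2.2
      simp only [e] at h1 ⊢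
      exact hbot q.2 hq.2.2.1 h1)
    (fun q hq e => hlat q.1 ⟨hq.1, hq.2.1⟩ q.2 hq.2.2.1 e)
    (fun q hq h1 h2 Λ hΛ e hg hl => hI q.1 ⟨hq.1, hq.2.1⟩ h1 q.2 hq.2.2.1 h2 Λ hΛ e
      (fun s' hs' hss y hy hρ => hg (s', y) ⟨hs'.1, hs'.2, hy, hρ⟩ hss)
      fun i hi => past_chart hi hl)
  exact fun s hs x hx hρ => key (s, x) ⟨hs.1, hs.2, hx, hρ⟩

/-- **barrier `c₀ E`** with support functions -/
theorem touchE {F : ℝ → M → ℝ} {c0 : ℝ} (hc0 : 0 ≤ c0)
    (hF : UpperSemicontinuousOn (fun q : ℝ × M => F q.1 q.2) (Icc S.t S.t' ×ˢ S.Kc))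
    (hbot : ∀ x ∈ S.Kc, F S.t x ≤ c0 * S.E S.t x)
    (hout : ∀ s ∈ Icc S.t S.t', ∀ x ∈ S.Kc, 1 ≤ S.E s x → F s x ≤ c0 * S.E s x)
    (hI : ∀ s ∈ Icc S.t S.t', S.t < s → ∀ x ∈ S.Kc, S.E s x < 1 → c0 * S.E s x < F s x →
      ∀ ε : ℝ, 0 < ε → ∃ i, x ∈ (A.e i).source ∧ ∃ Ft : ℝ → Cn n → ℝ, Rg Ft s (A.e i x) ∧
        (∀ᶠ q in past s (A.e i x), Ft q.1 q.2 ≤ inC A i (F q.1) q.2) ∧ Ft s (A.e i x) = F s x ∧
        box (fun s => S.g s i) Ft s (A.e i x) ≤ c0 * ((P.V - P.K) * S.q * S.E s x) + ε) :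
    ∀ s ∈ Icc S.t S.t', ∀ x ∈ S.Kc, F s x ≤ c0 * S.E s x := by
  have key := touch h (c := 0) le_rfl (F := F) (α := fun _ _ => 0) (β := S.E) (Λ0 := c0) hF
    continuousOn_const (cont_E h) (fun s _ x _ _ => E_pos s x)
    (fun x hx _ => by simpa using hbot x hx)
    (fun s hs x hx e => by
      simpa using hout s hs x hx ((one_le_E_iff h).2 (by simpa using e.ge))) ?_
  · intro s hs x hx
    rcases le_total (S.E s x) 1 with h1 | h1
    · simpa using key s hs x hx (by simpa using (E_le_one_iff h).1 h1)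
    · exact hout s hs x hx h1
  · intro s hs hts x hx hρ Λ hΛ e _ hl
    have hE := E_pos (S := S) s x
    have hE1 : S.E s x < 1 := lt_of_not_ge fun h1 => by
      have := (one_le_E_iff h).1 h1
      linarith
    have e' : F s x = Λ * S.E s x := by simpa using e
    have hgt : c0 * S.E s x < F s x := by rw [e']; exact mul_lt_mul_of_pos_right hΛ hE
    have hVK : 0 < (P.V - P.K) * S.q := mul_pos (by linarith [h.KV]) (S.q_pos h)
    have hε : 0 < (P.V - P.K) * S.q * (F s x - c0 * S.E s x) := mul_pos hVK (by linarith)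
    obtain ⟨i, hi, Ft, hr, hle, heq, hb⟩ := hI s hs hts x hx hE1 hgt _ (half_pos hε)
    have hs' := mem_Ioo h hs hts
    have h1 := Bx.box_le_of_touch (g := fun s => S.g s i) (posDef hs' hi hx.1) hr
      ((rg_EC hs' hi hx.1).const_mul Λ) ?_ (by rw [heq, EC_apply hi, e'])
    · rw [Bx.box_const_mul Λ (rg_EC hs' hi hx.1)] at h1
      have h2 := mul_le_mul_of_nonneg_left (box_EC_ge hs' hi hx.1 h) (hc0.trans hΛ.le)
      have h3 : Λ * ((P.V - P.K) * S.q * S.E s x) = (P.V - P.K) * S.q * F s x := by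
        rw [e']; ring
      have h4 : c0 * ((P.V - P.K) * S.q * S.E s x) = (P.V - P.K) * S.q * F s x -
          (P.V - P.K) * S.q * (F s x - c0 * S.E s x) := by ring
      linarith
    · filter_upwards [hle, hl i hi] with q h1 h2
      simp only [inC, zero_add] at h1 h2
      exact h1.trans h2

end step

end

end Crest.Agent.T223.Os.T24
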