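import Crest.Agent.T223.LoE_18
import Crest.Agent.T223.OsTch_24

/-!
# T223, module OSG, leaf (f) (helper18): `lfStmt : Os.LfStmt n`

`c + ε ρ - ζ - (C / α) S` is a subsolution of the heat equation in the support sense.
-/

set_option autoImplicit false
set_option linter.unusedSectionVars false
set_option linter.unusedVariables false

open Set Filter Topology Metric
open scoped ContDiff ComplexConjugate Matrix ComplexOrder

noncomputable section

namespace Crest.Agent.T223.Lo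

open Crest.Agent.R275.Geo Crest.Agent.R273.Kah_333 Crest.Agent.R273.Hess_333
open Crest.Agent.T223.Br Crest.Agent.T223.Tr Crest.Agent.T223.Os
open Crest.Agent.T223.Db (dom SmST)
open Crest.Agent.T223.Bx (Rg)

variable {n : ℕ} {M : Type} [TopologicalSpace M] {A : Atl n M}
variable [T2Space M] [ConnectedSpace M] {K0 : Kah A} {p : M} {P : Par} {I : Init K0 p} {a : ℝ}
variable {S : Stp P I a}

/-- `∂_s S = n + s R` along the time lines -/
theorem hasDerivAt_osSf {s : ℝ} (hs : s ∈ Ioo S.t S.b) {x : M} (hx : x ∈ S.U) :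
    HasDerivAt (fun s => Os.Sf K0 (S.g s) (S.v s) s x) (n + s * Sc (S.g s) x) s := by
  have h1 := ((S.hv.dt s hs x hx).add ((hasDerivAt_id s).mul (hasDerivAt_lv K0 S.flow hs hx))).add
    ((hasDerivAt_id s).const_mul (n : ℝ))
  refine HasDerivAt.congr_deriv h1 ?_
  simp only [id]
  ring

theorem cont_osSf : ContinuousOn (fun q : ℝ × M => Os.Sf K0 (S.g q.1) (S.v q.1) q.1 q.2)
    (Icc S.t S.b ×ˢ S.U) :=
  ((continuousOn_of_SmST S.hv.sm).add
    (continuousOn_fst.mul (continuousOn_of_SmST (smST_lv K0 S.flow)))).add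
    (continuousOn_const.mul continuousOn_fst)

/-- `S` read in a chart -/
def SC (S : Stp P I a) (i : A.ι) : ℝ → Cn n → ℝ :=
  Lo.Sf (gc K0 i) (fun s => S.g s i) fun s => inC A i (S.v s)

section loc

variable {s : ℝ} (hs : s ∈ Ioo S.t S.b) {i : A.ι} {x : M} (hi : x ∈ (A.e i).source) (hx : x ∈ S.U)
include hs hi hx

theorem SC_apply : SC S i s (A.e i x) = Os.Sf K0 (S.g s) (S.v s) s x := by
  unfold SC Lo.Sf Os.Sf
  rw [lv_eq K0 (S.flow.kah s (Ioo_subset_Icc_self hs)) hi hx]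
  simp only [Os.inC_apply _ hi]
  rfl

theorem SC_ev : ∀ᶠ q : ℝ × Cn n in 𝓝 (s, A.e i x),
    SC S i q.1 q.2 = Os.Sf K0 (S.g q.1) (S.v q.1) q.1 ((A.e i).symm q.2) := by
  filter_upwards [T24.ev_loc hs hi hx] with q hq
  rw [← SC_apply hq.1 hq.2.1 hq.2.2.1, hq.2.2.2]

theorem rg_SC : Rg (SC S i) s (A.e i x) :=
  Rg.of_joint (contDiffAt_Sf (T24.krfAt hs hi hx) (kahAt_gc K0 ((A.e i).map_source hi))
    (T24.cd_v hs hi hx))

theorem box_SC : box (fun s => S.g s i) (SC S i) s (A.e i x) =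
    trg (S.g s i (A.e i x)) (gc K0 i (A.e i x)) := by
  refine box_Sf (T24.krfAt hs hi hx) (kahAt_gc K0 ((A.e i).map_source hi))
    (T24.rg_v hs hi hx).sp ?_ (S.hv.pot s (Ioo_subset_Icc_self hs) i x hi hx)
  have h1 := S.hv.dt s hs x hx
  rw [lv_eq K0 (S.flow.kah s (Ioo_subset_Icc_self hs)) hi hx] at h1
  simp only [Os.inC_apply _ hi]
  refine h1.congr_deriv ?_
  unfold lvol
  ring

end loc

/-- the two inequalities of (f) at once -/
theorem of_gen (h : P.Ok) (hK : 2 * (P.K + P.Cb * (n ^ 2 * P.K)) ≤ P.K1) (S : Stp P I a)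
    {c ε α : ℝ} (hε : |ε| ≤ 1) (hα : 1 ≤ α) (y : M)
    (hbot : ∀ x ∈ S.Kc, c + ε * S.ρ S.t x - zt K0 y α x -
      P.Cb / α * Os.Sf K0 (S.g S.t) (S.v S.t) S.t x ≤
        P.K1 * (1 + S.t) * (min (S.E S.t x) 1 / P.J)) :
    ∀ s ∈ Icc S.t S.t', ∀ x ∈ S.Kc, c + ε * S.ρ s x - zt K0 y α x -
      P.Cb / α * Os.Sf K0 (S.g s) (S.v s) s x ≤ P.K1 * (1 + s) * S.E s x := by
  have hK0 := h.K0
  have hK1 := h.K10
  have hC0 := h.Cb0
  have hq := S.q_pos h
  have hqr := S.q_r h
  have hα0 : 0 < α := by linarith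
  have hCα : 0 ≤ P.Cb / α := by positivity
  have hCα' : P.Cb / α ≤ P.Cb := div_le_self hC0.le hα
  have hpos : ∀ {s : ℝ}, s ∈ Icc S.t S.t' → 0 < 1 + s := fun hs => by
    linarith [Stp.nonneg h hs]
  have key := T24.touchE h (S := S) (c0 := P.K1)
    (F := fun s x => (1 + s)⁻¹ * (c + ε * S.ρ s x - zt K0 y α x -
      P.Cb / α * Os.Sf K0 (S.g s) (S.v s) s x)) hK1.le ?_ ?_ ?_ ?_
  · intro s hs x hx
    have h1 := key s hs x hx
    rw [inv_mul_le_iff₀ (hpos hs)] at h1
    linarith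
  · refine ContinuousOn.upperSemicontinuousOn ?_
    refine ContinuousOn.mul ((continuousOn_const.add continuousOn_fst).inv₀
      fun q hq => (hpos hq.1).ne') ?_
    refine ((continuousOn_const.add (continuousOn_const.mul (Stp.cont_ρK h))).sub
      ((continuous_zeta K0 y α).comp continuous_snd).continuousOn).sub
      (continuousOn_const.mul (cont_osSf.mono (Stp.cyl_sub h)))
  · intro x hx
    have ht : S.t ∈ Icc S.t S.t' := ⟨le_rfl, (S.t_lt h).le⟩
    rw [inv_mul_le_iff₀ (hpos ht)]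
    have h1 := hbot x hx
    have h2 := Stp.e0_le h ht hx
    have h3 := Stp.E_pos (S := S) S.t x
    have h4 : P.K1 * (1 + S.t) * (min (S.E S.t x) 1 / P.J) ≤ P.K1 * (1 + S.t) * S.E S.t x :=
      mul_le_mul_of_nonneg_left (by linarith) (mul_pos hK1 (hpos ht)).le
    linarith
  · intro s hs x hx hE
    rw [inv_mul_le_iff₀ (hpos hs)]
    have hs0 := Stp.nonneg h hs
    have h1 := hbot x hx
    have h2 := Stp.e0_le' h (S := S) x
    have h3 : P.K1 * (1 + S.t) * (min (S.E S.t x) 1 / P.J) ≤ P.K1 * (1 + s) * (1 / 16) := by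
      have := (Stp.e0_pos h (S := S) x).le
      have := hs.1
      gcongr
    have h4 : ε * (S.ρ s x - S.ρ S.t x) ≤ P.K := by
      have h5 := (Stp.crudeK h hs hx).oρ
      have h6 := mul_le_mul_of_nonneg_left (S.r_le_one h) hK0.le
      calc _ ≤ |ε * (S.ρ s x - S.ρ S.t x)| := le_abs_self _
        _ = |ε| * |S.ρ s x - S.ρ S.t x| := abs_mul _ _
        _ ≤ 1 * (P.K * S.r) := mul_le_mul hε h5 (abs_nonneg _) zero_le_one
        _ ≤ _ := by linarith
    have h5 := le_add_of_deriv (f := fun s => -Os.Sf K0 (S.g s) (S.v s) s x)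
      (f' := fun s => -(n + s * Sc (S.g s) x)) (c := s * (n ^ 2 * (P.K * S.q))) hs.1
      ((cont_osSf.comp (continuous_id.prodMk continuous_const).continuousOn fun s' hs' =>
        ⟨⟨hs'.1, hs'.2.trans (Stp.mem_Icc h hs).2⟩, hx.1⟩).neg) fun s' hs' => by
        have hs'' : s' ∈ Icc S.t S.t' := ⟨hs'.1.le, hs'.2.le.trans hs.2⟩
        refine ⟨(hasDerivAt_osSf (Stp.mem_Ioo h hs'' hs'.1) hx.1).neg, ?_⟩
        have h6 := scal_ge ((S.flow.kah s' (Stp.mem_Icc h hs'')).kah _ x (ch_mem A x) hx.1)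
          ((Stp.crudeK h hs'' hx).bk _ (ch_mem A x)).1
        rw [S.div_r h] at h6
        have h7 := mul_le_mul_of_nonneg_left h6 (Stp.nonneg h hs'')
        have h8 : s' * (n ^ 2 * (P.K * S.q)) ≤ s * (n ^ 2 * (P.K * S.q)) :=
          mul_le_mul_of_nonneg_right hs'.2.le (by positivity)
        have h9 : (0 : ℝ) ≤ n := Nat.cast_nonneg n
        unfold Sc
        linarith
    have h6 : s * (n ^ 2 * (P.K * S.q)) * (s - S.t) ≤ s * (n ^ 2 * P.K) := by
      have h7 : S.q * (s - S.t) ≤ 1 := by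
        rw [← hqr]; exact mul_le_mul_of_nonneg_left (Stp.sub_le h hs) hq.le
      calc _ = s * (n ^ 2 * P.K) * (S.q * (s - S.t)) := by ring
        _ ≤ s * (n ^ 2 * P.K) * 1 := mul_le_mul_of_nonneg_left h7 (by positivity)
        _ = _ := mul_one _
    have h7 : P.Cb / α * (Os.Sf K0 (S.g S.t) (S.v S.t) S.t x - Os.Sf K0 (S.g s) (S.v s) s x) ≤
        P.Cb * (s * (n ^ 2 * P.K)) :=
      (mul_le_mul_of_nonneg_left (by linarith) hCα).trans
        (mul_le_mul_of_nonneg_right hCα' (by positivity))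
    have h8 : (1 + s) * P.K1 ≤ (1 + s) * (P.K1 * S.E s x) :=
      mul_le_mul_of_nonneg_left (le_mul_of_one_le_right hK1.le hE) (hpos hs).le
    have h9 := mul_le_mul_of_nonneg_left hK (hpos hs).le
    have h10 : 0 ≤ s * P.K := by positivity
    have h11 : 0 ≤ P.Cb * (n ^ 2 * P.K) := by positivity
    have h12 : 0 ≤ (1 + s) * P.K1 := by positivity
    nlinarith
  · intro s hs hts x hx hE hgt η hη
    have hs' := Stp.mem_Ioo h hs hts
    have hi := ch_mem A x
    set i := ch A x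
    obtain ⟨b, hb1, hb2, hb3, hb4⟩ := zeta_supp I y hα0 hi
    have hEp := Stp.E_pos (S := S) s x
    have hr1 : Rg (fun s w => c + ε * inC A i (S.ρ s) w) s (A.e i x) :=
      (Rg.const c).add ((T24.rg_ρ hs' hi hx.1).const_mul ε)
    have hr2 : Rg (fun s w => c + ε * inC A i (S.ρ s) w - b w) s (A.e i x) :=
      hr1.sub (Rg.static hb1)
    have hr3 := (rg_SC hs' hi hx.1).const_mul (P.Cb / α)
    have hr : Rg (fun s w => c + ε * inC A i (S.ρ s) w - b w - P.Cb / α * SC S i s w) s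
        (A.e i x) := hr2.sub hr3
    have hd : HasDerivAt (fun s : ℝ => (1 + s)⁻¹) (-1 / (1 + s) ^ 2) s :=
      ((hasDerivAt_id s).const_add 1).inv (hpos hs).ne'
    have hval : c + ε * inC A i (S.ρ s) (A.e i x) - b (A.e i x) - P.Cb / α * SC S i s (A.e i x) =
        c + ε * S.ρ s x - zt K0 y α x - P.Cb / α * Os.Sf K0 (S.g s) (S.v s) s x := by
      rw [Os.inC_apply _ hi, hb2, SC_apply hs' hi hx.1]
      rfl
    refine ⟨i, hi, fun s w => (1 + s)⁻¹ *
      (c + ε * inC A i (S.ρ s) w - b w - P.Cb / α * SC S i s w),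
      (Rg.time hd.differentiableAt).mul hr, ?_, by simp only [hval], ?_⟩
    · refine Filter.Eventually.filter_mono nhdsWithin_le_nhds ?_
      have h1 : ∀ᶠ q : ℝ × Cn n in 𝓝 (s, A.e i x), 0 < 1 + q.1 :=
        (continuous_const.add continuous_fst).continuousAt.eventually
          (lt_mem_nhds (a := (0 : ℝ)) (hpos hs))
      filter_upwards [h1, SC_ev hs' hi hx.1,
        (continuous_snd.tendsto (s, A.e i x)).eventually hb3] with q h1 h2 h3
      refine mul_le_mul_of_nonneg_left ?_ (inv_nonneg.2 h1.le)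
      rw [h2]
      have h4 : zt K0 y α ((A.e i).symm q.2) ≤ b q.2 := h3
      simp only [inC]
      linarith
    · rw [Bx.box_time_mul hd hr, Bx.box_sub hr2 hr3, Bx.box_sub hr1 (Rg.static hb1),
        Bx.box_add (Rg.const c) ((T24.rg_ρ hs' hi hx.1).const_mul ε), Bx.box_const,
        Bx.box_const_mul ε (T24.rg_ρ hs' hi hx.1), T24.box_ρ hs' hi hx.1,
        Bx.box_const_mul _ (rg_SC hs' hi hx.1), box_SC hs' hi hx.1, Bx.box_static]
      simp only [hval]
      have hp := T24.posDef hs' hi hx.1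
      have h0 := (kahAt_gc K0 ((A.e i).map_source hi)).posDef
      have h1 : lap (S.g s i) b (A.e i x) ≤
          P.Cb / (2 * α) * trg (S.g s i (A.e i x)) (gc K0 i (A.e i x)) := by
        rw [← trg_smul]
        refine trg_mono hp (hess_herm hb1) (h0.1.smul (by simp [IsSelfAdjoint])) fun v => ?_
        rw [nq_smul, ← S.hC]
        exact hb4 v
      have h2 : 0 ≤ trg (S.g s i (A.e i x)) (gc K0 i (A.e i x)) :=
        trg_nonneg hp h0.1 fun v => nq_nonneg h0.posSemidef v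
      have h3 : P.Cb / (2 * α) = P.Cb / α / 2 := by field_simp
      have h4 := mul_nonneg hCα h2
      have h5 : 0 < (1 + s)⁻¹ := inv_pos.2 (hpos hs)
      have h6 : 0 < c + ε * S.ρ s x - zt K0 y α x - P.Cb / α * Os.Sf K0 (S.g s) (S.v s) s x :=
        (mul_pos_iff_of_pos_left h5).1 ((mul_pos hK1 hEp).trans hgt)
      have h7 : 0 ≤ P.K1 * ((P.V - P.K) * S.q * S.E s x) := by
        have : 0 < P.V - P.K := by linarith [h.KV]
        positivity
      have h8 : -1 / (1 + s) ^ 2 * (c + ε * S.ρ s x - zt K0 y α x -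
          P.Cb / α * Os.Sf K0 (S.g s) (S.v s) s x) ≤ 0 :=
        mul_nonpos_of_nonpos_of_nonneg (div_nonpos_of_nonpos_of_nonneg (by norm_num) (sq_nonneg _))
          h6.le
      have h9 : (1 + s)⁻¹ * (0 + ε * 0 - -lap (S.g s i) b (A.e i x) -
          P.Cb / α * trg (S.g s i (A.e i x)) (gc K0 i (A.e i x))) ≤ 0 :=
        mul_nonpos_of_nonneg_of_nonpos h5.le (by rw [h3] at h1; linarith)
      linarith

theorem of_of (h : P.Ok) (hK : 2 * (P.K + P.Cb * (n ^ 2 * P.K)) ≤ P.K1) (S : Stp P I a) :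
    S.OF := by
  intro s hs x hx α hα
  refine ⟨fun y => ?_, ?_⟩
  · have h1 := of_gen h hK S (c := dK K0 p y - 1) (ε := -1) (by simp) hα y
      (fun x hx => by linarith [((S.init' hx).if' α hα).1 y]) s hs x hx
    linarith
  · have h1 := of_gen h hK S (c := -1) (ε := 1) (by simp) hα p
      (fun x hx => by linarith [((S.init' hx).if' α hα).2]) s hs x hx
    linarith

/-- **leaf (f)** -/
theorem lfStmt (n : ℕ) : LfStmt n := by
  unfold LfStmt Leaf
  refine Os.Ev.of_thr (fun _ => 0) (fun _ _ => 0)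
    (fun Cb K _ => 2 * (K + Cb * (n ^ 2 * K))) (fun _ _ _ _ _ _ => 0) ?_
  intro P h _ _ hK _ M _ _ _ A K0 p I a S
  exact of_of h hK S

end Crest.Agent.T223.Lo
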