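import Crest.Agent.T223.OsBas_21
import Crest.Agent.T223.EvC_41
import Crest.Agent.T223.FrB_38
import Crest.Agent.T223.TrRic_90

/-!
# Row 223, module OSG (helper89): leaf APX, from the exported flows to `Apx`
-/

set_option autoImplicit false

open Set Filter Topology Metric
open scoped ContDiff ComplexConjugate Matrix ComplexOrder

namespace Crest.Agent.T223.Os

open Crest.Agent.R275.Geo Crest.Agent.R273.Kah_333 Crest.Agent.R273.Hess_333
open Crest.Agent.T223.Br Crest.Agent.T223.Tr Crest.Agent.R273.RMan4_798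

namespace Ax89

variable {n : ℕ} {M : Type} [TopologicalSpace M] {A : Atl n M}

theorem nq0 {g : Cn n → Mat n} {z : Cn n} (h : KahAt g z) (v : Cn n) : 0 ≤ nq (g z) v :=
  Ev.nq_nonneg h.posDef.posSemidef v

theorem bkge_mono {g : Cn n → Mat n} {z : Cn n} (h : KahAt g z) {l l' : ℝ} (hl : BKge g z l)
    (e : l ≤ l') : BKge g z l' := fun v w => by
  refine le_trans (neg_le_neg ?_) (hl v w)
  exact mul_le_mul_of_nonneg_right (mul_le_mul_of_nonneg_right e (nq0 h v)) (nq0 h w)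

theorem bkle_mono {g : Cn n → Mat n} {z : Cn n} (h : KahAt g z) {l l' : ℝ} (hl : BKle g z l)
    (e : l ≤ l') : BKle g z l' := fun v w =>
  (hl v w).trans (mul_le_mul_of_nonneg_right (mul_le_mul_of_nonneg_right e (nq0 h v)) (nq0 h w))

theorem bkge_of_lyhGe {G : MF A} {τ κ θ : ℝ} {x : M} (h : LyhGe G τ κ θ x) {i : A.ι}
    (hi : x ∈ (A.e i).source) : BKge (G i) (A.e i x) θ := fun v w => by
  have := h i hi 0 w v
  simp only [lyhS, norm_zero, ne_eq, OfNat.ofNat_ne_zero, not_false_eq_true, zero_pow, mul_zero,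
    add_zero, zero_mul, map_zero, Complex.zero_re, zero_add] at this
  linarith

/-- `lyh` with parameter `t` from `lyhS` with a larger parameter -/
theorem lyh_ge {g : ℝ → Cn n → Mat n} {t τ t1 η : ℝ} {z : Cn n} (h : KRFat g t z) (h1 : 0 < t1)
    (h2 : t1 ≤ t) (h3 : t ≤ τ) (hη : 0 ≤ η) (hb : BKge (g t) z η) (c : ℂ) (a v : Cn n) :
    lyhS (g t) τ z c a v - ‖c‖ ^ 2 * (n * η / t1 * nq (g t z) v) ≤ lyh g t t z c a v := by
  have h4 := ric_ge_of_BKge h.kahAt hb v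
  have h5 := nq0 h.kahAt v
  have ht : 0 < t := h1.trans_le h2
  have h6 : τ⁻¹ ≤ t⁻¹ := inv_anti₀ ht h3
  have h7 : t⁻¹ ≤ t1⁻¹ := inv_anti₀ h1 h2
  have h8 : 0 ≤ τ⁻¹ := inv_nonneg.2 (ht.le.trans h3)
  have h9 : 0 ≤ (n : ℝ) * η * nq (g t z) v := by positivity
  have h10 : τ⁻¹ * nq (ric (g t) z) v - n * η / t1 * nq (g t z) v ≤ t⁻¹ * nq (ric (g t) z) v := by
    have e1 := mul_le_mul_of_nonneg_left h4 (sub_nonneg.2 h6)
    have e2 := mul_le_mul_of_nonneg_right (show t⁻¹ - τ⁻¹ ≤ t1⁻¹ by linarith) h9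
    rw [div_eq_mul_inv]
    nlinarith
  have h11 := mul_le_mul_of_nonneg_left h10 (sq_nonneg ‖c‖)
  rw [lyh, lyhS, h.ricT_eq_hess]
  simp only [Ev.nq_add, Ev.nq_smul]
  nlinarith

theorem lipOn_mono {G : MF A} {U V : Set M} {c c' : ℝ} {ρ : M → ℝ} (h : LipOn G U c ρ)
    (hV : V ⊆ U) (hc : c ≤ c') : LipOn G V c' ρ := fun i x hi hx ε hε => by
  filter_upwards [h i x hi (hV hx) ε hε] with w hw
  exact hw.trans (mul_le_mul_of_nonneg_right (by linarith) (Real.sqrt_nonneg _))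

/-- a bound for `Ψ` that does not depend on the time shift -/
theorem Ψ_le {P : Par} (h : P.Ok) {x X s t1 T : ℝ} (hx : 0 ≤ x) (hX : x ≤ X) (h1 : 0 < t1)
    (h2 : t1 ≤ s) (h3 : s ≤ T) :
    P.Ψ x s ≤ (X + P.B * (1 + T) ^ 2) ^ 2 *
      (Real.log (X + P.B * (1 + T) ^ 2) + P.B + Real.log (1 + 1 / t1)) ^ 2 := by
  have hs : 0 ≤ s := h1.le.trans h2
  have e1 : P.ρs s ≤ P.B * (1 + T) ^ 2 := h.ρs_mono hs h3
  have e2 := h.one_le_ρs hs
  have e3 : P.ell x s ≤ Real.log (X + P.B * (1 + T) ^ 2) + P.B + Real.log (1 + 1 / t1) := by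
    have f1 : Real.log (x + P.ρs s) ≤ Real.log (X + P.B * (1 + T) ^ 2) :=
      Real.log_le_log (by linarith) (by linarith)
    have f2 : Real.log (1 + 1 / P.τ s) ≤ Real.log (1 + 1 / t1) := by
      have := h.τ_pos hs
      refine Real.log_le_log (by positivity) ?_
      have := one_div_le_one_div_of_le h1 (h2.trans h.le_τ)
      linarith
    rw [Par.ell]
    linarith
  exact mul_le_mul (pow_le_pow_left₀ (by linarith) (by linarith) 2)
    (pow_le_pow_left₀ (h.ell_pos hx hs).le e3 2) (sq_nonneg _) (sq_nonneg _)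

variable [T2Space M] [ConnectedSpace M]

theorem cont_dK (K : Kah A) (x : M) : Continuous fun y : M => dK K x y := by
  have h : Continuous fun y : (ofKah K).M => dist (α := (ofKah K).M) x y :=
    continuous_const.dist continuous_id
  exact h

theorem exists_bdd (K : Kah A) (p : M) {Q : Set M} (hQ : IsCompact Q) :
    ∃ D : ℝ, 0 ≤ D ∧ ∀ x ∈ Q, dK K p x ≤ D := by
  obtain ⟨D, hD⟩ := hQ.bddAbove_image (cont_dK K p).continuousOn
  exact ⟨max D 0, le_max_right _ _, fun x hx => (hD ⟨x, hx, rfl⟩).trans (le_max_left _ _)⟩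

theorem ev_big (K : Kah A) (p : M) {Q : Set M} (hQ : IsCompact Q) (T : ℝ) {ε : ℝ} (hε : 0 < ε) :
    ∀ᶠ k : ℕ in atTop, Q ⊆ {x | dK K p x < k + 1} ∧ T ≤ k ∧ 1 / ((k : ℝ) + 1) ≤ ε := by
  obtain ⟨D, -, hD⟩ := exists_bdd K p hQ
  filter_upwards [tendsto_natCast_atTop_atTop.eventually_ge_atTop D,
    tendsto_natCast_atTop_atTop.eventually_ge_atTop T,
    tendsto_one_div_add_atTop_nhds_zero_nat.eventually (ge_mem_nhds hε)] with k h1 h2 h3
  exact ⟨fun x hx => by have := hD x hx; simp only [mem_ofPred_eq]; linarith, h2, h3⟩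

end Ax89

open Ax89

/-- leaf APX -/
theorem apxStmt (n : ℕ) : ApxStmt n := by
  intro M _ _ _ A K0 p I Cb K V K1 Λ L B δ h
  choose tA a T G hP htA hT hF hO using h
  have hB : 1 ≤ B := (hP 0).B1
  have hΛ : 1 ≤ Λ := (hP 0).Λ1
  have hop : ∀ k : ℕ, IsOpen {x | dK K0 p x < k + 1} := fun k =>
    isOpen_lt (cont_dK K0 p) continuous_const
  have hη : ∀ k : ℕ, (0 : ℝ) ≤ 1 / (k + 1) := fun k => by positivity
  have hI : ∀ {k : ℕ} {T0 t : ℝ}, T0 ≤ k → 0 < t → t ≤ T0 → t ∈ Ioo 0 (T k) :=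
    fun h1 h2 h3 => ⟨h2, (h3.trans h1).trans_lt (hT _)⟩
  have hlv : ∀ {k : ℕ} {t : ℝ}, t ∈ Ioo 0 (T k) → ∀ {i : A.ι} {x : M}, x ∈ (A.e i).source →
      dK K0 p x < k + 1 → lvol K0 (G k t) i x = lv K0 (G k t) x := fun ht i x hi hx =>
    have hk := (hF _).kah _ (Ioo_subset_Icc_self ht)
    lvol_indep K0 hk.tr hi (ch_mem A x) hx (hk.kah _ x (ch_mem A x) hx).posDef
  refine ⟨⟨G, fun T0 Q hQ => ?_, fun T0 Q hQ ε hε => ?_, fun t1 T0 Q ht1 hQ ε hε => ?_,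
    fun T0 Q hQ ε hε => ?_, fun T0 Q hQ => ?_, fun t1 T0 Q ht1 hQ => ?_, fun T0 => ?_,
    B, fun T0 => ?_⟩⟩
  · filter_upwards [ev_big K0 p hQ T0 one_pos] with k ⟨h1, h2, _⟩ t ht
    have ht' := hI h2 ht.1 ht.2
    exact ⟨((hF k).kah t (Ioo_subset_Icc_self ht')).tr.mono h1,
      fun i x hi hx => (hF k).krf t ht' i x hi (h1 hx)⟩
  · filter_upwards [ev_big K0 p hQ T0 hε] with k ⟨h1, h2, h3⟩ t ht i x hi hx
    have ht' := Ioo_subset_Icc_self (hI h2 ht.1 ht.2)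
    obtain ⟨ρ, -, -, -, hx'⟩ := hO k t ht'
    exact bkge_mono (((hF k).kah t ht').kah i x hi (h1 hx))
      (bkge_of_lyhGe (hx' x (h1 hx)).1 hi) h3
  · have hc : (0 : ℝ) < 1 + n / t1 := by positivity
    filter_upwards [ev_big K0 p hQ T0 (div_pos hε hc)] with k ⟨h1, h2, h3⟩ t ht i x hi hx c a v
    have ht' := hI h2 (ht1.trans_le ht.1) ht.2
    obtain ⟨ρ, -, -, -, hx'⟩ := hO k t (Ioo_subset_Icc_self ht')
    have hL := (hx' x (h1 hx)).1
    have hk := (hF k).krf t ht' i x hi (h1 hx)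
    have e1 := lyh_ge hk ht1 ht.1 (hP k).le_τ (hη k) (bkge_of_lyhGe hL hi) c a v
    have e2 := hL i hi c a v
    have e3 := nq0 hk.kahAt a
    have e4 := nq0 hk.kahAt v
    rw [le_div_iff₀ hc] at h3
    refine le_trans ?_ e1
    set η : ℝ := 1 / ((k : ℝ) + 1)
    set x1 := nq (G k t i (A.e i x)) a
    set x2 := nq (G k t i (A.e i x)) v
    have e5 : 0 ≤ η * (n / t1) := mul_nonneg (hη k) (by positivity)
    have e6 := mul_le_mul_of_nonneg_right h3 (mul_nonneg (add_nonneg (sq_nonneg ‖c‖) e3) e4)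
    have e7 := mul_nonneg e5 (mul_nonneg e3 e4)
    have e8 : (n : ℝ) * η / t1 = η * (n / t1) := by ring
    rw [e8]
    nlinarith
  · filter_upwards [ev_big K0 p hQ T0 hε] with k ⟨h1, h2, h3⟩ t ht i x hi hx v
    obtain ⟨ρ, -, -, -, hx'⟩ := hO k t (Ioo_subset_Icc_self (hI h2 ht.1 ht.2))
    refine ((hx' x (h1 hx)).2.1 i hi v).trans (mul_le_mul_of_nonneg_right (by linarith) ?_)
    exact Ev.nq_nonneg (K0.pos i x hi).posSemidef v
  · obtain ⟨C', hC', hθ⟩ := I.pot Q hQ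
    obtain ⟨D, hD0, hD⟩ := exists_bdd K0 p hQ
    refine ⟨C' * (2 + (B * (1 + T0) + B * D)) + (1 + C') + C', ?_⟩
    filter_upwards [ev_big K0 p hQ T0 one_pos] with k ⟨h1, h2, _⟩ t ht i x hi hx
    have ht' := hI h2 ht.1 ht.2
    obtain ⟨ρ, -, -, -, hx'⟩ := hO k t (Ioo_subset_Icc_self ht')
    obtain ⟨-, -, -, e1, -, e2, -⟩ := hx' x (h1 hx)
    obtain ⟨θ, f1, f2, f3⟩ := hθ (a k)
    have e3 := e2 C' θ ⟨hC', f1, f2⟩
    have e4 := f3 x hx
    have e5 : ρ x ≤ B * (1 + T0) + B * D := e1.trans (add_le_add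
      (mul_le_mul_of_nonneg_left (by linarith [ht.2]) (by linarith))
      (mul_le_mul_of_nonneg_left (hD x hx) (by linarith)))
    have e6 := mul_le_mul_of_nonneg_left (add_le_add_right e5 2) hC'
    rw [hlv ht' hi (h1 hx)]
    linarith
  · obtain ⟨D, hD0, hD⟩ := exists_bdd K0 p hQ
    set Y := (B * (1 + T0) + B * D + B * (1 + T0) ^ 2) ^ 2 *
      (Real.log (B * (1 + T0) + B * D + B * (1 + T0) ^ 2) + B + Real.log (1 + 1 / t1)) ^ 2 with hY
    have hY0 : 0 ≤ Y := by positivity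
    refine ⟨Λ * Y / t1 + 1 + n ^ 2, ?_⟩
    filter_upwards [ev_big K0 p hQ T0 one_pos] with k ⟨h1, h2, h3⟩ t ht i x hi hx
    have ht' := hI h2 (ht1.trans_le ht.1) ht.2
    obtain ⟨ρ, -, -, -, hx'⟩ := hO k t (Ioo_subset_Icc_self ht')
    obtain ⟨hL, -, e0, e1, -, -, e2⟩ := hx' x (h1 hx)
    have hk := (hF k).kah t (Ioo_subset_Icc_self ht')
    have hk' := hk.kah i x hi (h1 hx)
    refine bkle_mono hk' (Ev.bkle_of_bkge hk' (hη k) (bkge_of_lyhGe hL hi)) ?_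
    have e5 : ρ x ≤ B * (1 + T0) + B * D := e1.trans (add_le_add
      (mul_le_mul_of_nonneg_left (by linarith [ht.2]) (by linarith))
      (mul_le_mul_of_nonneg_left (hD x hx) (by linarith)))
    have e6 : _ ≤ Y := Ψ_le (hP k) e0 e5 ht1 ht.1 ht.2
    have e7 := mul_le_mul_of_nonneg_left e6 (show 0 ≤ Λ by linarith)
    have e8 : t1 ≤ t + tA k := ht.1.trans (hP k).le_τ
    have e9 : Sc (G k t) x ≤ Λ * Y / t1 + 1 := by
      have f1 : Λ * Y / (t + tA k) ≤ Λ * Y / t1 :=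
        div_le_div_of_nonneg_left (by positivity) ht1 e8
      have f2 : Sc (G k t) x - 1 ≤ Λ * Y / (t + tA k) := by
        rw [le_div_iff₀ (ht1.trans_le e8)]
        change (t + tA k) * Sc (G k t) x ≤ Λ * _ + (t + tA k) at e2
        linarith
      linarith
    rw [hk.scal_indep hi (ch_mem A x) ((hop k).mem_nhds (h1 hx))]
    have e10 := mul_le_mul_of_nonneg_left h3 (sq_nonneg (n : ℝ))
    change Sc (G k t) x + _ ≤ _
    linarith
  · have hT0 := abs_nonneg T0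
    refine ⟨4 + B + 4 * (B * (1 + |T0|)) + B * (1 + |T0|) ^ 2, by positivity, fun Q hQ => ?_⟩
    filter_upwards [ev_big K0 p hQ T0 one_pos] with k ⟨h1, h2, _⟩ t ht
    obtain ⟨ρ, e1, e2, -, hx'⟩ := hO k t (Ioo_subset_Icc_self (hI h2 ht.1 ht.2))
    have f1 : 0 ≤ B * (1 + |T0|) := by positivity
    have f2 : 0 ≤ B * (1 + |T0|) ^ 2 := by positivity
    refine ⟨ρ, lipOn_mono e1 h1 (by change B ≤ _; linarith), fun x hx => ?_⟩
    obtain ⟨-, -, -, -, e3, -⟩ := hx' x (h1 hx)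
    have f3 : t ≤ |T0| := ht.2.trans (le_abs_self T0)
    have f4 : _ ≤ B * (1 + |T0|) ^ 2 := (hP k).ρs_mono ht.1.le f3
    have f5 : ρ p ≤ B * (1 + |T0|) :=
      e2.trans (mul_le_mul_of_nonneg_left (by linarith) (by change 0 ≤ B; linarith))
    have f6 := le_abs_self (ρ x - ρ p)
    have f7 := abs_nonneg (ρ x - ρ p)
    have f8 := mul_nonneg (show 0 ≤ B + 4 * (B * (1 + |T0|)) + B * (1 + |T0|) ^ 2 by positivity) f7
    nlinarith
  · filter_upwards [ev_big K0 p (isCompact_singleton (x := p)) T0 one_pos]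
      with k ⟨h1, h2, _⟩ t ht i hi
    have ht' := hI h2 ht.1 ht.2
    obtain ⟨ρ, -, -, e, -⟩ := hO k t (Ioo_subset_Icc_self ht')
    rw [hlv ht' hi (h1 rfl)]
    exact e

end Crest.Agent.T223.Os
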