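import Mathlib

/-!
# Row 223 (helper93): gluing of one-sided smooth functions across a time slice (Mathlib only)

`Pr a m c O k f1 f2` : `f1` is smooth on `[a,m] × O`, `f2` on `[m,c] × O`, they agree at time `m` and
the glued function is `C^k` on `[a,c] × O`.
`Pr.sp` : spatial derivatives stay in the class (no loss), `Pr.succ_of_time` : if the time derivatives
are in the class `k` then the pair is in the class `k + 1`.
-/

set_option autoImplicit false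
set_option linter.unusedSectionVars false

open Set Filter Topology
open scoped ContDiff

noncomputable section

namespace Crest.Agent.T223.Gl93

variable {E : Type} [NormedAddCommGroup E] [NormedSpace ℝ E]

/-- the glued function -/
def gl {F : Type} (m : ℝ) (f1 f2 : ℝ × E → F) (q : ℝ × E) : F := if q.1 ≤ m then f1 q else f2 q

/-- the spatial derivative -/
def sp {F : Type} [NormedAddCommGroup F] [NormedSpace ℝ F] (f : ℝ × E → F) (q : ℝ × E) :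
    E →L[ℝ] F := fderiv ℝ (fun w => f (q.1, w)) q.2

structure Pr {F : Type} [NormedAddCommGroup F] [NormedSpace ℝ F] (a m c : ℝ) (O : Set E) (k : ℕ)
    (f1 f2 : ℝ × E → F) : Prop where
  s1 : ContDiffOn ℝ ∞ f1 (Icc a m ×ˢ O)
  s2 : ContDiffOn ℝ ∞ f2 (Icc m c ×ˢ O)
  eq : ∀ z ∈ O, f1 (m, z) = f2 (m, z)
  gl : ContDiffOn ℝ k (gl m f1 f2) (Icc a c ×ˢ O)

variable {a b m c : ℝ} {O : Set E}

theorem uniq (hab : a < b) (hO : IsOpen O) : UniqueDiffOn ℝ (Icc a b ×ˢ O) :=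
  (uniqueDiffOn_Icc hab).prod hO.uniqueDiffOn

theorem mem_closure_Ioo (hab : a < b) {q : ℝ × E} (hq : q ∈ Icc a b ×ˢ O) :
    q ∈ closure (Ioo a b ×ˢ O) := by
  rw [closure_prod_eq, closure_Ioo hab.ne]
  exact ⟨hq.1, subset_closure hq.2⟩

theorem mem_closure_int (hab : a < b) (hO : IsOpen O) {q : ℝ × E} (hq : q ∈ Icc a b ×ˢ O) :
    q ∈ closure (interior (Icc a b ×ˢ O)) := by
  rw [interior_prod_eq, interior_Icc, hO.interior_eq]
  exact mem_closure_Ioo hab hq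

omit [NormedAddCommGroup E] [NormedSpace ℝ E] in
theorem gl_eq1 {F : Type} (f1 f2 : ℝ × E → F) : EqOn (gl m f1 f2) f1 (Icc a m ×ˢ O) :=
  fun _ hq => if_pos hq.1.2

omit [NormedAddCommGroup E] [NormedSpace ℝ E] in
theorem gl_eq2 {F : Type} {f1 f2 : ℝ × E → F} (h : ∀ z ∈ O, f1 (m, z) = f2 (m, z)) :
    EqOn (gl m f1 f2) f2 (Icc m c ×ˢ O) := by
  rintro ⟨t, z⟩ hq
  by_cases ht : t ≤ m
  · have : t = m := le_antisymm ht hq.1.1
    subst this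
    exact (if_pos le_rfl).trans (h z hq.2)
  · exact if_neg ht

omit [NormedAddCommGroup E] [NormedSpace ℝ E] in
theorem union_eq (ham : a < m) (hmc : m < c) :
    Icc a c ×ˢ O = Icc a m ×ˢ O ∪ Icc m c ×ˢ O := by
  rw [← union_prod, Icc_union_Icc_eq_Icc ham.le hmc.le]

omit [NormedSpace ℝ E] in
theorem cases3 {q : ℝ × E} (hq : q ∈ Icc a c ×ˢ O) :
    (q ∈ Icc a m ×ˢ O ∧ q ∈ Icc m c ×ˢ O) ∨ (q ∈ Icc a m ×ˢ O ∧ q ∉ closure (Icc m c ×ˢ O)) ∨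
      (q ∈ Icc m c ×ˢ O ∧ q ∉ closure (Icc a m ×ˢ O)) := by
  rcases lt_trichotomy q.1 m with h | h | h
  · refine Or.inr (Or.inl ⟨⟨⟨hq.1.1, h.le⟩, hq.2⟩, fun h' => ?_⟩)
    rw [closure_prod_eq, closure_Icc] at h'
    exact absurd h'.1.1 (not_le.2 h)
  · exact Or.inl ⟨⟨⟨hq.1.1, h.le⟩, hq.2⟩, ⟨⟨h.ge, hq.1.2⟩, hq.2⟩⟩
  · refine Or.inr (Or.inr ⟨⟨⟨h.le, hq.1.2⟩, hq.2⟩, fun h' => ?_⟩)
    rw [closure_prod_eq, closure_Icc] at h'
    exact absurd h'.1.2 (not_le.2 h)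

section F

variable {F : Type} [NormedAddCommGroup F] [NormedSpace ℝ F] {f f1 f2 h1 h2 : ℝ × E → F} {k : ℕ}

theorem pr_zero (ham : a < m) (hmc : m < c) (s1 : ContDiffOn ℝ ∞ f1 (Icc a m ×ˢ O))
    (s2 : ContDiffOn ℝ ∞ f2 (Icc m c ×ˢ O)) (eq : ∀ z ∈ O, f1 (m, z) = f2 (m, z)) :
    Pr a m c O 0 f1 f2 := by
  refine ⟨s1, s2, eq, ?_⟩
  rw [Nat.cast_zero, contDiffOn_zero]
  have c1 : ContinuousOn (gl m f1 f2) (Icc a m ×ˢ O) := s1.continuousOn.congr (gl_eq1 f1 f2)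
  have c2 : ContinuousOn (gl m f1 f2) (Icc m c ×ˢ O) := s2.continuousOn.congr (gl_eq2 eq)
  intro q hq
  rw [union_eq ham hmc]
  rcases cases3 (m := m) hq with h | h | h
  · exact (c1 q h.1).union (c2 q h.2)
  · exact (c1 q h.1).union (continuousWithinAt_of_notMem_closure h.2)
  · exact (continuousWithinAt_of_notMem_closure h.2).union (c2 q h.1)

theorem hasFDeriv_gl (ham : a < m) (hmc : m < c) {D1 D2 : ℝ × E → (ℝ × E) →L[ℝ] F}
    (d1 : ∀ q ∈ Icc a m ×ˢ O, HasFDerivWithinAt f1 (D1 q) (Icc a m ×ˢ O) q)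
    (d2 : ∀ q ∈ Icc m c ×ˢ O, HasFDerivWithinAt f2 (D2 q) (Icc m c ×ˢ O) q)
    (eq : ∀ z ∈ O, f1 (m, z) = f2 (m, z)) (eqD : ∀ z ∈ O, D1 (m, z) = D2 (m, z))
    {q : ℝ × E} (hq : q ∈ Icc a c ×ˢ O) :
    HasFDerivWithinAt (gl m f1 f2) (gl m D1 D2 q) (Icc a c ×ˢ O) q := by
  have c1 : ∀ q ∈ Icc a m ×ˢ O,
      HasFDerivWithinAt (gl m f1 f2) (gl m D1 D2 q) (Icc a m ×ˢ O) q := fun q hq => by
    rw [gl_eq1 D1 D2 hq]
    exact (d1 q hq).congr (gl_eq1 f1 f2) (gl_eq1 f1 f2 hq)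
  have c2 : ∀ q ∈ Icc m c ×ˢ O,
      HasFDerivWithinAt (gl m f1 f2) (gl m D1 D2 q) (Icc m c ×ˢ O) q := fun q hq => by
    rw [gl_eq2 eqD hq]
    exact (d2 q hq).congr (gl_eq2 eq) (gl_eq2 eq hq)
  rw [union_eq ham hmc]
  rcases cases3 (m := m) hq with h | h | h
  · exact (c1 q h.1).union (c2 q h.2)
  · exact (c1 q h.1).union (HasFDerivWithinAt.of_notMem_closure h.2)
  · exact (HasFDerivWithinAt.of_notMem_closure h.2).union (c2 q h.1)

theorem Pr.congr (h : Pr a m c O k f1 f2) (ham : a < m) (hmc : m < c)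
    (e1 : ∀ q ∈ Icc a m ×ˢ O, h1 q = f1 q) (e2 : ∀ q ∈ Icc m c ×ˢ O, h2 q = f2 q) :
    Pr a m c O k h1 h2 := by
  refine ⟨h.s1.congr e1, h.s2.congr e2, fun z hz => ?_, h.gl.congr fun q hq => ?_⟩
  · rw [e1 _ ⟨⟨ham.le, le_rfl⟩, hz⟩, e2 _ ⟨⟨le_rfl, hmc.le⟩, hz⟩, h.eq z hz]
  · unfold Gl93.gl
    split_ifs with ht
    · exact e1 q ⟨⟨hq.1.1, ht⟩, hq.2⟩
    · exact e2 q ⟨⟨(not_le.1 ht).le, hq.1.2⟩, hq.2⟩

theorem hasD (h : ContDiffOn ℝ ∞ f (Icc a b ×ˢ O)) {q : ℝ × E} (hq : q ∈ Icc a b ×ˢ O) :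
    HasFDerivWithinAt f (fderivWithin ℝ f (Icc a b ×ˢ O) q) (Icc a b ×ˢ O) q :=
  (h.differentiableOn (by simp) q hq).hasFDerivWithinAt

theorem smD (hab : a < b) (hO : IsOpen O) (h : ContDiffOn ℝ ∞ f (Icc a b ×ˢ O)) :
    ContDiffOn ℝ ∞ (fderivWithin ℝ f (Icc a b ×ˢ O)) (Icc a b ×ˢ O) :=
  ((contDiffOn_infty_iff_fderivWithin (uniq hab hO)).1 h).2

theorem pr_succ (ham : a < m) (hmc : m < c) (hO : IsOpen O)
    (s1 : ContDiffOn ℝ ∞ f1 (Icc a m ×ˢ O)) (s2 : ContDiffOn ℝ ∞ f2 (Icc m c ×ˢ O))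
    (eq : ∀ z ∈ O, f1 (m, z) = f2 (m, z))
    (h : Pr a m c O k (fderivWithin ℝ f1 (Icc a m ×ˢ O)) (fderivWithin ℝ f2 (Icc m c ×ˢ O))) :
    Pr a m c O (k + 1) f1 f2 := by
  refine ⟨s1, s2, eq, ?_⟩
  have hu := uniq (ham.trans hmc) hO
  have hd := fun q (hq : q ∈ Icc a c ×ˢ O) =>
    hasFDeriv_gl ham hmc (fun q hq => hasD s1 hq) (fun q hq => hasD s2 hq) eq h.eq hq
  rw [Nat.cast_succ, contDiffOn_succ_iff_fderivWithin hu]
  refine ⟨fun q hq => (hd q hq).differentiableWithinAt, by simp, ?_⟩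
  exact h.gl.congr fun q hq => (hd q hq).fderivWithin (hu q hq)

theorem Pr.fderiv (h : Pr a m c O (k + 1) f1 f2) (ham : a < m) (hmc : m < c) (hO : IsOpen O) :
    Pr a m c O k (fderivWithin ℝ f1 (Icc a m ×ˢ O)) (fderivWithin ℝ f2 (Icc m c ×ˢ O)) := by
  have hu := uniq (ham.trans hmc) hO
  have hg := h.gl
  rw [Nat.cast_succ, contDiffOn_succ_iff_fderivWithin hu] at hg
  have e1 : ∀ q ∈ Icc a m ×ˢ O, fderivWithin ℝ f1 (Icc a m ×ˢ O) q =
      fderivWithin ℝ (Gl93.gl m f1 f2) (Icc a c ×ˢ O) q := by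
    intro q hq
    have hs : Icc a m ×ˢ O ⊆ Icc a c ×ˢ O := prod_mono (Icc_subset_Icc_right hmc.le) le_rfl
    have h3 := ((hg.1 q (hs hq)).hasFDerivWithinAt.mono hs).congr
      (fun x hx => (gl_eq1 f1 f2 hx).symm) (gl_eq1 f1 f2 hq).symm
    exact h3.fderivWithin (uniq ham hO q hq)
  have e2 : ∀ q ∈ Icc m c ×ˢ O, fderivWithin ℝ f2 (Icc m c ×ˢ O) q =
      fderivWithin ℝ (Gl93.gl m f1 f2) (Icc a c ×ˢ O) q := by
    intro q hq
    have hs : Icc m c ×ˢ O ⊆ Icc a c ×ˢ O := prod_mono (Icc_subset_Icc_left ham.le) le_rfl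
    have h3 := ((hg.1 q (hs hq)).hasFDerivWithinAt.mono hs).congr
      (fun x hx => (gl_eq2 h.eq hx).symm) (gl_eq2 h.eq hq).symm
    exact h3.fderivWithin (uniq hmc hO q hq)
  refine ⟨smD ham hO h.s1, smD hmc hO h.s2, fun z hz => ?_, hg.2.2.congr fun q hq => ?_⟩
  · rw [e1 _ ⟨⟨ham.le, le_rfl⟩, hz⟩, e2 _ ⟨⟨le_rfl, hmc.le⟩, hz⟩]
  · unfold Gl93.gl
    split_ifs with ht
    · exact e1 q ⟨⟨hq.1.1, ht⟩, hq.2⟩
    · exact e2 q ⟨⟨(not_le.1 ht).le, hq.1.2⟩, hq.2⟩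

/-- post-composition with a continuous linear map -/
theorem Pr.clm {G : Type} [NormedAddCommGroup G] [NormedSpace ℝ G] (h : Pr a m c O k f1 f2)
    (L : F →L[ℝ] G) : Pr a m c O k (fun q => L (f1 q)) (fun q => L (f2 q)) := by
  refine ⟨L.contDiff.comp_contDiffOn h.s1, L.contDiff.comp_contDiffOn h.s2,
    fun z hz => by rw [h.eq z hz], (L.contDiff.comp_contDiffOn h.gl).congr fun q _ => ?_⟩
  simp only [Gl93.gl, Function.comp_apply]
  split_ifs <;> rfl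

theorem Pr.add (h : Pr a m c O k f1 f2) (h' : Pr a m c O k h1 h2) :
    Pr a m c O k (fun q => f1 q + h1 q) (fun q => f2 q + h2 q) := by
  refine ⟨h.s1.add h'.s1, h.s2.add h'.s2, fun z hz => by rw [h.eq z hz, h'.eq z hz],
    (h.gl.add h'.gl).congr fun q _ => ?_⟩
  simp only [Gl93.gl]
  split_ifs <;> rfl

theorem sp_eq (hO : IsOpen O) (h : ContDiffOn ℝ ∞ f (Icc a b ×ˢ O)) {q : ℝ × E}
    (hq : q ∈ Icc a b ×ˢ O) (v : E) : sp f q v = fderivWithin ℝ f (Icc a b ×ˢ O) q (0, v) := by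
  have h1 : HasFDerivWithinAt (fun w : E => ((q.1, w) : ℝ × E)) (ContinuousLinearMap.inr ℝ ℝ E)
      O q.2 := (hasFDerivAt_prodMk_right q.1 q.2).hasFDerivWithinAt
  have h2 := HasFDerivWithinAt.comp (f := fun w : E => ((q.1, w) : ℝ × E)) q.2 (hasD h hq) h1
    (fun w hw => ⟨hq.1, hw⟩)
  have h3 := (h2.hasFDerivAt (hO.mem_nhds hq.2)).fderiv
  exact congrArg (fun L : E →L[ℝ] F => L v) h3

theorem fderiv_apply_symm (hab : a < b) (hO : IsOpen O) (h : ContDiffOn ℝ ∞ f (Icc a b ×ˢ O))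
    (u : ℝ × E) {q : ℝ × E} (hq : q ∈ Icc a b ×ˢ O) :
    fderivWithin ℝ (fun q => fderivWithin ℝ f (Icc a b ×ˢ O) q u) (Icc a b ×ˢ O) q =
      fderivWithin ℝ (fderivWithin ℝ f (Icc a b ×ˢ O)) (Icc a b ×ˢ O) q u := by
  have h1 := ((hasD (smD hab hO h) hq).clm_apply
    (hasFDerivWithinAt_const u q (Icc a b ×ˢ O))).fderivWithin (uniq hab hO q hq)
  have h2 := (h q hq).isSymmSndFDerivWithinAt
    (by rw [minSmoothness_of_isRCLikeNormedField]; exact WithTop.coe_le_coe.2 (le_top (a := (2 : ℕ∞))))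
    (uniq hab hO)
    (mem_closure_int hab hO hq) hq
  rw [h1]
  refine ContinuousLinearMap.ext fun w => ?_
  simpa using h2 w u

end F

theorem pr_dir (ham : a < m) (hmc : m < c) (hO : IsOpen O) (v : E) (k : ℕ) :
    ∀ (F : Type) [NormedAddCommGroup F] [NormedSpace ℝ F] (f1 f2 : ℝ × E → F),
      Pr a m c O k f1 f2 → Pr a m c O k (fun q => fderivWithin ℝ f1 (Icc a m ×ˢ O) q (0, v))
        (fun q => fderivWithin ℝ f2 (Icc m c ×ˢ O) q (0, v)) := by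
  have heq : ∀ (F : Type) [NormedAddCommGroup F] [NormedSpace ℝ F] (f1 f2 : ℝ × E → F) (k : ℕ),
      Pr a m c O k f1 f2 → ∀ z ∈ O, fderivWithin ℝ f1 (Icc a m ×ˢ O) (m, z) (0, v) =
        fderivWithin ℝ f2 (Icc m c ×ˢ O) (m, z) (0, v) := by
    intro F _ _ f1 f2 k h z hz
    rw [← sp_eq hO h.s1 ⟨⟨ham.le, le_rfl⟩, hz⟩, ← sp_eq hO h.s2 ⟨⟨le_rfl, hmc.le⟩, hz⟩]
    have : (fun w => f1 (m, w)) =ᶠ[𝓝 z] fun w => f2 (m, w) := by
      filter_upwards [hO.mem_nhds hz] with w hw using h.eq w hw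
    simp only [sp]
    rw [this.fderiv_eq]
  induction k with
  | zero =>
    intro F _ _ f1 f2 h
    exact pr_zero ham hmc ((smD ham hO h.s1).clm_apply contDiffOn_const)
      ((smD hmc hO h.s2).clm_apply contDiffOn_const) (heq F f1 f2 0 h)
  | succ k ih =>
    intro F _ _ f1 f2 h
    refine pr_succ ham hmc hO ((smD ham hO h.s1).clm_apply contDiffOn_const)
      ((smD hmc hO h.s2).clm_apply contDiffOn_const) (heq F f1 f2 _ h) ?_
    exact (ih _ _ _ (h.fderiv ham hmc hO)).congr ham hmc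
      (fun q hq => fderiv_apply_symm ham hO h.s1 _ hq)
      (fun q hq => fderiv_apply_symm hmc hO h.s2 _ hq)

section F

variable {F : Type} [NormedAddCommGroup F] [NormedSpace ℝ F] {f f1 f2 h h1 h2 : ℝ × E → F} {k : ℕ}

/-- **spatial derivatives stay in the class** -/
theorem Pr.sp (h : Pr a m c O k f1 f2) (ham : a < m) (hmc : m < c) (hO : IsOpen O) (v : E) :
    Pr a m c O k (fun q => sp f1 q v) (fun q => sp f2 q v) :=
  (pr_dir ham hmc hO v k F f1 f2 h).congr ham hmc (fun _ hq => sp_eq hO h.s1 hq v)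
    (fun _ hq => sp_eq hO h.s2 hq v)

theorem time_eq (hab : a < b) (hO : IsOpen O) (hf : ContDiffOn ℝ ∞ f (Icc a b ×ˢ O))
    (hh : ContinuousOn h (Icc a b ×ˢ O))
    (hd : ∀ t ∈ Ioo a b, ∀ z ∈ O, HasDerivAt (fun s => f (s, z)) (h (t, z)) t)
    {q : ℝ × E} (hq : q ∈ Icc a b ×ˢ O) : fderivWithin ℝ f (Icc a b ×ˢ O) q (1, 0) = h q := by
  have hs : Ioo a b ×ˢ O ⊆ Icc a b ×ˢ O := prod_mono Ioo_subset_Icc_self le_rfl
  have h1 : EqOn (fun q => fderivWithin ℝ f (Icc a b ×ˢ O) q (1, 0)) h (Ioo a b ×ˢ O) := by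
    rintro ⟨t, z⟩ hq
    have h2 : HasFDerivAt f (fderivWithin ℝ f (Icc a b ×ˢ O) (t, z)) (t, z) :=
      (hasD hf (hs hq)).hasFDerivAt
        (mem_of_superset ((isOpen_Ioo.prod hO).mem_nhds hq) hs)
    have h3 : HasDerivAt (fun s : ℝ => ((s, z) : ℝ × E)) (1, 0) t :=
      (hasDerivAt_id _).prodMk (hasDerivAt_const _ _)
    have h4 := HasFDerivAt.comp_hasDerivAt (f := fun s : ℝ => ((s, z) : ℝ × E)) t h2 h3
    exact h4.unique (hd t hq.1 z hq.2)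
  exact h1.of_subset_closure ((smD hab hO hf).clm_apply contDiffOn_const).continuousOn hh hs
    (fun q hq => mem_closure_Ioo hab hq) hq

/-- **gain of one derivative from the equation** -/
theorem Pr.succ_of_time [FiniteDimensional ℝ E] (h : Pr a m c O k f1 f2) (ham : a < m)
    (hmc : m < c) (hO : IsOpen O) (hh : Pr a m c O k h1 h2)
    (d1 : ∀ t ∈ Ioo a m, ∀ z ∈ O, HasDerivAt (fun s => f1 (s, z)) (h1 (t, z)) t)
    (d2 : ∀ t ∈ Ioo m c, ∀ z ∈ O, HasDerivAt (fun s => f2 (s, z)) (h2 (t, z)) t) :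
    Pr a m c O (k + 1) f1 f2 := by
  have key : ∀ y : ℝ × E, Pr a m c O k (fun q => fderivWithin ℝ f1 (Icc a m ×ˢ O) q y)
      (fun q => fderivWithin ℝ f2 (Icc m c ×ˢ O) q y) := by
    rintro ⟨τ, v⟩
    have e : ((τ, v) : ℝ × E) = τ • ((1, 0) : ℝ × E) + (0, v) := by simp
    refine ((hh.clm (τ • ContinuousLinearMap.id ℝ F)).add
      (pr_dir ham hmc hO v k F f1 f2 h)).congr ham hmc (fun q hq => ?_) (fun q hq => ?_)
    · rw [e, map_add, map_smul, time_eq ham hO h.s1 hh.s1.continuousOn d1 hq]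
      rfl
    · rw [e, map_add, map_smul, time_eq hmc hO h.s2 hh.s2.continuousOn d2 hq]
      rfl
  refine pr_succ ham hmc hO h.s1 h.s2 h.eq ⟨smD ham hO h.s1, smD hmc hO h.s2, fun z hz => ?_, ?_⟩
  · exact ContinuousLinearMap.ext fun y => (key y).eq z hz
  · rw [contDiffOn_clm_apply]
    intro y
    refine (key y).gl.congr fun q _ => ?_
    simp only [Gl93.gl]
    split_ifs <;> rfl

/-- the time derivative of a smooth glued function at interior times -/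
theorem hasDerivAt_of_sm (hO : IsOpen O) (hf : ContDiffOn ℝ ∞ f (Icc a b ×ˢ O))
    (hh : ContinuousOn h (Icc a b ×ˢ O))
    (hd : ∀ t ∈ Ioo a b, t ≠ m → ∀ z ∈ O, HasDerivAt (fun s => f (s, z)) (h (t, z)) t)
    {t : ℝ} (ht : t ∈ Ioo a b) {z : E} (hz : z ∈ O) :
    HasDerivAt (fun s => f (s, z)) (h (t, z)) t := by
  by_cases htm : t = m
  swap
  · exact hd t ht htm z hz
  subst htm
  have hs : Icc a t ×ˢ O ⊆ Icc a b ×ˢ O := prod_mono (Icc_subset_Icc_right ht.2.le) le_rfl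
  have hq : ((t, z) : ℝ × E) ∈ Icc a t ×ˢ O := ⟨⟨ht.1.le, le_rfl⟩, hz⟩
  have h1 := time_eq ht.1 hO (hf.mono hs) (hh.mono hs)
    (fun s hs' z hz => hd s ⟨hs'.1, hs'.2.trans ht.2⟩ hs'.2.ne z hz) hq
  have h2 : HasFDerivAt f (fderivWithin ℝ f (Icc a b ×ˢ O) (t, z)) (t, z) :=
    (hasD hf (hs hq)).hasFDerivAt (mem_of_superset ((isOpen_Ioo.prod hO).mem_nhds ⟨ht, hz⟩)
      (prod_mono Ioo_subset_Icc_self le_rfl))
  rw [h2.hasFDerivWithinAt.fderivWithin (uniq ht.1 hO _ hq)] at h1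
  have h3 : HasDerivAt (fun s : ℝ => ((s, z) : ℝ × E)) (1, 0) t :=
    (hasDerivAt_id _).prodMk (hasDerivAt_const _ _)
  have h4 := HasFDerivAt.comp_hasDerivAt (f := fun s : ℝ => ((s, z) : ℝ × E)) t h2 h3
  rw [h1] at h4
  exact h4

end F

end Crest.Agent.T223.Gl93
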