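import Crest.Agent.T223.OsDef_21
import Crest.Agent.T223.GlueA_93

/-!
# Row 223, module OSG, leaf GLUE (helper93): two flows with a common slice glue smoothly
-/

set_option autoImplicit false

open Set Filter Topology Metric
open scoped ContDiff ComplexConjugate Matrix ComplexOrder

noncomputable section

namespace Crest.Agent.T223.Gl93

open Crest.Agent.R275.Geo Crest.Agent.R275.EDR890 Crest.Agent.R273.Kah_333
open Crest.Agent.R273.Hess_333 Crest.Agent.T223.Br Crest.Agent.T223.Tr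
open Crest.Agent.T223.Db (dom SmST)

variable {n : ℕ} {a m c : ℝ} {O : Set (Cn n)} {k : ℕ}

theorem cd_ldet {X : Type} [NormedAddCommGroup X] [NormedSpace ℝ X] {s : Set X} {G : X → Mat n}
    {N : WithTop ℕ∞} (h : ∀ a b, ContDiffOn ℝ N (fun q => G q a b) s)
    (hp : ∀ q ∈ s, (G q).PosDef) :
    ContDiffOn ℝ N (fun q => ((Real.log (G q).det.re : ℝ) : ℂ)) s := by
  have h1 : ContDiffOn ℝ N (fun q => (G q).det) s := by
    simp only [Matrix.det_apply']
    exact ContDiffOn.sum fun σ _ => contDiffOn_const.mul (contDiffOn_prod fun i _ => h _ _)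
  have h2 : ContDiffOn ℝ N (fun q => (G q).det.re) s := Complex.reCLM.contDiff.comp_contDiffOn h1
  refine Complex.ofRealCLM.contDiff.comp_contDiffOn (h2.log fun q hq => ?_)
  exact (Complex.pos_iff.1 (hp q hq).det_pos).1.ne'

theorem Pr.wd {f1 f2 : ℝ × Cn n → ℂ} (h : Pr a m c O k f1 f2) (ham : a < m) (hmc : m < c)
    (hO : IsOpen O) (s : WI n) :
    Pr a m c O k (fun q => wd s (fun w => f1 (q.1, w)) q.2)
      (fun q => wd s (fun w => f2 (q.1, w)) q.2) :=
  (((h.sp ham hmc hO (EuclideanSpace.single s.2 1)).add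
    ((h.sp ham hmc hO (EuclideanSpace.single s.2 Complex.I)).clm
      (ContinuousLinearMap.mul ℝ ℂ (cI s.1)))).clm
        (ContinuousLinearMap.mul ℝ ℂ (1 / 2))).congr ham hmc (fun _ _ => rfl) (fun _ _ => rfl)

variable {G1 G2 : ℝ → Cn n → Mat n}

theorem pr_hess (ham : a < m) (hmc : m < c) (hO : IsOpen O)
    (p1 : ∀ q ∈ Icc a m ×ˢ O, (G1 q.1 q.2).PosDef) (p2 : ∀ q ∈ Icc m c ×ˢ O, (G2 q.1 q.2).PosDef)
    (h : ∀ i j, Pr a m c O k (fun q => G1 q.1 q.2 i j) (fun q => G2 q.1 q.2 i j)) (i j : Fin n) :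
    Pr a m c O k (fun q => hess (ldet (G1 q.1)) q.2 i j)
      (fun q => hess (ldet (G2 q.1)) q.2 i j) := by
  have h1 : Pr a m c O k (fun q => ((ldet (G1 q.1) q.2 : ℝ) : ℂ))
      (fun q => ((ldet (G2 q.1) q.2 : ℝ) : ℂ)) := by
    have e : ∀ z ∈ O, G1 m z = G2 m z := fun z hz => Matrix.ext fun i j => (h i j).eq z hz
    refine ⟨cd_ldet (fun i j => (h i j).s1) p1, cd_ldet (fun i j => (h i j).s2) p2,
      fun z hz => by simp only [ldet, e z hz], ?_⟩
    have h2 := cd_ldet (G := gl m (fun q => G1 q.1 q.2) (fun q => G2 q.1 q.2))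
      (s := Icc a c ×ˢ O) (N := k) (fun i j => (h i j).gl.congr fun q _ => by
        simp only [gl]; split_ifs <;> rfl) (fun q hq => by
        simp only [gl]
        split_ifs with ht
        · exact p1 q ⟨⟨hq.1.1, ht⟩, hq.2⟩
        · exact p2 q ⟨⟨(not_le.1 ht).le, hq.1.2⟩, hq.2⟩)
    refine h2.congr fun q _ => ?_
    simp only [gl, ldet]
    split_ifs <;> rfl
  exact (h1.wd ham hmc hO (true, j)).wd ham hmc hO (false, i)

theorem pr_all (ham : a < m) (hmc : m < c) (hO : IsOpen O)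
    (s1 : ∀ i j, ContDiffOn ℝ ∞ (fun q : ℝ × Cn n => G1 q.1 q.2 i j) (Icc a m ×ˢ O))
    (s2 : ∀ i j, ContDiffOn ℝ ∞ (fun q : ℝ × Cn n => G2 q.1 q.2 i j) (Icc m c ×ˢ O))
    (p1 : ∀ q ∈ Icc a m ×ˢ O, (G1 q.1 q.2).PosDef) (p2 : ∀ q ∈ Icc m c ×ˢ O, (G2 q.1 q.2).PosDef)
    (d1 : ∀ t ∈ Ioo a m, ∀ z ∈ O, ∀ i j,
      HasDerivAt (fun s => G1 s z i j) (hess (ldet (G1 t)) z i j) t)
    (d2 : ∀ t ∈ Ioo m c, ∀ z ∈ O, ∀ i j,
      HasDerivAt (fun s => G2 s z i j) (hess (ldet (G2 t)) z i j) t)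
    (e : ∀ z ∈ O, G1 m z = G2 m z) (k : ℕ) :
    ∀ i j, Pr a m c O k (fun q => G1 q.1 q.2 i j) (fun q => G2 q.1 q.2 i j) := by
  induction k with
  | zero => exact fun i j => pr_zero ham hmc (s1 i j) (s2 i j) fun z hz => by simp only [e z hz]
  | succ k ih =>
    exact fun i j => (ih i j).succ_of_time ham hmc hO (pr_hess ham hmc hO p1 p2 ih i j)
      (fun t ht z hz => d1 t ht z hz i j) (fun t ht z hz => d2 t ht z hz i j)

variable {M : Type} [TopologicalSpace M] {A : Atl n M}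

theorem isOpen_dom (i : A.ι) {U : Set M} (hU : IsOpen U) : IsOpen (dom A i U) :=
  (A.e i).isOpen_inter_preimage_symm hU

theorem kahAt_of_dom {G : MF A} {U : Set M} (h : KahOn G U) {i : A.ι} {z : Cn n}
    (hz : z ∈ dom A i U) : KahAt (G i) z := by
  have h1 := h.kah i _ ((A.e i).map_target hz.1) hz.2
  rwa [(A.e i).right_inv hz.1] at h1

theorem flow_of_dom {a b : ℝ} {U : Set M} {g : ℝ → MF A} (h : Os.FlowOn a b U g) {i : A.ι}
    {t : ℝ} (ht : t ∈ Ioo a b) {z : Cn n} (hz : z ∈ dom A i U) (k l : Fin n) :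
    HasDerivAt (fun s => g s i z k l) (hess (ldet (g t i)) z k l) t := by
  have h1 := h.krf t ht i _ ((A.e i).map_target hz.1) hz.2
  rw [(A.e i).right_inv hz.1] at h1
  exact h1.flow.self_of_nhds k l

end Crest.Agent.T223.Gl93

namespace Crest.Agent.T223.Os

open Crest.Agent.R275.Geo Crest.Agent.R273.Hess_333 Crest.Agent.T223.Gl93
open Crest.Agent.T223.Db (dom SmST)

theorem glueStmt (n : ℕ) : GlueStmt n := by
  intro M _ A U g1 g2 a m c hU ham hmc h1 h2 he
  have hk : ∀ s ∈ Icc a c, KahOn (if s ≤ m then g1 s else g2 s) U := by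
    intro s hs
    split_ifs with hsm
    · exact h1.kah s ⟨hs.1, hsm⟩
    · exact h2.kah s ⟨(not_le.1 hsm).le, hs.2⟩
  have p1 : ∀ i, ∀ q ∈ Icc a m ×ˢ dom A i U, (g1 q.1 i q.2).PosDef := fun i q hq =>
    (kahAt_of_dom (h1.kah q.1 hq.1) hq.2).pos.self_of_nhds
  have p2 : ∀ i, ∀ q ∈ Icc m c ×ˢ dom A i U, (g2 q.1 i q.2).PosDef := fun i q hq =>
    (kahAt_of_dom (h2.kah q.1 hq.1) hq.2).pos.self_of_nhds
  have hP : ∀ i (j : ℕ) k l, Pr a m c (dom A i U) j (fun q => g1 q.1 i q.2 k l)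
      (fun q => g2 q.1 i q.2 k l) := by
    intro i j
    refine pr_all (G1 := fun s => g1 s i) (G2 := fun s => g2 s i) ham hmc (isOpen_dom i hU)
      (h1.sm i) (h2.sm i) (p1 i) (p2 i) (fun t ht z hz => flow_of_dom h1 ht hz)
      (fun t ht z hz => flow_of_dom h2 ht hz) (fun z hz => ?_) j
    have h3 := he i _ ((A.e i).map_target hz.1) hz.2
    rwa [(A.e i).right_inv hz.1] at h3
  have hs : ∀ i k l, ContDiffOn ℝ ∞
      (fun q : ℝ × Cn n => (if q.1 ≤ m then g1 q.1 else g2 q.1) i q.2 k l)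
      (Icc a c ×ˢ dom A i U) := by
    intro i k l
    rw [contDiffOn_infty]
    intro j
    refine (hP i j k l).gl.congr fun q _ => ?_
    simp only [gl]
    split_ifs <;> rfl
  refine ⟨hs, hk, fun s hs' i x hx hxU => ?_⟩
  have hO := isOpen_dom (A := A) i hU
  have hz : A.e i x ∈ dom A i U := ⟨(A.e i).map_source hx, by rwa [(A.e i).left_inv hx]⟩
  have hN : Ioo a c ×ˢ dom A i U ∈ 𝓝 (s, A.e i x) := (isOpen_Ioo.prod hO).mem_nhds ⟨hs', hz⟩
  have hsub : Ioo a c ×ˢ dom A i U ⊆ Icc a c ×ˢ dom A i U := prod_mono Ioo_subset_Icc_self le_rfl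
  have hka : ∀ q ∈ Ioo a c ×ˢ dom A i U, KahAt ((if q.1 ≤ m then g1 q.1 else g2 q.1) i) q.2 :=
    fun q hq => kahAt_of_dom (hk q.1 (hsub hq).1) hq.2
  refine ⟨?_, ?_, ?_, ?_, ?_⟩
  · filter_upwards [hN] with q hq k l
    exact (hs i k l).contDiffAt (mem_of_superset ((isOpen_Ioo.prod hO).mem_nhds hq) hsub)
  · filter_upwards [hN] with q hq using (hka q hq).pos.self_of_nhds
  · filter_upwards [hN] with q hq using (hka q hq).closed.self_of_nhds
  · filter_upwards [hN] with q hq using (hka q hq).closed'.self_of_nhds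
  · filter_upwards [hN] with q hq k l
    have hc : ContinuousOn
        (fun q : ℝ × Cn n => hess (ldet ((if q.1 ≤ m then g1 q.1 else g2 q.1) i)) q.2 k l)
        (Icc a c ×ˢ dom A i U) := by
      refine (pr_hess (G1 := fun s => g1 s i) (G2 := fun s => g2 s i) ham hmc hO (p1 i) (p2 i)
        (hP i 0) k l).gl.continuousOn.congr fun q _ => ?_
      simp only [gl]
      split_ifs <;> rfl
    refine hasDerivAt_of_sm (m := m) hO (hs i k l) hc (fun t ht htm z hz => ?_) hq.1 hq.2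
    rcases lt_or_gt_of_ne htm with h | h
    · simp only [if_pos h.le]
      refine (flow_of_dom h1 ⟨ht.1, h⟩ hz k l).congr_of_eventuallyEq ?_
      filter_upwards [Iio_mem_nhds h] with u hu
      rw [if_pos (le_of_lt hu)]
    · simp only [if_neg (not_le.2 h)]
      refine (flow_of_dom h2 ⟨h, ht.2⟩ hz k l).congr_of_eventuallyEq ?_
      filter_upwards [Ioi_mem_nhds h] with u hu
      rw [if_neg (not_le.2 hu)]

end Crest.Agent.T223.Os
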