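import Crest.Agent.T223.OsKitA_61

/-!
# Row 223, module OSG, leaf INIT-L (helper7): `initLStmt : InitLStmt n`

With `τ = s²`, `c = s c'` the form `lyhS` becomes a function `Fm s z c' a v` that is jointly
continuous up to `s = 0`, where it is `|c'|² Ric(v,v̄) + R(v,v̄,a,ā) > 0`.  Compactness of the
spheres, homogeneity, chart independence and compactness of `Z`.
-/

set_option autoImplicit false
set_option linter.unusedVariables false

open Set Filter Topology Metric
open scoped ContDiff ComplexConjugate Matrix ComplexOrder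

namespace Crest.Agent.T223.Os.IL7

open Crest.Agent.R275.Geo Crest.Agent.R273.Kah_333 Crest.Agent.R273.Hess_333
open Crest.Agent.T223.Br Crest.Agent.T223.Tr

noncomputable section

variable {n : ℕ}

/-- `lyhS g (s²) z (s c) a v`, continued to `s = 0` -/
def Fm (g : Cn n → Mat n) (s : ℝ) (z : Cn n) (c : ℂ) (a v : Cn n) : ℝ :=
  ‖c‖ ^ 2 * (s ^ 2 * nq (hess (scal g) z + ric g z * (g z)⁻¹ * ric g z) v + nq (ric g z) v)
    + 2 * (s * (conj c * ∑ k, a k * hC (nabRic g z k) v).re) + bis g z v a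

theorem lyhS_eq (g : Cn n → Mat n) {s : ℝ} (hs : 0 < s) (z : Cn n) (c : ℂ) (a v : Cn n) :
    lyhS g (s ^ 2) z ((s : ℂ) * c) a v = Fm g s z c a v := by
  unfold lyhS Fm
  rw [Ev.nq_add _ (((((s ^ 2)⁻¹ : ℝ)) : ℂ) • ric g z), Ev.nq_smul, norm_mul, Complex.norm_real,
    Real.norm_eq_abs, abs_of_pos hs, map_mul, Complex.conj_ofReal, mul_assoc (s : ℂ),
    Complex.re_ofReal_mul]
  field_simp

theorem hC_vsmul (H : Mat n) (t : ℝ) (v : Cn n) : hC H (t • v) = ((t ^ 2 : ℝ) : ℂ) * hC H v := by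
  unfold hC
  simp only [Finset.mul_sum, PiLp.smul_apply, Complex.real_smul, map_mul, Complex.conj_ofReal]
  refine Finset.sum_congr rfl fun a _ => Finset.sum_congr rfl fun b _ => ?_
  push_cast; ring

theorem nq_vsmul (H : Mat n) (t : ℝ) (v : Cn n) : nq H (t • v) = t ^ 2 * nq H v := by
  rw [nq_eq_re, nq_eq_re, hC_vsmul, Complex.re_ofReal_mul]

theorem bis_vsmul (g : Cn n → Mat n) (z : Cn n) (t r : ℝ) (v a : Cn n) :
    bis g z (t • v) (r • a) = r ^ 2 * t ^ 2 * bis g z v a := by
  rw [bis_eq, bis_eq, ← Complex.re_ofReal_mul]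
  congr 1
  simp only [hC_vsmul, Finset.mul_sum, PiLp.smul_apply, Complex.real_smul, map_mul,
    Complex.conj_ofReal]
  refine Finset.sum_congr rfl fun a _ => Finset.sum_congr rfl fun b _ => ?_
  push_cast; ring

theorem Fm_smul (g : Cn n → Mat n) (s : ℝ) (z : Cn n) (r t : ℝ) (c : ℂ) (a v : Cn n) :
    Fm g s z (r • c) (r • a) (t • v) = r ^ 2 * t ^ 2 * Fm g s z c a v := by
  unfold Fm
  have h1 : conj (r • c) * ∑ k, (r • a) k * hC (nabRic g z k) (t • v) =
      ((r ^ 2 * t ^ 2 : ℝ) : ℂ) * (conj c * ∑ k, a k * hC (nabRic g z k) v) := by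
    simp only [hC_vsmul, Finset.mul_sum, PiLp.smul_apply, Complex.real_smul, map_mul,
      Complex.conj_ofReal]
    refine Finset.sum_congr rfl fun k _ => ?_
    push_cast; ring
  rw [h1, Complex.re_ofReal_mul, nq_vsmul, nq_vsmul, bis_vsmul, norm_smul, mul_pow,
    Real.norm_eq_abs, sq_abs]
  ring

section cont

variable {X : Type*} [TopologicalSpace X] {x : X}

theorem ca_coord {v : X → Cn n} (hv : ContinuousAt v x) (a : Fin n) :
    ContinuousAt (fun w => v w a) x :=
  (EuclideanSpace.proj (𝕜 := ℂ) a).continuous.continuousAt.comp hv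

theorem ca_sum {ι : Type*} [Fintype ι] {f : ι → X → ℂ} (h : ∀ i, ContinuousAt (f i) x) :
    ContinuousAt (fun w => ∑ i, f i w) x := tendsto_finsetSum _ fun i _ => h i

theorem ca_conj {f : X → ℂ} (h : ContinuousAt f x) : ContinuousAt (fun w => conj (f w)) x :=
  Complex.continuous_conj.continuousAt.comp h

theorem ca_re {f : X → ℂ} (h : ContinuousAt f x) : ContinuousAt (fun w => (f w).re) x :=
  Complex.continuous_re.continuousAt.comp h

theorem ca_hC {H : X → Mat n} {v : X → Cn n} (hH : ∀ a b, ContinuousAt (fun w => H w a b) x)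
    (hv : ContinuousAt v x) : ContinuousAt (fun w => hC (H w) (v w)) x :=
  ca_sum fun a => ca_sum fun b => ((hH a b).mul (ca_coord hv a)).mul (ca_conj (ca_coord hv b))

theorem ca_Fm {g : Cn n → Mat n} {s : X → ℝ} {z : X → Cn n} {c : X → ℂ} {a v : X → Cn n}
    (hg : KahAt g (z x)) (hs : ContinuousAt s x) (hz : ContinuousAt z x) (hc : ContinuousAt c x)
    (ha : ContinuousAt a x) (hv : ContinuousAt v x) :
    ContinuousAt (fun w => Fm g (s w) (z w) (c w) (a w) (v w)) x := by
  have hsm : SmM g (z x) := hg.sm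
  have hi := hsm.inv hg.det_ne
  have key : ∀ {H : Cn n → Mat n}, SmM H (z x) →
      ContinuousAt (fun w => hC (H (z w)) (v w)) x := fun {H} hH =>
    ca_hC (H := fun w => H (z w))
      (fun a b => ContinuousAt.comp (g := fun y => H y a b) (hH a b).continuousAt hz) hv
  have h1 := ca_re (key ((smM_hess hg.cd_scal).add ((hg.smM_ric.mul hi).mul hg.smM_ric)))
  have h2 := ca_re (key hg.smM_ric)
  have h3 : ∀ k, ContinuousAt (fun w => hC (nabRic g (z w) k) (v w)) x := fun k =>
    key (H := fun y => nabRic g y k)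
      ((hg.smM_ric.wdM (false, k)).sub (((hsm.wdM (false, k)).mul hi).mul hg.smM_ric))
  have h4 : ∀ k l, ContinuousAt (fun w => hC (Rm g (z w) k l) (v w)) x := fun k l =>
    key (H := fun y => Rm g y k l)
      (((hsm.wdM (true, l)).wdM (false, k)).neg.add
        (((hsm.wdM (false, k)).mul hi).mul (hsm.wdM (true, l))))
  simp only [Fm, bis_eq, nq_eq_re]
  refine (((hc.norm.pow 2).mul (((hs.pow 2).mul h1).add h2)).add (continuousAt_const.mul
    (hs.mul (ca_re ((ca_conj hc).mul (ca_sum fun k => (ca_coord ha k).mul (h3 k))))))).add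
    (ca_re (ca_sum fun k => ca_sum fun l =>
      ((h4 k l).mul (ca_coord ha k)).mul (ca_conj (ca_coord ha l))))

end cont

/-- the local statement in one chart -/
theorem loc {g : Cn n → Mat n} {z : Cn n} (hg : KahAt g z) (hr : (ric g z).PosDef)
    (hb : ∀ v w : Cn n, v ≠ 0 → w ≠ 0 → 0 < bis g z v w) :
    ∀ᶠ q : ℝ × Cn n in 𝓝 (0, z), ∀ c a v, 0 ≤ Fm g q.1 q.2 c a v := by
  have hK : IsCompact (sphere (0 : ℂ × Cn n) 1 ×ˢ sphere (0 : Cn n) 1) :=
    (isCompact_sphere _ _).prod (isCompact_sphere _ _)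
  have h1 := hK.eventually_forall_of_forall_eventually (x₀ := ((0, z) : ℝ × Cn n))
    (P := fun q y => 0 < Fm g q.1 q.2 y.1.1 y.1.2 y.2) (by
      rintro ⟨⟨c, a⟩, v⟩ ⟨hca, hv⟩
      have hv0 : v ≠ 0 := by
        rintro rfl
        simp at hv
      have hc : ContinuousAt (fun w : (ℝ × Cn n) × ((ℂ × Cn n) × Cn n) =>
          Fm g w.1.1 w.1.2 w.2.1.1 w.2.1.2 w.2.2) ((0, z), ((c, a), v)) :=
        ca_Fm (z := fun w : (ℝ × Cn n) × ((ℂ × Cn n) × Cn n) => w.1.2) hg
          (by fun_prop) (by fun_prop) (by fun_prop) (by fun_prop) (by fun_prop)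
      refine hc.eventually (lt_mem_nhds ?_)
      have hR := Ev.nq_pos hr hv0
      simp only [Fm]
      by_cases ha : a = 0
      · have hc0 : c ≠ 0 := by
          rintro rfl
          rw [ha] at hca
          simp [Prod.mk_zero_zero] at hca
        have h0 : bis g z v a = 0 := by
          have := bis_vsmul g z 1 0 v 0
          rw [ha]
          simpa using this
        have := norm_pos_iff.2 hc0
        rw [h0]
        simp only [ne_eq, OfNat.ofNat_ne_zero, not_false_eq_true, zero_pow, zero_mul, zero_add,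
          mul_zero, add_zero]
        positivity
      · have := hb v a hv0 ha
        simp only [ne_eq, OfNat.ofNat_ne_zero, not_false_eq_true, zero_pow, zero_mul, zero_add,
          mul_zero, add_zero]
        positivity)
  filter_upwards [h1] with q hq c a v
  by_cases hv : v = 0
  · have := Fm_smul g q.1 q.2 1 0 c a v
    rw [hv] at this ⊢
    simp only [one_smul, smul_zero] at this
    rw [this]; simp
  by_cases hca : ((c, a) : ℂ × Cn n) = 0
  · have := Fm_smul g q.1 q.2 0 1 c a v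
    obtain ⟨hc, ha⟩ := Prod.mk_eq_zero.1 hca
    rw [hc, ha] at this ⊢
    simp only [one_smul, smul_zero] at this
    rw [this]; simp
  have hp1 := norm_pos_iff.2 hv
  have hp2 := norm_pos_iff.2 hca
  have h2 := hq (‖((c, a) : ℂ × Cn n)‖⁻¹ • (c, a), ‖v‖⁻¹ • v) ⟨by
    simp only [mem_sphere_zero_iff_norm, norm_smul, norm_inv, norm_norm]
    exact inv_mul_cancel₀ hp2.ne', by
    simp only [mem_sphere_zero_iff_norm, norm_smul, norm_inv, norm_norm]
    exact inv_mul_cancel₀ hp1.ne'⟩
  simp only [Prod.smul_mk] at h2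
  rw [Fm_smul] at h2
  exact (pos_of_mul_pos_right h2 (by positivity)).le

end

end Crest.Agent.T223.Os.IL7

namespace Crest.Agent.T223.Os

open Crest.Agent.R275.Geo Crest.Agent.R273.Kah_333 Crest.Agent.T223.Br Crest.Agent.T223.Tr IL7

/-- **INIT-L** -/
theorem initLStmt (n : ℕ) : InitLStmt n := by
  intro M _ _ A K0 Z hK hZ
  have h1 := hZ.eventually_forall_of_forall_eventually (x₀ := (0 : ℝ))
    (P := fun s x => 0 < s → LyhGe (gc K0) (s ^ 2) 1 0 x) (by
      intro x _
      have hi := ch_mem A x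
      have ht := (A.e (ch A x)).map_source hi
      have h2 := loc (kahAt_gc K0 _ ht) (ric_posDef_of_BKpos hK _ ht) (hK _ _ ht)
      have hc : Tendsto (fun q : ℝ × M => ((q.1, A.e (ch A x) q.2) : ℝ × Cn n)) (𝓝 (0, x))
          (𝓝 (0, A.e (ch A x) x)) :=
        Tendsto.prodMk_nhds continuousAt_fst
          (((A.e (ch A x)).continuousAt hi).tendsto.comp continuousAt_snd)
      have hs : Tendsto (fun q : ℝ × M => q.2) (𝓝 (0, x)) (𝓝 x) := continuousAt_snd
      filter_upwards [hc.eventually h2, hs.eventually ((A.e (ch A x)).open_source.mem_nhds hi)]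
        with q hq hq' h0
      rw [lyhGe_iff (kahOn_gc K0 univ) isOpen_univ (mem_univ _) hq']
      intro c a v
      have h3 := hq (((q.1⁻¹ : ℝ) : ℂ) * c) a v
      rw [← lyhS_eq _ h0, ← mul_assoc, ← Complex.ofReal_mul, mul_inv_cancel₀ h0.ne'] at h3
      simpa using h3)
  obtain ⟨ε, hε, h2⟩ := Metric.eventually_nhds_iff.1 h1
  refine ⟨(ε / 2) ^ 2, by positivity, fun τ h0 hτ x hx => ?_⟩
  have h3 : √τ ≤ ε / 2 := Real.sqrt_le_iff.2 ⟨by positivity, hτ⟩
  have h4 := Real.sqrt_pos.2 h0
  have h5 := h2 (y := √τ) (by rw [Real.dist_eq, sub_zero, abs_of_pos h4]; linarith) x hx h4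
  rwa [Real.sq_sqrt h0.le] at h5

end Crest.Agent.T223.Os
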