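import Crest.Agent.T223.OsTch_24
import Crest.Agent.T223.EvC_41

/-!
# Row 223, module OSG (helper24): the leaf (c), `0 ≤ ρ` and `|∂ρ|² ≤ 1 + K E`
-/

set_option autoImplicit false
set_option linter.unusedVariables false
set_option linter.unusedSectionVars false

open Set Filter Topology Metric
open scoped ContDiff ComplexConjugate Matrix ComplexOrder

namespace Crest.Agent.T223.Os

open Crest.Agent.R275.Geo Crest.Agent.R273.Kah_333 Crest.Agent.R273.Hess_333
open Crest.Agent.T223.Br Crest.Agent.T223.Tr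
open Crest.Agent.T223.Db (dom SmST)
open Crest.Agent.T223.Bx (Rg)

noncomputable section

variable {n : ℕ} {M : Type} [TopologicalSpace M] {A : Atl n M}
variable [T2Space M] [ConnectedSpace M] {K0 : Kah A} {p : M}

namespace T24

open Stp

variable {P : Par} {I : Init K0 p} {a : ℝ} {S : Stp P I a}

section loc

variable {s : ℝ} (hs : s ∈ Ioo S.t S.b) {i : A.ι} {x : M} (hi : x ∈ (A.e i).source) (hx : x ∈ S.U)
include hs hi hx

theorem heatAt_ρ : Ev.HeatAt (fun s => S.g s i) (fun s => inC A i (S.ρ s)) s (A.e i x) where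
  sm := cd_ρ hs hi hx
  eq := by
    filter_upwards [ev_loc hs hi hx] with q hq
    have := box_ρ hq.1 hq.2.1 hq.2.2.1
    rwa [hq.2.2.2] at this

theorem heatAt_u : Ev.HeatAt (fun s => S.g s i) (fun s => inC A i (S.u s)) s (A.e i x) where
  sm := cd_u hs hi hx
  eq := by
    filter_upwards [ev_loc hs hi hx] with q hq
    have := box_u hq.1 hq.2.1 hq.2.2.1
    rwa [hq.2.2.2] at this

/-- `Gr (g s) (ρ s)` read in the chart, near `(s, e i x)` -/
theorem ev_Gr_ρ : ∀ᶠ q : ℝ × Cn n in 𝓝 (s, A.e i x),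
    Gr (S.g q.1) (S.ρ q.1) ((A.e i).symm q.2) = gsq (S.g q.1 i) (inC A i (S.ρ q.1)) q.2 := by
  filter_upwards [ev_loc hs hi hx] with q hq
  have := Gr_ρ hq.1 hq.2.1 hq.2.2.1
  rwa [hq.2.2.2] at this

/-- `Gr (g s) (u s)` read in the chart, near `(s, e i x)` -/
theorem ev_Gr_u : ∀ᶠ q : ℝ × Cn n in 𝓝 (s, A.e i x),
    Gr (S.g q.1) (S.u q.1) ((A.e i).symm q.2) = gsq (S.g q.1 i) (inC A i (S.u q.1)) q.2 := by
  filter_upwards [ev_loc hs hi hx] with q hq
  have := Gr_u hq.1 hq.2.1 hq.2.2.1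
  rwa [hq.2.2.2] at this

theorem rg_gsq_ρ : Rg (fun s w => gsq (S.g s i) (inC A i (S.ρ s)) w) s (A.e i x) :=
  Rg.of_joint ((krfAt hs hi hx).cd_gsq (φ := fun s => inC A i (S.ρ s)) (cd_ρ hs hi hx))

theorem rg_gsq_u : Rg (fun s w => gsq (S.g s i) (inC A i (S.u s)) w) s (A.e i x) :=
  Rg.of_joint ((krfAt hs hi hx).cd_gsq (φ := fun s => inC A i (S.u s)) (cd_u hs hi hx))

end loc

variable (h : P.Ok)
include h

theorem sg_nonneg (hV : P.V ≤ P.B) {s : ℝ} (hs : s ∈ Icc S.t S.t') : 0 ≤ S.sg s := by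
  linarith [le_sg h hs, S.mul_r_le h hV, S.B_le_σ h, h.B1]

theorem ρ_nonneg (hV : P.V ≤ P.B) : ∀ s ∈ Icc S.t S.t', ∀ x ∈ S.Kc, 0 ≤ S.ρ s x := by
  have key := touchE h (F := fun s x => -1 * S.ρ s x) (c0 := 0) le_rfl
    (continuousOn_const.mul (cont_ρK h)).upperSemicontinuousOn
    (fun x hx => by linarith [(S.init' hx).ic.1])
    (fun s hs x hx hE => by linarith [(one_le_E_iff h).1 hE, sg_nonneg h hV hs])
    fun s hs hts x hx _ _ ε hε => by
      have hs' := mem_Ioo h hs hts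
      have hi := ch_mem A x
      refine ⟨_, hi, fun s w => -1 * inC A (ch A x) (S.ρ s) w, (rg_ρ hs' hi hx.1).const_mul _,
        Eventually.of_forall fun q => le_rfl, by simp only [inC_apply _ hi], ?_⟩
      rw [Bx.box_const_mul _ (rg_ρ hs' hi hx.1), box_ρ hs' hi hx.1]
      linarith
  exact fun s hs x hx => by linarith [key s hs x hx]

theorem Gr_ρ_le :
    ∀ s ∈ Icc S.t S.t', ∀ x ∈ S.Kc, Gr (S.g s) (S.ρ s) x ≤ 1 + P.K * S.E s x := by
  have key := touchE h (F := fun s x => Gr (S.g s) (S.ρ s) x - 1) (c0 := P.K) h.K0.le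
    ((cont_GrK h S.hρ.sm).sub continuousOn_const).upperSemicontinuousOn
    (fun x hx => by
      have h1 := (S.init' hx).ic.2
      have h2 := e0_le h ⟨le_rfl, (S.t_lt h).le⟩ hx
      have h3 := E_pos (S := S) S.t x
      have h4 := mul_le_mul_of_nonneg_left (h2.trans (by linarith : _ ≤ S.E S.t x)) h.K0.le
      linarith)
    (fun s hs x hx hE => by
      have h1 := (crudeK h hs hx).gρ
      have h2 := mul_le_mul_of_nonneg_left hE h.K0.le
      linarith)
    fun s hs hts x hx _ _ ε hε => by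
      have hs' := mem_Ioo h hs hts
      have hi := ch_mem A x
      refine ⟨_, hi, fun s w => gsq (S.g s (ch A x)) (inC A (ch A x) (S.ρ s)) w - 1,
        (rg_gsq_ρ hs' hi hx.1).sub (Rg.const 1), ?_, by simp only [Gr_ρ hs' hi hx.1], ?_⟩
      · filter_upwards [nhdsWithin_le_nhds (ev_Gr_ρ hs' hi hx.1)] with q hq
        exact le_of_eq (by rw [← hq]; rfl)
      · rw [Bx.box_sub (rg_gsq_ρ hs' hi hx.1) (Rg.const 1), Bx.box_const]
        have h1 := Ev.box_gsq_nonpos (krfAt hs' hi hx.1) (heatAt_ρ hs' hi hx.1)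
        have h2 : 0 ≤ P.K * ((P.V - P.K) * S.q * S.E s x) :=
          mul_nonneg h.K0.le (mul_nonneg (mul_nonneg (by linarith [h.KV]) (S.q_pos h).le)
            (E_pos s x).le)
        linarith
  exact fun s hs x hx => by linarith [key s hs x hx]

end T24

/-- **leaf (c)** -/
theorem lcStmt (n : ℕ) : LcStmt n := by
  unfold LcStmt Leaf
  refine Ev.of_thr (fun _ => 0) (fun _ _ => 0) (fun _ _ _ => 0) (fun _ _ V _ _ _ => V) ?_
  intro P h _ _ _ hV M _ _ _ A K0 p I a S s hs x hx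
  exact ⟨T24.ρ_nonneg h hV s hs x hx, T24.Gr_ρ_le h s hs x hx⟩

end

end Crest.Agent.T223.Os
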