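import Crest.Agent.T223.Fr_38
import Crest.Agent.T223.TrPb_90
import Crest.Agent.T223.EvLA_41

/-!
# T223, module LOWER (helper18), part 2: chart calculus for `log det`, `g(v,v)` and the function `S`

* `hasDerivAt_logdet`       : Jacobi's formula in time
* `krf_ldet`, `krf_nq`      : `∂_t log det g = -R`, `∂_t g(v,v̄) = -Ric(v,v̄)`
* `ldet_le`                 : `g ≤ c g₀ → log det g ≤ n log c + log det g₀`
* `Sf g0 g φ`               : `S = φ + t (log det g₀ - log det g) + n t`; `box_Sf : □ S = tr_g g₀`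
-/

set_option autoImplicit false
set_option linter.unusedSectionVars false
set_option linter.unusedVariables false

open Set Filter Topology Metric Matrix
open scoped ContDiff ComplexConjugate ComplexOrder

noncomputable section

namespace Crest.Agent.T223.Lo

open Crest.Agent.R275.Geo Crest.Agent.R273.Hess_333 Crest.Agent.R273.HessB_333
open Crest.Agent.R275.EDR890 Crest.Agent.T223.Tr

variable {n : ℕ}

theorem sum_adj_col (A : Mat n) (i : Fin n) (b : Fin n → ℂ) :
    (A.updateCol i b).det = ∑ j, A.adjugate i j * b j := by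
  rw [← Matrix.cramer_apply, Matrix.cramer_eq_adjugate_mulVec]
  rfl

theorem hasDerivAt_det {A : ℝ → Mat n} {A' : Mat n} {t : ℝ}
    (hA : ∀ i j, HasDerivAt (fun s => A s i j) (A' i j) t) :
    HasDerivAt (fun s => (A s).det) (((A t).adjugate * A').trace) t := by
  have h1 : ∀ y, (A y).det =
      ∑ σ : Equiv.Perm (Fin n), ((Equiv.Perm.sign σ : ℤ) : ℂ) * ∏ i, A y (σ i) i := by
    intro y; rw [Matrix.det_apply']
  simp_rw [h1]
  have h2 : HasDerivAt
      (fun y => ∑ σ : Equiv.Perm (Fin n), ((Equiv.Perm.sign σ : ℤ) : ℂ) * ∏ i, A y (σ i) i)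
      (∑ σ : Equiv.Perm (Fin n), ((Equiv.Perm.sign σ : ℤ) : ℂ) *
        ∑ i, (∏ j ∈ Finset.univ.erase i, A t (σ j) j) • A' (σ i) i) t := by
    refine HasDerivAt.fun_sum fun σ _ => ?_
    exact (HasDerivAt.fun_finsetProd (fun i _ => hA (σ i) i)).const_mul _
  refine h2.congr_deriv ?_
  have h3 : ((A t).adjugate * A').trace = ∑ i, ∑ j, (A t).adjugate i j * A' j i := by
    simp only [Matrix.trace, Matrix.diag_apply, Matrix.mul_apply]
  rw [h3]
  simp only [smul_eq_mul]
  simp_rw [← sum_adj_col (A t) _ (fun j => A' j _), Matrix.det_apply']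
  rw [Finset.sum_comm]
  refine Finset.sum_congr rfl fun σ _ => ?_
  rw [Finset.mul_sum]
  refine Finset.sum_congr rfl fun i _ => ?_
  congr 1
  rw [← Finset.mul_prod_erase Finset.univ _ (Finset.mem_univ i)]
  simp only [Matrix.updateCol_self]
  rw [mul_comm]
  congr 1
  refine Finset.prod_congr rfl fun j hj => ?_
  rw [Matrix.updateCol_ne (Finset.ne_of_mem_erase hj)]

theorem det_eq_re {g : Mat n} (h : g.PosDef) : g.det = (g.det.re : ℂ) := by
  have h1 := h.det_pos
  have h2 : g.det.im = 0 := ((Complex.pos_iff).1 h1).2.symm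
  apply Complex.ext <;> simp [h2]

/-- Jacobi's formula -/
theorem hasDerivAt_logdet {A : ℝ → Mat n} {A' : Mat n} {t : ℝ} (hp : (A t).PosDef)
    (hA : ∀ i j, HasDerivAt (fun s => A s i j) (A' i j) t) :
    HasDerivAt (fun s => Real.log (A s).det.re) (trg (A t) A') t := by
  have h1 := hasDerivAt_det hA
  have h2 : HasDerivAt (fun s => (A s).det.re) (((A t).adjugate * A').trace).re t :=
    Complex.reCLM.hasFDerivAt.comp_hasDerivAt t h1
  have h0 := det_re_pos hp
  refine (h2.log h0.ne').congr_deriv ?_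
  unfold trg
  rw [Matrix.inv_def, Ring.inverse_eq_inv', Matrix.smul_mul, Matrix.trace_smul, smul_eq_mul]
  have h3 : (A t).det⁻¹ = (((A t).det.re⁻¹ : ℝ) : ℂ) := by
    rw [Complex.ofReal_inv, ← det_eq_re hp]
  rw [h3, Complex.re_ofReal_mul, div_eq_inv_mul]

theorem trg_neg (g A : Mat n) : trg g (-A) = -trg g A := Ev.trg_neg g A
theorem trg_add (g A B : Mat n) : trg g (A + B) = trg g A + trg g B := Ev.trg_add g A B
theorem trg_sub (g A B : Mat n) : trg g (A - B) = trg g A - trg g B := Ev.trg_sub g A B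
theorem trg_smul (g A : Mat n) (c : ℝ) : trg g ((c : ℂ) • A) = c * trg g A := Ev.trg_smul g A c
theorem trg_self {g : Mat n} (hg : g.PosDef) : trg g g = n := Ev.trg_self hg

theorem trg_nonneg {g A : Mat n} (hg : g.PosDef) (hA : A.IsHermitian) (h : ∀ v, 0 ≤ nq A v) :
    0 ≤ trg g A := by
  have h1 := Ev.trg_lower hg hA (b := 0) (fun v => by
    rw [zero_mul, add_zero]
    exact h v)
  rw [mul_zero, add_zero] at h1
  exact h1

theorem trg_mono {g A B : Mat n} (hg : g.PosDef) (hA : A.IsHermitian) (hB : B.IsHermitian)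
    (h : ∀ v, nq A v ≤ nq B v) : trg g A ≤ trg g B := by
  have := trg_nonneg hg (hB.sub hA) (fun v => by rw [nq_sub]; linarith [h v])
  rw [trg_sub] at this
  linarith

variable {g : ℝ → Cn n → Mat n} {t : ℝ} {z : Cn n}

theorem krf_pos (h : KRFat g t z) : (g t z).PosDef := h.pos.self_of_nhds

/-- `∂_t log det g = -R` -/
theorem krf_ldet (h : KRFat g t z) : HasDerivAt (fun s => ldet (g s) z) (-scal (g t) z) t := by
  have h1 := hasDerivAt_logdet (A := fun s => g s z) (krf_pos h) h.flow.self_of_nhds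
  refine h1.congr_deriv ?_
  unfold scal ric
  rw [trg_neg, neg_neg]

theorem hasDerivAt_nq {A : ℝ → Mat n} {A' : Mat n} {t : ℝ}
    (hA : ∀ i j, HasDerivAt (fun s => A s i j) (A' i j) t) (v : Cn n) :
    HasDerivAt (fun s => nq (A s) v) (nq A' v) t := by
  have h1 : HasDerivAt (fun s => ∑ a, ∑ b, A s a b * v a * conj (v b))
      (∑ a, ∑ b, A' a b * v a * conj (v b)) t :=
    HasDerivAt.fun_sum fun a _ => HasDerivAt.fun_sum fun b _ =>
      ((hA a b).mul_const _).mul_const _
  exact Complex.reCLM.hasFDerivAt.comp_hasDerivAt t h1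

/-- `∂_t g(v, v̄) = -Ric(v, v̄)` -/
theorem krf_nq (h : KRFat g t z) (v : Cn n) :
    HasDerivAt (fun s => nq (g s z) v) (-nq (ric (g t) z) v) t := by
  refine (hasDerivAt_nq (A := fun s => g s z) h.flow.self_of_nhds v).congr_deriv ?_
  unfold ric
  have := Ev.nq_neg (hess (ldet (g t)) z) v
  change nq (-hess (ldet (g t)) z) v = -nq (hess (ldet (g t)) z) v at this
  rw [this, neg_neg]

theorem contDiffAt_det {X : Type*} [NormedAddCommGroup X] [NormedSpace ℝ X] {K : X → Mat n}
    {x : X} {k : WithTop ℕ∞} (hK : ∀ a b, ContDiffAt ℝ k (fun w => K w a b) x) :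
    ContDiffAt ℝ k (fun w => (K w).det) x := by
  have h : (fun w => (K w).det) = fun w => ∑ σ : Equiv.Perm (Fin n),
      ((Equiv.Perm.sign σ : ℤ) : ℂ) * ∏ i, K w (σ i) i := by
    funext w
    rw [Matrix.det_apply']
  rw [h]
  refine ContDiffAt.sum fun σ _ => ?_
  exact contDiffAt_const.mul (contDiffAt_prod fun i _ => hK _ _)

theorem contDiffAt_logdet {X : Type*} [NormedAddCommGroup X] [NormedSpace ℝ X] {K : X → Mat n}
    {x : X} {k : WithTop ℕ∞} (hK : ∀ a b, ContDiffAt ℝ k (fun w => K w a b) x)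
    (hp : (K x).PosDef) : ContDiffAt ℝ k (fun w => Real.log (K w).det.re) x :=
  (Complex.reCLM.contDiff.contDiffAt.comp x (contDiffAt_det hK)).log (det_re_pos hp).ne'

theorem kah_ldet {g0 : Cn n → Mat n} (h : KahAt g0 z) : ContDiffAt ℝ ∞ (ldet g0) z :=
  contDiffAt_logdet h.sm h.pos.self_of_nhds

theorem krf_ldet_sm (h : KRFat g t z) :
    ContDiffAt ℝ ∞ (fun q : ℝ × Cn n => ldet (g q.1) q.2) (t, z) :=
  contDiffAt_logdet (K := fun q : ℝ × Cn n => g q.1 q.2) h.sm (krf_pos h)

/-- `g ≤ c g₀ → log det g ≤ n log c + log det g₀` -/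
theorem logdet_le {G G0 : Mat n} (hG : G.PosDef) (h0 : G0.PosDef) {c : ℝ} (hc : 0 < c)
    (h : ∀ v, nq G v ≤ c * nq G0 v) :
    Real.log G.det.re ≤ n * Real.log c + Real.log G0.det.re := by
  obtain ⟨T, d, h1, h2, h3⟩ := Ev.exists_diag h0 hG.isHermitian
  have hd : ∀ i, 0 < d i ∧ d i ≤ c := by
    intro i
    set v : Cn n := WithLp.toLp 2 fun a => conj (T a i) with hv
    have e : ∀ B : Mat n, nq B v = ((Tᴴ * B * T) i i).re := by
      intro B
      unfold nq
      congr 1
      simp only [hv, Matrix.mul_apply, Matrix.conjTranspose_apply, Finset.sum_mul,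
        Complex.conj_conj, RCLike.star_def]
      rw [Finset.sum_comm]
      refine Finset.sum_congr rfl fun a _ => Finset.sum_congr rfl fun b _ => ?_
      ring
    have e0 : nq G0 v = 1 := by rw [e, h1]; simp
    have e1 : nq G v = d i := by rw [e, h3]; simp
    have hv0 : v ≠ 0 := by
      intro h5
      rw [h5] at e0
      simp [nq] at e0
    refine ⟨?_, ?_⟩
    · rw [← e1]; exact Ev.nq_pos hG hv0
    · have := h v
      rwa [e0, e1, mul_one] at this
  have hT : ∀ B : Mat n, (Tᴴ * B * T).det.re = ‖T.det‖ ^ 2 * B.det.re := by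
    intro B
    rw [Matrix.det_mul, Matrix.det_mul, Matrix.det_conjTranspose]
    have : star T.det * B.det * T.det = ((‖T.det‖ ^ 2 : ℝ) : ℂ) * B.det := by
      rw [← Complex.normSq_eq_norm_sq, Complex.normSq_eq_conj_mul_self]
      simp only [RCLike.star_def]
      ring
    rw [this, Complex.re_ofReal_mul]
  have e0 := hT G0
  rw [h1, Matrix.det_one, Complex.one_re] at e0
  have e1 := hT G
  rw [h3, Matrix.det_diagonal, ← Complex.ofReal_prod, Complex.ofReal_re] at e1
  have hle : ∏ i, d i ≤ c ^ n := by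
    calc ∏ i, d i ≤ ∏ _i : Fin n, c := Finset.prod_le_prod (fun i _ => (hd i).1.le) fun i _ => (hd i).2
      _ = c ^ n := by simp
  have p0 := det_re_pos h0
  have p1 := det_re_pos hG
  have hN : 0 < ‖T.det‖ ^ 2 := by
    by_contra hc'
    have : ‖T.det‖ ^ 2 = 0 := le_antisymm (not_lt.1 hc') (sq_nonneg _)
    rw [this] at e0
    simp at e0
  have h5 : G.det.re ≤ c ^ n * G0.det.re := by
    have h6 : ‖T.det‖ ^ 2 * G.det.re ≤ ‖T.det‖ ^ 2 * (c ^ n * G0.det.re) := by
      calc ‖T.det‖ ^ 2 * G.det.re = ∏ i, d i := e1.symm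
        _ ≤ c ^ n := hle
        _ = c ^ n * (‖T.det‖ ^ 2 * G0.det.re) := by rw [← e0, mul_one]
        _ = _ := by ring
    exact le_of_mul_le_mul_left h6 hN
  calc Real.log G.det.re ≤ Real.log (c ^ n * G0.det.re) := Real.log_le_log p1 h5
    _ = _ := by rw [Real.log_mul (pow_pos hc n).ne' p0.ne', Real.log_pow]

/-- the function `S = φ + t log (det g₀ / det g) + n t` -/
def Sf (g0 : Cn n → Mat n) (g : ℝ → Cn n → Mat n) (φ : ℝ → Cn n → ℝ) (t : ℝ) (z : Cn n) : ℝ :=
  φ t z + t * (ldet g0 z - ldet (g t) z) + n * t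

variable {g0 : Cn n → Mat n} {φ : ℝ → Cn n → ℝ}

theorem contDiffAt_Sf (h : KRFat g t z) (h0 : KahAt g0 z)
    (hφ : ContDiffAt ℝ ∞ (fun q : ℝ × Cn n => φ q.1 q.2) (t, z)) :
    ContDiffAt ℝ ∞ (fun q : ℝ × Cn n => Sf g0 g φ q.1 q.2) (t, z) := by
  have h1 : ContDiffAt ℝ ∞ (fun q : ℝ × Cn n => ldet g0 q.2) (t, z) :=
    ContDiffAt.comp (g := ldet g0) (f := fun q : ℝ × Cn n => q.2) (t, z) (kah_ldet h0)
      contDiffAt_snd
  exact (hφ.add (contDiffAt_fst.mul (h1.sub (krf_ldet_sm h)))).add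
    (contDiffAt_const.mul contDiffAt_fst)

/-- `∂_t S = n + t R` -/
theorem hasDerivAt_Sf (h : KRFat g t z)
    (hφt : HasDerivAt (fun s => φ s z) (ldet (g t) z - ldet g0 z) t) :
    HasDerivAt (fun s => Sf g0 g φ s z) (n + t * scal (g t) z) t := by
  have h1 := (hasDerivAt_id t).mul ((hasDerivAt_const t (ldet g0 z)).sub (krf_ldet h))
  have h2 := (hφt.add h1).add ((hasDerivAt_id t).const_mul (n : ℝ))
  refine h2.congr_deriv ?_
  simp only [id, Pi.sub_apply]
  ring

theorem hess_Sf (h : KRFat g t z) (h0 : KahAt g0 z) (hφ : ContDiffAt ℝ ∞ (φ t) z)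
    (he : g t z = g0 z - (t : ℂ) • ric g0 z + hess (φ t) z) :
    hess (Sf g0 g φ t) z = g t z - g0 z + (t : ℂ) • ric (g t) z := by
  have h1 := kah_ldet h0
  have h2 := kah_ldet h.kahAt
  have e : Sf g0 g φ t = fun w => (φ t w + t * (ldet g0 w - ldet (g t) w)) + (fun _ => n * t) w := rfl
  have h3 : ContDiffAt ℝ ∞ (fun w => t * (ldet g0 w - ldet (g t) w)) z :=
    contDiffAt_const.mul (h1.sub h2)
  have h4 : hess (fun _ : Cn n => (n : ℝ) * t) z = 0 := by
    ext a b
    rw [hess_apply]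
    have h6 : wd (true, b) (cu fun _ : Cn n => (n : ℝ) * t) = fun _ => 0 := by
      funext w
      exact wd_hol (f := fun _ : Cn n => (((n : ℝ) * t : ℝ) : ℂ)) (differentiableAt_const _) b
    rw [h6, wd_hol' (differentiableAt_const _)]
    simp
  rw [e, hess_add (hφ.add h3) contDiffAt_const, h4, hess_add hφ h3, hess_const_mul _ (h1.sub h2),
    hess_sub h1 h2, he]
  unfold ric
  simp only [smul_sub, smul_neg]
  abel

/-- `(∂_t - Δ) S = tr_g g₀` -/
theorem box_Sf (h : KRFat g t z) (h0 : KahAt g0 z) (hφ : ContDiffAt ℝ ∞ (φ t) z)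
    (hφt : HasDerivAt (fun s => φ s z) (ldet (g t) z - ldet g0 z) t)
    (he : g t z = g0 z - (t : ℂ) • ric g0 z + hess (φ t) z) :
    box g (Sf g0 g φ) t z = trg (g t z) (g0 z) := by
  unfold box lap
  rw [(hasDerivAt_Sf h hφt).deriv, hess_Sf h h0 hφ he, trg_add, trg_sub, trg_smul,
    trg_self (krf_pos h)]
  unfold scal
  ring

end Crest.Agent.T223.Lo
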