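import Crest.Agent.T223.OsBas_21
import Crest.Agent.T223.FrB_38
import Crest.Agent.T223.Bx_45
import Crest.Agent.T223.LoCal_18
import Crest.Agent.T223.TrRic_90

/-!
# Row 223, module OSG (helper92): the scalar barrier on one step and the leaf (d)
-/

set_option autoImplicit false
set_option linter.unusedVariables false

open Set Filter Topology Metric
open scoped ContDiff ComplexConjugate Matrix ComplexOrder

namespace Crest.Agent.T223.Os

open Crest.Agent.R275.Geo Crest.Agent.R273.Kah_333 Crest.Agent.R273.Hess_333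
open Crest.Agent.T223.Br Crest.Agent.T223.Tr
open Crest.Agent.T223.Db (dom SmST)

noncomputable section

namespace Ld92

variable {n : ℕ} {M : Type} [TopologicalSpace M] {A : Atl n M}

theorem rg_of_smST {a b s : ℝ} {U : Set M} (hU : IsOpen U) {f : ℝ → M → ℝ}
    (h : SmST A (Icc a b) U f) (hs : s ∈ Ioo a b) {i : A.ι} {x : M} (hi : x ∈ (A.e i).source)
    (hx : x ∈ U) : Bx.Rg (fun s => inC A i (f s)) s (A.e i x) :=
  Bx.Rg.of_joint ((h i).contDiffAt (prod_mem_nhds (Icc_mem_nhds hs.1 hs.2)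
    ((isOpen_dom i hU).mem_nhds (mem_dom hi hx))))

theorem lv_chart (K0 : Kah A) {G : MF A} {U : Set M} (hG : KahOn G U) {i : A.ι} {w : Cn n}
    (hw : w ∈ dom A i U) : lv K0 G ((A.e i).symm w) = ldet (gc K0 i) w - ldet (G i) w := by
  have hi := (A.e i).map_target hw.1
  rw [lv, lvol_indep K0 hG.tr (ch_mem A _) hi hw.2 (hG.kah i _ hi hw.2).posDef, lvol,
    (A.e i).right_inv hw.1]

theorem smST_lv (K0 : Kah A) {a b : ℝ} {U : Set M} {g : ℝ → MF A} (h : FlowOn a b U g) :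
    SmST A (Icc a b) U fun s => lv K0 (g s) := by
  intro i
  refine ContDiffOn.congr (f := fun q : ℝ × Cn n => ldet (gc K0 i) q.2 - ldet (g q.1 i) q.2) ?_
    fun q hq => lv_chart K0 (h.kah _ hq.1) hq.2
  intro q hq
  have hi := (A.e i).map_target hq.2.1
  have hp := ((h.kah _ hq.1).kah i _ hi hq.2.2).posDef
  rw [(A.e i).right_inv hq.2.1] at hp
  refine (cd_static q.1 (kahAt_gc K0 i hq.2.1).cd_ldet).contDiffWithinAt.sub ?_
  have h1 : ContDiffAt ℝ ∞ (fun G : Fin n → Fin n → ℂ => Real.log (Matrix.of G).det.re)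
      (fun k l => g q.1 i q.2 k l) :=
    Lo.contDiffAt_logdet (K := fun G : Fin n → Fin n → ℂ => Matrix.of G)
      (fun k l => (contDiffAt_apply ℝ ℂ l _).comp _ (contDiffAt_apply ℝ _ k _)) hp
  exact h1.comp_contDiffWithinAt q (f := fun q : ℝ × Cn n => fun k l => g q.1 i q.2 k l)
    (contDiffWithinAt_pi.2 fun k => contDiffWithinAt_pi.2 fun l => h.sm i k l q hq)

/-- `□ log (det g₀ / det g) = tr_g Ric₀` -/
theorem box_lv (K0 : Kah A) {a b s : ℝ} {U : Set M} (hU : IsOpen U) {g : ℝ → MF A}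
    (h : FlowOn a b U g) (hs : s ∈ Ioo a b) {i : A.ι} {x : M} (hi : x ∈ (A.e i).source)
    (hx : x ∈ U) : box (fun s => g s i) (fun s => inC A i (lv K0 (g s))) s (A.e i x) =
      trg (g s i (A.e i x)) (ric (gc K0 i) (A.e i x)) := by
  have hk := h.krf s hs i x hi hx
  have h0 := kahAt_gc K0 i ((A.e i).map_source hi)
  rw [Bx.box_congr' (ψ := fun s w => ldet (gc K0 i) w - ldet (g s i) w) (by
    filter_upwards [prod_mem_nhds (Icc_mem_nhds hs.1 hs.2)
      ((isOpen_dom i hU).mem_nhds (mem_dom hi hx))] with q hq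
    exact lv_chart K0 (h.kah _ hq.1) hq.2),
    Bx.box_sub (Bx.Rg.static h0.cd_ldet) (Bx.Rg.of_joint hk.cd_ldet), Bx.box_static, box,
    (Lo.krf_ldet hk).deriv]
  simp only [lap, scal, ric, Bx.trg_neg]
  ring

/-- a Ricci potential plus `lv` is a subsolution -/
theorem box_pot (K0 : Kah A) {a b s : ℝ} {U W : Set M} (hU : IsOpen U) {g : ℝ → MF A}
    (h : FlowOn a b U g) (hs : s ∈ Ioo a b) {i : A.ι} {x : M} (hi : x ∈ (A.e i).source)
    (hx : x ∈ U) [T2Space M] [ConnectedSpace M] {θ : M → ℝ} (hθ : Pot K0 W θ) (hW : x ∈ W) :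
    box (fun s => g s i) (fun s w => inC A i θ w + inC A i (lv K0 (g s)) w) s (A.e i x) ≤ 0 := by
  have h1 := sm_inC hθ.sm hi
  rw [Bx.box_add (Bx.Rg.static h1) (rg_of_smST hU (smST_lv K0 h) hs hi hx), box_lv K0 hU h hs hi hx,
    Bx.box_static, lap]
  have := Lo.trg_mono (h.krf s hs i x hi hx).posDef
    (kahAt_gc K0 i ((A.e i).map_source hi)).ric_herm (hess_herm h1) (hθ.ge i x hi hW)
  linarith

variable [T2Space M] [ConnectedSpace M] {K0 : Kah A} {p : M} {P : Par} {I : Init K0 p} {a : ℝ}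

/-- oscillation of `lv` in one step -/
theorem lv_osc (S : Stp P I a) (hP : P.Ok) {s : ℝ} (hs : s ∈ Icc S.t S.t') {x : M}
    (hx : x ∈ S.Kc) : lv K0 (S.g s) x ≤ lv K0 (S.g S.t) x + n ^ 2 * P.K := by
  have hr := S.r_pos hP
  have hd : ∀ s ∈ interior (Icc S.t S.t'), HasDerivAt (fun s => lv K0 (S.g s) x)
      (scal (S.g s (ch A x)) (A.e (ch A x) x)) s := by
    intro s hs
    rw [interior_Icc] at hs
    have hk := S.flow.krf s ⟨hs.1, hs.2.trans S.lt'⟩ _ x (ch_mem A x) hx.1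
    exact ((Lo.krf_ldet hk).const_sub (ldet (gc K0 (ch A x)) (A.e (ch A x) x))).congr_deriv
      (neg_neg _)
  have hc : ContinuousOn (fun s => lv K0 (S.g s) x) (Icc S.t S.t') :=
    (continuousOn_of_SmST (smST_lv K0 S.flow)).comp (f := fun s => (s, x)) (by fun_prop)
      fun s hs => ⟨Stp.mem_Icc hP hs, hx.1⟩
  have h1 := (convex_Icc S.t S.t').image_sub_le_mul_sub_of_deriv_le hc
    (fun s hs => (hd s hs).differentiableAt.differentiableWithinAt)
    (C := n * (n * (P.K / S.r ^ 2))) (fun s hs => by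
      rw [(hd s hs).deriv]
      have hs' := interior_subset hs
      have hk := (S.flow.kah s (Stp.mem_Icc hP hs')).kah _ x (ch_mem A x) hx.1
      exact Ev.trg_upper hk.posDef hk.ric_herm
        (ric_le_of_BKle hk ((Stp.crudeK hP hs' hx).bk _ (ch_mem A x)).2))
    S.t ⟨le_rfl, (S.t_lt hP).le⟩ s hs hs.1
  have h2 : n * (n * (P.K / S.r ^ 2)) * (s - S.t) ≤ n * (n * (P.K / S.r ^ 2)) * S.r ^ 2 :=
    mul_le_mul_of_nonneg_left (Stp.sub_le hP hs) (by have := hP.K0; positivity)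
  have h3 : n * (n * (P.K / S.r ^ 2)) * S.r ^ 2 = n ^ 2 * P.K := by field_simp
  linarith

/-- **the scalar barrier on one step**: a subsolution of the heat equation with small initial
values and small oscillation stays below `A0 E` -/
theorem barrier (S : Stp P I a) (hP : P.Ok) {F : ℝ → M → ℝ} {A0 : ℝ} (hA : 0 ≤ A0)
    (hF : SmST A (Icc S.t S.b) S.U F)
    (hbox : ∀ s ∈ Ioo S.t S.b, ∀ x ∈ S.U, box (fun s => S.g s (ch A x))
      (fun s => inC A (ch A x) (F s)) s (A.e (ch A x) x) ≤ 0)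
    (hinit : ∀ x ∈ S.Kc, F S.t x ≤ A0 * (min (S.E S.t x) 1 / P.J))
    (hosc : ∀ s ∈ Icc S.t S.t', ∀ x ∈ S.Kc, F s x ≤ F S.t x + A0 / 2) :
    S.On fun s x => F s x ≤ A0 * S.E s x := by
  have hout : ∀ s ∈ Icc S.t S.t', ∀ x ∈ S.Kc, S.sg s ≤ S.ρ s x → F s x ≤ A0 * S.E s x := by
    intro s hs x hx h
    have h1 := mul_le_mul_of_nonneg_left ((Stp.one_le_E_iff hP).2 h) hA
    have h2 := mul_le_mul_of_nonneg_left (Stp.e0_le' (S := S) hP x) hA
    linarith [hinit x hx, hosc s hs x hx]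
  have hsub : Tch.MD S.t S.t' S.Kc (fun q => S.ρ q.1 q.2) S.sg ⊆ Icc S.t S.t' ×ˢ S.Kc :=
    fun q hq => ⟨⟨hq.1, hq.2.1⟩, hq.2.2.1⟩
  have key := Tch.touch_MD (h := fun q => F q.1 q.2) (a := fun _ => 0) (b := fun q => S.E q.1 q.2)
    (K := A0) S.cptK (Stp.cont_ρK hP) Stp.continuous_sg.continuousOn
    (fun q hq => Stp.hint hP (hsub hq).1 (hsub hq).2 hq.2.2.2)
    (((continuousOn_of_SmST hF).mono (hsub.trans (Stp.cyl_sub hP))).upperSemicontinuousOn)
    continuousOn_const ((Stp.cont_E hP).mono hsub) (fun q _ => Stp.E_pos _ _)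
    (fun q hq h => by
      have h1 := mul_le_mul_of_nonneg_left (Stp.e0_le hP (hsub hq).1 (hsub hq).2) hA
      have h2 := hinit _ (hsub hq).2
      have h3 := mul_nonneg hA (Stp.E_pos (S := S) q.1 q.2).le
      have h4 : F q.1 q.2 = F S.t q.2 := by rw [h]
      rw [zero_add]
      linarith)
    (fun q hq h => by
      rw [zero_add]
      exact hout _ (hsub hq).1 _ (hsub hq).2 h.ge)
    (fun q hq ht _ Λ hΛ he _ hm => by
      obtain ⟨s, x⟩ := q
      obtain ⟨hs, hx⟩ := hsub hq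
      have hs' := Stp.mem_Ioo hP hs ht
      have hi := ch_mem A x
      set i := ch A x with hidef
      have hρ := rg_of_smST S.op S.hρ.sm hs' hi hx.1
      have hk := S.flow.krf s hs' i x hi hx.1
      have ht' : Tendsto (fun q : ℝ × Cn n => (q.1, (A.e i).symm q.2)) (past s (A.e i x))
          (𝓝[{q | q.1 ≤ s}] (s, x)) := by
        refine tendsto_nhdsWithin_iff.2 ⟨?_, self_mem_nhdsWithin⟩
        exact (continuousAt_fst.tendsto.prodMk_nhds
          ((tendsto_symm hi).comp continuousAt_snd.tendsto)).mono_left nhdsWithin_le_nhds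
      have h1 := Bx.box_le_of_touch (g := fun s => S.g s i) hk.posDef
        (rg_of_smST S.op hF hs' hi hx.1)
        ((hρ.Eb (σ := S.σ) (V := P.V) (t₀ := S.t) (r := S.r)).const_mul Λ)
        ((ht'.eventually hm).mono fun q hq => by rw [zero_add] at hq; exact hq)
        (by
          simp only [inC, Bx.Eb, (A.e i).left_inv hi]
          rw [zero_add] at he
          exact he)
      rw [Bx.box_const_mul _ hρ.Eb] at h1
      have h2 := Bx.box_Eb_ge (σ := S.σ) (V := P.V) (t₀ := S.t) (S.r_pos hP) hρ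
        (S.hρ.eq s hs' i x hi hx.1).ge (Stp.crudeK hP hs hx).gρ
      have h3 : 0 < (P.V - P.K) / S.r ^ 2 *
          Bx.Eb S.σ P.V S.t S.r (fun s => inC A i (S.ρ s)) s (A.e i x) :=
        mul_pos (div_pos (by linarith [hP.KV]) (pow_pos (S.r_pos hP) 2)) (Bx.Eb_pos _ _ _ _ _ _ _)
      have h4 := mul_pos (hA.trans_lt hΛ) (h3.trans_le h2)
      linarith [hbox s hs' x hx.1])
  intro s hs x hx
  rcases le_total (S.sg s) (S.ρ s x) with h | h
  · exact hout s hs x hx h
  · simpa using key (s, x) ⟨hs.1, hs.2, hx, h⟩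

/-- potential plus `lv` minus a solution of the heat equation -/
theorem pot_barrier (S : Stp P I a) (hP : P.Ok) {θ : M → ℝ} (hθ : Pot K0 {x | I.ρ0 x < a} θ)
    {w : ℝ → M → ℝ} (hw : HeatOn S.t S.b S.U S.g w) {A0 : ℝ} (hA : 0 ≤ A0)
    (hinit : ∀ x ∈ S.Kc, θ x + lv K0 (S.g S.t) x - w S.t x ≤ A0 * (min (S.E S.t x) 1 / P.J))
    (hosc : ∀ s ∈ Icc S.t S.t', ∀ x ∈ S.Kc, w S.t x - w s x + n ^ 2 * P.K ≤ A0 / 2) :
    S.On fun s x => θ x + lv K0 (S.g s) x - w s x ≤ A0 * S.E s x := by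
  have h1 : SmST A (Icc S.t S.b) S.U fun s x => θ x + lv K0 (S.g s) x := fun i =>
    ((smOn_of_sm hθ.sm S.U).smST _ i).add (smST_lv K0 S.flow i)
  refine barrier S hP hA (fun i => (h1 i).sub (hw.sm i)) (fun s hs x hx => ?_) hinit
    fun s hs x hx => by linarith [hosc s hs x hx, lv_osc S hP hs hx]
  have hi := ch_mem A x
  have h2 := Bx.box_sub (g := fun s => S.g s (ch A x)) (rg_of_smST S.op h1 hs hi hx)
    (rg_of_smST S.op hw.sm hs hi hx)
  have h3 := box_pot K0 S.op S.flow hs hi hx hθ (S.sub x hx)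
  rw [hw.eq s hs _ x hi hx, sub_zero] at h2
  exact h2.trans_le h3

theorem heat_lin {a b : ℝ} {U : Set M} (hU : IsOpen U) {g : ℝ → MF A} {ρ : ℝ → M → ℝ}
    (h : HeatOn a b U g ρ) (c : ℝ) : HeatOn a b U g fun s x => c * (2 + ρ s x) where
  sm i := contDiffOn_const.mul (contDiffOn_const.add (h.sm i))
  eq s hs i x hi hx := by
    have h1 := rg_of_smST hU h.sm hs hi hx
    have h2 := Bx.box_const_mul (g := fun s => g s i) c ((Bx.Rg.const 2).add h1)
    rw [Bx.box_add (Bx.Rg.const 2) h1, Bx.box_const, h.eq s hs i x hi hx] at h2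
    exact h2.trans (by simp)

end Ld92

open Ld92 in
theorem ldStmt (n : ℕ) : LdStmt n := by
  unfold LdStmt Leaf
  refine Ev.of_thr (fun _ => 0) (fun _ _ => 0) (fun _ K _ => 2 * (n ^ 2 + 1) * K)
    (fun _ _ _ _ _ _ => 0) ?_
  intro P hP _ _ hK _ M _ _ _ A K0 p I a S
  have k0 := hP.K0
  have kn : 0 ≤ (n : ℝ) ^ 2 * P.K := by positivity
  have hρ : ∀ s ∈ Icc S.t S.t', ∀ x ∈ S.Kc, S.ρ S.t x - S.ρ s x ≤ P.K := fun s hs x hx => by
    have h1 := (abs_le.1 (Stp.crudeK hP hs hx).oρ).1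
    nlinarith [S.r_le_one hP]
  have d1 := pot_barrier S hP (I.u0_pot a) S.hu hP.K10.le (fun x hx => (S.init' hx).id.1)
    fun s hs x hx => by linarith [(abs_le.1 (Stp.crudeK hP hs hx).ou).1]
  have hc := heat_lin S.op S.hρ P.Cb
  have d2 := barrier S hP (F := fun s x => S.u s x - P.Cb * (2 + S.ρ s x))
    (A0 := P.K1 * (1 + P.Cb)) (by have := hP.K10; have := hP.Cb0; positivity)
    (fun i => (S.hu.sm i).sub (hc.sm i))
    (fun s hs x hx => by
      have hi := ch_mem A x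
      have h2 := Bx.box_sub (g := fun s => S.g s (ch A x)) (rg_of_smST S.op S.hu.sm hs hi hx)
        (rg_of_smST S.op hc.sm hs hi hx)
      rw [hc.eq s hs _ x hi hx, S.hu.eq s hs _ x hi hx, sub_zero] at h2
      exact h2.le)
    (fun x hx => by linarith [(S.init' hx).id.2.1])
    fun s hs x hx => by
      have h1 := (abs_le.1 (Stp.crudeK hP hs hx).ou).2
      have h2 := mul_le_mul_of_nonneg_left (hρ s hs x hx) hP.Cb0.le
      have h3 := mul_le_mul_of_nonneg_right (show 2 * P.K ≤ P.K1 by linarith)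
        (show 0 ≤ 1 + P.Cb by linarith [hP.Cb0])
      nlinarith
  refine fun s hs x hx => ⟨d1 s hs x hx, by linarith [d2 s hs x hx], fun C' θ hθ => ?_⟩
  have d3 := pot_barrier S hP hθ.2.1 (heat_lin S.op S.hρ C') (A0 := P.K1 * (1 + C'))
    (by have := hP.K10; have := hθ.1; positivity)
    (fun x hx => by linarith [(S.init' hx).id.2.2 C' θ hθ])
    fun s hs x hx => by
      have h2 := mul_le_mul_of_nonneg_left (hρ s hs x hx) hθ.1
      have h3 := mul_le_mul_of_nonneg_right (show 2 * P.K ≤ P.K1 by linarith) hθ.1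
      nlinarith
  linarith [d3 s hs x hx]

end

end Crest.Agent.T223.Os
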