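import Crest.Agent.T223.OsLgA_41
import Crest.Agent.T223.OsTch_24
import Crest.Agent.T223.OsKitA_61

/-!
# Row 223, module OSG, leaf (g) (helper41): the Bernstein estimate on one step, `lgStmt`
-/

set_option autoImplicit false
set_option linter.unusedVariables false
set_option linter.unusedSectionVars false

open Set Filter Topology Metric
open scoped ContDiff ComplexConjugate Matrix ComplexOrder

namespace Crest.Agent.T223.Os

open Crest.Agent.R275.Geo Crest.Agent.R275.EDR890 Crest.Agent.R273.Kah_333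
open Crest.Agent.R273.Hess_333 Crest.Agent.T223.Br
open Crest.Agent.T223.Tr (nq)
open Crest.Agent.T223.Db (dom SmST)
open Crest.Agent.T223.Ev (HeatAt)

noncomputable section

namespace Lg41

variable {n : ℕ} {M : Type} [TopologicalSpace M] {A : Atl n M}

theorem cdOn_wd {a b : ℝ} (hab : a < b) {D : Set (Cn n)} (hD : IsOpen D)
    {f : ℝ → Cn n → ℂ} (hf : ContDiffOn ℝ ∞ (fun q : ℝ × Cn n => f q.1 q.2) (Icc a b ×ˢ D))
    (r : WI n) : ContDiffOn ℝ ∞ (fun q : ℝ × Cn n => wd r (f q.1) q.2) (Icc a b ×ˢ D) :=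
  (wdLc (W := ℂ) r).contDiff.comp_contDiffOn (T24.cdOn_fderiv_slice hab hD hf)

theorem cont_Sc {a b : ℝ} (hab : a < b) {U : Set M} (hU : IsOpen U) {g : ℝ → MF A}
    (hg : FlowOn a b U g) : ContinuousOn (fun q : ℝ × M => Sc (g q.1) q.2) (Icc a b ×ˢ U) := by
  refine T24.continuousOn_of_charts (f := fun s x => Sc (g s) x)
    (F := fun i q => scal (g q.1 i) q.2) (fun i => ?_)
    fun i s hs x hi hx => Sc_eq (hg.kah s hs) hU hx hi
  have hp : ∀ q ∈ Icc a b ×ˢ dom A i U, (g q.1 i q.2).PosDef := fun q hq =>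
    (kahAt_dom (hg.kah q.1 hq.1) hq.2).posDef
  have h1 : ContDiffOn ℝ ∞ (fun q : ℝ × Cn n => (g q.1 i q.2).det) (Icc a b ×ˢ dom A i U) := by
    simp only [Matrix.det_apply']
    exact ContDiffOn.sum fun σ _ => contDiffOn_const.mul (contDiffOn_prod fun k _ => hg.sm i _ _)
  have h2 : ContDiffOn ℝ ∞ (fun q : ℝ × Cn n => cu (ldet (g q.1 i)) q.2) (Icc a b ×ˢ dom A i U) :=
    Complex.ofRealCLM.contDiff.comp_contDiffOn
      ((Complex.reCLM.contDiff.comp_contDiffOn h1).log fun q hq =>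
        (Complex.pos_iff.1 (hp q hq).det_pos).1.ne')
  have h3 : ∀ k l, ContinuousOn (fun q : ℝ × Cn n => ric (g q.1 i) q.2 k l)
      (Icc a b ×ˢ dom A i U) := fun k l =>
    (cdOn_wd hab (isOpen_dom i hU) (f := fun s => wd (true, l) (cu (ldet (g s i))))
      (cdOn_wd hab (isOpen_dom i hU) (f := fun s => cu (ldet (g s i))) h2 _) _).continuousOn.neg
  have h4 := T24.contOn_inv (G := fun q : ℝ × Cn n => g q.1 i q.2)
    (fun k l => (hg.sm i k l).continuousOn) fun q hq => (hp q hq).det_pos.ne'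
  refine Complex.continuous_re.comp_continuousOn ?_
  simp only [Matrix.trace, Matrix.diag_apply, Matrix.mul_apply]
  exact continuousOn_finsetSum _ fun k _ => continuousOn_finsetSum _ fun l _ =>
    (h4 k l).mul (h3 l k)

theorem bkge_of_lyhGe {G : MF A} {τ κ θ : ℝ} {x : M} (h : LyhGe G τ κ θ x) {i : A.ι}
    (hi : x ∈ (A.e i).source) : BKge (G i) (A.e i x) θ := by
  intro v w
  have := h i hi 0 w v
  simp only [lyhS, norm_zero, map_zero, zero_mul, Complex.zero_re, mul_zero, ne_eq,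
    OfNat.ofNat_ne_zero, not_false_eq_true, zero_pow, add_zero, zero_add] at this
  linarith

theorem scal_le {g : Cn n → Mat n} {z : Cn n} (h : KahAt g z) {c : ℝ} (hc : BKle g z c) :
    scal g z ≤ n ^ 2 * c := by
  have := Ev.trg_upper h.posDef h.ric_herm (b := n * c) fun v => Tr.ric_le_of_BKle h hc v
  unfold scal
  nlinarith

theorem num_out {n K K1 τ τ0 q R G u u0 R0 G0 ΛΨ e : ℝ} (hn : 0 ≤ n) (hK : 1 ≤ K)
    (hK1 : 300 * (n + 1) ^ 4 * K ^ 2 ≤ K1) (hτ0 : 0 < τ0) (hτ : τ0 ≤ τ) (hq : 0 < q)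
    (h1 : 1 ≤ τ * q) (hR : R ≤ n ^ 2 * (K * q)) (hG : G ≤ K * q) (hu : |u - u0| ≤ K)
    (hR0 : -(n ^ 2 * (K * q)) ≤ R0) (hG0 : 0 ≤ G0) (he : e ≤ 1 / 16)
    (hΛ : ΛΨ ≤ 2 * (τ0 * q))
    (h0 : τ0 * R0 + 16 * n * (τ0 * G0 + u0 ^ 2) ≤ ΛΨ + K1 * τ0 * q * e) :
    τ * R + 16 * n * (τ * G + u ^ 2) ≤ K1 * τ * q * (1 / 3) := by
  have hτ' : 0 < τ := hτ0.trans_le hτ
  have hK0 : 0 < K := by linarith
  have hN : 1 ≤ (n + 1) ^ 4 := one_le_pow₀ (by linarith)
  have hN1 : n ≤ (n + 1) ^ 4 := by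
    have : n + 1 ≤ (n + 1) ^ 4 := le_self_pow₀ (by linarith) (by norm_num)
    linarith
  have hN2 : n ^ 2 ≤ (n + 1) ^ 4 :=
    (pow_le_pow_left₀ hn (by linarith) 2).trans (pow_le_pow_right₀ (by linarith) (by norm_num))
  have hKK : K ≤ K ^ 2 := by nlinarith
  have hK2 : 1 ≤ K ^ 2 := by nlinarith
  set N := (n + 1) ^ 4 * K ^ 2 with hNd
  have b1 : n ^ 2 * K ≤ N := mul_le_mul hN2 hKK hK0.le (by positivity)
  have b2 : n * K ≤ N := mul_le_mul hN1 hKK hK0.le (by positivity)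
  have b3 : n * K ^ 2 ≤ N := mul_le_mul_of_nonneg_right hN1 (by positivity)
  have b4 : 1 ≤ N := one_le_mul_of_one_le_of_one_le hN hK2
  have hK1' : 300 * N ≤ K1 := by rw [hNd, ← mul_assoc]; exact hK1
  have hK10 : 0 ≤ K1 := by linarith
  set T := τ * q with hT
  set T0 := τ0 * q with hT0
  have hT00 : 0 < T0 := by positivity
  have hTT : T0 ≤ T := mul_le_mul_of_nonneg_right hτ hq.le
  have a1 : τ * R ≤ N * T := by
    have := mul_le_mul_of_nonneg_left hR hτ'.le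
    have h2 := mul_le_mul_of_nonneg_right b1 (show 0 ≤ T by linarith)
    calc τ * R ≤ τ * (n ^ 2 * (K * q)) := this
      _ = n ^ 2 * K * T := by rw [hT]; ring
      _ ≤ _ := h2
  have a2 : n * (τ * G) ≤ N * T := by
    have := mul_le_mul_of_nonneg_left (mul_le_mul_of_nonneg_left hG hτ'.le) hn
    have h2 := mul_le_mul_of_nonneg_right b2 (show 0 ≤ T by linarith)
    calc n * (τ * G) ≤ n * (τ * (K * q)) := this
      _ = n * K * T := by rw [hT]; ring
      _ ≤ _ := h2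
  have a3 : -(N * T) ≤ τ0 * R0 := by
    have := mul_le_mul_of_nonneg_left hR0 hτ0.le
    have h2 : n ^ 2 * K * T0 ≤ N * T := mul_le_mul b1 hTT hT00.le (by linarith)
    calc -(N * T) ≤ -(n ^ 2 * K * T0) := by linarith
      _ = τ0 * -(n ^ 2 * (K * q)) := by rw [hT0]; ring
      _ ≤ _ := this
  have a4 : K1 * τ0 * q * e ≤ K1 * T / 16 := by
    have h2 : K1 * T0 * e ≤ K1 * T0 * (1 / 16) := mul_le_mul_of_nonneg_left he (by positivity)
    have h3 : K1 * T0 ≤ K1 * T := mul_le_mul_of_nonneg_left hTT hK10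
    calc K1 * τ0 * q * e = K1 * T0 * e := by rw [hT0]; ring
      _ ≤ _ := by linarith
  have a5 : 0 ≤ n * (τ0 * G0) := by positivity
  have a6 : n * u ^ 2 ≤ 2 * (n * u0 ^ 2) + 2 * (n * K ^ 2) := by
    have h2 : (u - u0) ^ 2 ≤ K ^ 2 := by
      rw [← sq_abs]; exact pow_le_pow_left₀ (abs_nonneg _) hu 2
    have h3 : u ^ 2 ≤ 2 * u0 ^ 2 + 2 * K ^ 2 := by nlinarith [sq_nonneg (u - 2 * u0)]
    nlinarith [mul_le_mul_of_nonneg_left h3 hn]
  have a7 : N ≤ N * T := le_mul_of_one_le_right (by linarith) h1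
  have a8 : T ≤ N * T := le_mul_of_one_le_left (by linarith) b4
  have a9 : 300 * (N * T) ≤ K1 * T := by
    have := mul_le_mul_of_nonneg_right hK1' (show 0 ≤ T by linarith)
    linarith
  have e1 : K1 * τ * q * (1 / 3) = K1 * T / 3 := by rw [hT]; ring
  rw [e1]
  nlinarith

theorem num_grad {n K K1 τ q R G U W E : ℝ} (hn : 1 ≤ n) (hK : 1 ≤ K)
    (hK1 : 300 * (n + 1) ^ 4 * K ^ 2 ≤ K1) (hτ : 0 < τ) (hq : 0 < q) (hE : 0 < E) (hW : 0 ≤ W)
    (hU : 0 ≤ U) (hG : 0 ≤ G) (hR : -(n ^ 2 * (K * q * E)) ≤ R)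
    (h : τ * R + 16 * n * (τ * G + U) ≤ K1 * τ * q * E + W) : τ * G ≤ W + K1 * τ * q * E := by
  have hN2 : n ^ 2 ≤ (n + 1) ^ 4 :=
    (pow_le_pow_left₀ (by linarith) (by linarith) 2).trans
      (pow_le_pow_right₀ (by linarith) (by norm_num))
  have hKK : K ≤ K ^ 2 := by nlinarith
  have b1 : n ^ 2 * K ≤ (n + 1) ^ 4 * K ^ 2 := mul_le_mul hN2 hKK (by linarith) (by positivity)
  have b2 : n ^ 2 * K ≤ K1 := by nlinarith [show 0 ≤ (n + 1) ^ 4 * K ^ 2 by positivity]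
  have hT : 0 < τ * q * E := by positivity
  have a1 : -(K1 * τ * q * E) ≤ τ * R := by
    have h2 := mul_le_mul_of_nonneg_left hR hτ.le
    have h3 := mul_le_mul_of_nonneg_right b2 hT.le
    calc -(K1 * τ * q * E) = -(K1 * (τ * q * E)) := by ring
      _ ≤ -(n ^ 2 * K * (τ * q * E)) := by linarith
      _ = τ * -(n ^ 2 * (K * q * E)) := by ring
      _ ≤ _ := h2
  have a2 : 0 ≤ n * U := by positivity
  have a3 : τ * G ≤ n * (τ * G) := le_mul_of_one_le_left (by positivity) hn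
  have a4 : 0 ≤ τ * G := by positivity
  nlinarith

variable [T2Space M] [ConnectedSpace M] {K0 : Kah A} {p : M}
variable {P : Par} {I : Init K0 p} {a : ℝ} {S : Stp P I a}

open Stp

theorem heatAt {f : ℝ → M → ℝ} (hf : HeatOn S.t S.b S.U S.g f) {s : ℝ} (hs : s ∈ Ioo S.t S.b)
    {i : A.ι} {x : M} (hi : x ∈ (A.e i).source) (hx : x ∈ S.U) :
    HeatAt (fun s => S.g s i) (fun s => inC A i (f s)) s (A.e i x) where
  sm := T24.cd_of_SmST S.op hf.sm hs hi hx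
  eq := by
    filter_upwards [T24.ev_loc hs hi hx] with q hq
    have := hf.eq q.1 hq.1 i _ hq.2.1 hq.2.2.1
    rwa [hq.2.2.2] at this

theorem Phi_eq {s : ℝ} (hs : s ∈ Ioo S.t S.b) {i : A.ι} {x : M} (hi : x ∈ (A.e i).source)
    (hx : x ∈ S.U) : Phi (S.g s) (S.u s) (P.τ s) x =
      PhiC P (fun s => S.g s i) (fun s => inC A i (S.u s)) s (A.e i x) := by
  rw [Phi, PhiC, Sc_eq (S.flow.kah s (Ioo_subset_Icc_self hs)) S.op hx hi, T24.Gr_u hs hi hx,
    inC_apply _ hi]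

theorem Gr_nonneg (h : P.Ok) {s : ℝ} (hs : s ∈ Icc S.t S.t') {x : M} (hx : x ∈ S.Kc)
    (f : M → ℝ) : 0 ≤ Gr (S.g s) f x :=
  Ev.gsq_nonneg ((S.flow.kah s (mem_Icc h hs)).kah _ x (ch_mem A x) hx.1).posDef

theorem Ψ_nonneg (P : Par) (y s : ℝ) : 0 ≤ P.Ψ y s := by unfold Par.Ψ; positivity

/-- the crude bound where `E ≥ 1/3` -/
theorem Phi_out (h : P.Ok) (hK1 : 300 * (n + 1) ^ 4 * P.K ^ 2 ≤ P.K1)
    (hB : 10 * (2 * P.K + 4) ≤ P.B) {s : ℝ} (hs : s ∈ Icc S.t S.t') {x : M} (hx : x ∈ S.Kc) :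
    Phi (S.g s) (S.u s) (P.τ s) x ≤ P.K1 * P.τ s * S.q * (1 / 3) := by
  have ht : S.t ∈ Icc S.t S.t' := ⟨le_rfl, (S.t_lt h).le⟩
  have c := crudeK h hs hx
  have c0 := crudeK h ht hx
  have k := (S.flow.kah s (mem_Icc h hs)).kah _ x (ch_mem A x) hx.1
  have k0 := (S.flow.kah S.t (mem_Icc h ht)).kah _ x (ch_mem A x) hx.1
  have i0 := S.init' hx
  have hR := scal_le k (c.bk _ (ch_mem A x)).2
  have hR0 := Ev.scal_ge k0 (c0.bk _ (ch_mem A x)).1
  have hG := c.gu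
  rw [S.div_r h] at hR hR0 hG
  have hΛ : P.Λ * P.Ψ (S.ρ S.t x) S.t ≤ 2 * (P.τ S.t * S.q) :=
    (mul_le_mul_of_nonneg_right h.ΛL (Ψ_nonneg _ _ _)).trans (ΛΨ_le h ht hx i0.ic.1 hB)
  exact num_out (Nat.cast_nonneg n) h.K_1 hK1 (h.τ_pos S.t0) (h.τ_mono hs.1) (S.q_pos h)
    (one_le_τq h hs) hR hG c.ou hR0 (Gr_nonneg h ht hx _) (e0_le' h x) hΛ i0.ig

theorem E_third (h : P.Ok) {s : ℝ} {x : M} :
    (S.E s x ≤ 1 / 3 ↔ S.ρ s x ≤ S.sg s - Real.log 3 * S.r) ∧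
    (1 / 3 ≤ S.E s x ↔ S.sg s - Real.log 3 * S.r ≤ S.ρ s x) := by
  have e : Real.exp (-Real.log 3) = 1 / 3 := by
    rw [Real.exp_neg, Real.exp_log (by norm_num), one_div]
  rw [← e, E_le_exp_iff h, exp_le_E_iff h, neg_mul, ← sub_eq_add_neg]
  exact ⟨Iff.rfl, Iff.rfl⟩

theorem og (hn : 1 ≤ n) (h : P.Ok) (hK1 : 300 * (n + 1) ^ 4 * P.K ^ 2 ≤ P.K1)
    (hB : 64 * P.K ≤ P.B) (hA : S.OA) (hb : S.OB) (hC : S.OC) (hL : S.OL) : S.OG := by
  have hB' : 10 * (2 * P.K + 4) ≤ P.B := by linarith [h.K_1]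
  have hK10 := h.K10
  have hq := S.q_pos h
  have out : ∀ s ∈ Icc S.t S.t', ∀ x ∈ S.Kc, 1 / 3 ≤ S.E s x →
      Phi (S.g s) (S.u s) (P.τ s) x ≤ P.K1 * P.τ s * S.q * S.E s x := fun s hs x hx hE =>
    (Phi_out h hK1 hB' hs hx).trans (mul_le_mul_of_nonneg_left hE
      (by have := h.τ_pos (nonneg h hs); positivity))
  have cτ : ContinuousOn (fun q : ℝ × M => P.τ q.1) (Icc S.t S.t' ×ˢ S.Kc) :=
    (continuous_fst.add continuous_const).continuousOn
  have cΦ : ContinuousOn (fun q : ℝ × M => Phi (S.g q.1) (S.u q.1) (P.τ q.1) q.2)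
      (Icc S.t S.t' ×ˢ S.Kc) :=
    (cτ.mul ((cont_Sc ((S.t_lt h).trans S.lt') S.op S.flow).mono (cyl_sub h))).add
      (continuousOn_const.mul ((cτ.mul (T24.cont_GrK h S.hu.sm)).add
        ((T24.cont_K h S.hu.sm).pow 2)))
  have cΨ : ContinuousOn (fun q : ℝ × M => P.Ψ (S.ρ q.1 q.2) q.1) (Icc S.t S.t' ×ˢ S.Kc) := by
    intro q hq'
    have h0 := (hC q.1 hq'.1 q.2 hq'.2).1
    have h1 := nonneg h hq'.1
    exact ContinuousAt.comp_continuousWithinAt (g := fun w : ℝ × ℝ => P.Ψ w.2 w.1)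
      (f := fun q : ℝ × M => (q.1, S.ρ q.1 q.2))
      (cd_Ψ (by linarith [h.one_le_ρs h1]) (h.τ_pos h1)).continuousAt
      (continuousWithinAt_fst.prodMk (cont_ρK h q hq'))
  have key := T24.touch h (c := Real.log 3) (Real.log_nonneg (by norm_num))
    (F := fun s x => Phi (S.g s) (S.u s) (P.τ s) x)
    (α := fun s x => P.K1 * P.τ s * S.q * S.E s x) (β := fun s x => P.Ψ (S.ρ s x) s) (Λ0 := P.Λ)
    cΦ.upperSemicontinuousOn
    (((continuousOn_const.mul cτ).mul continuousOn_const).mul (cont_E h)) cΨ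
    (fun s hs x hx _ => h.Ψ_pos (hC s hs x hx).1 (nonneg h hs)) ?_ ?_ ?_
  · intro s hs x hx
    rcases le_total (S.E s x) (1 / 3) with h1 | h1
    · have := key s hs x hx ((E_third h).1.1 h1)
      unfold IG
      linarith
    · have h2 := out s hs x hx h1
      have h3 := mul_nonneg h.Λ0.le (Ψ_nonneg P (S.ρ s x) s)
      unfold IG
      linarith
  · intro x hx _
    have ht : S.t ∈ Icc S.t S.t' := ⟨le_rfl, (S.t_lt h).le⟩
    have h1 : Phi _ _ _ _ ≤ _ := (S.init' hx).ig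
    have h2 := e0_le h ht hx
    have h3 := E_pos (S := S) S.t x
    have h4 : P.K1 * P.τ S.t * S.q * (min (S.E S.t x) 1 / P.J) ≤ P.K1 * P.τ S.t * S.q * S.E S.t x :=
      mul_le_mul_of_nonneg_left (by linarith) (by have := h.τ_pos S.t0; positivity)
    linarith
  · intro s hs x hx e
    have h2 := out s hs x hx ((E_third h).2.2 e.ge)
    have h3 := mul_nonneg h.Λ0.le (Ψ_nonneg P (S.ρ s x) s)
    linarith
  · intro s hs hts x hx hρ Λ' hΛ e hg hl
    have hs' := mem_Ioo h hs hts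
    have hs0 := nonneg h hs
    have hτ := h.τ_pos hs0
    have hE3 : S.E s x ≤ 1 / 3 := (E_third h).1.2 hρ.le
    have hΛ0 : 0 ≤ Λ' := h.Λ0.le.trans hΛ.le
    have hu2 := hL s hs Λ' hΛ.le (fun y hy => ?_) x hx hE3
    · have hi := ch_mem A x
      set i := ch A x
      have eE : Bx.Eb S.σ P.V S.t S.r (fun s => inC A i (S.ρ s)) s (A.e i x) = S.E s x :=
        T24.EC_apply hi s
      refine no_contact (g := fun s => S.g s i) (u := fun s => inC A i (S.u s))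
        (ρ := fun s => inC A i (S.ρ s)) (σ := S.σ) (t := S.t) (r := S.r) (q := S.q) (Λ' := Λ') h
        (T24.krfAt hs' hi hx.1) (heatAt S.hu hs' hi hx.1) (heatAt S.hρ hs' hi hx.1) hs0
        (S.r_pos h) rfl ?_ (T24.gsq_ρ_le hs' hi hx.1) ?_ ?_ ?_ ?_ ?_ ?_ (h.Λ1.trans hΛ.le) ?_
        (by linarith [h.K0])
      · rw [inC_apply _ hi]; exact (hC s hs x hx).1
      · rw [eE]; linarith
      · rw [eE]; exact bkge_of_lyhGe (hA s hs x hx) hi
      · rw [eE]; exact hb s hs x hx i hi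
      · filter_upwards [hl i hi, nhdsWithin_le_nhds (T24.ev_loc hs' hi hx.1)] with w h1 h2
        have h3 := Phi_eq h2.1 h2.2.1 h2.2.2.1
        rw [h2.2.2.2] at h3
        rw [← h3]
        exact h1
      · rw [← Phi_eq hs' hi hx.1, eE, inC_apply _ hi]; exact e
      · rw [inC_apply _ hi, inC_apply _ hi]; exact hu2
      · have : 0 ≤ ((n : ℝ) + 1) ^ 4 * P.K ^ 2 := by positivity
        nlinarith
    · have hW := mul_nonneg hΛ0 (Ψ_nonneg P (S.ρ s y) s)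
      have hE := E_pos (S := S) s y
      rcases le_total (S.E s y) (1 / 3) with h1 | h1
      · have h2 := hg s hs le_rfl y hy ((E_third h).1.1 h1)
        have k := (S.flow.kah s (mem_Icc h hs)).kah _ y (ch_mem A y) hy.1
        have hR := Ev.scal_ge k (bkge_of_lyhGe (hA s hs y hy) (ch_mem A y))
        exact num_grad (by exact_mod_cast hn) h.K_1 hK1 hτ hq hE hW (sq_nonneg _)
          (Gr_nonneg h hs hy _) hR h2
      · have h2 := (crudeK h hs hy).gu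
        rw [S.div_r h] at h2
        have h3 : 3 * P.K ≤ P.K1 := by
          have a1 : (1 : ℝ) ≤ (n + 1) ^ 4 := one_le_pow₀ (by linarith [Nat.cast_nonneg (α := ℝ) n])
          have a2 : P.K ≤ P.K ^ 2 := by nlinarith [h.K_1]
          nlinarith [h.K0]
        have h4 : P.τ s * Gr (S.g s) (S.u s) y ≤ P.τ s * (P.K * S.q) :=
          mul_le_mul_of_nonneg_left h2 hτ.le
        have h5 : P.K1 * P.τ s * S.q * (1 / 3) ≤ P.K1 * P.τ s * S.q * S.E s y :=
          mul_le_mul_of_nonneg_left h1 (by positivity)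
        have h6 : 3 * P.K * (P.τ s * S.q) ≤ P.K1 * (P.τ s * S.q) :=
          mul_le_mul_of_nonneg_right h3 (by positivity)
        nlinarith

end Lg41

/-- **leaf (g)** -/
theorem lgStmt {n : ℕ} (hn : 1 ≤ n) : LgStmt n := by
  unfold LgStmt Leaf
  refine Ev.of_thr (fun _ => 0) (fun _ _ => 0) (fun _ K _ => 300 * (n + 1) ^ 4 * K ^ 2)
    (fun _ K _ _ _ _ => 64 * K) ?_
  intro P h _ _ hK hB M _ _ _ A K0 p I a S hA hb hC hL
  exact Lg41.og hn h hK hB hA hb hC hL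

end

end Crest.Agent.T223.Os
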