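import Crest.Agent.R273.RMan4_798

/-!
# T223, module LOWER (helper18), part 1: Lipschitz bounds with an exit argument

`GrLe K f x b` : `f` is `C¹` at `x` (in some chart of the atlas) and `|df|_K ≤ b` there.
`d0 K x y`     : the Riemannian distance of the Kaehler metric `K`.
`lip_exit`     : if `F` is closed, `|dρ| ≤ a`, `|du| ≤ b` on `F`, `ρ ≥ σ` on `F \ interior F` and
  `ρ x + a r ≤ σ`, then the ball `B(x, r)` lies in `F` and `ρ`, `u` oscillate by at most `a r`, `b r`.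
-/

set_option autoImplicit false
set_option linter.unusedSectionVars false

open Set Filter Topology Metric Manifold Bundle
open scoped ContDiff Manifold Bundle ENNReal

noncomputable section

namespace Crest.Agent.T223.Lo

open Crest.Agent.R275.Geo Crest.Agent.R273.Kah_333 Crest.Agent.R273.Ric_798
open Crest.Agent.R273.RMan_798 Crest.Agent.R273.RMan4_798

section RA

variable {d : ℕ} {N : Type} [TopologicalSpace N] {R : RAtl d N}

/-- gradient bound on the Riemannian manifold of chart data -/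
def RGr (R : RAtl d N) (f : R.M → ℝ) (x : R.M) (b : ℝ) : Prop :=
  ContMDiffAt (𝓡 d) 𝓘(ℝ, ℝ) 1 f x ∧
    ∀ v : TangentSpace (𝓡 d) x, |@id ℝ (mfderiv (𝓡 d) 𝓘(ℝ, ℝ) f x v)| ≤ b * ‖v‖

theorem path_bound {f : R.M → ℝ} {γ : ℝ → R.M} {s b : ℝ} (hs : 0 < s) (hb : 0 ≤ b)
    (hγ : ContMDiffOn 𝓘(ℝ, ℝ) (𝓡 d) 1 γ (Icc 0 s)) (hf : ∀ t ∈ Icc 0 s, RGr R f (γ t) b) :
    ‖f (γ s) - f (γ 0)‖ₑ ≤ ENNReal.ofReal b * pathELength (𝓡 d) γ 0 s := by
  have h1 : ContMDiffOn 𝓘(ℝ, ℝ) 𝓘(ℝ, ℝ) 1 (f ∘ γ) (Icc 0 s) := fun t ht =>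
    (hf t ht).1.comp_contMDiffWithinAt t (hγ t ht)
  have h2 : ContDiffOn ℝ 1 (f ∘ γ) (Icc 0 s) := contMDiffOn_iff_contDiffOn.1 h1
  have h3 := enorm_sub_le_lintegral_derivWithin_Icc_of_contDiffOn_Icc h2 hs.le
  refine le_trans h3 ?_
  rw [pathELength_eq_lintegral_mfderivWithin_Icc,
    ← MeasureTheory.lintegral_const_mul' _ _ ENNReal.ofReal_ne_top]
  refine MeasureTheory.setLIntegral_mono' measurableSet_Icc fun t ht => ?_
  have h4 : mfderivWithin 𝓘(ℝ, ℝ) 𝓘(ℝ, ℝ) (f ∘ γ) (Icc 0 s) t =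
      (mfderiv (𝓡 d) 𝓘(ℝ, ℝ) f (γ t)).comp (mfderivWithin 𝓘(ℝ, ℝ) (𝓡 d) γ (Icc 0 s) t) := by
    apply mfderiv_comp_mfderivWithin
    · exact (hf t ht).1.mdifferentiableAt (by simp)
    · exact hγ.mdifferentiableOn (by simp) t ht
    · rw [uniqueMDiffWithinAt_iff_uniqueDiffWithinAt]
      exact uniqueDiffOn_Icc hs t ht
  have h5 : derivWithin (f ∘ γ) (Icc 0 s) t =
      @id ℝ (mfderiv (𝓡 d) 𝓘(ℝ, ℝ) f (γ t) (mfderivWithin 𝓘(ℝ, ℝ) (𝓡 d) γ (Icc 0 s) t 1)) := by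
    rw [← fderivWithin_derivWithin, ← mfderivWithin_eq_fderivWithin, h4]
    rfl
  rw [h5]
  have h6 := (hf t ht).2 (mfderivWithin 𝓘(ℝ, ℝ) (𝓡 d) γ (Icc 0 s) t 1)
  rw [← ofReal_norm, ← ofReal_norm, ← ENNReal.ofReal_mul hb]
  exact ENNReal.ofReal_le_ofReal h6

theorem path_bound' {f : R.M → ℝ} {γ : ℝ → R.M} {s b r : ℝ} (hs : 0 ≤ s) (hs1 : s ≤ 1) (hb : 0 ≤ b)
    (hγ : ContMDiffOn 𝓘(ℝ, ℝ) (𝓡 d) 1 γ (Icc 0 1)) (hf : ∀ t ∈ Icc 0 s, RGr R f (γ t) b)
    (hl : pathELength (𝓡 d) γ 0 1 ≤ ENNReal.ofReal r) (hr : 0 ≤ r) :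
    |f (γ s) - f (γ 0)| ≤ b * r := by
  rcases hs.eq_or_lt with rfl | hs0
  · simp only [sub_self, abs_zero]; positivity
  have h1 := path_bound hs0 hb (hγ.mono (Icc_subset_Icc_right hs1)) hf
  have h2 : pathELength (𝓡 d) γ 0 s ≤ ENNReal.ofReal r :=
    (pathELength_mono le_rfl hs1).trans hl
  have h3 : ‖f (γ s) - f (γ 0)‖ₑ ≤ ENNReal.ofReal (b * r) := by
    rw [ENNReal.ofReal_mul hb]
    exact h1.trans (mul_le_mul_right h2 _)
  rw [← ofReal_norm] at h3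
  exact (ENNReal.ofReal_le_ofReal_iff (by positivity)).1 h3

/-- the exit argument on the Riemannian manifold of chart data -/
theorem rlip_exit [T2Space N] [ConnectedSpace N] {F : Set R.M} (hF : IsClosed F) {ρ : R.M → ℝ}
    {a σ r : ℝ} (ha : 0 < a) (hρ : ∀ y ∈ F, RGr R ρ y a)
    (hfr : ∀ y ∈ F, ρ y < σ → F ∈ 𝓝 y) {x : R.M} (hx : x ∈ F) (hxr : ρ x + a * r ≤ σ)
    {y : R.M} (hy : dist x y < r) :
    ∃ γ : ℝ → R.M, ∃ r' < r, 0 ≤ r' ∧ γ 0 = x ∧ γ 1 = y ∧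
      ContMDiffOn 𝓘(ℝ, ℝ) (𝓡 d) 1 γ (Icc 0 1) ∧
      pathELength (𝓡 d) γ 0 1 ≤ ENNReal.ofReal r' ∧ ∀ t ∈ Icc (0 : ℝ) 1, γ t ∈ F := by
  obtain ⟨r', h1, h2⟩ := exists_between hy
  have hr0 : 0 < r' := lt_of_le_of_lt dist_nonneg h1
  have h3 : riemannianEDist (𝓡 d) x y < ENNReal.ofReal r' := by
    rw [← IsRiemannianManifold.out (I := 𝓡 d) x y, edist_dist]
    exact (ENNReal.ofReal_lt_ofReal_iff hr0).2 h1
  obtain ⟨γ, h0, h1', hs, hl⟩ := exists_lt_of_riemannianEDist_lt h3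
  refine ⟨γ, r', h2, hr0.le, h0, h1', hs, hl.le, ?_⟩
  have hc : ContinuousOn γ (Icc 0 1) := hs.continuousOn
  -- the set of times up to which the path stays in `F`
  have key : Icc (0 : ℝ) 1 ⊆ {s | ∀ t ∈ Icc (0 : ℝ) s, t ≤ 1 → γ t ∈ F} := by
    refine IsClosed.Icc_subset_of_forall_mem_nhdsGT_of_Icc_subset ?_ ?_ ?_
    · have e : {s | ∀ t ∈ Icc (0 : ℝ) s, t ≤ 1 → γ t ∈ F} ∩ Icc 0 1 =
          Icc 0 1 ∩ {s | ∀ t ∈ Icc (0 : ℝ) s, t ≤ 1 → γ t ∈ F} := inter_comm _ _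
      refine isClosed_of_closure_subset fun s hs' => ?_
      have hs1 : s ∈ Icc (0 : ℝ) 1 := closure_minimal inter_subset_right isClosed_Icc hs'
      refine ⟨fun t ht ht1 => ?_, hs1⟩
      rcases ht.2.eq_or_lt with rfl | hlt
      · -- the end point
        have h5 : ContinuousWithinAt γ
            ({s | ∀ t ∈ Icc (0 : ℝ) s, t ≤ 1 → γ t ∈ F} ∩ Icc 0 1) t :=
          (hc t hs1).mono inter_subset_right
        have h6 := h5.mem_closure_image hs'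
        refine hF.closure_subset (closure_mono ?_ h6)
        rintro _ ⟨u, hu, rfl⟩
        exact hu.1 u ⟨hu.2.1, le_rfl⟩ hu.2.2
      · obtain ⟨u, hu1, hu2⟩ := mem_closure_iff.1 hs' (Ioi t) isOpen_Ioi hlt
        exact hu2.1 t ⟨ht.1, le_of_lt hu1⟩ ht1
    · intro t ht _
      have : t = 0 := le_antisymm ht.2 ht.1
      rw [this, h0]; exact hx
    · intro s hs' hsub
      have hsF : ∀ t ∈ Icc (0 : ℝ) s, γ t ∈ F := fun t ht =>
        hsub ⟨hs'.1, le_rfl⟩ t ht (ht.2.trans hs'.2.le)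
      have h5 := path_bound' hs'.1 hs'.2.le ha.le hs (fun t ht => hρ _ (hsF t ht)) hl.le hr0.le
      have h6 : ρ (γ s) < σ := by
        rw [h0] at h5
        have := (abs_le.1 h5).2
        nlinarith
      have h7 : F ∈ 𝓝 (γ s) := hfr _ (hsF s ⟨hs'.1, le_rfl⟩) h6
      have h8 : γ ⁻¹' F ∈ 𝓝[Icc 0 1] s := hc s ⟨hs'.1, hs'.2.le⟩ h7
      obtain ⟨U, hU, hUs, hUF⟩ := mem_nhdsWithin.1 h8
      obtain ⟨ε, hε, hεU⟩ := Metric.isOpen_iff.1 hU s hUs
      have h9 : Ioo s (s + ε) ∈ 𝓝[>] s := Ioo_mem_nhdsGT (by linarith)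
      filter_upwards [h9] with u hu t ht ht1
      rcases le_total t s with hts | hts
      · exact hsF t ⟨ht.1, hts⟩
      · refine hUF ⟨hεU ?_, ht.1, ht1⟩
        rw [mem_ball, Real.dist_eq, abs_lt]
        constructor <;> linarith [ht.2, hu.2]
  intro t ht
  exact key ⟨zero_le_one, le_rfl⟩ t ht ht.2

/-- gradient bound read in one chart -/
theorem rgr_of_chart {f : R.M → ℝ} {x : R.M} {b : ℝ} {i : R.ι} (hx : x ∈ (R.ch i).source)
    (hf : ContDiffAt ℝ 1 (fun y => f ((R.c i).symm y)) (R.c i x))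
    (hb : ∀ v, |fderiv ℝ (fun y => f ((R.c i).symm y)) (R.c i x) v| ≤
      b * √(R.bil i (R.c i x) v v)) : RGr R f x b := by
  set k := R.idx x with hk
  have hxk : x ∈ (R.ch k).source := R.idx_mem x
  have hod : IsOpen {y | y ∈ (R.ch k).target ∧ (R.ch k).symm y ∈ (R.ch i).source} :=
    (R.ch k).isOpen_inter_preimage_symm (R.ch i).open_source
  have hkx : (R.c k).symm (R.c k x) = x := (R.ch k).left_inv hxk
  have hmem : R.c k x ∈ {y | y ∈ (R.ch k).target ∧ (R.ch k).symm y ∈ (R.ch i).source} := by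
    refine ⟨(R.ch k).map_source hxk, ?_⟩
    have : (R.ch k).symm (R.c k x) = x := hkx
    rw [this]; exact hx
  have hs1 : ContDiffAt ℝ ∞ (fun y => R.c i ((R.c k).symm y)) (R.c k x) :=
    (R.smt k i).contDiffAt (hod.mem_nhds hmem)
  have hf' : ContDiffAt ℝ 1 (fun y => f ((R.c i).symm y)) (R.c i ((R.c k).symm (R.c k x))) := by
    rw [hkx]; exact hf
  have hcomp := ContDiffAt.comp (R.c k x) hf' (hs1.of_le (by simp))
  have hw : writtenInExtChartAt (𝓡 d) 𝓘(ℝ, ℝ) x f =ᶠ[𝓝 (R.c k x)]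
      (fun y => f ((R.c i).symm y)) ∘ (fun y => R.c i ((R.c k).symm y)) := by
    filter_upwards [hod.mem_nhds hmem] with y hy
    have h1 : (R.c i).symm (R.c i ((R.c k).symm y)) = (R.c k).symm y := (R.ch i).left_inv hy.2
    simp only [Function.comp_apply, h1]
    rfl
  have hcont : ContinuousAt f x := by
    have h1 : ContinuousAt (fun y => f ((R.c i).symm y)) (R.ch i x) := hf.continuousAt
    have h2 : ContinuousAt (R.ch i) x := (R.ch i).continuousAt hx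
    have h3 := ContinuousAt.comp (f := R.ch i) h1 h2
    refine h3.congr ?_
    filter_upwards [(R.ch i).open_source.mem_nhds hx] with z hz
    have h4 : (R.c i).symm (R.ch i z) = z := (R.ch i).left_inv hz
    simp only [Function.comp_apply, h4]
  have hd2 := hf'.differentiableAt (by simp)
  have hd1 := hs1.differentiableAt (by simp)
  have h5 := (hd2.hasFDerivAt.comp (R.c k x) hd1.hasFDerivAt).congr_of_eventuallyEq hw
  rw [hkx] at h5
  have hM : HasMFDerivAt (𝓡 d) 𝓘(ℝ, ℝ) f x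
      ((fderiv ℝ (fun y => f ((R.c i).symm y)) (R.c i x)).comp (R.T k i x)) :=
    ⟨hcont, h5.hasFDerivWithinAt⟩
  refine ⟨?_, fun v => ?_⟩
  · rw [contMDiffAt_iff]
    refine ⟨hcont, ?_⟩
    simp only [modelWithCornersSelf_coe, range_id, contDiffWithinAt_univ]
    exact hcomp.congr_of_eventuallyEq hw
  · rw [hM.mfderiv]
    have h6 := hb (R.T k i x v)
    have h7 : R.bil i (R.c i x) (R.T k i x v) (R.T k i x v) = ‖v‖ ^ 2 := by
      rw [← real_inner_self_eq_norm_sq, ← R.bil_tr k i hxk hx v v]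
      rfl
    rw [h7, Real.sqrt_sq (norm_nonneg _)] at h6
    exact h6

end RA

variable {n : ℕ} {M : Type} [TopologicalSpace M] {A : Atl n M}

/-- `f` is `C¹` at `x` with `|df|_K ≤ b`, read in some chart -/
def GrLe (K : Kah A) (f : M → ℝ) (x : M) (b : ℝ) : Prop :=
  ∃ i, x ∈ (A.e i).source ∧ ContDiffAt ℝ 1 (fun z => f ((A.e i).symm z)) (A.e i x) ∧
    ∀ v, (fderiv ℝ (fun z => f ((A.e i).symm z)) (A.e i x) v) ^ 2 ≤
      b ^ 2 * G (KK K i) (A.e i x) v v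

/-- the Riemannian distance of a Kaehler metric -/
def d0 [T2Space M] [ConnectedSpace M] (K : Kah A) (x y : M) : ℝ :=
  @dist (ofKah K).M _ x y

theorem GrLe.rgr {K : Kah A} {f : M → ℝ} {x : M} {b : ℝ} (hb : 0 ≤ b) (h : GrLe K f x b) :
    RGr (ofKah K) f x b := by
  obtain ⟨i, hx, hf, hv⟩ := h
  have h0 : (eR n).symm (cR A i x) = A.e i x := by simp
  have hf' : ContDiffAt ℝ 1 (fun z => f ((A.e i).symm z)) ((eR n).symm (cR A i x)) := by
    rw [h0]; exact hf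
  have hc : ContDiffAt ℝ 1 (fun y => f ((cR A i).symm y)) (cR A i x) :=
    hf'.comp (cR A i x) (eR n).symm.contDiff.contDiffAt
  refine rgr_of_chart (R := ofKah K) (i := i) ?_ hc fun v => ?_
  · change x ∈ (cR A i).source
    rw [cR_source]; exact hx
  · have h1 : HasFDerivAt (fun y => f ((cR A i).symm y))
        ((fderiv ℝ (fun z => f ((A.e i).symm z)) (A.e i x)).comp
          ((eR n).symm : EE (2 * n) →L[ℝ] Cn n)) (cR A i x) := by
      have h2 : HasFDerivAt (fun z => f ((A.e i).symm z))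
          (fderiv ℝ (fun z => f ((A.e i).symm z)) (A.e i x)) ((eR n).symm (cR A i x)) := by
        rw [h0]; exact (hf.differentiableAt (by simp)).hasFDerivAt
      exact h2.comp (cR A i x) ((eR n).symm : EE (2 * n) →L[ℝ] Cn n).hasFDerivAt
    have h3 : fderiv ℝ (fun y => f (((ofKah K).c i).symm y)) ((ofKah K).c i x) v =
        fderiv ℝ (fun z => f ((A.e i).symm z)) (A.e i x) ((eR n).symm v) := by
      change fderiv ℝ (fun y => f ((cR A i).symm y)) (cR A i x) v = _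
      rw [h1.fderiv]; rfl
    have hi : (KK K i ((eR n).symm (cR A i x))).IsHermitian := by
      rw [h0]; exact ((kd K i).pd _ ((A.e i).map_source hx)).1
    have h4 : (ofKah K).bil i ((ofKah K).c i x) v v =
        G (KK K i) (A.e i x) ((eR n).symm v) ((eR n).symm v) := by
      refine (RAtl.bil_apply (ofKah K) i _ v v).trans ?_
      change ∑ a, ∑ b, hm (eR n) (KK K i) (cR A i x) a b * v a * v b = _
      rw [sum_hm (eR n) hi, h0]
    rw [h3, h4, ← Real.sqrt_sq hb, ← Real.sqrt_mul (sq_nonneg _), ← Real.sqrt_sq_eq_abs]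
    exact Real.sqrt_le_sqrt (hv _)

/-- **Lipschitz bound with exit argument** -/
theorem lip_exit [T2Space M] [ConnectedSpace M] (K : Kah A) {F : Set M} (hF : IsClosed F)
    {ρ : M → ℝ} {a σ r : ℝ} (ha : 0 < a) (hρ : ∀ y ∈ F, GrLe K ρ y a)
    (hfr : ∀ y ∈ F, ρ y < σ → F ∈ 𝓝 y) {x : M} (hx : x ∈ F) (hxr : ρ x + a * r ≤ σ)
    {y : M} (hy : d0 K x y < r) :
    y ∈ F ∧ |ρ y - ρ x| ≤ a * r ∧ ∀ (u : M → ℝ) (b : ℝ), 0 ≤ b →
      (∀ z ∈ F, |ρ z - ρ x| ≤ a * r → d0 K x z ≤ r → GrLe K u z b) → |u y - u x| ≤ b * r := by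
  obtain ⟨γ, r', h1, h2, h0, h1', hs, hl, hγF⟩ := rlip_exit (R := ofKah K) (F := F) hF ha
    (fun y hy => (hρ y hy).rgr ha.le) hfr hx hxr hy
  have hρ' : ∀ s ∈ Icc (0 : ℝ) 1, |ρ (γ s) - ρ x| ≤ a * r := by
    intro s hs'
    have h5 := path_bound' (R := ofKah K) (f := ρ) hs'.1 hs'.2 ha.le hs
      (fun t ht => (hρ _ (hγF t ⟨ht.1, ht.2.trans hs'.2⟩)).rgr ha.le) hl h2
    rw [h0] at h5
    exact h5.trans (by nlinarith)
  have hd : ∀ s ∈ Icc (0 : ℝ) 1, d0 K x (γ s) ≤ r := by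
    intro s hs'
    have h5 : riemannianEDist (𝓡 (2 * n)) (γ 0) (γ s) ≤ pathELength (𝓡 (2 * n)) γ 0 s :=
      riemannianEDist_le_pathELength (hs.mono (Icc_subset_Icc_right hs'.2)) rfl rfl hs'.1
    have h6 := h5.trans ((pathELength_mono le_rfl hs'.2).trans hl)
    rw [← IsRiemannianManifold.out (I := 𝓡 (2 * n)) (γ 0) (γ s), edist_dist, h0] at h6
    exact ((ENNReal.ofReal_le_ofReal_iff h2).1 h6).trans h1.le
  have hy1 : y = γ 1 := h1'.symm
  refine ⟨by rw [hy1]; exact hγF 1 ⟨zero_le_one, le_rfl⟩,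
    by rw [hy1]; exact hρ' 1 ⟨zero_le_one, le_rfl⟩, fun u b hb hu => ?_⟩
  have h5 := path_bound' (R := ofKah K) (f := u) zero_le_one le_rfl hb hs
    (fun t ht => (hu _ (hγF t ht) (hρ' t ht) (hd t ht)).rgr hb) hl h2
  rw [h0, h1'] at h5
  exact h5.trans (by nlinarith)

end Crest.Agent.T223.Lo
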