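import Crest.Agent.T223.OsBas_21
import Crest.Agent.T223.LoLip_18
import Crest.Agent.T223.EvLA_41
import Crest.Agent.T223.LipKah_93

/-!
# Row 223, module OSG, leaf Lp (helper84): consequences of (c)-(f) deep inside the step
-/

set_option autoImplicit false
set_option linter.unusedVariables false
set_option linter.unusedSectionVars false

open Set Filter Topology Metric
open scoped ContDiff ComplexConjugate Matrix ComplexOrder

namespace Crest.Agent.T223.Os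

open Crest.Agent.R275.Geo Crest.Agent.R275.EDR890 Crest.Agent.R273.Kah_333
open Crest.Agent.R273.Hess_333
open Crest.Agent.T223.Br Crest.Agent.T223.Tr
open Crest.Agent.T223.Db (dom SmST)

noncomputable section

namespace Lp84

variable {n : ℕ}

/-! ## gradient bound: `|dφ(v)|² ≤ 4 |∂φ|² g(v,v)` -/

theorem pair_sq_le {G : Mat n} (hG : G.PosDef) (ξ v : Cn n) :
    ‖∑ a, ξ a * v a‖ ^ 2 ≤ nqi G ξ * nq G v := by
  set H : Mat n := Matrix.of fun a b => ξ a * conj (ξ b) with hH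
  have hherm : H.IsHermitian := by
    ext a b
    simp [hH, Matrix.conjTranspose_apply, mul_comm]
  have hq : ∀ w : Cn n, nq H w = ‖∑ a, ξ a * w a‖ ^ 2 := by
    intro w
    have : (∑ a, ∑ b, H a b * w a * conj (w b)) =
        (∑ a, ξ a * w a) * conj (∑ a, ξ a * w a) := by
      rw [map_sum, Finset.sum_mul_sum]
      refine Finset.sum_congr rfl fun a _ => Finset.sum_congr rfl fun b _ => ?_
      simp only [hH, Matrix.of_apply, map_mul]; ring
    rw [nq, this, Complex.mul_conj, Complex.normSq_eq_norm_sq]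
    exact Complex.ofReal_re _
  have ht : trg G H = nqi G ξ := by
    unfold trg nqi
    congr 1
    simp only [Matrix.trace, Matrix.diag_apply, Matrix.mul_apply, hH, Matrix.of_apply]
    rw [Finset.sum_comm]
    exact Finset.sum_congr rfl fun a _ => Finset.sum_congr rfl fun b _ => by ring
  have h1 := Ev.nq_le_trg hG hherm (b := 0) (fun w => by
    rw [hq, zero_mul, add_zero]; positivity) v
  rw [hq, ht] at h1
  simpa using h1

theorem fderiv_eq_dz {φ : Cn n → ℝ} {z : Cn n} (hd : DifferentiableAt ℝ φ z) (v : Cn n) :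
    fderiv ℝ φ z v = 2 * (∑ a, dz φ z a * v a).re := by
  have h1 : fderiv ℝ (cu φ) z = Complex.ofRealCLM.comp (fderiv ℝ φ z) :=
    (Complex.ofRealCLM.hasFDerivAt.comp z hd.hasFDerivAt).fderiv
  have h2 := wdL_vec false (fderiv ℝ (cu φ) z) v
  have h3 : ∑ a, dz φ z a * v a = ∑ a, cj false (v a) • wdL (false, a) (fderiv ℝ (cu φ) z) :=
    Finset.sum_congr rfl fun a _ => by
      simp only [cj_false, smul_eq_mul, dz, wd]
      ring
  rw [h3, ← h2, h1]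
  simp

theorem fderiv_sq_le {g : Cn n → Mat n} {φ : Cn n → ℝ} {z : Cn n} (hg : (g z).PosDef)
    (hd : DifferentiableAt ℝ φ z) (v : Cn n) :
    fderiv ℝ φ z v ^ 2 ≤ 4 * gsq g φ z * nq (g z) v := by
  rw [fderiv_eq_dz hd]
  have h1 := pair_sq_le hg (dz φ z) v
  have h2 : (∑ a, dz φ z a * v a).re ^ 2 ≤ ‖∑ a, dz φ z a * v a‖ ^ 2 := by
    rw [← sq_abs]
    exact pow_le_pow_left₀ (abs_nonneg _) (Complex.abs_re_le_norm _) 2
  unfold gsq
  nlinarith

/-! ## numerics -/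

/-- the constant for `ρ(s,p)` -/
def c1 (C N : ℝ) : ℝ := 2 * (3 + 5 * C ^ 2 + C * (2 + N))

/-- the constant for `d₀ ≤ 4 ρ + c (1+s)²` -/
def c3 (C N : ℝ) : ℝ := 2 * (11 + C ^ 2 + 64 * C ^ 4 + C * (7 * C + 2 + N))

theorem num_p {C N s ρ S : ℝ} (hC : 1 ≤ C) (hN : 0 ≤ N) (hs : 0 ≤ s) (hρ : 0 ≤ ρ)
    (hS : S ≤ (1 + s) + s * (C * (3 + ρ) + 1) + N * s)
    (h : ∀ α : ℝ, 1 ≤ α → ρ - 1 - α - C / α * S ≤ 1 + s) : ρ ≤ c1 C N * (1 + s) := by
  have hCs : 0 ≤ C ^ 2 * s := by positivity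
  set α := 1 + 2 * (C ^ 2 * s) with hα
  have hα1 : 1 ≤ α := by linarith
  have hα0 : 0 < α := by linarith
  have h1 := h α hα1
  have hC0 : 0 ≤ C / α := by positivity
  have h2 : S ≤ (3 * C + 2 + N) * (1 + s) + C * s * ρ := by nlinarith
  have h3 : C / α * ((3 * C + 2 + N) * (1 + s)) ≤ C * ((3 * C + 2 + N) * (1 + s)) :=
    mul_le_mul_of_nonneg_right (div_le_self (by linarith) hα1) (by positivity)
  have h4 : C / α * (C * s * ρ) ≤ ρ / 2 := by
    rw [div_mul_eq_mul_div, div_le_iff₀ hα0, hα]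
    nlinarith [mul_nonneg hCs hρ]
  have h5 := mul_le_mul_of_nonneg_left h2 hC0
  rw [mul_add] at h5
  unfold c1
  have h6 : C ^ 2 * s ≤ C ^ 2 * (1 + s) := by nlinarith [sq_nonneg C]
  nlinarith

theorem num_d {C N s ρ S D : ℝ} (hC : 1 ≤ C) (hN : 0 ≤ N) (hs : 0 ≤ s) (hρ : 0 ≤ ρ) (hD : 2 ≤ D)
    (hS : S ≤ (1 + s) + s * (C * (7 + ρ) + 1 + C * D * Real.log D) + N * s)
    (h : ∀ α : ℝ, 1 ≤ α → D - 9 - ρ - α - C / α * S ≤ 1 + s) :
    D ≤ 4 * ρ + c3 C N * (1 + s) ^ 2 := by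
  set w := √D with hw
  have hw0 : 0 < w := Real.sqrt_pos.2 (by linarith)
  have hw2 : w ^ 2 = D := Real.sq_sqrt (by linarith)
  have hlog : Real.log D ≤ 2 * w := by
    have h1 : Real.log D = 2 * Real.log w := by
      rw [← hw2, Real.log_pow]; norm_num
    have h2 := Real.log_le_sub_one_of_pos hw0
    linarith
  have hCs : 0 ≤ C ^ 2 * s := by positivity
  have hCw : 0 ≤ C ^ 2 * s * w := by positivity
  set α := 1 + C ^ 2 * s + 8 * (C ^ 2 * s * w) with hα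
  have hα1 : 1 ≤ α := by linarith
  have hα0 : 0 < α := by linarith
  have h1 := h α hα1
  have hC0 : 0 ≤ C / α := by positivity
  have h20 : s * (C * D * Real.log D) ≤ s * (C * D * (2 * w)) :=
    mul_le_mul_of_nonneg_left (mul_le_mul_of_nonneg_left hlog (by positivity)) hs
  have h2 : S ≤ (7 * C + 2 + N) * (1 + s) + C * s * ρ + s * (C * D * (2 * w)) := by nlinarith
  have h3 : C / α * ((7 * C + 2 + N) * (1 + s)) ≤ C * ((7 * C + 2 + N) * (1 + s)) :=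
    mul_le_mul_of_nonneg_right (div_le_self (by linarith) hα1) (by positivity)
  have h4 : C / α * (C * s * ρ) ≤ ρ := by
    rw [div_mul_eq_mul_div, div_le_iff₀ hα0, hα]
    nlinarith [mul_nonneg hCw hρ]
  have h4' : C / α * (s * (C * D * (2 * w))) ≤ D / 4 := by
    rw [div_mul_eq_mul_div, div_le_iff₀ hα0, hα]
    have hD0 : 0 ≤ D := by linarith
    nlinarith [mul_nonneg hCs hD0]
  have h5 := mul_le_mul_of_nonneg_left h2 hC0
  rw [mul_add, mul_add] at h5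
  have h6 : 8 * (C ^ 2 * s * w) ≤ D / 4 + 64 * (C ^ 4 * s ^ 2) := by
    nlinarith [sq_nonneg (w / 2 - 8 * (C ^ 2 * s))]
  have h7 : 1 + s ≤ (1 + s) ^ 2 := by nlinarith
  have h8 : C ^ 2 * s ≤ C ^ 2 * (1 + s) ^ 2 :=
    mul_le_mul_of_nonneg_left (by nlinarith) (by positivity)
  have h9 : C ^ 4 * s ^ 2 ≤ C ^ 4 * (1 + s) ^ 2 :=
    mul_le_mul_of_nonneg_left (by nlinarith) (by positivity)
  have h10 : C * ((7 * C + 2 + N) * (1 + s)) ≤ C * ((7 * C + 2 + N) * (1 + s) ^ 2) :=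
    mul_le_mul_of_nonneg_left (mul_le_mul_of_nonneg_left h7 (by positivity)) (by positivity)
  have h11 : 11 + s ≤ 11 * (1 + s) ^ 2 := by nlinarith
  have h12 : c3 C N * (1 + s) ^ 2 = 2 * (11 * (1 + s) ^ 2 + C ^ 2 * (1 + s) ^ 2 +
      64 * (C ^ 4 * (1 + s) ^ 2) + C * ((7 * C + 2 + N) * (1 + s) ^ 2)) := by
    unfold c3; ring
  rw [h12]
  linarith

theorem c1_nonneg {C N : ℝ} (hC : 1 ≤ C) (hN : 0 ≤ N) : 0 ≤ c1 C N := by
  unfold c1; positivity

theorem c3_nonneg {C N : ℝ} (hC : 1 ≤ C) (hN : 0 ≤ N) : 0 ≤ c3 C N := by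
  unfold c3; positivity

/-! ## the step -/

variable {M : Type} [TopologicalSpace M] {A : Atl n M} [T2Space M] [ConnectedSpace M]
  {K0 : Kah A} {p : M}

theorem dK_self (x : M) : dK K0 x x = 0 := dist_self (α := (Crest.Agent.R273.RMan4_798.ofKah K0).M) x

theorem dK_nonneg (x y : M) : 0 ≤ dK K0 x y := dist_nonneg

theorem dK_tri (x y z : M) : dK K0 x y ≤ dK K0 x z + dK K0 y z :=
  dist_triangle_right (α := (Crest.Agent.R273.RMan4_798.ofKah K0).M) x y z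

theorem zt_self (y : M) {α : ℝ} (hα : 0 ≤ α) : zt K0 y α y = α := by
  unfold zt
  rw [dK_self]
  simp [Real.sqrt_sq hα]

variable {P : Par} {I : Init K0 p} {a : ℝ} {S : Stp P I a}

/-- deep inside the error is tiny -/
theorem E_small (h : P.Ok) (hB : 12 ≤ P.B) (hB' : P.V + P.K1 * (1 + P.Cb) ≤ P.B) {s : ℝ}
    (hs : s ∈ Icc S.t S.t') {y : M} (hy : S.ρ s y ≤ S.σ / 2 + 5) :
    P.K1 * (1 + P.Cb) * S.E s y ≤ 1 := by
  set m := P.K1 * (1 + P.Cb) with hm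
  have h1 : S.E s y ≤ Real.exp (-m) := by
    rw [Stp.E_le_exp_iff h]
    have h2 := Stp.le_sg h hs
    have h3 := S.mul_r_le h hB'
    have h4 := S.B_le_σ h
    nlinarith
  have hm0 : 0 ≤ m := by have := h.K10; have := h.Cb0; positivity
  have h2 : m * Real.exp (-m) ≤ 1 := by
    have h3 := Real.add_one_le_exp m
    have h4 := Real.exp_pos m
    rw [Real.exp_neg, ← div_eq_mul_inv, div_le_one h4]
    linarith
  exact (mul_le_mul_of_nonneg_left h1 hm0).trans h2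

theorem K1E_le (h : P.Ok) {s : ℝ} {y : M} (hE : P.K1 * (1 + P.Cb) * S.E s y ≤ 1) :
    P.K1 * S.E s y ≤ 1 := by
  have h1 := mul_pos h.K10 (Stp.E_pos (S := S) s y)
  have h2 := mul_pos h1 h.Cb0
  nlinarith

/-- `|dρ|_{g₀} ≤ 5` where the error is small -/
theorem grLe (h : P.Ok) (hC : S.OC) (hE : S.OE) {s : ℝ} (hs : s ∈ Icc S.t S.t') {y : M}
    (hy : y ∈ S.Kc) (he : P.K1 * S.E s y ≤ 1) : Lo.GrLe K0 (S.ρ s) y 5 := by
  have hi := ch_mem A y
  have hsm : ContDiffAt ℝ ∞ (inC A (ch A y) (S.ρ s)) (A.e (ch A y) y) :=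
    (smOn_of_SmST S.hρ.sm (Stp.mem_Icc h hs)).contDiffAt S.op hi hy.1
  refine ⟨ch A y, hi, hsm.of_le (by simp), fun v => ?_⟩
  have hpos : (S.g s (ch A y) (A.e (ch A y) y)).PosDef :=
    ((S.flow.kah s (Stp.mem_Icc h hs)).kah _ _ hi hy.1).pos.self_of_nhds
  have h1 := fderiv_sq_le (g := S.g s (ch A y)) hpos (hsm.differentiableAt (by simp)) v
  have h2 : Gr (S.g s) (S.ρ s) y ≤ 2 := by
    have h3 := (hC s hs y hy).2
    have h4 := mul_le_mul_of_nonneg_right h.KK (Stp.E_pos (S := S) s y).le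
    linarith
  have h3 := (hE s hs y hy).1 (ch A y) hi v
  have h4 : Real.exp (P.K1 * S.E s y) ≤ 3 :=
    (Real.exp_le_exp.2 he).trans (by linarith [Real.exp_one_lt_d9])
  have h5 : 0 ≤ nq (S.g s (ch A y) (A.e (ch A y) y)) v := Ev.nq_nonneg hpos.posSemidef v
  have h6 : 0 ≤ nq (K0.g (ch A y) y) v := by
    by_contra hc
    push Not at hc
    have := mul_neg_of_pos_of_neg (Real.exp_pos (P.K1 * S.E s y)) hc
    linarith
  rw [Lp93.G_KK]
  have h7 : gc K0 (ch A y) (A.e (ch A y) y) = K0.g (ch A y) y := by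
    unfold gc; rw [(A.e _).left_inv hi]
  rw [h7]
  have h8 := mul_le_mul_of_nonneg_right h4 h6
  have h9 := mul_le_mul_of_nonneg_right h2 h5
  unfold Gr at h9
  change fderiv ℝ (inC A (ch A y) (S.ρ s)) (A.e (ch A y) y) v ^ 2 ≤ _
  nlinarith

/-- `g₀`-balls around deep points stay in `Kc` -/
theorem ball_deep (h : P.Ok) (hB : 12 ≤ P.B) (hB' : P.V + P.K1 * (1 + P.Cb) ≤ P.B) (hC : S.OC)
    (hE : S.OE) {s : ℝ} (hs : s ∈ Icc S.t S.t') {x : M} (hx : x ∈ S.Kc) {r0 : ℝ}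
    (hxr : S.ρ s x + 5 * r0 ≤ S.σ / 2 + 5) {y : M} (hy : dK K0 x y < r0) :
    y ∈ S.Kc ∧ S.ρ s y ≤ S.ρ s x + 5 * r0 := by
  have hr0 : 0 < r0 := (dK_nonneg x y).trans_lt hy
  have hcU : ContinuousOn (S.ρ s) S.U := (smOn_of_SmST S.hρ.sm (Stp.mem_Icc h hs)).continuousOn
  have hF : IsClosed (S.Kc ∩ S.ρ s ⁻¹' Iic (S.σ / 2 + 5)) :=
    (hcU.mono Stp.Kc_sub).preimage_isClosed_of_isClosed S.cptK.isClosed isClosed_Iic
  have h1 := Lo.lip_exit K0 hF (ρ := S.ρ s) (a := 5) (σ := S.σ / 2 + 5) (r := r0) (by norm_num)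
    (fun z hz => grLe h hC hE hs hz.1 (K1E_le h (E_small h hB hB' hs hz.2)))
    (fun z hz hz' => by
      have h2 : S.Kc ∈ 𝓝 z :=
        Stp.Kc_mem_nhds' h hs hz.1.1 (by linarith [S.B_le_σ h, S.r_pos h])
      have h3 : ContinuousAt (S.ρ s) z := hcU.continuousAt (S.op.mem_nhds hz.1.1)
      filter_upwards [h2, h3.eventually (gt_mem_nhds hz')] with w hw hw'
      exact ⟨hw, le_of_lt hw'⟩)
    (x := x) ⟨hx, by change S.ρ s x ≤ _; linarith⟩ hxr (y := y) hy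
  exact ⟨h1.1.1, by linarith [(abs_le.1 h1.2.1).2]⟩

theorem potC_u0 (h : P.Ok) (S : Stp P I a) : PotC I a P.Cb (I.u0 a) :=
  ⟨h.Cb0.le, I.u0_pot a, fun x hx => by rw [← S.hC]; exact I.u0_le a x hx⟩

/-- upper bound of `lv` and of `Sf` from a lower bound of `u0` -/
theorem lv_le (h : P.Ok) (hD : S.OD) {s : ℝ} (hs : s ∈ Icc S.t S.t') {y : M} (hy : y ∈ S.Kc)
    (he : P.K1 * (1 + P.Cb) * S.E s y ≤ 1) :
    lv K0 (S.g s) y ≤ P.Cb * (2 + S.ρ s y) + 1 - I.u0 a y := by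
  have := (hD s hs y hy).2.2 _ _ (potC_u0 h S)
  linarith

theorem err_le (h : P.Ok) {s : ℝ} (hs : s ∈ Icc S.t S.t') {y : M} (he : P.K1 * S.E s y ≤ 1) :
    P.K1 * (1 + s) * S.E s y ≤ 1 + s := by
  have h0 := Stp.nonneg h hs
  have := mul_le_mul_of_nonneg_left he (show 0 ≤ 1 + s by linarith)
  linarith

theorem Sf_le (h : P.Ok) (hE : S.OE) {s : ℝ} (hs : s ∈ Icc S.t S.t') {y : M} (hy : y ∈ S.Kc)
    (he : P.K1 * S.E s y ≤ 1) {X : ℝ} (hX : lv K0 (S.g s) y ≤ X) :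
    Sf K0 (S.g s) (S.v s) s y ≤ (1 + s) + s * X + n * s := by
  have h0 := Stp.nonneg h hs
  have h1 := (hE s hs y hy).2.2
  have h2 := err_le h hs he
  have h3 := mul_le_mul_of_nonneg_left hX h0
  unfold Sf
  linarith

/-- `d₀(p,x) ≤ 4 ρ + c (1+s)²` deep inside -/
theorem d_le (h : P.Ok) (hB : 12 ≤ P.B) (hB' : P.V + P.K1 * (1 + P.Cb) ≤ P.B) (hC : S.OC)
    (hD : S.OD) (hE : S.OE) (hF : S.OF) {s : ℝ} (hs : s ∈ Icc S.t S.t') {x : M} (hx : x ∈ S.Kc)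
    (hρ : S.ρ s x ≤ S.σ / 2) :
    2 + dK K0 p x ≤ 4 * S.ρ s x + c3 P.Cb n * (1 + s) ^ 2 := by
  obtain ⟨y, hy, hu⟩ := I.u0_ge a x 1 one_pos le_rfl
  rw [div_one, S.hC] at hu
  obtain ⟨hyK, hyρ⟩ := ball_deep h hB hB' hC hE hs hx (r0 := 1) (by linarith) hy
  have he := E_small h hB hB' hs (y := y) (by linarith)
  have he' := K1E_le h he
  have h0 := Stp.nonneg h hs
  have h1 := lv_le h hD hs hyK he
  have h2 : P.Cb * (2 + S.ρ s y) ≤ P.Cb * (7 + S.ρ s x) :=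
    mul_le_mul_of_nonneg_left (by linarith) h.Cb0.le
  have h3 := Sf_le h hE hs hyK he'
    (X := P.Cb * (7 + S.ρ s x) + 1 + P.Cb * (2 + dK K0 p x) * Real.log (2 + dK K0 p x))
    (by linarith)
  refine num_d h.Cb1 (Nat.cast_nonneg n) h0 (hC s hs x hx).1
    (by linarith [dK_nonneg (K0 := K0) p x]) h3 fun α hα => ?_
  have h4 := (hF s hs y hyK α hα).1 y
  rw [zt_self y (by linarith)] at h4
  have h5 := err_le h hs he'
  have h6 := dK_tri (K0 := K0) p x y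
  linarith

/-- the base point -/
theorem at_p (h : P.Ok) (hB : 12 ≤ P.B) (hB' : P.V + P.K1 * (1 + P.Cb) ≤ P.B) (hK : P.K ≤ P.B)
    (hC : S.OC) (hD : S.OD) (hE : S.OE) (hF : S.OF) (hp : p ∈ S.U) (hp' : S.ρ S.t p ≤ S.σ / 2)
    {s : ℝ} (hs : s ∈ Icc S.t S.t') :
    p ∈ S.Kc ∧ S.ρ s p ≤ c1 P.Cb n * (1 + s) ∧
      lv K0 (S.g s) p ≤ (P.Cb * (3 + c1 P.Cb n) + 1) * (1 + s) := by
  have hpK : p ∈ S.Kc := by
    refine ⟨hp, ?_⟩
    have h1 := S.σ0 h
    have h2 : 0 ≤ (P.K + 1) * S.r := mul_nonneg (by linarith [h.K0]) (S.r_pos h).le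
    linarith
  have h0 := Stp.nonneg h hs
  have h1 := (abs_le.1 (Stp.crudeK h hs hpK).oρ).2
  have h2 := S.mul_r_le h hK
  have he := E_small h hB hB' hs (y := p) (by linarith)
  have he' := K1E_le h he
  have h3 := lv_le h hD hs hpK he
  have h4 := I.u0_p a
  rw [S.hC] at h4
  have h5 : lv K0 (S.g s) p ≤ P.Cb * (3 + S.ρ s p) + 1 := by linarith
  have h6 := Sf_le h hE hs hpK he' h5
  have h7 : S.ρ s p ≤ c1 P.Cb n * (1 + s) := by
    refine num_p h.Cb1 (Nat.cast_nonneg n) h0 (hC s hs p hpK).1 h6 fun α hα => ?_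
    have h8 := (hF s hs p hpK α hα).2
    rw [zt_self p (by linarith)] at h8
    linarith [err_le h hs he']
  refine ⟨hpK, h7, h5.trans ?_⟩
  have h8 := mul_le_mul_of_nonneg_left h7 h.Cb0.le
  nlinarith [mul_nonneg h.Cb0.le h0]

end Lp84

open Lp84 in
/-- **leaf Lp** -/
theorem lpStmt (n : ℕ) : LpStmt n := by
  unfold LpStmt Leaf
  refine Ev.of_thr (fun _ => 0) (fun _ _ => 0) (fun _ _ _ => 0)
    (fun Cb K V K1 _ _ => 12 + K + (V + K1 * (1 + Cb)) + c1 Cb n + (Cb * (3 + c1 Cb n) + 1) +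
      c3 Cb n) ?_
  intro P h _ _ _ hB M _ _ _ A K0 p I a S hC hD hE hF hp hp' s hs
  have e1 := c1_nonneg h.Cb1 (Nat.cast_nonneg (α := ℝ) n)
  have e3 := c3_nonneg h.Cb1 (Nat.cast_nonneg (α := ℝ) n)
  have e4 := h.K0
  have e5 := h.V0
  have e6 : 0 ≤ P.K1 * (1 + P.Cb) := by have := h.K10; have := h.Cb0; positivity
  have e7 : 0 ≤ P.Cb * (3 + c1 P.Cb n) := by have := h.Cb0; positivity
  have hB1 : 12 ≤ P.B := by linarith
  have hB2 : P.V + P.K1 * (1 + P.Cb) ≤ P.B := by linarith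
  have h0 := Stp.nonneg h hs
  have h01 : 0 ≤ 1 + s := by linarith
  obtain ⟨hpK, h1, h2⟩ := at_p h hB1 hB2 (by linarith) hC hD hE hF hp hp' hs
  have h3 : (c1 P.Cb n + 5) * (1 + s) ≤ P.B * (1 + s) :=
    mul_le_mul_of_nonneg_right (by linarith) h01
  refine ⟨by nlinarith, h2.trans (mul_le_mul_of_nonneg_right (by linarith) h01), fun x hx => ?_,
    fun x hx hρ => ?_⟩
  · have h4 := dK_nonneg (K0 := K0) p x
    have h5 : 5 * dK K0 p x ≤ P.B * dK K0 p x := mul_le_mul_of_nonneg_right (by linarith) h4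
    obtain ⟨h6, h7⟩ := ball_deep h hB1 hB2 hC hE hs hpK (r0 := dK K0 p x + 1) (by nlinarith)
      (y := x) (by linarith)
    exact ⟨h6, by nlinarith⟩
  · have h4 := d_le h hB1 hB2 hC hD hE hF hs hx hρ
    have h5 : c3 P.Cb n * (1 + s) ^ 2 ≤ P.ρs s :=
      mul_le_mul_of_nonneg_right (by linarith) (sq_nonneg _)
    linarith

end

end Crest.Agent.T223.Os
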