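import Crest.Agent.T223.OsDef_21

/-!
# Row 223, module OSG (helper23): the Osgood count `osgoodStmt : OsgoodStmt`
-/

set_option autoImplicit false

open Set

namespace Crest.Agent.T223.Os.Osg23

noncomputable section

theorem log_drop {A A' η : ℝ} (hA : 0 < A) (h0 : 0 ≤ η) (h1 : η ≤ A / 2) (h2 : A - η ≤ A') :
    Real.log A - 2 * η / A ≤ Real.log A' := by
  have h3 : 0 < A - η := by linarith
  have h4 : Real.log (A - η) ≤ Real.log A' := Real.log_le_log h3 h2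
  have h5 := Real.one_sub_inv_le_log_of_pos (div_pos h3 hA)
  rw [Real.log_div h3.ne' hA.ne', inv_div] at h5
  have h6 : A / (A - η) ≤ 1 + 2 * η / A := by
    rw [div_le_iff₀ h3]
    have : (1 + 2 * η / A) * (A - η) = A + η * (A - 2 * η) / A := by field_simp; ring
    rw [this]
    have : 0 ≤ η * (A - 2 * η) / A := div_nonneg (mul_nonneg h0 (by linarith)) hA.le
    linarith
  linarith

/-- fourth root of `τ` -/
def w (P : Par) (s : ℝ) : ℝ := √(√(P.τ s))

/-- the Osgood function -/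
def F (P : Par) (T c σ t : ℝ) : ℝ :=
  Real.log (Real.log (σ + P.ρs (T + 1)) + P.B) + 2 * c * w P t

theorem w_pow {P : Par} {s : ℝ} (h : 0 ≤ P.τ s) : w P s ^ 4 = P.τ s := by
  have : w P s ^ 2 = √(P.τ s) := Real.sq_sqrt (Real.sqrt_nonneg _)
  rw [show (4 : ℕ) = 2 * 2 by norm_num, pow_mul, this, Real.sq_sqrt h]

theorem w_nonneg (P : Par) (s : ℝ) : 0 ≤ w P s := Real.sqrt_nonneg _

theorem w_le {P : Par} {s W : ℝ} (h : 0 ≤ P.τ s) (hW : 1 ≤ W) (h1 : P.τ s ≤ W) : w P s ≤ W := by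
  refine le_of_not_gt fun h2 => ?_
  have h3 : W ^ 4 < w P s ^ 4 := pow_lt_pow_left₀ h2 (by linarith) (by norm_num)
  rw [w_pow h] at h3
  have h4 : W ≤ W ^ 4 := le_self_pow₀ hW (by norm_num)
  linarith

theorem ρs_ge {P : Par} (hP : P.Ok) {t : ℝ} (ht : 0 ≤ t) : 1 + t ≤ P.ρs t := by
  unfold Par.ρs
  have := hP.B1
  nlinarith [mul_nonneg ht ht]

theorem ρs_mono {P : Par} (hP : P.Ok) {s t : ℝ} (hs : 0 ≤ s) (h : s ≤ t) : P.ρs s ≤ P.ρs t := by
  unfold Par.ρs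
  have := hP.B1
  gcongr

theorem ell_ge {P : Par} (hP : P.Ok) {σ t : ℝ} (hσ : 0 ≤ σ) (ht : 0 ≤ t) : 1 ≤ P.ell σ t := by
  unfold Par.ell
  have h1 : 0 ≤ Real.log (σ + P.ρs t) := Real.log_nonneg (by linarith [ρs_ge hP ht])
  have h2 : 0 < P.τ t := by unfold Par.τ; linarith [hP.tA0]
  have h3 : 0 ≤ Real.log (1 + 1 / P.τ t) :=
    Real.log_nonneg (by have := one_div_pos.2 h2; linarith)
  linarith [hP.B1]

theorem r_sq {P : Par} (hP : P.Ok) {σ t : ℝ} (_hσ : 0 ≤ σ) (ht : 0 ≤ t) :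
    P.r σ t ^ 2 = P.τ t / (P.L * ((σ + P.ρs t) ^ 2 * P.ell σ t ^ 2)) := by
  have h2 : 0 < P.τ t := by unfold Par.τ; linarith [hP.tA0]
  have hL : 0 < P.L := by linarith [hP.Λ1, hP.ΛL]
  unfold Par.r Par.Ψ
  exact Real.sq_sqrt (by positivity)

set_option maxHeartbeats 3200000 in
theorem step {P : Par} (hP : P.Ok) {m0 T σ t : ℝ} (hm : 0 ≤ m0) (h0 : 0 ≤ t) (h1 : t ≤ T)
    (hσ : 4 * m0 * (T + 2) + 1 ≤ σ) :
    P.δ * P.r σ t ^ 2 ≤ 1 ∧ 1 ≤ σ - m0 * P.r σ t + P.ρs (T + 1) ∧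
      F P T (90 * m0 * √P.L / P.δ * (T + 2)) σ t ≤
        F P T (90 * m0 * √P.L / P.δ * (T + 2)) (σ - m0 * P.r σ t) (t + P.δ * P.r σ t ^ 2) := by
  have hT : 0 ≤ T := h0.trans h1
  have hσ0 : 0 ≤ σ := by nlinarith
  have hτ : 0 < P.τ t := by unfold Par.τ; linarith [hP.tA0]
  have hτ1 : P.τ t ≤ 1 + t := by unfold Par.τ; linarith [hP.tA1]
  have hL : 1 ≤ P.L := by linarith [hP.Λ1, hP.ΛL]
  have hδ := hP.δ0
  have hδ1 := hP.δ1
  have hB := hP.B1
  have hr2 := r_sq hP hσ0 h0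
  have hr0 : 0 ≤ P.r σ t := Real.sqrt_nonneg _
  have hl := ell_ge hP hσ0 h0
  have hρ := ρs_ge hP h0
  have hρ' : P.ρs t ≤ P.ρs (T + 1) := ρs_mono hP h0 (by linarith)
  obtain ⟨r, hr⟩ : ∃ r, P.r σ t = r := ⟨_, rfl⟩
  obtain ⟨X, hX⟩ : ∃ X, σ + P.ρs t = X := ⟨_, rfl⟩
  obtain ⟨l, hldef⟩ : ∃ l, P.ell σ t = l := ⟨_, rfl⟩
  obtain ⟨Z, hZ⟩ : ∃ Z, σ + P.ρs (T + 1) = Z := ⟨_, rfl⟩
  rw [hr, hX, hldef] at hr2
  rw [hr] at hr0 ⊢
  rw [hldef] at hl
  have hX1 : 1 + t ≤ X := by linarith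
  have hXZ : X ≤ Z := by linarith
  have hden : X ≤ P.L * (X ^ 2 * l ^ 2) := by
    have a1 : X ≤ X ^ 2 := by nlinarith
    have a2 : X ^ 2 ≤ X ^ 2 * l ^ 2 := le_mul_of_one_le_right (by positivity) (by nlinarith)
    have a3 : X ^ 2 * l ^ 2 ≤ P.L * (X ^ 2 * l ^ 2) := le_mul_of_one_le_left (by positivity) hL
    linarith
  have hdp : 0 < P.L * (X ^ 2 * l ^ 2) := by linarith
  have hr1 : r ^ 2 ≤ 1 := by rw [hr2, div_le_one hdp]; linarith
  have hrτ : r ^ 2 ≤ P.τ t := by rw [hr2]; exact div_le_self hτ.le (by linarith)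
  have hr1' : r ≤ 1 := by nlinarith
  have hΔ1 : P.δ * r ^ 2 ≤ 1 := by nlinarith
  have hΔτ : P.δ * r ^ 2 ≤ P.τ t := by nlinarith [sq_nonneg r]
  have hmr : m0 * r ≤ Z / 4 := by nlinarith
  have hmr0 : 0 ≤ m0 * r := mul_nonneg hm hr0
  have hZ2 : 2 ≤ Z := by nlinarith
  refine ⟨hΔ1, by linarith, ?_⟩
  -- the fourth roots
  have hτ' : P.τ (t + P.δ * r ^ 2) = P.τ t + P.δ * r ^ 2 := by unfold Par.τ; ring
  have hΔ0 : 0 ≤ P.δ * r ^ 2 := by positivity
  obtain ⟨a, ha⟩ : ∃ a, a = w P t := ⟨_, rfl⟩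
  obtain ⟨a', ha'⟩ : ∃ a', a' = w P (t + P.δ * r ^ 2) := ⟨_, rfl⟩
  have ha4 : a ^ 4 = P.τ t := ha ▸ w_pow hτ.le
  have ha4' : a' ^ 4 = P.τ t + P.δ * r ^ 2 := by
    rw [← hτ', ha']; exact w_pow (by rw [hτ']; linarith)
  have ha0 : 0 < a := by
    refine lt_of_le_of_ne (ha ▸ w_nonneg P t) fun h => ?_
    rw [← h] at ha4
    linarith
  have ha0' : 0 ≤ a' := ha' ▸ w_nonneg P _
  have haa : a ≤ a' := by
    refine le_of_not_gt fun h => ?_
    have := pow_lt_pow_left₀ h ha0' (show (4 : ℕ) ≠ 0 by norm_num)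
    linarith
  have h2a : a' ^ 2 ≤ 2 * a ^ 2 := by
    refine le_of_not_gt fun h => ?_
    have := pow_lt_pow_left₀ h (by positivity) (show (2 : ℕ) ≠ 0 by norm_num)
    nlinarith [pow_pos ha0 4]
  have h2a' : a' ≤ 2 * a := by
    refine le_of_not_gt fun h => ?_
    have h5 := pow_lt_pow_left₀ h (by positivity) (show (2 : ℕ) ≠ 0 by norm_num)
    have h6 : (2 * a) ^ 2 = 4 * a ^ 2 := by ring
    have h7 := pow_pos ha0 2
    linarith
  have hd : P.δ * r ^ 2 ≤ 9 * a ^ 3 * (a' - a) := by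
    have e : P.δ * r ^ 2 = (a' - a) * ((a' + a) * (a' ^ 2 + a ^ 2)) := by
      have : P.δ * r ^ 2 = a' ^ 4 - a ^ 4 := by linarith
      rw [this]; ring
    have b1 : (a' + a) * (a' ^ 2 + a ^ 2) ≤ (3 * a) * (3 * a ^ 2) :=
      mul_le_mul (by linarith) (by linarith) (by positivity) (by positivity)
    rw [e]
    calc (a' - a) * ((a' + a) * (a' ^ 2 + a ^ 2)) ≤ (a' - a) * ((3 * a) * (3 * a ^ 2)) :=
          mul_le_mul_of_nonneg_left b1 (by linarith)
      _ = _ := by ring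
  have hsL : 0 < √P.L := Real.sqrt_pos.2 (by linarith)
  have hX0 : 0 < X := by linarith
  have hs : r * (√P.L * X * l) = a ^ 2 := by
    have b1 : (r * (√P.L * X * l)) ^ 2 = (a ^ 2) ^ 2 := by
      have b2 : √P.L ^ 2 = P.L := Real.sq_sqrt (by linarith)
      calc (r * (√P.L * X * l)) ^ 2 = r ^ 2 * (√P.L ^ 2 * (X ^ 2 * l ^ 2)) := by ring
        _ = P.τ t := by rw [b2, hr2]; field_simp
        _ = _ := by rw [← ha4]; ring
    exact (pow_left_inj₀ (by positivity) (by positivity) (by norm_num)).1 b1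
  have hδr : P.δ * r ≤ 9 * a * (a' - a) * (√P.L * X * l) := by
    have b1 : a ^ 2 * (P.δ * r) ≤ a ^ 2 * (9 * a * (a' - a) * (√P.L * X * l)) := by
      calc a ^ 2 * (P.δ * r) = (P.δ * r ^ 2) * (√P.L * X * l) := by rw [← hs]; ring
        _ ≤ (9 * a ^ 3 * (a' - a)) * (√P.L * X * l) := by gcongr
        _ = _ := by ring
    exact le_of_mul_le_mul_left b1 (by positivity)
  -- the logarithms
  obtain ⟨z, hz⟩ : ∃ z, z = Real.log Z + P.B := ⟨_, rfl⟩
  have hlZ : 0 ≤ Real.log Z := Real.log_nonneg (by linarith)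
  have hz1 : 1 ≤ z := by linarith
  have hlog : a * Real.log (1 + 1 / P.τ t) ≤ 4 := by
    have b1 : 1 + 1 / P.τ t ≤ (1 + 1 / a) ^ 4 := by
      rw [← ha4, ← one_div_pow]
      have : 0 < 1 / a := by positivity
      nlinarith [pow_pos this 2, pow_pos this 3]
    have b2 : Real.log (1 + 1 / P.τ t) ≤ 4 * (1 / a) := by
      calc Real.log (1 + 1 / P.τ t) ≤ Real.log ((1 + 1 / a) ^ 4) :=
            Real.log_le_log (by positivity) b1
        _ = 4 * Real.log (1 + 1 / a) := by rw [Real.log_pow]; norm_num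
        _ ≤ 4 * (1 / a) := by
            have := Real.log_le_sub_one_of_pos (show 0 < 1 + 1 / a by positivity)
            linarith
    calc a * Real.log (1 + 1 / P.τ t) ≤ a * (4 * (1 / a)) := by gcongr
      _ = 4 := by field_simp
  have haW : a ≤ T + 2 := ha ▸ w_le hτ.le (by linarith) (by linarith)
  have hal : a * l ≤ 5 * (T + 2) * z := by
    have b1 : l ≤ z + Real.log (1 + 1 / P.τ t) := by
      have := Real.log_le_log hX0 hXZ
      rw [← hldef, hz]; unfold Par.ell; rw [hX]; linarith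
    have b2 : a * l ≤ a * z + 4 := by nlinarith
    have b3 : a * z ≤ (T + 2) * z := by gcongr
    nlinarith
  obtain ⟨c, hc⟩ : ∃ c, c = 90 * m0 * √P.L / P.δ * (T + 2) := ⟨_, rfl⟩
  obtain ⟨η, hη⟩ : ∃ η, η = 2 * (m0 * r) / Z := ⟨_, rfl⟩
  have hZ0 : 0 < Z := by linarith
  have hη0 : 0 ≤ η := by rw [hη]; positivity
  have hη1 : η ≤ 1 / 2 := by rw [hη, div_le_iff₀ hZ0]; linarith
  have hηc : η ≤ c * (a' - a) * z := by
    rw [hη, div_le_iff₀ hZ0]
    have b1 : P.δ * r ≤ 9 * (a' - a) * √P.L * Z * (5 * (T + 2) * z) := by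
      calc P.δ * r ≤ 9 * (a' - a) * √P.L * X * (a * l) := by linarith
        _ ≤ _ := by
          have : 0 ≤ a' - a := by linarith
          gcongr
    have b2 : r ≤ 9 * (a' - a) * √P.L * Z * (5 * (T + 2) * z) / P.δ := by
      rw [le_div_iff₀ hδ]; linarith
    calc 2 * (m0 * r) ≤ 2 * (m0 * (9 * (a' - a) * √P.L * Z * (5 * (T + 2) * z) / P.δ)) := by
          gcongr
      _ = _ := by rw [hc]; field_simp; ring
  have e1 := log_drop (A' := σ - m0 * r + P.ρs (T + 1)) hZ0 hmr0 (by linarith) (by linarith)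
  have e2 := log_drop (A := z) (η := η)
    (A' := Real.log (σ - m0 * r + P.ρs (T + 1)) + P.B) (by linarith) hη0 (by linarith)
    (by linarith)
  have e3 : 2 * η / z ≤ 2 * (c * (a' - a)) := by
    rw [div_le_iff₀ (by linarith)]; linarith
  unfold F
  rw [← hc, hZ, ← hz, ← ha, ← ha']
  linarith

theorem osgoodStmt : OsgoodStmt := by
  intro Cb K V K1 Λ L B δ m0 T Sg hm
  set T' := max T 0 with hT'
  have hT0 : 0 ≤ T' := le_max_right _ _
  set S' := max Sg (4 * m0 * (T' + 2) + 1) with hS'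
  set c := 90 * m0 * √L / δ * (T' + 2) with hc
  set ρ := B * (1 + (T' + 1)) ^ 2 with hρ
  refine ⟨max S' (Real.exp (Real.exp (2 * c * (T' + 2)) * (Real.log (S' + ρ) + B))),
    fun σ0 hσ0 tA hP => ?_⟩
  set P : Par := ⟨Cb, K, V, K1, Λ, L, B, δ, tA⟩ with hPdef
  have hB : 1 ≤ B := hP.B1
  have hδ : 0 < δ := hP.δ0
  have htA : 0 < tA := hP.tA0
  have htA1 : tA ≤ 1 := hP.tA1
  have hL : 1 ≤ L := le_trans hP.Λ1 hP.ΛL
  have hρe : P.ρs (T' + 1) = ρ := rfl
  have hρ1 : 1 ≤ ρ := by rw [← hρe]; linarith [ρs_ge hP (show 0 ≤ T' + 1 by linarith)]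
  have hS1 : 4 * m0 * (T' + 2) + 1 ≤ S' := le_max_right _ _
  have hS0 : 1 ≤ S' := by nlinarith
  have hc0 : 0 ≤ c := by positivity
  have hσS : S' ≤ σ0 := (le_max_left _ _).trans hσ0
  set μ := δ * (tA / (L * ((σ0 + ρ) ^ 2 * (Real.log (σ0 + ρ) + B + Real.log (1 + 1 / tA)) ^ 2)))
    with hμ
  have hl1 : 0 ≤ Real.log (σ0 + ρ) := Real.log_nonneg (by linarith)
  have hl2 : 0 ≤ Real.log (1 + 1 / tA) :=
    Real.log_nonneg (by have := one_div_pos.2 htA; linarith)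
  have hμ0 : 0 < μ := by
    have : 0 < σ0 + ρ := by linarith
    have : 0 < Real.log (σ0 + ρ) + B + Real.log (1 + 1 / tA) := by linarith
    positivity
  set G : ℕ → Prop := fun j => S' ≤ (P.seq m0 σ0 j).1 ∧ (P.seq m0 σ0 j).1 ≤ σ0 ∧
    j * μ ≤ (P.seq m0 σ0 j).2 ∧ (P.seq m0 σ0 j).2 ≤ T' + 1 ∧
    F P T' c σ0 0 ≤ F P T' c (P.seq m0 σ0 j).1 (P.seq m0 σ0 j).2 with hG
  have hG0 : G 0 := ⟨hσS, le_rfl, by simp [Par.seq], by simp only [Par.seq]; linarith, le_rfl⟩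
  have hstep : ∀ j, G j → (P.seq m0 σ0 j).2 ≤ T' → G (j + 1) := by
    intro j ⟨g1, g2, g3, g4, g5⟩ hj
    set σ := (P.seq m0 σ0 j).1 with hσ
    set t := (P.seq m0 σ0 j).2 with ht
    have ht0 : 0 ≤ t := le_trans (by positivity) g3
    obtain ⟨s1, s2, s3⟩ := step hP hm ht0 hj (hS1.trans g1)
    have hr0 : 0 ≤ P.r σ t := Real.sqrt_nonneg _
    have e1 : (P.seq m0 σ0 (j + 1)).1 = σ - m0 * P.r σ t := rfl
    have e2 : (P.seq m0 σ0 (j + 1)).2 = t + P.δ * P.r σ t ^ 2 := rfl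
    have s4 : F P T' c σ0 0 ≤ F P T' c (σ - m0 * P.r σ t) (t + P.δ * P.r σ t ^ 2) := g5.trans s3
    have hΔ0 : 0 ≤ P.δ * P.r σ t ^ 2 := mul_nonneg hδ.le (sq_nonneg _)
    simp only [hG, e1, e2]
    refine ⟨?_, by nlinarith [mul_nonneg hm hr0], ?_, by linarith, s4⟩
    · unfold F at s4
      rw [hρe] at s4 s2
      have hw0 := w_nonneg P 0
      have hw1 : w P (t + P.δ * P.r σ t ^ 2) ≤ T' + 2 :=
        w_le (by change 0 ≤ t + P.δ * P.r σ t ^ 2 + tA; linarith) (by linarith)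
          (by change t + P.δ * P.r σ t ^ 2 + tA ≤ _; linarith)
      set Y := Real.log (σ - m0 * P.r σ t + ρ) + P.B with hY
      have hBB : P.B = B := rfl
      have hY0 : 0 < Y := by have := Real.log_nonneg s2; linarith
      have hz0 : 0 < Real.log (S' + ρ) + B := by
        have := Real.log_nonneg (show 1 ≤ S' + ρ by linarith); linarith
      have b1 : Real.exp (2 * c * (T' + 2)) * (Real.log (S' + ρ) + B) ≤
          Real.log (σ0 + ρ) + P.B := by
        have b2 : Real.exp (Real.exp (2 * c * (T' + 2)) * (Real.log (S' + ρ) + B)) ≤ σ0 + ρ := by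
          linarith [(le_max_right _ _).trans hσ0]
        have := (Real.le_log_iff_exp_le (by linarith)).2 b2
        linarith
      have b3 := Real.log_le_log (by positivity) b1
      rw [Real.log_mul (Real.exp_pos _).ne' hz0.ne', Real.log_exp] at b3
      have b4 : 2 * c * w P (t + P.δ * P.r σ t ^ 2) ≤ 2 * c * (T' + 2) := by gcongr
      have b5 : 0 ≤ 2 * c * w P 0 := by positivity
      have b6 : Real.log (Real.log (S' + ρ) + B) ≤ Real.log Y := by linarith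
      have b7 := (Real.log_le_log_iff hz0 hY0).1 b6
      have b8 : Real.log (S' + ρ) ≤ Real.log (σ - m0 * P.r σ t + ρ) := by linarith
      have := (Real.log_le_log_iff (by linarith) (by linarith)).1 b8
      linarith
    · have hσ0' : 0 ≤ σ := by linarith
      have b1 : μ ≤ P.δ * P.r σ t ^ 2 := by
        rw [r_sq hP hσ0' ht0, hμ]
        have hl := ell_ge hP hσ0' ht0
        have hρt : P.ρs t ≤ ρ := ρs_mono hP ht0 g4
        have hρt' := ρs_ge hP ht0
        have hτ : tA ≤ P.τ t := by change tA ≤ t + tA; linarith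
        have hell : P.ell σ t ≤ Real.log (σ0 + ρ) + B + Real.log (1 + 1 / tA) := by
          unfold Par.ell
          have a1 : Real.log (σ + P.ρs t) ≤ Real.log (σ0 + ρ) :=
            Real.log_le_log (by linarith) (by linarith)
          have a2 : Real.log (1 + 1 / P.τ t) ≤ Real.log (1 + 1 / tA) := by
            have := one_div_le_one_div_of_le htA hτ
            have := one_div_pos.2 (htA.trans_le hτ)
            exact Real.log_le_log (by linarith) (by linarith)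
          have hBB : P.B = B := rfl
          linarith
        have hX : 0 < σ + P.ρs t := by linarith
        have hLL : P.L = L := rfl
        have hδδ : P.δ = δ := rfl
        rw [hLL, hδδ]
        have hXX : σ + P.ρs t ≤ σ0 + ρ := by linarith
        gcongr
        linarith
      push_cast
      linarith
  by_contra hcon
  have hall : ∀ j, ∀ i, i ≤ j → G i := by
    intro j
    induction j with
    | zero => intro i hi; rw [Nat.le_zero.1 hi]; exact hG0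
    | succ j ih =>
      intro i hi
      rcases Nat.lt_or_eq_of_le hi with h | h
      · exact ih i (Nat.lt_succ_iff.1 h)
      · subst h
        refine hstep j (ih j le_rfl) ?_
        refine le_of_not_gt fun hlt => hcon ⟨j, (le_max_left _ _).trans hlt.le, fun i hi =>
          ⟨(le_max_left _ _).trans (ih i hi).1, (ih i hi).2.2.2.1⟩⟩
  obtain ⟨j, hj⟩ := exists_nat_gt ((T' + 1) / μ)
  have h1 := hall j j le_rfl
  rw [div_lt_iff₀ hμ0] at hj
  linarith [h1.2.2.1, h1.2.2.2.1]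

end

end Crest.Agent.T223.Os.Osg23
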