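import Crest.Agent.T223.OsDef_21
import Crest.Agent.T223.FrA_38

/-!
# Row 223, module OSG (helper51): SPOT, the potential from time `0`
-/

set_option autoImplicit false

open Set Filter Topology Metric
open scoped ContDiff ComplexConjugate Matrix ComplexOrder

namespace Crest.Agent.T223.Os

open Crest.Agent.R275.Geo Crest.Agent.R273.Kah_333 Crest.Agent.R273.Hess_333
open Crest.Agent.R273.HessB_333
open Crest.Agent.T223.Br Crest.Agent.T223.Tr
open Crest.Agent.T223.Db (dom SmST)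

namespace Sp51

variable {n : ℕ} {M : Type} [TopologicalSpace M] {A : Atl n M}

theorem log_det_pull {J g g' : Mat n} (hg : g.PosDef) (hg' : g'.PosDef)
    (e : g = Jᵀ * g' * J.map conj) :
    Real.log g.det.re = Real.log g'.det.re + Real.log (‖J.det‖ ^ 2) := by
  have h1 := det_re_pos hg
  rw [e, det_pull] at h1 ⊢
  have h2 : ‖J.det‖ ^ 2 ≠ 0 := fun h => by rw [h, zero_mul] at h1; exact lt_irrefl _ h1
  rw [Real.log_mul h2 (det_re_pos hg').ne', add_comm]

theorem lvol_eq (K0 : Kah A) {G : MF A} {U : Set M} (hG : KahOn G U) {i j : A.ι} {x : M}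
    (hi : x ∈ (A.e i).source) (hj : x ∈ (A.e j).source) (hx : x ∈ U) :
    lvol K0 G i x = lvol K0 G j x := by
  simp only [lvol, ldet, gc, (A.e i).left_inv hi, (A.e j).left_inv hj]
  rw [log_det_pull (K0.pos i x hi) (K0.pos j x hj) (K0.tr i j x ⟨hi, hj⟩),
    log_det_pull (hG.kah i x hi hx).posDef (hG.kah j x hj hx).posDef (hG.tr i j x ⟨hi, hj⟩ hx)]
  ring

theorem lv_eq (K0 : Kah A) {G : MF A} {U : Set M} (hG : KahOn G U) {i : A.ι} {x : M}
    (hi : x ∈ (A.e i).source) (hx : x ∈ U) : lv K0 G x = lvol K0 G i x :=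
  lvol_eq K0 hG (ch_mem A x) hi hx

theorem lv_read (K0 : Kah A) {G : MF A} {U : Set M} (hG : KahOn G U) {i : A.ι} {z : Cn n}
    (hz : z ∈ dom A i U) : lv K0 G ((A.e i).symm z) = ldet (gc K0 i) z - ldet (G i) z := by
  rw [lv_eq K0 hG ((A.e i).map_target hz.1) hz.2, lvol, (A.e i).right_inv hz.1]

theorem cd_ldet0 (K0 : Kah A) {i : A.ι} {z : Cn n} (hz : z ∈ (A.e i).target) :
    ContDiffAt ℝ ∞ (ldet (gc K0 i)) z :=
  cd_ldet (fun a b => (K0.sm i a b).contDiffAt ((A.e i).open_target.mem_nhds hz))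
    (K0.pos i _ ((A.e i).map_target hz))

theorem cd_ldetG {G : MF A} {U : Set M} (hG : KahOn G U) {i : A.ι} {z : Cn n}
    (hz : z ∈ dom A i U) : ContDiffAt ℝ ∞ (ldet (G i)) z := by
  have := (hG.kah i _ ((A.e i).map_target hz.1) hz.2).cd_ldet
  rwa [(A.e i).right_inv hz.1] at this

end Sp51

open Sp51

/-- leaf SPOT -/
theorem spotStmt (n : ℕ) : SpotStmt n := by
  intro M _ A K0 a b U g φ v0 hab hU hg hφ hv0 he
  have hK := hg.kah a ⟨le_rfl, hab.le⟩
  have ho : ∀ i, IsOpen (dom A i U) := fun i => (A.e i).isOpen_inter_preimage_symm hU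
  refine ⟨fun s x => v0 x + φ s x - (s - a) * lv K0 (g a) x, ⟨fun i => ?_, ?_, ?_⟩, ?_⟩
  · have h1 : ContDiffOn ℝ ∞ (fun z => ldet (gc K0 i) z - ldet (g a i) z) (dom A i U) :=
      fun z hz => ((cd_ldet0 K0 hz.1).sub (cd_ldetG hK hz)).contDiffWithinAt
    have h2 : MapsTo (Prod.snd : ℝ × Cn n → Cn n) (Icc a b ×ˢ dom A i U) (dom A i U) :=
      fun q hq => hq.2
    refine ((((hv0 i).comp contDiffOn_snd h2).add (hφ.sm i)).sub
      ((contDiffOn_fst.sub (contDiffOn_const (c := a))).mul (h1.comp contDiffOn_snd h2))).congr fun q hq => ?_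
    simp only [Function.comp, inC, lv_read K0 hK hq.2]
  · intro s hs i x hx hxU
    have hz : A.e i x ∈ dom A i U := ⟨(A.e i).map_source hx, by rwa [(A.e i).left_inv hx]⟩
    have hn := (ho i).mem_nhds hz
    have c1 : ContDiffAt ℝ ∞ (inC A i v0) (A.e i x) := (hv0 i).contDiffAt hn
    have c2 : ContDiffAt ℝ ∞ (inC A i (φ s)) (A.e i x) :=
      ((hφ.sm i).comp (contDiffOn_const.prodMk contDiffOn_id) fun z hz => ⟨hs, hz⟩).contDiffAt hn
    have c3 := cd_ldet0 K0 hz.1
    have c4 := cd_ldetG hK hz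
    have e1 : inC A i (fun x => v0 x + φ s x - (s - a) * lv K0 (g a) x) =ᶠ[𝓝 (A.e i x)]
        fun z => inC A i v0 z + inC A i (φ s) z - (s - a) * (ldet (gc K0 i) z - ldet (g a i) z) := by
      filter_upwards [hn] with z hz
      simp only [inC, lv_read K0 hK hz]
    rw [hφ.pot s hs i x hx hxU]
    nth_rw 1 [he i x hx hxU]
    simp only [gφ, ric]
    rw [hess_congr e1, hess_sub (c1.add c2) (contDiffAt_const.mul (c3.sub c4)), hess_add c1 c2,
      hess_const_mul _ (c3.sub c4), hess_sub c3 c4]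
    push_cast
    module
  · intro s hs x hx
    have h1 := hφ.dt s hs _ x (ch_mem A x) hx
    have h2 := (h1.const_add (v0 x)).sub
      (((hasDerivAt_id s).sub_const a).mul_const (lv K0 (g a) x))
    refine h2.congr_deriv ?_
    simp only [lv, lvol]
    ring
  · intro x hx
    simp [hφ.zero x hx]

end Crest.Agent.T223.Os
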