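import Crest.Agent.T223.OsAsm_21
import Crest.Agent.T223.LoE_18
import Crest.Agent.T223.LoF_18
import Crest.Agent.T223.OsApx_89
import Crest.Agent.T223.OsGlue_93
import Crest.Agent.T223.OsInitL_7
import Crest.Agent.T223.OsLc_24
import Crest.Agent.T223.OsLd_92
import Crest.Agent.T223.OsLg_41
import Crest.Agent.T223.OsLp_84
import Crest.Agent.T223.OsOsg_23
import Crest.Agent.T223.OsSpot_51

/-!
# Row 223, module OSG (helper21): the leaves proved so far are plugged in
-/

set_option autoImplicit false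

namespace Crest.Agent.T223.Os

theorem osgStmt1 {n : ℕ} (hn : 1 ≤ n) (ha : LaStmt n) (hb : LbStmt n) (hl : LlStmt n)
    (hStep : StepStmt n) (hRen : RenewStmt n) (hIG : InitGStmt n) : OsgStmt n :=
  osgStmt hn ha hb (lcStmt n) (ldStmt n) (Lo.leStmt hn) (Lo.lfStmt n) hl (lgStmt hn) (lpStmt n)
    hStep (spotStmt n) hRen hIG (initLStmt n) (glueStmt n) Osg23.osgoodStmt (apxStmt n)

end Crest.Agent.T223.Os
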