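import Crest.Agent.T223.OsLaDef_10
import Crest.Agent.T223.OsKitA_61
import Crest.Agent.T223.Bx_45
import Crest.Agent.T223.Tch_45

/-!
# Row 223, leaf (a) of OSG (helper10): the Harnack cone on one step, from `LyhPtStmt`
-/

set_option autoImplicit false
set_option linter.unusedVariables false
set_option linter.unusedSectionVars false

open Set Filter Topology Metric
open scoped ContDiff ComplexConjugate Matrix ComplexOrder

namespace Crest.Agent.T223.Os.La10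

open Crest.Agent.R275.Geo Crest.Agent.R273.Kah_333 Crest.Agent.R273.Hess_333
open Crest.Agent.R275.EDR890
open Crest.Agent.T223.Br Crest.Agent.T223.Tr
open Crest.Agent.T223.Db (dom SmST)

noncomputable section

variable {n : ℕ}

/-! ### smoothness on `I × O` (any set of times, `O` open) -/

section cd

variable {I : Set ℝ} {O : Set (Cn n)}

/-- entries jointly smooth on `I × O` -/
def CM (I : Set ℝ) (O : Set (Cn n)) (H : ℝ → Cn n → Mat n) : Prop :=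
  ∀ a b, ContDiffOn ℝ ∞ (fun q : ℝ × Cn n => H q.1 q.2 a b) (I ×ˢ O)

theorem cdOn_wd (hO : IsOpen O) {F : ℝ → Cn n → ℂ}
    (h : ContDiffOn ℝ ∞ (fun q : ℝ × Cn n => F q.1 q.2) (I ×ˢ O)) (s : WI n) :
    ContDiffOn ℝ ∞ (fun q : ℝ × Cn n => wd s (F q.1) q.2) (I ×ˢ O) := by
  intro x hx
  have h1 : ContDiffWithinAt ℝ ∞ (Function.uncurry fun (q : ℝ × Cn n) (w : Cn n) => F q.1 w)
      ((I ×ˢ O) ×ˢ O) (x, x.2) :=
    ContDiffWithinAt.comp (x, x.2) (g := fun q : ℝ × Cn n => F q.1 q.2)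
      (f := fun p : (ℝ × Cn n) × Cn n => (p.1.1, p.2)) (h x hx)
      (((contDiff_fst.comp contDiff_fst).prodMk contDiff_snd).contDiffWithinAt)
      (fun p hp => ⟨hp.1.1, hp.2⟩)
  have h2 := ContDiffWithinAt.fderivWithin (m := ∞) (g := fun q : ℝ × Cn n => q.2) h1
    contDiffWithinAt_snd hO.uniqueDiffOn (by simp) hx (fun q hq => hq.2)
  have h3 := (wdLc (W := ℂ) s).contDiff.comp_contDiffWithinAt h2
  have e : ∀ q ∈ I ×ˢ O, wd s (F q.1) q.2 = (wdLc (W := ℂ) s ∘ fun q : ℝ × Cn n =>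
      fderivWithin ℝ (fun w => F q.1 w) O q.2) q := fun q hq => by
    simp only [Function.comp, fderivWithin_of_isOpen hO hq.2]
    rfl
  exact h3.congr e (e x hx)

theorem CM.mul {G H : ℝ → Cn n → Mat n} (hG : CM I O G) (hH : CM I O H) :
    CM I O fun s z => G s z * H s z := fun a b => by
  simp only [Matrix.mul_apply]
  exact ContDiffOn.sum fun c _ => (hG a c).mul (hH c b)

theorem CM.det {G : ℝ → Cn n → Mat n} (hG : CM I O G) :
    ContDiffOn ℝ ∞ (fun q : ℝ × Cn n => (G q.1 q.2).det) (I ×ˢ O) := by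
  simp only [Matrix.det_apply']
  exact ContDiffOn.sum fun σ _ => contDiffOn_const.mul (contDiffOn_prod fun i _ => hG _ _)

theorem CM.inv {G : ℝ → Cn n → Mat n} (hG : CM I O G)
    (h0 : ∀ q ∈ I ×ˢ O, (G q.1 q.2).det ≠ 0) : CM I O fun s z => (G s z)⁻¹ := fun a b => by
  simp only [Matrix.inv_def, Matrix.smul_apply, smul_eq_mul, Ring.inverse_eq_inv',
    Matrix.adjugate_apply]
  refine (hG.det.inv h0).mul
    (CM.det (G := fun s z => (G s z).updateRow b (Pi.single a 1)) fun c d => ?_)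
  simp only [Matrix.updateRow_apply]
  split_ifs
  · exact contDiffOn_const
  · exact hG c d

theorem CM.wdM (hO : IsOpen O) {G : ℝ → Cn n → Mat n} (hG : CM I O G) (s : WI n) :
    CM I O fun t z => wdM s (G t) z := fun a b =>
  cdOn_wd hO (F := fun t w => G t w a b) (hG a b) s

theorem cm_hess (hO : IsOpen O) {φ : ℝ → Cn n → ℝ}
    (h : ContDiffOn ℝ ∞ (fun q : ℝ × Cn n => φ q.1 q.2) (I ×ˢ O)) :
    CM I O fun t z => hess (φ t) z := fun a b =>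
  cdOn_wd hO (F := fun t => wd (true, b) (cu (φ t)))
    (cdOn_wd hO (F := fun t => cu (φ t)) (Complex.ofRealCLM.contDiff.comp_contDiffOn h) _) _

variable (hO : IsOpen O) {g : ℝ → Cn n → Mat n} (hg : CM I O g)
  (hp : ∀ q ∈ I ×ˢ O, (g q.1 q.2).PosDef)

include hO hg hp

theorem cm_inv : CM I O fun s z => (g s z)⁻¹ := hg.inv fun q hq => (hp q hq).det_pos.ne'

theorem cm_ric : CM I O fun s z => ric (g s) z := fun a b => by
  have h1 : ContDiffOn ℝ ∞ (fun q : ℝ × Cn n => ldet (g q.1) q.2) (I ×ˢ O) :=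
    (Complex.reCLM.contDiff.comp_contDiffOn hg.det).log fun q hq => (det_re_pos (hp q hq)).ne'
  exact (cm_hess hO (φ := fun t => ldet (g t)) h1 a b).neg

theorem cdOn_scal : ContDiffOn ℝ ∞ (fun q : ℝ × Cn n => scal (g q.1) q.2) (I ×ˢ O) := by
  have h := (cm_inv hO hg hp).mul (cm_ric hO hg hp)
  unfold scal trg
  refine Complex.reCLM.contDiff.comp_contDiffOn ?_
  simp only [Matrix.trace, Matrix.diag_apply]
  exact ContDiffOn.sum fun a _ => h a a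

theorem cm_nabRic (k : Fin n) : CM I O fun s z => nabRic (g s) z k := fun a b =>
  (((cm_ric hO hg hp).wdM hO (false, k)) a b).sub
    ((((hg.wdM hO (false, k)).mul (cm_inv hO hg hp)).mul (cm_ric hO hg hp)) a b)

theorem cm_Rm (c d : Fin n) : CM I O fun s z => Rm (g s) z c d := fun a b =>
  (((hg.wdM hO (true, d)).wdM hO (false, c)) a b).neg.add
    ((((hg.wdM hO (false, c)).mul (cm_inv hO hg hp)).mul (hg.wdM hO (true, d))) a b)

end cd

/-! ### continuity of the forms -/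

section co

variable {Y : Type*} [TopologicalSpace Y] {D : Set Y}

theorem co_coord {v : Y → Cn n} (hv : ContinuousOn v D) (a : Fin n) :
    ContinuousOn (fun y => v y a) D :=
  (EuclideanSpace.proj a : Cn n →L[ℂ] ℂ).continuous.comp_continuousOn hv

theorem co_hC {H : Y → Mat n} {v : Y → Cn n} (hH : ∀ a b, ContinuousOn (fun y => H y a b) D)
    (hv : ContinuousOn v D) : ContinuousOn (fun y => hC (H y) (v y)) D := by
  unfold hC
  exact continuousOn_finsetSum _ fun a _ => continuousOn_finsetSum _ fun b _ =>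
    ((hH a b).mul (co_coord hv a)).mul (Complex.continuous_conj.comp_continuousOn (co_coord hv b))

theorem co_nq {H : Y → Mat n} {v : Y → Cn n} (hH : ∀ a b, ContinuousOn (fun y => H y a b) D)
    (hv : ContinuousOn v D) : ContinuousOn (fun y => nq (H y) (v y)) D :=
  Complex.continuous_re.comp_continuousOn (co_hC hH hv)

theorem CM.co {I : Set ℝ} {O : Set (Cn n)} {H : ℝ → Cn n → Mat n} (h : CM I O H)
    {π : Y → ℝ × Cn n} (hπ : ContinuousOn π D) (hm : MapsTo π D (I ×ˢ O)) (a b : Fin n) :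
    ContinuousOn (fun y => H (π y).1 (π y).2 a b) D := (h a b).continuousOn.comp hπ hm

theorem co_lyhS {I : Set ℝ} {O : Set (Cn n)} (hO : IsOpen O) {g : ℝ → Cn n → Mat n}
    (hg : CM I O g) (hp : ∀ q ∈ I ×ˢ O, (g q.1 q.2).PosDef) {π : Y → ℝ × Cn n}
    (hπ : ContinuousOn π D) (hm : MapsTo π D (I ×ˢ O)) {τ : Y → ℝ} (hτ : ContinuousOn τ D)
    (hτ0 : ∀ y ∈ D, τ y ≠ 0) {c : Y → ℂ} {a v : Y → Cn n} (hc : ContinuousOn c D)
    (ha : ContinuousOn a D) (hv : ContinuousOn v D) :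
    ContinuousOn (fun y => lyhS (g (π y).1) (τ y) (π y).2 (c y) (a y) (v y)) D := by
  have hR := cm_ric hO hg hp
  simp only [lyhS, bis_eq]
  refine (((hc.norm.pow 2).mul (co_nq (fun k l => ?_) hv)).add
    (continuousOn_const.mul (Complex.continuous_re.comp_continuousOn ?_))).add
    (Complex.continuous_re.comp_continuousOn ?_)
  · simp only [Matrix.add_apply, Matrix.smul_apply, smul_eq_mul]
    exact (((cm_hess hO (φ := fun t => scal (g t)) (cdOn_scal hO hg hp)).co hπ hm k l).add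
      (((hR.mul (cm_inv hO hg hp)).mul hR).co hπ hm k l)).add
      ((Complex.continuous_ofReal.comp_continuousOn (hτ.inv₀ hτ0)).mul (hR.co hπ hm k l))
  · exact (Complex.continuous_conj.comp_continuousOn hc).mul
      (continuousOn_finsetSum _ fun k _ => (co_coord ha k).mul
        (co_hC ((cm_nabRic hO hg hp k).co hπ hm) hv))
  · exact continuousOn_finsetSum _ fun k _ => continuousOn_finsetSum _ fun l _ =>
      ((co_hC ((cm_Rm hO hg hp k l).co hπ hm) hv).mul (co_coord ha k)).mul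
        (Complex.continuous_conj.comp_continuousOn (co_coord ha l))

end co

/-! ### homogeneity -/

theorem hC_rsmul (H : Mat n) (m : ℝ) (v : Cn n) : hC H (m • v) = ((m ^ 2 : ℝ) : ℂ) * hC H v := by
  unfold hC
  simp only [PiLp.smul_apply, Complex.real_smul, map_mul, Complex.conj_ofReal, Finset.mul_sum]
  refine Finset.sum_congr rfl fun a _ => Finset.sum_congr rfl fun b _ => ?_
  push_cast
  ring

theorem nq_rsmul (H : Mat n) (m : ℝ) (v : Cn n) : nq H (m • v) = m ^ 2 * nq H v := by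
  rw [nq_eq_re, hC_rsmul, Complex.re_ofReal_mul, nq_eq_re]

theorem lyhS_rsmul (g : Cn n → Mat n) (τ : ℝ) (z : Cn n) (l m : ℝ) (c : ℂ) (a v : Cn n) :
    lyhS g τ z (l • c) (l • a) (m • v) = l ^ 2 * m ^ 2 * lyhS g τ z c a v := by
  have h1 : conj (l • c) * ∑ k, (l • a) k * hC (nabRic g z k) (m • v) =
      ((l ^ 2 * m ^ 2 : ℝ) : ℂ) * (conj c * ∑ k, a k * hC (nabRic g z k) v) := by
    simp only [hC_rsmul, PiLp.smul_apply, Complex.real_smul, map_mul, Complex.conj_ofReal,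
      Finset.mul_sum]
    refine Finset.sum_congr rfl fun k _ => ?_
    push_cast
    ring
  have h2 : ∑ k, ∑ d, hC (Rm g z k d) (m • v) * (l • a) k * conj ((l • a) d) =
      ((l ^ 2 * m ^ 2 : ℝ) : ℂ) * ∑ k, ∑ d, hC (Rm g z k d) v * a k * conj (a d) := by
    simp only [hC_rsmul, PiLp.smul_apply, Complex.real_smul, map_mul, Complex.conj_ofReal,
      Finset.mul_sum]
    refine Finset.sum_congr rfl fun k _ => Finset.sum_congr rfl fun d _ => ?_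
    push_cast
    ring
  rw [lyhS, lyhS, bis_eq, bis_eq, h1, h2, Complex.re_ofReal_mul, Complex.re_ofReal_mul, nq_rsmul,
    norm_smul, mul_pow, Real.norm_eq_abs, sq_abs]
  ring

/-- the unit vectors -/
def SW (n : ℕ) : Set ((ℂ × Cn n) × Cn n) := sphere 0 1 ×ˢ sphere 0 1

theorem isCompact_SW : IsCompact (SW n) := (isCompact_sphere _ _).prod (isCompact_sphere _ _)

/-- the norm `(|a|² + κ |c|²) |v|²` -/
def NN (G : Mat n) (κ : ℝ) (w : (ℂ × Cn n) × Cn n) : ℝ :=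
  (nq G w.1.2 + κ * ‖w.1.1‖ ^ 2) * nq G w.2

theorem SW_ne {w : (ℂ × Cn n) × Cn n} (hw : w ∈ SW n) : w.2 ≠ 0 ∧ (w.1.2 ≠ 0 ∨ w.1.1 ≠ 0) := by
  refine ⟨ne_zero_of_mem_unit_sphere ⟨_, hw.2⟩, ?_⟩
  by_contra hc
  push Not at hc
  exact ne_zero_of_mem_unit_sphere ⟨_, hw.1⟩ (Prod.ext hc.2 hc.1)

theorem NN_nonneg {G : Mat n} (hG : G.PosDef) {κ : ℝ} (hκ : 0 ≤ κ) (w : (ℂ × Cn n) × Cn n) :
    0 ≤ NN G κ w := by
  have h1 := Tr.nq_nonneg hG.posSemidef w.1.2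
  have h2 := Tr.nq_nonneg hG.posSemidef w.2
  unfold NN
  positivity

theorem NN_pos {G : Mat n} (hG : G.PosDef) {κ : ℝ} (hκ : 0 < κ) {w : (ℂ × Cn n) × Cn n}
    (hw : w ∈ SW n) : 0 < NN G κ w := by
  obtain ⟨h1, h2⟩ := SW_ne hw
  refine mul_pos ?_ (Ev.nq_pos hG h1)
  have h3 := Tr.nq_nonneg hG.posSemidef w.1.2
  rcases h2 with h2 | h2
  · have := Ev.nq_pos hG h2
    positivity
  · have := norm_pos_iff.2 h2
    positivity

theorem exists_unit {E : Type*} [NormedAddCommGroup E] [NormedSpace ℝ E] (y : E) :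
    ∃ (l : ℝ) (y' : E), y = l • y' ∧ (l = 0 ∨ y' ∈ sphere (0 : E) 1) := by
  by_cases h : y = 0
  · exact ⟨0, 0, by simp [h], Or.inl rfl⟩
  · have h1 := norm_ne_zero_iff.2 h
    refine ⟨‖y‖, ‖y‖⁻¹ • y, by rw [smul_smul, mul_inv_cancel₀ h1, one_smul], Or.inr ?_⟩
    rw [mem_sphere_zero_iff_norm, norm_smul, norm_inv, norm_norm, inv_mul_cancel₀ h1]

theorem lyhGeC_of_SW {g : Cn n → Mat n} {τ κ θ : ℝ} {z : Cn n}
    (h : ∀ w ∈ SW n, 0 ≤ lyhS g τ z w.1.1 w.1.2 w.2 + θ * NN (g z) κ w) : LyhGeC g τ κ θ z := by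
  intro c a v
  obtain ⟨l, y, hy, hl⟩ := exists_unit ((c, a) : ℂ × Cn n)
  obtain ⟨m, v, rfl, hm⟩ := exists_unit v
  obtain rfl : c = l • y.1 := congrArg Prod.fst hy
  obtain rfl : a = l • y.2 := congrArg Prod.snd hy
  have key : 0 ≤ l ^ 2 * m ^ 2 * (lyhS g τ z y.1 y.2 v + θ * NN (g z) κ (y, v)) := by
    rcases hl with rfl | hl
    · simp
    rcases hm with rfl | hm
    · simp
    exact mul_nonneg (by positivity) (h (y, v) ⟨hl, hm⟩)
  rw [lyhS_rsmul, nq_rsmul, nq_rsmul, norm_smul, mul_pow, Real.norm_eq_abs, sq_abs]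
  unfold NN at key
  simp only at key
  linarith

theorem LyhGeC.sw {g : Cn n → Mat n} {τ κ θ : ℝ} {z : Cn n} (h : LyhGeC g τ κ θ z)
    (w : (ℂ × Cn n) × Cn n) : 0 ≤ lyhS g τ z w.1.1 w.1.2 w.2 + θ * NN (g z) κ w := by
  have := h w.1.1 w.1.2 w.2
  unfold NN
  linarith

theorem nonneg_of_gt {F N Λ : ℝ} (h : ∀ Λ', Λ < Λ' → 0 ≤ F + Λ' * N) : 0 ≤ F + Λ * N := by
  have hc : Continuous fun L : ℝ => F + L * N := by fun_prop
  have h1 : Tendsto (fun L : ℝ => F + L * N) (𝓝[>] Λ) (𝓝 (F + Λ * N)) :=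
    (hc.tendsto Λ).mono_left nhdsWithin_le_nhds
  exact ge_of_tendsto h1 (by filter_upwards [self_mem_nhdsWithin] with L hL using h L hL)

/-! ### one step -/

variable {M : Type} [TopologicalSpace M] {A : Atl n M}

theorem lyhGe_mono {G : MF A} {U : Set M} {x : M} (hG : KahOn G U) (hx : x ∈ U) {τ κ θ θ' : ℝ}
    (h : LyhGe G τ κ θ x) (hκ : 0 ≤ κ) (hθ : θ ≤ θ') : LyhGe G τ κ θ' x := fun i hi c a v => by
  refine le_trans (neg_le_neg ?_) (h i hi c a v)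
  have h1 := nq_nonneg_of hG hx hi a
  have h2 := nq_nonneg_of hG hx hi v
  gcongr

variable [T2Space M] [ConnectedSpace M] {K0 : Kah A} {p : M} {P : Par} {I : Init K0 p} {a : ℝ}

/-- the strict inequality with the barrier `Λ q E` -/
def Pr (S : Stp P I a) (Λ : ℝ) (y : ℝ × M) : Prop :=
  ∃ Λ', Λ' < Λ ∧ LyhGe (S.g y.1) (P.τ y.1) S.q (Λ' * S.q * S.E y.1 y.2) y.2

variable {S : Stp P I a} (h : P.Ok)

include h

theorem ge_of_Pr {Λ : ℝ} {y : ℝ × M} (h1 : y.1 ∈ Icc S.t S.b) (h2 : y.2 ∈ S.U)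
    (H : ∀ Λ', Λ < Λ' → Pr S Λ' y) :
    LyhGe (S.g y.1) (P.τ y.1) S.q (Λ * S.q * S.E y.1 y.2) y.2 := by
  intro i hi c b v
  have hq := S.q_pos h
  have hE := Stp.E_pos (S := S) y.1 y.2
  have key := nonneg_of_gt (F := lyhS (S.g y.1 i) (P.τ y.1) (A.e i y.2) c b v)
    (N := S.q * S.E y.1 y.2 * NN (S.g y.1 i (A.e i y.2)) S.q ((c, b), v)) (Λ := Λ) fun Λ' hΛ' => by
      obtain ⟨L, hL, hge⟩ := H Λ' hΛ'
      have h3 := lyhGe_mono (S.flow.kah _ h1) h2 hge hq.le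
        (θ' := Λ' * S.q * S.E y.1 y.2) (by gcongr) i hi c b v
      unfold NN
      simp only
      linarith
  unfold NN at key
  simp only at key
  linarith

theorem crude_ge {s : ℝ} (hs : s ∈ Icc S.t S.t') {x : M} (hx : x ∈ S.Kc) :
    LyhAbs (S.g s) (P.τ s) S.q (P.K * S.q) x := by
  have h1 := (Stp.crudeK h hs hx).lyh (P.τ s) (Stp.r_sq_le_τ h hs)
  rwa [S.div_r h P.K] at h1

theorem ge_of_one_le {s : ℝ} (hs : s ∈ Icc S.t S.t') {x : M} (hx : x ∈ S.Kc)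
    (hE : 1 ≤ S.E s x) : LyhGe (S.g s) (P.τ s) S.q (P.K * S.q * S.E s x) x :=
  lyhGe_mono (S.flow.kah _ (Stp.mem_Icc h hs)) hx.1 (crude_ge h hs hx).ge (S.q_pos h).le
    (le_mul_of_one_le_right (mul_pos h.K0 (S.q_pos h)).le hE)

theorem pos_dom (i : A.ι) : ∀ q ∈ Icc S.t S.b ×ˢ dom A i S.U, (S.g q.1 i q.2).PosDef :=
  fun q hq => (kahAt_dom (S.flow.kah _ hq.1) hq.2).posDef

/-- continuity of the form and of the norm on the cylinder, in the chart `i` -/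
theorem co_cyl (i : A.ι) :
    ContinuousOn (fun y : (ℝ × M) × (ℂ × Cn n) × Cn n =>
        lyhS (S.g y.1.1 i) (P.τ y.1.1) (A.e i y.1.2) y.2.1.1 y.2.1.2 y.2.2)
      (((Icc S.t S.t' ×ˢ S.Kc) ∩ {y | y.2 ∈ (A.e i).source}) ×ˢ SW n) ∧
    ContinuousOn (fun y : (ℝ × M) × (ℂ × Cn n) × Cn n =>
        S.q * S.E y.1.1 y.1.2 * NN (S.g y.1.1 i (A.e i y.1.2)) S.q y.2)
      (((Icc S.t S.t' ×ˢ S.Kc) ∩ {y | y.2 ∈ (A.e i).source}) ×ˢ SW n) := by
  have hπ : ContinuousOn (fun y : (ℝ × M) × (ℂ × Cn n) × Cn n => ((y.1.1, A.e i y.1.2) : ℝ × Cn n))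
      (((Icc S.t S.t' ×ˢ S.Kc) ∩ {y | y.2 ∈ (A.e i).source}) ×ˢ SW n) :=
    (continuous_fst.comp continuous_fst).continuousOn.prodMk
      ((A.e i).continuousOn.comp (continuous_snd.comp continuous_fst).continuousOn
        fun y hy => hy.1.2)
  have hm : MapsTo (fun y : (ℝ × M) × (ℂ × Cn n) × Cn n => ((y.1.1, A.e i y.1.2) : ℝ × Cn n))
      (((Icc S.t S.t' ×ˢ S.Kc) ∩ {y | y.2 ∈ (A.e i).source}) ×ˢ SW n)
      (Icc S.t S.b ×ˢ dom A i S.U) :=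
    fun y hy => ⟨Stp.mem_Icc h hy.1.1.1, mem_dom hy.1.2 hy.1.1.2.1⟩
  have hg : CM (Icc S.t S.b) (dom A i S.U) fun s => S.g s i := S.flow.sm i
  constructor
  · refine co_lyhS (isOpen_dom i S.op) hg (pos_dom h i) hπ hm (τ := fun y => P.τ y.1.1) ?_
      (fun y hy => (h.τ_pos (Stp.nonneg h hy.1.1.1)).ne') (by fun_prop) (by fun_prop)
      (by fun_prop)
    unfold Par.τ
    fun_prop
  · refine (continuousOn_const.mul ((Stp.cont_E h).comp continuousOn_fst fun y hy => hy.1.1)).mul ?_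
    unfold NN
    exact ((co_nq (hg.co hπ hm) (by fun_prop)).add (by fun_prop)).mul
      (co_nq (hg.co hπ hm) (by fun_prop))

theorem Pr_open {Λ : ℝ} {y : ℝ × M} (hy : y ∈ Icc S.t S.t' ×ˢ S.Kc) (H : Pr S Λ y) :
    ∀ᶠ y' in 𝓝[Icc S.t S.t' ×ˢ S.Kc] y, Pr S Λ y' := by
  obtain ⟨L, hL, hge⟩ := H
  obtain ⟨i, hi⟩ := A.cover y.2
  have hq := S.q_pos h
  obtain ⟨c1, c2⟩ := co_cyl (S := S) h i
  have c3 := c1.add ((continuousOn_const (c := (L + Λ) / 2)).mul c2)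
  have h0 : ∀ w ∈ SW n, 0 < lyhS (S.g y.1 i) (P.τ y.1) (A.e i y.2) w.1.1 w.1.2 w.2 +
      (L + Λ) / 2 * (S.q * S.E y.1 y.2 * NN (S.g y.1 i (A.e i y.2)) S.q w) := fun w hw => by
    have h2 := LyhGeC.sw (hge i hi) w
    have h3 := NN_pos (pos_dom h i (y.1, A.e i y.2)
      ⟨Stp.mem_Icc h hy.1, mem_dom hi hy.2.1⟩) hq hw
    have h4 := Stp.E_pos (S := S) y.1 y.2
    have h5 : 0 < (Λ - L) / 2 * (S.q * S.E y.1 y.2 * NN (S.g y.1 i (A.e i y.2)) S.q w) :=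
      mul_pos (by linarith) (mul_pos (mul_pos hq h4) h3)
    linarith
  have h1 : ∀ᶠ y' in 𝓝[(Icc S.t S.t' ×ˢ S.Kc) ∩ {y | y.2 ∈ (A.e i).source}] y, ∀ w ∈ SW n,
      0 < lyhS (S.g y'.1 i) (P.τ y'.1) (A.e i y'.2) w.1.1 w.1.2 w.2 +
        (L + Λ) / 2 * (S.q * S.E y'.1 y'.2 * NN (S.g y'.1 i (A.e i y'.2)) S.q w) :=
    Tch.eventually_forall_pos isCompact_SW (fun w hw => c3 (y, w) ⟨⟨hy, hi⟩, hw⟩) h0
  have hs : {y : ℝ × M | y.2 ∈ (A.e i).source} ∈ 𝓝 y :=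
    continuousAt_snd.preimage_mem_nhds ((A.e i).open_source.mem_nhds hi)
  rw [nhdsWithin_inter_of_mem' (mem_nhdsWithin_of_mem_nhds hs)] at h1
  filter_upwards [h1, mem_nhdsWithin_of_mem_nhds hs, self_mem_nhdsWithin] with y' h2 h3 h4
  refine ⟨(L + Λ) / 2, by linarith, ?_⟩
  rw [lyhGe_iff (S.flow.kah _ (Stp.mem_Icc h h4.1)) S.op h4.2.1 h3]
  refine lyhGeC_of_SW fun w hw => ?_
  have := h2 w hw
  linarith

/-- at a touching point there is a null vector -/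
theorem exists_null {Λ : ℝ} {y : ℝ × M} (hy : y ∈ Icc S.t S.t' ×ˢ S.Kc) (H : ¬ Pr S Λ y)
    {i : A.ι} (hi : y.2 ∈ (A.e i).source) : ∃ w ∈ SW n,
      lyhS (S.g y.1 i) (P.τ y.1) (A.e i y.2) w.1.1 w.1.2 w.2 +
        Λ * (S.q * S.E y.1 y.2 * NN (S.g y.1 i (A.e i y.2)) S.q w) ≤ 0 := by
  by_contra hc
  push Not at hc
  obtain ⟨c1, c2⟩ := co_cyl (S := S) h i
  have hm : MapsTo (fun w : (ℂ × Cn n) × Cn n => (y, w)) (SW n)
      (((Icc S.t S.t' ×ˢ S.Kc) ∩ {y | y.2 ∈ (A.e i).source}) ×ˢ SW n) :=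
    fun w hw => ⟨⟨hy, hi⟩, hw⟩
  obtain ⟨L, hL, h1⟩ := Tch.exists_lt_forall_pos isCompact_SW
    (c1.comp (Continuous.prodMk_right y).continuousOn hm)
    (c2.comp (Continuous.prodMk_right y).continuousOn hm) hc
  refine H ⟨L, hL, ?_⟩
  rw [lyhGe_iff (S.flow.kah _ (Stp.mem_Icc h hy.1)) S.op hy.2.1 hi]
  refine lyhGeC_of_SW fun w hw => ?_
  have := h1 w hw
  simp only [Function.comp] at this
  linarith

/-- the contact is impossible -/
theorem no_touch {C : ℝ} (hV : P.K + C < P.V)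
    (hC : ∀ (g : ℝ → Cn n → Mat n) (φ : ℝ → Cn n → ℝ) (t T0 q : ℝ) (z : Cn n),
      KRFat g t z → ContDiffAt ℝ ∞ (fun p : ℝ × Cn n => φ p.1 p.2) (t, z) →
      0 < q → 1 ≤ (t - T0) * q → 0 < φ t z → φ t z ≤ P.K * q →
      gsq (g t) (φ t) z ≤ P.K * q * φ t z ^ 2 →
      BKge (g t) z (P.K * q) → BKle (g t) z (P.K * q) →
      (∀ (c : ℂ) (a v : Cn n), |lyhS (g t) (t - T0) z c a v| ≤
        P.K * q * (nq (g t z) a + q * ‖c‖ ^ 2) * nq (g t z) v) →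
      (∀ᶠ p in past t z, ∀ (c : ℂ) (a v : Cn n), 0 ≤ lyhS (g p.1) (p.1 - T0) p.2 c a v +
        φ p.1 p.2 * (nq (g p.1 p.2) a + q * ‖c‖ ^ 2) * nq (g p.1 p.2) v) →
      ∀ (c : ℂ) (a v : Cn n), v ≠ 0 → (a ≠ 0 ∨ c ≠ 0) →
        lyhS (g t) (t - T0) z c a v + φ t z * (nq (g t z) a + q * ‖c‖ ^ 2) * nq (g t z) v = 0 →
        box g φ t z ≤ C * q * φ t z)
    {Λ : ℝ} (hΛ : P.K < Λ) {y : ℝ × M} (hy : y ∈ Icc S.t S.t' ×ˢ S.Kc) (ht : S.t < y.1)
    (H : ¬ Pr S Λ y) (hev : ∀ᶠ y' in 𝓝[{q | q.1 ≤ y.1}] y, ∀ Λ', Λ < Λ' → Pr S Λ' y') : False := by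
  obtain ⟨s, x⟩ := y
  have hi := ch_mem A x
  set i := ch A x
  have hq := S.q_pos h
  have hr := S.r_pos h
  have hK := h.K0
  have hΛ0 : 0 < Λ := hK.trans hΛ
  have hs : s ∈ Icc S.t S.t' := hy.1
  have hx : x ∈ S.Kc := hy.2
  have hsI := Stp.mem_Icc h hs
  have hsO := Stp.mem_Ioo h hs ht
  have hτ : ∀ s, s - -P.tA = P.τ s := fun s => by unfold Par.τ; ring
  have hE := Stp.E_pos (S := S) s x
  have hcr := Stp.crudeK h hs hx
  have hab := crude_ge h hs hx i hi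
  -- the barrier in the chart
  set ρc : ℝ → Cn n → ℝ := fun s => inC A i (S.ρ s) with hρc
  set φ : ℝ → Cn n → ℝ := fun s w => Λ * S.q * Bx.Eb S.σ P.V S.t S.r ρc s w with hφ
  have hφE : ∀ s w, φ s w = Λ * S.q * S.E s ((A.e i).symm w) := fun s w => rfl
  have hφ0 : φ s (A.e i x) = Λ * S.q * S.E s x := by rw [hφE, (A.e i).left_inv hi]
  have hnb : Icc S.t S.b ×ˢ dom A i S.U ∈ 𝓝 ((s, A.e i x) : ℝ × Cn n) :=
    prod_mem_nhds (Icc_mem_nhds hsO.1 hsO.2) (dom_nhds S.op hi hx.1)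
  have hρ : ContDiffAt ℝ ∞ (fun q : ℝ × Cn n => ρc q.1 q.2) (s, A.e i x) :=
    (S.hρ.sm i).contDiffAt hnb
  have hRg := Bx.Rg.of_joint hρ
  have hgρ : gsq (S.g s i) (ρc s) (A.e i x) ≤ P.K := hcr.gρ
  -- the null vector
  obtain ⟨w, hw, hw0⟩ := exists_null h hy H hi
  have hge := ge_of_Pr h hsI hx.1 (hev.self_of_nhdsWithin (show ((s, x) : ℝ × M).1 ≤ s from le_rfl))
  have hN := NN_pos (pos_dom h i (s, A.e i x) ⟨hsI, mem_dom hi hx.1⟩) hq hw
  have hw1 := LyhGeC.sw (hge i hi) w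
  simp only at hw0 hw1 hN
  have hle : φ s (A.e i x) ≤ P.K * S.q := by
    have h1 := neg_le_of_abs_le (hab w.1.1 w.1.2 w.2)
    rw [hφ0]
    refine le_of_mul_le_mul_right ?_ hN
    unfold NN at hw0 ⊢
    linarith
  have hpos : 0 < φ s (A.e i x) := by rw [hφ0]; positivity
  have hbox := hC (fun s => S.g s i) φ s (-P.tA) S.q (A.e i x) (S.flow.krf s hsO i x hi hx.1)
    (contDiffAt_const.mul (Bx.contDiffAt_Eb hρ)) hq (by rw [hτ]; exact Stp.one_le_τq h hs) hpos hle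
    ?_ ?_ ?_ (by simpa only [hτ] using hab) ?_ w.1.1 w.1.2 w.2 (SW_ne hw).1 (SW_ne hw).2 ?_
  · have h1 := Bx.box_Eb_ge (g := fun s => S.g s i) (σ := S.σ) (V := P.V) (t₀ := S.t) hr hRg
      (S.hρ.eq s hsO i x hi hx.1).ge hgρ
    rw [S.div_r h] at h1
    have h2 : box (fun s => S.g s i) φ s (A.e i x) =
        Λ * S.q * box (fun s => S.g s i) (Bx.Eb S.σ P.V S.t S.r ρc) s (A.e i x) :=
      Bx.box_const_mul _ hRg.Eb
    have h3 := mul_le_mul_of_nonneg_left h1 (mul_pos hΛ0 hq).le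
    have h4 : (P.V - P.K) * (S.q * φ s (A.e i x)) ≤ C * (S.q * φ s (A.e i x)) := by
      have e : φ s (A.e i x) = Λ * S.q * Bx.Eb S.σ P.V S.t S.r ρc s (A.e i x) := rfl
      rw [h2, e] at hbox
      rw [e]
      linarith
    have h5 := le_of_mul_le_mul_right h4 (mul_pos hq hpos)
    linarith
  · have h1 : gsq (S.g s i) (φ s) (A.e i x) =
        (Λ * S.q) ^ 2 * gsq (S.g s i) (Bx.Eb S.σ P.V S.t S.r ρc s) (A.e i x) :=
      Bx.gsq_const_mul _ hRg.Eb.dsp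
    have h2 := Bx.gsq_Eb (g := fun s => S.g s i) (σ := S.σ) (V := P.V) (t₀ := S.t) (r := S.r) hRg
    have e : φ s (A.e i x) = Λ * S.q * Bx.Eb S.σ P.V S.t S.r ρc s (A.e i x) := rfl
    change gsq (S.g s i) (φ s) (A.e i x) ≤ _
    rw [h1, h2, e, div_pow, S.div_r h]
    have h3 : 0 ≤ (Λ * S.q) ^ 2 * (Bx.Eb S.σ P.V S.t S.r ρc s (A.e i x) ^ 2 * S.q) := by positivity
    have h4 := mul_le_mul_of_nonneg_left hgρ h3
    linarith
  · have h1 := (hcr.bk i hi).1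
    rwa [S.div_r h] at h1
  · have h1 := (hcr.bk i hi).2
    rwa [S.div_r h] at h1
  · have hc : Tendsto (fun q : ℝ × Cn n => ((q.1, (A.e i).symm q.2) : ℝ × M)) (past s (A.e i x))
        (𝓝[{q | q.1 ≤ s}] (s, x)) := by
      refine tendsto_nhdsWithin_iff.2 ⟨?_, self_mem_nhdsWithin⟩
      have hs2 : Tendsto (fun q : ℝ × Cn n => q.2) (𝓝 (s, A.e i x)) (𝓝 (A.e i x)) :=
        continuousAt_snd
      have hs1 : Tendsto (fun q : ℝ × Cn n => q.1) (𝓝 (s, A.e i x)) (𝓝 s) := continuousAt_fst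
      exact (hs1.prodMk_nhds ((tendsto_symm hi).comp hs2)).mono_left nhdsWithin_le_nhds
    filter_upwards [hc.eventually hev, mem_nhdsWithin_of_mem_nhds hnb] with y h1 h2 c b v
    have h3 := ge_of_Pr h (y := (y.1, (A.e i).symm y.2)) h2.1 h2.2.2 h1 i (dom_src h2.2) c b v
    simp only [dom_inv h2.2] at h3
    rw [hτ, hφE]
    linarith
  · rw [hτ, hφ0]
    unfold NN at hw0 hw1
    linarith

theorem oa {C : ℝ} (hV : P.K + C < P.V)
    (hC : ∀ (g : ℝ → Cn n → Mat n) (φ : ℝ → Cn n → ℝ) (t T0 q : ℝ) (z : Cn n),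
      KRFat g t z → ContDiffAt ℝ ∞ (fun p : ℝ × Cn n => φ p.1 p.2) (t, z) →
      0 < q → 1 ≤ (t - T0) * q → 0 < φ t z → φ t z ≤ P.K * q →
      gsq (g t) (φ t) z ≤ P.K * q * φ t z ^ 2 →
      BKge (g t) z (P.K * q) → BKle (g t) z (P.K * q) →
      (∀ (c : ℂ) (a v : Cn n), |lyhS (g t) (t - T0) z c a v| ≤
        P.K * q * (nq (g t z) a + q * ‖c‖ ^ 2) * nq (g t z) v) →
      (∀ᶠ p in past t z, ∀ (c : ℂ) (a v : Cn n), 0 ≤ lyhS (g p.1) (p.1 - T0) p.2 c a v +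
        φ p.1 p.2 * (nq (g p.1 p.2) a + q * ‖c‖ ^ 2) * nq (g p.1 p.2) v) →
      ∀ (c : ℂ) (a v : Cn n), v ≠ 0 → (a ≠ 0 ∨ c ≠ 0) →
        lyhS (g t) (t - T0) z c a v + φ t z * (nq (g t z) a + q * ‖c‖ ^ 2) * nq (g t z) v = 0 →
        box g φ t z ≤ C * q * φ t z) : S.OA := by
  have hq := S.q_pos h
  have hsub : Tch.MD S.t S.t' S.Kc (fun y => S.ρ y.1 y.2) S.sg ⊆ Icc S.t S.t' ×ˢ S.Kc :=
    fun y hy => ⟨⟨hy.1, hy.2.1⟩, hy.2.2.1⟩
  have key := Tch.touch_MD_pred S.cptK (Stp.cont_ρK h) Stp.continuous_sg.continuousOn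
    (fun y hy => Stp.hint h (hsub hy).1 (hsub hy).2 hy.2.2.2) (Pr S) (K := P.K)
    (fun y hy Λ Λ' ⟨L, hL, H⟩ hΛ => ⟨L, hL.trans_le hΛ, H⟩)
    (fun y hy Λ H => (Pr_open h (hsub hy) H).filter_mono (nhdsWithin_mono _ hsub))
    (fun y hy Λ ⟨L, hL, H⟩ => ⟨(L + Λ) / 2, by linarith, L, by linarith, H⟩)
    (fun y hy => ⟨P.K / S.E y.1 y.2 + 1, P.K / S.E y.1 y.2, by linarith, by
      have hE := Stp.E_pos (S := S) y.1 y.2
      have e : P.K / S.E y.1 y.2 * S.q * S.E y.1 y.2 = P.K * S.q := by field_simp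
      rw [e]
      exact (crude_ge h (hsub hy).1 (hsub hy).2).ge⟩)
    (fun y hy h1 Λ hΛ => ⟨P.K, hΛ, by
      have h2 : LyhGe _ _ _ _ _ := (S.init' (hsub hy).2).ia
      have h3 := Stp.e0_le h (hsub hy).1 (hsub hy).2
      have hE := Stp.E_pos (S := S) y.1 y.2
      rw [h1] at h3 hE ⊢
      exact lyhGe_mono (S.flow.kah _ ⟨le_rfl, ((S.t_lt h).trans S.lt').le⟩) (hsub hy).2.1 h2 hq.le
        (mul_le_mul_of_nonneg_left (by linarith) (mul_pos h.K0 hq).le)⟩)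
    (fun y hy h1 Λ hΛ => ⟨P.K, hΛ,
      ge_of_one_le h (hsub hy).1 (hsub hy).2 ((Stp.one_le_E_iff h).2 h1.ge)⟩)
    (fun y hy h1 _ Λ hΛ H hev => no_touch h hV hC hΛ (hsub hy) h1 H hev)
  intro s hs x hx
  rcases le_total (S.ρ s x) (S.sg s) with h1 | h1
  · exact ge_of_Pr h (y := (s, x)) (Stp.mem_Icc h hs) hx.1 (key (s, x) ⟨hs.1, hs.2, hx, h1⟩)
  · exact ge_of_one_le h hs hx ((Stp.one_le_E_iff h).2 h1)

end

end La10

theorem laStmt {n : ℕ} (H : LyhPtStmt n) : LaStmt n := by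
  intro Cb
  refine ⟨0, fun K => ?_⟩
  by_cases hK : 1 ≤ K
  · obtain ⟨C, hC⟩ := H K hK
    refine ⟨K + C + 1, fun V hV => ⟨0, fun K1 _ Λ _ L => ⟨0, fun B _ δ tA hP => ?_⟩⟩⟩
    intro M _ _ _ A K0 p I a S
    exact La10.oa hP (C := C) (show K + C < V by linarith) hC
  · exact ⟨0, fun V _ => ⟨0, fun K1 _ Λ _ L => ⟨0, fun B _ δ tA hP => absurd hP.K_1 hK⟩⟩⟩

end Crest.Agent.T223.Os
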