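import Crest.Agent.T223.CnL2_43
import Crest.Agent.T223.EvC_41

/-!
# Row 223 (helper43): LICH in a chart (names of `Fr_38`)

`lich_pt` : `η = ∂∂̄ u - Ric ≥ -φ g` in the past with a null vector at the point, `u` a solution of
the heat equation, `-l ≤ bis ≤ c`  ⟹  `(∂_t - Δ) φ ≤ n c φ + l (Δ u - R + n φ)`.
-/

set_option autoImplicit false
set_option linter.unusedSectionVars false

open Set Filter Topology
open scoped ContDiff ComplexConjugate ComplexOrder Matrix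

namespace Crest.Agent.T223.CnL

open Crest.Agent.R275.Geo Crest.Agent.R275.EDR890 Crest.Agent.R273.Hess_333
open Crest.Agent.T223.Br Crest.Agent.T223.Cn Crest.Agent.T223.Ev
open Crest.Agent.T223.Tr (nq)

noncomputable section

variable {n : ℕ} {p : ℝ × Cn n} {g : ℝ → Cn n → Mat n}

theorem qf_re (H : Mat n) (x : Fin n → ℂ) : (qf H x).re = nq H (WithLp.toLp 2 x) := by
  unfold qf nq
  congr 1
  exact Finset.sum_congr rfl fun _ _ => Finset.sum_congr rfl fun _ _ => by ring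

/-- value of a quadratic form of germs -/
theorem ev_bf_rep {Φ : Matrix (Fin n) (Fin n) (Gm p)} {f : ℝ → Cn n → Mat n} (hf : RepM Φ f)
    (x : Fin n → Gm p) :
    ((gdr p).ev ((gdr p).bf Φ x x)).re =
      nq (f p.1 p.2) (WithLp.toLp 2 fun i => (gdr p).ev (x i)) := by
  rw [ev_bf, hf.ev, qf_re]

/-- a form that is nonnegative in the past gives positive germs -/
theorem pos_bf_rep {Φ : Matrix (Fin n) (Fin n) (Gm p)} {f : ℝ → Cn n → Mat n} (hf : RepM Φ f)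
    (h : ∀ᶠ q in Cn.past p, ∀ v, 0 ≤ nq (f q.1 q.2) v) (x : Fin n → Gm p) :
    (gdr p).Pos ((gdr p).bf Φ x x) := by
  choose u hu using fun a => exists_rep (x a)
  refine (hf.bf hu hu).pos ?_
  filter_upwards [h] with q hq
  exact hq (WithLp.toLp 2 fun a => u a q.1 q.2)

/-- the curvature form is the bisectional curvature -/
theorem ev_th (h : KahP g p) (v a : Fin n → Gm p) (ha : ∀ k, (gdr p).Hol (a k)) :
    ((gdr p).ev (h.km.th v a 0)).re = bis (g p.1) p.2 (WithLp.toLp 2 fun i => (gdr p).ev (v i))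
      (WithLp.toLp 2 fun i => (gdr p).ev (a i)) := by
  rw [KM.th, KM.Th_dv ha, ev_bf, bis]
  congr 1
  have e : ∀ c d i j, (gdr p).ev (Th ((gdr p).d c) ((gdr p).db d) h.km.g h.km.gi i j) =
      Rm (g p.1) p.2 c d i j := fun c d i j => (h.rep_Th c d i j).ev
  simp only [qf, DR.eM_apply, Matrix.sum_apply, Matrix.smul_apply, smul_eq_mul, map_sum, map_mul,
    (gdr p).ev_cj, e, Finset.mul_sum]
  exact Finset.sum_congr rfl fun _ _ => Finset.sum_congr rfl fun _ _ =>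
    Finset.sum_congr rfl fun _ _ => Finset.sum_congr rfl fun _ _ => by ring

theorem lo_of_bkge (h : KahP g p) {l : ℝ} (hl : BKge (g p.1) p.2 l) : Lo h.km l := by
  intro v a ha
  rw [ev_th h v a ha, ev_bf_rep h.rep_g, ev_bf_rep h.rep_g]
  exact hl _ _

theorem hi_of_bkle (h : KahP g p) {c : ℝ} (hc : BKle (g p.1) p.2 c) : Hi h.km c := by
  intro v a ha
  rw [ev_th h v a ha, ev_bf_rep h.rep_g, ev_bf_rep h.rep_g]
  exact hc _ _

theorem nq_comb (H R G : Mat n) (c : ℝ) (v : Cn n) :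
    nq (H - R + (c : ℂ) • G) v = nq H v - nq R v + c * nq G v := by
  have h1 := Ev.nq_add (H - R) ((c : ℂ) • G) v
  rw [Ev.nq_sub, Ev.nq_smul] at h1
  exact h1

/-- **LICH in a chart**, past version -/
theorem lich_ptp (h : KRFp g p) {u φ : ℝ → Cn n → ℝ} (hu : HeatP g u p) (hφ : SmP p φ)
    (hφ0 : 0 ≤ φ p.1 p.2)
    (hpos : ∀ᶠ q in Cn.past p, ∀ v, -(φ q.1 q.2 * nq (g q.1 q.2) v) ≤
      nq (hess (u q.1) q.2) v - nq (ric (g q.1) q.2) v)
    {l c : ℝ} (hl : BKge (g p.1) p.2 l) (hc : BKle (g p.1) p.2 c) {v : Cn n} (hv : v ≠ 0)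
    (h0 : nq (hess (u p.1) p.2) v - nq (ric (g p.1) p.2) v + φ p.1 p.2 * nq (g p.1 p.2) v = 0) :
    boxp g φ p.1 p.2 ≤ n * c * φ p.1 p.2 +
      l * (lap (g p.1) (u p.1) p.2 - scal (g p.1) p.2 + n * φ p.1 p.2) := by
  have hk := h.toKahP
  have ru := hu.sm.ofReal.rep
  have rφ := hφ.ofReal.rep
  have rP := (ru.hs.sub hk.rep_ric).add (RepM.smul rφ hk.rep_g)
  have hpos' : ∀ᶠ q in Cn.past p, ∀ v, 0 ≤ nq (hess (u q.1) q.2 - ric (g q.1) q.2 +
      (φ q.1 q.2 : ℂ) • g q.1 q.2) v := hpos.mono fun q hq v => by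
    rw [nq_comb]; linarith [hq v]
  have ev : (WithLp.toLp 2 fun i => (gdr p).ev (cst (Gm p) v.ofLp i) : Cn n) = v := by
    ext i; exact ev_cst _ i
  have := lich_u hk.km h.flow0 ru.cj_real rφ.cj_real (by rw [rφ.ev]; exact hφ0)
    (pos_bf_rep rP hpos')
    (fun w => by rw [ev_bf_rep rP]; exact hpos'.self_of_nhdsWithin (mem_Pa p) _)
    (lo_of_bkge hk hl) (hi_of_bkle hk hc) (v := cst (Gm p) v.ofLp) (m := 0)
    (by rw [ev_bf_rep hk.rep_g, ev]; exact Ev.nq_pos hk.pd hv)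
    (by rw [ev_bf_rep rP, ev, nq_comb]; exact h0)
    (by
      rw [hu.bx_eq hk]
      have : (gdr p).hs (0 : Gm p) = 0 := by ext a b; simp [DR.hs]
      rw [this]
      simp [DR.bf])
  rw [hk.ev_bx rφ, map_sub, (hk.rep_lap ru).ev, hk.rep_scal.ev, rφ.ev] at this
  simpa using this

/-- **LICH in a chart** -/
theorem lich_pt {t : ℝ} {z : Cn n} (h : KRFat g t z) {u φ : ℝ → Cn n → ℝ} (hu : HeatAt g u t z)
    (hφ : ContDiffAt ℝ ∞ (fun q : ℝ × Cn n => φ q.1 q.2) (t, z)) (hφ0 : 0 ≤ φ t z)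
    (hpos : ∀ᶠ q in T223.past t z, ∀ v, -(φ q.1 q.2 * nq (g q.1 q.2) v) ≤
      nq (hess (u q.1) q.2) v - nq (ric (g q.1) q.2) v)
    {l c : ℝ} (hl : BKge (g t) z l) (hc : BKle (g t) z c) {v : Cn n} (hv : v ≠ 0)
    (h0 : nq (hess (u t) z) v - nq (ric (g t) z) v + φ t z * nq (g t z) v = 0) :
    box g φ t z ≤ n * c * φ t z + l * (lap (g t) (u t) z - scal (g t) z + n * φ t z) := by
  have := lich_ptp (p := (t, z)) h.krfp hu.heatP (SmP.of_contDiffAt hφ) hφ0 hpos hl hc hv h0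
  rwa [boxp_eq_box' (hφ.differentiableAt (by simp))] at this

end

end Crest.Agent.T223.CnL
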