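import Crest.Agent.T223.OsTch_24
import Crest.Agent.T223.OsKitA_61
import Crest.Agent.T223.CnW_43

/-!
# Row 223, module OSG (helper43): the leaf (b), `∂∂̄ u - Ric ≥ -(n+1) K q E g`

Tensor maximum principle (`Tch.touch_MD_pred`) with the pointwise inequality `CnL.lich_pt`.
-/

set_option autoImplicit false
set_option linter.unusedVariables false
set_option linter.unusedSectionVars false

open Set Filter Topology Metric
open scoped ContDiff ComplexConjugate Matrix ComplexOrder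

namespace Crest.Agent.T223.Os.Lb43

open Crest.Agent.R275.Geo Crest.Agent.R273.Kah_333 Crest.Agent.R273.Hess_333
open Crest.Agent.R275.EDR890 (wd wdL WI)
open Crest.Agent.T223.Br Crest.Agent.T223.Tr
open Crest.Agent.T223.Db (dom SmST)
open Crest.Agent.T223.Os.T24

noncomputable section

variable {n : ℕ}

/-! ### joint smoothness up to the end points -/

section sm

variable {a b : ℝ} {D : Set (Cn n)}

theorem cdOn_wd (hab : a < b) (hD : IsOpen D) {f : ℝ → Cn n → ℂ}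
    (hf : ContDiffOn ℝ ∞ (fun q : ℝ × Cn n => f q.1 q.2) (Icc a b ×ˢ D)) (s : WI n) :
    ContDiffOn ℝ ∞ (fun q : ℝ × Cn n => wd s (f q.1) q.2) (Icc a b ×ˢ D) := by
  have h3 : ContDiff ℝ ∞ fun L : Cn n →L[ℝ] ℂ => wdL s L := by
    unfold wdL
    fun_prop
  exact h3.comp_contDiffOn (cdOn_fderiv_slice hab hD hf)

theorem cdOn_hess (hab : a < b) (hD : IsOpen D) {f : ℝ → Cn n → ℝ}
    (hf : ContDiffOn ℝ ∞ (fun q : ℝ × Cn n => f q.1 q.2) (Icc a b ×ˢ D)) (k l : Fin n) :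
    ContDiffOn ℝ ∞ (fun q : ℝ × Cn n => hess (f q.1) q.2 k l) (Icc a b ×ˢ D) :=
  cdOn_wd hab hD (f := fun s => wd (true, l) (cu (f s)))
    (cdOn_wd hab hD (f := fun s => cu (f s)) (Complex.ofRealCLM.contDiff.comp_contDiffOn hf) _) _

theorem cdOn_ldet {g : ℝ → Cn n → Mat n} {Z : Set (ℝ × Cn n)}
    (h : ∀ k l, ContDiffOn ℝ ∞ (fun q : ℝ × Cn n => g q.1 q.2 k l) Z)
    (hp : ∀ q ∈ Z, (g q.1 q.2).PosDef) :
    ContDiffOn ℝ ∞ (fun q : ℝ × Cn n => ldet (g q.1) q.2) Z := by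
  have h1 : ContDiffOn ℝ ∞ (fun q : ℝ × Cn n => (g q.1 q.2).det) Z := by
    simp only [Matrix.det_apply']
    exact ContDiffOn.sum fun σ _ => contDiffOn_const.mul (contDiffOn_prod fun i _ => h _ _)
  exact (Complex.reCLM.contDiff.comp_contDiffOn h1).log fun q hq =>
    (Complex.pos_iff.1 (hp q hq).det_pos).1.ne'

theorem cdOn_ric (hab : a < b) (hD : IsOpen D) {g : ℝ → Cn n → Mat n}
    (h : ∀ k l, ContDiffOn ℝ ∞ (fun q : ℝ × Cn n => g q.1 q.2 k l) (Icc a b ×ˢ D))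
    (hp : ∀ q ∈ Icc a b ×ˢ D, (g q.1 q.2).PosDef) (k l : Fin n) :
    ContDiffOn ℝ ∞ (fun q : ℝ × Cn n => ric (g q.1) q.2 k l) (Icc a b ×ˢ D) :=
  (cdOn_hess hab hD (f := fun s => ldet (g s)) (cdOn_ldet h hp) k l).neg

end sm

theorem contOn_nq {Y : Type} [TopologicalSpace Y] {D : Set Y} {H : Y → Mat n}
    (h : ∀ k l, ContinuousOn (fun y => H y k l) D) (W : Set (Cn n)) :
    ContinuousOn (fun q : Y × Cn n => nq (H q.1) q.2) (D ×ˢ W) := by
  unfold nq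
  refine Complex.continuous_re.comp_continuousOn ?_
  refine continuousOn_finsetSum _ fun k _ => continuousOn_finsetSum _ fun l _ => ?_
  have h1 : ContinuousOn (fun q : Y × Cn n => H q.1 k l) (D ×ˢ W) :=
    (h k l).comp continuousOn_fst fun q hq => hq.1
  have h2 : ∀ k, Continuous fun q : Y × Cn n => q.2 k := fun k => by fun_prop
  exact (h1.mul (h2 k).continuousOn).mul (Complex.continuous_conj.comp (h2 l)).continuousOn

theorem cont_nq (H : Mat n) : Continuous (nq H) := by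
  unfold nq
  fun_prop

theorem nq_sc (G : Mat n) (c : ℝ) (v : Cn n) : nq G ((c : ℂ) • v) = c ^ 2 * nq G v := by
  unfold nq
  rw [← Complex.re_ofReal_mul, Finset.mul_sum]
  congr 1
  refine Finset.sum_congr rfl fun a _ => ?_
  rw [Finset.mul_sum]
  refine Finset.sum_congr rfl fun b _ => ?_
  simp only [PiLp.smul_apply, smul_eq_mul, map_mul, Complex.conj_ofReal]
  push_cast
  ring

/-- the strict inequality: unit vectors suffice -/
theorem strict_iff {G H R : Mat n} (hG : G.PosDef) {e Λ : ℝ} (he : 0 < e) :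
    (∃ Λ', Λ' < Λ ∧ ∀ v, -(Λ' * e * nq G v) ≤ nq H v - nq R v) ↔
      ∀ v ∈ sphere (0 : Cn n) 1, 0 < nq H v - nq R v + Λ * (e * nq G v) := by
  constructor
  · rintro ⟨Λ', h1, h2⟩ v hv
    have h3 : 0 < e * nq G v := mul_pos he (Ev.nq_pos hG (ne_zero_of_mem_unit_sphere ⟨v, hv⟩))
    nlinarith [h2 v]
  · intro h
    obtain ⟨Λ', h1, h2⟩ := Tch.exists_lt_forall_pos (isCompact_sphere (0 : Cn n) 1)
      (F := fun v => nq H v - nq R v) (N := fun v => e * nq G v)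
      ((cont_nq H).sub (cont_nq R)).continuousOn
      (continuous_const.mul (cont_nq G)).continuousOn h
    refine ⟨Λ', h1, fun v => ?_⟩
    rcases eq_or_ne v 0 with rfl | hv
    · simp [nq]
    · have h0 : ‖v‖ ≠ 0 := norm_ne_zero_iff.2 hv
      have h3 := h2 (((‖v‖⁻¹ : ℝ) : ℂ) • v) (by
        rw [mem_sphere_zero_iff_norm, norm_smul, Complex.norm_real, norm_inv, norm_norm,
          inv_mul_cancel₀ h0])
      simp only [nq_sc] at h3
      have h4 : 0 < (‖v‖⁻¹) ^ 2 := by positivity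
      have h5 : 0 < (‖v‖⁻¹) ^ 2 * (nq H v - nq R v + Λ' * e * nq G v) := by linarith
      have h6 := (mul_pos_iff_of_pos_left h4).1 h5
      linarith

theorem nonneg_lim {F N Λ : ℝ} (h : ∀ Λ', Λ < Λ' → 0 ≤ F + Λ' * N) : 0 ≤ F + Λ * N := by
  have hc : Continuous fun L : ℝ => F + L * N := by fun_prop
  exact ge_of_tendsto ((hc.tendsto Λ).mono_left (nhdsWithin_le_nhds (s := Ioi Λ))) (by
    filter_upwards [self_mem_nhdsWithin] with L hL using h L hL)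

variable {M : Type} [TopologicalSpace M] {A : Atl n M} [T2Space M] [ConnectedSpace M]
  {K0 : Kah A} {p : M} {P : Par} {I : Init K0 p} {a : ℝ}

open Stp

/-- the strict form of (b) with the multiple `Λ` -/
def Sp (S : Stp P I a) (Λ : ℝ) (y : ℝ × M) : Prop :=
  ∃ Λ', Λ' < Λ ∧ HesGe (S.g y.1) (S.u y.1) (Λ' * (S.q * S.E y.1 y.2)) y.2

variable {S : Stp P I a} (h : P.Ok)
include h

theorem qE_pos (s : ℝ) (x : M) : 0 < S.q * S.E s x := mul_pos (S.q_pos h) (E_pos s x)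

theorem sp_iff {s : ℝ} (hs : s ∈ Icc S.t S.b) {x : M} (hx : x ∈ S.U) {i : A.ι}
    (hi : x ∈ (A.e i).source) (Λ : ℝ) :
    Sp S Λ (s, x) ↔ ∀ v ∈ sphere (0 : Cn n) 1,
      0 < nq (hess (inC A i (S.u s)) (A.e i x)) v - nq (ric (S.g s i) (A.e i x)) v +
        Λ * (S.q * EC S i s (A.e i x) * nq (S.g s i (A.e i x)) v) := by
  rw [EC_apply hi, ← strict_iff ((S.flow.kah s hs).kah i x hi hx).posDef (qE_pos h s x)]
  exact exists_congr fun Λ' => and_congr_right fun _ =>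
    hesGe_iff (S.flow.kah s hs) S.op hx hi (smOn_of_SmST S.hu.sm hs) _

theorem of_sp {s : ℝ} (hs : s ∈ Icc S.t S.b) {x : M} (hx : x ∈ S.U) {Λ : ℝ}
    (hS : ∀ Λ', Λ < Λ' → Sp S Λ' (s, x)) : HesGe (S.g s) (S.u s) (Λ * (S.q * S.E s x)) x := by
  intro i hi v
  have h1 := nonneg_lim (F := nq (hess (inC A i (S.u s)) (A.e i x)) v -
      nq (ric (S.g s i) (A.e i x)) v) (N := S.q * S.E s x * nq (S.g s i (A.e i x)) v) (Λ := Λ)
    fun Λ' hΛ => by
      obtain ⟨Λ'', h2, h3⟩ := hS Λ' hΛ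
      have h4 := HesGe.mono (S.flow.kah s hs) hx h3
        (mul_le_mul_of_nonneg_right h2.le (qE_pos h s x).le) i hi v
      linarith
  linarith

theorem crude_ge {s : ℝ} (hs : s ∈ Icc S.t S.t') {x : M} (hx : x ∈ S.Kc) :
    HesGe (S.g s) (S.u s) ((n + 1) * P.K * S.q) x := by
  have h1 := hesGe_of_abs (S.flow.kah s (mem_Icc h hs)) hx.1 (crudeK h hs hx).hes
    (crudeK h hs hx).bk
  rw [S.div_r h] at h1
  convert h1 using 1
  ring

theorem K0_nonneg : 0 ≤ ((n : ℝ) + 1) * P.K := by have := h.K_1; positivity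

theorem out_ge {s : ℝ} (hs : s ∈ Icc S.t S.t') {x : M} (hx : x ∈ S.Kc) (hE : 1 ≤ S.E s x) :
    HesGe (S.g s) (S.u s) ((n + 1) * P.K * (S.q * S.E s x)) x := by
  refine HesGe.mono (S.flow.kah s (mem_Icc h hs)) hx.1 (crude_ge h hs hx) ?_
  exact mul_le_mul_of_nonneg_left (le_mul_of_one_le_right (S.q_pos h).le hE) (K0_nonneg h)

theorem sp_open {s : ℝ} (hs : s ∈ Icc S.t S.b) {x : M} (hx : x ∈ S.U) {Λ : ℝ}
    (hS : Sp S Λ (s, x)) : ∀ᶠ y in 𝓝[Icc S.t S.b ×ˢ S.U] (s, x), Sp S Λ y := by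
  have hi := ch_mem A x
  set i := ch A x
  have hab : S.t < S.b := (S.t_lt h).trans S.lt'
  have hD := isOpen_dom i S.op
  have hp : ∀ q ∈ Icc S.t S.b ×ˢ dom A i S.U, (S.g q.1 i q.2).PosDef := fun q hq =>
    (kahAt_dom (S.flow.kah q.1 hq.1) hq.2).posDef
  have c1 := contOn_nq (fun k l => (cdOn_hess hab hD (f := fun s => inC A i (S.u s))
    (S.hu.sm i) k l).continuousOn) (sphere (0 : Cn n) 1)
  have c2 := contOn_nq (fun k l => (cdOn_ric hab hD (g := fun s => S.g s i)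
    (S.flow.sm i) hp k l).continuousOn) (sphere (0 : Cn n) 1)
  have c3 := contOn_nq (fun k l => (S.flow.sm i k l).continuousOn) (sphere (0 : Cn n) 1)
  have c4 : ContinuousOn (fun q : ℝ × Cn n => EC S i q.1 q.2) (Icc S.t S.b ×ˢ dom A i S.U) :=
    ((((continuous_sg.comp continuous_fst).continuousOn).sub
      (S.hρ.sm i).continuousOn).neg.div_const _).rexp
  have c5 : ContinuousOn (fun q : (ℝ × Cn n) × Cn n => EC S i q.1.1 q.1.2)
      ((Icc S.t S.b ×ˢ dom A i S.U) ×ˢ sphere (0 : Cn n) 1) :=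
    c4.comp continuousOn_fst fun q hq => hq.1
  have key := Tch.eventually_forall_pos (isCompact_sphere (0 : Cn n) 1)
    (F := fun (q : ℝ × Cn n) v => nq (hess (inC A i (S.u q.1)) q.2) v - nq (ric (S.g q.1 i) q.2) v +
      Λ * (S.q * EC S i q.1 q.2 * nq (S.g q.1 i q.2) v))
    (D := Icc S.t S.b ×ˢ dom A i S.U) (p := (s, A.e i x))
    (fun v hv => ((c1.sub c2).add (continuousOn_const.mul ((continuousOn_const.mul c5).mul c3)))
      _ ⟨⟨hs, mem_dom hi hx⟩, hv⟩) ((sp_iff h hs hx hi Λ).1 hS)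
  have e1 : ∀ᶠ y : ℝ × M in 𝓝[Icc S.t S.b ×ˢ S.U] (s, x), y.2 ∈ (A.e i).source :=
    nhdsWithin_le_nhds (continuousAt_snd.preimage_mem_nhds ((A.e i).open_source.mem_nhds hi))
  have ht : Tendsto (fun y : ℝ × M => ((y.1, A.e i y.2) : ℝ × Cn n))
      (𝓝[Icc S.t S.b ×ˢ S.U] (s, x)) (𝓝[Icc S.t S.b ×ˢ dom A i S.U] (s, A.e i x)) := by
    refine tendsto_nhdsWithin_iff.2 ⟨Tendsto.mono_left ?_ nhdsWithin_le_nhds, ?_⟩
    · exact continuousAt_fst.prodMk (((A.e i).continuousAt hi).comp continuousAt_snd)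
    · filter_upwards [e1, self_mem_nhdsWithin] with y h1 h2 using ⟨h2.1, mem_dom h1 h2.2⟩
  filter_upwards [ht.eventually key, e1, self_mem_nhdsWithin] with y h1 h2 h3
  exact (sp_iff h h3.1 h3.2 h2 Λ).2 h1

theorem contact (hV : (3 * n + 1) * P.K + 1 ≤ P.V) (hA : S.OA) {s : ℝ} (hs : s ∈ Icc S.t S.t')
    (hts : S.t < s) {x : M} (hx : x ∈ S.Kc) (hE : S.E s x ≤ 1) {Λ : ℝ} (hΛ : (n + 1) * P.K < Λ)
    (hn : ¬ Sp S Λ (s, x))
    (hp : ∀ᶠ y in 𝓝[{y : ℝ × M | y.1 ≤ s}] (s, x), ∀ Λ', Λ < Λ' → Sp S Λ' y) : False := by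
  have hi := ch_mem A x
  set i := ch A x
  have hs' := mem_Ioo h hs hts
  have hq := S.q_pos h
  have hE0 := E_pos (S := S) s x
  have hK := h.K_1
  have hΛ0 : 0 < Λ := (K0_nonneg h).trans_lt hΛ
  have hpos : ∀ᶠ q in past s (A.e i x), ∀ v,
      -(Λ * S.q * EC S i q.1 q.2 * nq (S.g q.1 i q.2) v) ≤
        nq (hess (inC A i (S.u q.1)) q.2) v - nq (ric (S.g q.1 i) q.2) v := by
    filter_upwards [past_chart hi hp, nhdsWithin_le_nhds (ev_loc hs' hi hx.1)] with q h1 h2 v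
    have h3 := of_sp h (Ioo_subset_Icc_self h2.1) h2.2.2.1 h1 i h2.2.1 v
    rw [h2.2.2.2] at h3
    rw [EC_eq]
    linarith
  rw [sp_iff h (mem_Icc h hs) hx.1 hi] at hn
  push Not at hn
  obtain ⟨v, hv, hv0⟩ := hn
  have h1 := hpos.self_of_nhdsWithin (show ((s, A.e i x) : ℝ × Cn n).1 ≤ s from le_rfl) v
  have hu : Ev.HeatAt (fun s => S.g s i) (fun s => inC A i (S.u s)) s (A.e i x) :=
    ⟨cd_u hs' hi hx.1, (ev_loc hs' hi hx.1).mono fun q h2 => by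
      have h3 := box_u h2.1 h2.2.1 h2.2.2.1
      rwa [h2.2.2.2] at h3⟩
  have hc := crudeK h hs hx
  have h2 := CnL.lich_pt (krfAt hs' hi hx.1) hu (φ := fun s w => Λ * S.q * EC S i s w)
    (contDiffAt_const.mul (cd_EC hs' hi hx.1))
    (by rw [EC_apply hi]; positivity) hpos ((hA s hs x hx).bkge hi) (hc.bk i hi).2
    (ne_zero_of_mem_unit_sphere ⟨v, hv⟩) (by simp only at h1 ⊢; linarith)
  rw [Bx.box_const_mul _ (rg_EC hs' hi hx.1)] at h2
  simp only [EC_apply hi] at h2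
  have h3 := box_EC_ge hs' hi hx.1 h
  have hk := S.flow.kah s (mem_Icc h hs)
  have h4 := le_of_abs_le (hc.hes.lap hk hx.1 hi
    ((smOn_of_SmST S.hu.sm (mem_Icc h hs)).contDiffAt S.op hi hx.1))
  have h5 := neg_le_of_abs_le (BkAbsC.scal (hc.bk i hi) (hk.kah i x hi hx.1))
  rw [S.div_r h] at h2 h4 h5
  have hn0 : (0 : ℝ) ≤ n := Nat.cast_nonneg n
  have h6 : lap (S.g s i) (inC A i (S.u s)) (A.e i x) - scal (S.g s i) (A.e i x) +
      n * (Λ * S.q * S.E s x) ≤ 2 * n * (Λ * S.q) := by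
    have h7 : n * (Λ * S.q * S.E s x) ≤ n * (Λ * S.q) :=
      mul_le_mul_of_nonneg_left (mul_le_of_le_one_right (by positivity) hE) hn0
    have h8 : n * ((n + 1) * P.K * S.q) ≤ n * (Λ * S.q) :=
      mul_le_mul_of_nonneg_left (mul_le_mul_of_nonneg_right hΛ.le hq.le) hn0
    linarith
  have h7 := mul_le_mul_of_nonneg_left h6 (show 0 ≤ P.K * S.q * S.E s x by positivity)
  have h8 := mul_le_mul_of_nonneg_left h3 (show 0 ≤ Λ * S.q by positivity)
  have h9 : 0 < Λ * S.q * (S.q * S.E s x) := by positivity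
  have h10 := mul_le_mul_of_nonneg_left hV h9.le
  linarith

theorem ob (hV : (3 * n + 1) * P.K + 1 ≤ P.V) (hA : S.OA) : S.OB := by
  have hsub : Tch.MD S.t S.t' S.Kc (fun q => S.ρ q.1 q.2) S.sg ⊆ Icc S.t S.b ×ˢ S.U :=
    fun q hq => cyl_sub h ⟨⟨hq.1, hq.2.1⟩, hq.2.2.1⟩
  have key := Tch.touch_MD_pred (t₁ := S.t) (t₂ := S.t') S.cptK (ρ := fun q => S.ρ q.1 q.2)
    (σ := S.sg) (cont_ρK h) continuous_sg.continuousOn
    (fun q hq => hint h ⟨hq.1, hq.2.1⟩ hq.2.2.1 hq.2.2.2) (Sp S) (K := (n + 1) * P.K)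
    (fun q _ Λ Λ' ⟨L, h1, h2⟩ h3 => ⟨L, h1.trans_le h3, h2⟩)
    (fun q hq Λ hS => nhdsWithin_mono _ hsub (sp_open h (hsub hq).1 (hsub hq).2 hS))
    (fun q _ Λ ⟨L, h1, h2⟩ => ⟨(L + Λ) / 2, by linarith, L, by linarith, h2⟩)
    (fun q hq => ⟨(n + 1) * P.K / S.E q.1 q.2 + 1, (n + 1) * P.K / S.E q.1 q.2, by linarith, by
      have h1 := crude_ge h ⟨hq.1, hq.2.1⟩ hq.2.2.1
      have h2 := E_pos (S := S) q.1 q.2
      convert h1 using 1
      field_simp⟩)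
    (fun q hq e Λ hΛ => ⟨_, hΛ, by
      obtain ⟨s, x⟩ := q
      obtain rfl : s = S.t := e
      have hs : S.t ∈ Icc S.t S.t' := ⟨hq.1, hq.2.1⟩
      refine HesGe.mono (S.flow.kah _ (mem_Icc h hs)) hq.2.2.1.1 (S.init' hq.2.2.1).ib ?_
      have h1 := e0_le h hs hq.2.2.1
      have h2 := E_pos (S := S) S.t x
      rw [mul_assoc]
      exact mul_le_mul_of_nonneg_left (mul_le_mul_of_nonneg_left (by simp only at h1 ⊢; linarith)
        (S.q_pos h).le) (K0_nonneg h)⟩)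
    (fun q hq e Λ hΛ => ⟨_, hΛ, out_ge h ⟨hq.1, hq.2.1⟩ hq.2.2.1 ((one_le_E_iff h).2 e.ge)⟩)
    (fun q hq h1 h2 Λ hΛ hn hp => contact h hV hA ⟨hq.1, hq.2.1⟩ h1 hq.2.2.1
      ((E_le_one_iff h).2 h2.le) hΛ hn hp)
  intro s hs x hx
  unfold IB
  rw [mul_assoc]
  rcases le_total (S.E s x) 1 with h1 | h1
  · exact of_sp h (mem_Icc h hs) hx.1 (key (s, x) ⟨hs.1, hs.2, hx, (E_le_one_iff h).1 h1⟩)
  · exact out_ge h hs hx h1

end

theorem lbStmt (n : ℕ) : LbStmt n := by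
  unfold LbStmt Leaf
  refine Ev.of_thr (fun _ => 0) (fun _ K => (3 * n + 1) * K + 1) (fun _ _ _ => 0)
    (fun _ _ _ _ _ _ => 0) ?_
  intro P hP _ hV _ _ M _ _ _ A K0 p I a S hA
  exact ob hP hV hA

end Crest.Agent.T223.Os.Lb43
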