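import Crest.Agent.T223.OsLp_84
import Crest.Agent.T223.LoSt_18

/-!
# Row 223, module OSG, leaf Ll (helper45): the lower bound for `u` at a touching point of (g)

Three circles give a point `y` close to `x` where `u0` is not too negative; the radius is chosen so
small that `u` and `ρ` move by at most `1` between `x` and `y`; (d), (e), (f) at `y` bound the
distance `d₀(p,x)` by `ρ`, hence `u` from below.
-/

set_option autoImplicit false
set_option linter.unusedVariables false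
set_option linter.unusedSectionVars false

open Set Filter Topology Metric
open scoped ContDiff ComplexConjugate Matrix ComplexOrder

namespace Crest.Agent.T223.Os

open Crest.Agent.R275.Geo Crest.Agent.R273.Kah_333 Crest.Agent.R273.Hess_333
open Crest.Agent.T223.Br Crest.Agent.T223.Tr
open Crest.Agent.T223.Db (dom SmST)

noncomputable section

namespace Ll45

/-! ## numerics -/

theorem num_of {C s ρ D Λ S c k : ℝ} (hC : 1 ≤ C) (hs : 0 ≤ s) (hρ : 0 ≤ ρ) (hD : 0 ≤ D)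
    (hΛ : 0 ≤ Λ) (hc : 0 ≤ c) (hS : S ≤ (1 + s) * c + s * C * (ρ + D * Λ))
    (h : ∀ α : ℝ, 1 ≤ α → D - 5 - ρ - α - C / α * S ≤ k * (1 + s)) :
    D ≤ 3 * ρ + 2 * ((6 + C * c + k) * (1 + s)) + 4 * (C ^ 2 * s * (Λ + 1)) := by
  have hCs : 0 ≤ C ^ 2 * s := by positivity
  have hCΛ : 0 ≤ C ^ 2 * s * Λ := by positivity
  set α := 1 + 2 * (C ^ 2 * s * (Λ + 1)) with hα
  have hα' : α = 1 + 2 * (C ^ 2 * s * Λ) + 2 * (C ^ 2 * s) := by rw [hα]; ring
  have hα1 : 1 ≤ α := by linarith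
  have hα0 : 0 < α := by linarith
  have h1 := h α hα1
  have hC0 : 0 ≤ C / α := by positivity
  have h3 : C / α * ((1 + s) * c) ≤ C * ((1 + s) * c) :=
    mul_le_mul_of_nonneg_right (div_le_self (by linarith) hα1) (by positivity)
  have h4 : C / α * (s * C * ρ) ≤ ρ / 2 := by
    rw [div_mul_eq_mul_div, div_le_iff₀ hα0, hα']
    nlinarith [mul_nonneg hCΛ hρ]
  have h4' : C / α * (s * C * (D * Λ)) ≤ D / 2 := by
    rw [div_mul_eq_mul_div, div_le_iff₀ hα0, hα']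
    nlinarith [mul_nonneg hCs hD]
  have h5 := mul_le_mul_of_nonneg_left hS hC0
  have h6 : C / α * ((1 + s) * c + s * C * (ρ + D * Λ)) =
      C / α * ((1 + s) * c) + C / α * (s * C * ρ) + C / α * (s * C * (D * Λ)) := by ring
  have h7 : (6 + C * c + k) * (1 + s) = 6 + 6 * s + C * ((1 + s) * c) + k * (1 + s) := by ring
  linarith

theorem num_D {C s X l μ D Λ : ℝ} (hC : 1 ≤ C) (hs : 0 ≤ s) (hX : (1 + s) ^ 2 ≤ X)
    (hl : s * l ≤ 4 * X) (hμ : 1 ≤ μ) (hD : 0 < D) (hΛ : Λ + 1 ≤ Real.log D + 2 * l + μ)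
    (h : D ≤ 3 * X + 4 * (C ^ 2 * s * (Λ + 1))) : D ≤ 142 * (C ^ 4 * X * μ) := by
  set γ := 8 * (C ^ 2 * (1 + s)) with hγ
  have hγ0 : 0 < γ := by positivity
  have hX0 : 0 ≤ X := le_trans (by positivity) hX
  have h1 : Real.log D ≤ D / γ + γ := by
    have h2 := Real.log_le_sub_one_of_pos (div_pos hD hγ0)
    rw [Real.log_div hD.ne' hγ0.ne'] at h2
    have h3 := Real.log_le_sub_one_of_pos hγ0
    linarith
  have hCs : 0 ≤ C ^ 2 * s := by positivity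
  have h2 : C ^ 2 * s * (D / γ) ≤ D / 8 := by
    rw [← mul_div_assoc, div_le_iff₀ hγ0, hγ]
    have : 0 ≤ C ^ 2 * D := by positivity
    nlinarith
  have hC2 : 1 ≤ C ^ 2 := one_le_pow₀ hC
  have hC4 : C ^ 2 ≤ C ^ 4 := pow_le_pow_right₀ hC (by norm_num)
  have hsX : s * (1 + s) ≤ X := by nlinarith
  have hsX' : s ≤ X := by nlinarith
  have h3 : C ^ 2 * s * γ ≤ 8 * (C ^ 4 * X) := by
    have : C ^ 2 * s * γ = 8 * (C ^ 4 * (s * (1 + s))) := by rw [hγ]; ring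
    rw [this]
    gcongr
  have h4 : C ^ 2 * s * l ≤ 4 * (C ^ 4 * X) := by
    calc C ^ 2 * s * l = C ^ 2 * (s * l) := by ring
      _ ≤ C ^ 2 * (4 * X) := by gcongr
      _ ≤ C ^ 4 * (4 * X) := by gcongr
      _ = _ := by ring
  have h5 : C ^ 2 * s * μ ≤ C ^ 4 * X * μ := by gcongr
  have h6 : C ^ 4 * X ≤ C ^ 4 * X * μ := le_mul_of_one_le_right (by positivity) hμ
  have h7 : X ≤ C ^ 4 * X := le_mul_of_one_le_left hX0 (hC2.trans hC4)
  have h8 := mul_le_mul_of_nonneg_left (hΛ.trans (show Real.log D + 2 * l + μ ≤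
    D / γ + γ + 2 * l + μ by linarith)) hCs
  have h9 : C ^ 2 * s * (D / γ + γ + 2 * l + μ) =
      C ^ 2 * s * (D / γ) + C ^ 2 * s * γ + 2 * (C ^ 2 * s * l) + C ^ 2 * s * μ := by ring
  linarith

theorem mu_pow {Λ : ℝ} (hΛ : 1 ≤ Λ) : (1 + Real.log Λ) ^ 4 ≤ 4096 * √Λ := by
  set w := √√√Λ with hw
  have h1 : 0 < √Λ := Real.sqrt_pos.2 (by linarith)
  have h2 : 0 < √√Λ := Real.sqrt_pos.2 h1
  have h3 : 0 < w := Real.sqrt_pos.2 h2
  have e1 : w ^ 2 = √√Λ := Real.sq_sqrt h2.le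
  have e2 : w ^ 4 = √Λ := by
    rw [show w ^ 4 = (w ^ 2) ^ 2 by ring, e1]; exact Real.sq_sqrt h1.le
  have e3 : w ^ 8 = Λ := by
    rw [show w ^ 8 = (w ^ 4) ^ 2 by ring, e2]; exact Real.sq_sqrt (by linarith)
  have h4 : Real.log Λ = 8 * Real.log w := by rw [← e3, Real.log_pow]; norm_num
  have h5 := Real.log_le_sub_one_of_pos h3
  have h6 := Real.log_nonneg hΛ
  calc (1 + Real.log Λ) ^ 4 ≤ (8 * w) ^ 4 := pow_le_pow_left₀ (by linarith) (by linarith) 4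
    _ = _ := by rw [mul_pow, e2]; norm_num

theorem num_fin {N C Λ X l u : ℝ} (hN : 0 ≤ N) (hΛ : 1 ≤ Λ)
    (hf : (64 * N * 711 ^ 2 * 4096 * C ^ 10) ^ 2 ≤ Λ)
    (hu : |u| ≤ 711 * (C ^ 5 * (1 + Real.log Λ) ^ 2 * (X * l))) :
    64 * N * u ^ 2 ≤ Λ * (X ^ 2 * l ^ 2) := by
  have h1 : u ^ 2 ≤ (711 * (C ^ 5 * (1 + Real.log Λ) ^ 2 * (X * l))) ^ 2 := by
    rw [← sq_abs u]; exact pow_le_pow_left₀ (abs_nonneg _) hu 2
  have hC : 0 ≤ C ^ 10 := by positivity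
  have h2 : 64 * N * 711 ^ 2 * 4096 * C ^ 10 ≤ √Λ := Real.le_sqrt_of_sq_le hf
  have h3 := mu_pow hΛ
  have h4 : √Λ * √Λ = Λ := Real.mul_self_sqrt (by linarith)
  have h5 : 0 ≤ X ^ 2 * l ^ 2 := by positivity
  calc 64 * N * u ^ 2 ≤ 64 * N * (711 * (C ^ 5 * (1 + Real.log Λ) ^ 2 * (X * l))) ^ 2 := by gcongr
    _ = (64 * N * 711 ^ 2 * C ^ 10) * (1 + Real.log Λ) ^ 4 * (X ^ 2 * l ^ 2) := by ring
    _ ≤ (64 * N * 711 ^ 2 * C ^ 10) * (4096 * √Λ) * (X ^ 2 * l ^ 2) := by gcongr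
    _ = (64 * N * 711 ^ 2 * 4096 * C ^ 10) * √Λ * (X ^ 2 * l ^ 2) := by ring
    _ ≤ √Λ * √Λ * (X ^ 2 * l ^ 2) := by gcongr
    _ = _ := by rw [h4]

section par

variable {P : Par} (h : P.Ok) {x s : ℝ} (hx : 0 ≤ x) (hs : 0 ≤ s)
include h hx hs

/-- `B Ψ / τ ≤ exp (4 ℓ)` -/
theorem BΨ_le : P.B * P.Ψ x s / P.τ s ≤ Real.exp (4 * P.ell x s) := by
  have hτ := h.τ_pos hs
  have hX : 1 ≤ x + P.ρs s := by linarith [h.one_le_ρs hs]
  have hl := h.ell_pos hx hs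
  have h1 : Real.exp (P.ell x s) = (x + P.ρs s) * Real.exp P.B * (1 + 1 / P.τ s) := by
    unfold Par.ell
    rw [Real.exp_add, Real.exp_add, Real.exp_log (by linarith), Real.exp_log (by positivity)]
  have h2 : P.ell x s ≤ Real.exp (P.ell x s) := by linarith [Real.add_one_le_exp (P.ell x s)]
  have h3 : P.B ≤ Real.exp P.B ^ 2 := by
    have h4 := Real.add_one_le_exp P.B
    nlinarith [h.B1]
  have h4 : 1 / P.τ s ≤ (1 + 1 / P.τ s) ^ 2 := by
    have : 0 < 1 / P.τ s := by positivity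
    nlinarith
  have hB := h.B0
  calc P.B * P.Ψ x s / P.τ s = (x + P.ρs s) ^ 2 * P.B * (1 / P.τ s) * P.ell x s ^ 2 := by
        unfold Par.Ψ; ring
    _ ≤ (x + P.ρs s) ^ 2 * Real.exp P.B ^ 2 * (1 + 1 / P.τ s) ^ 2 *
        Real.exp (P.ell x s) ^ 2 := by gcongr
    _ = Real.exp (P.ell x s) ^ 2 * Real.exp (P.ell x s) ^ 2 := by rw [h1]; ring
    _ = _ := by rw [← pow_add, ← Real.exp_nat_mul]; norm_num

theorem sq_le_X : (1 + s) ^ 2 ≤ x + P.ρs s := by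
  have : (1 + s) ^ 2 ≤ P.ρs s := le_mul_of_one_le_left (sq_nonneg _) h.B1
  linarith

/-- `s ℓ ≤ 4 X` -/
theorem s_ell_le : s * P.ell x s ≤ 4 * (x + P.ρs s) := by
  set X := x + P.ρs s with hX
  have hτ := h.τ_pos hs
  have h0 := sq_le_X h hx hs
  have hX1 : 1 ≤ X := by linarith [h.one_le_ρs hs]
  have hw0 : 0 < √X := Real.sqrt_pos.2 (by linarith)
  have hw2 : √X ^ 2 = X := Real.sq_sqrt (by linarith)
  have h1 : Real.log X ≤ 2 * √X := by
    have h1 : Real.log X = 2 * Real.log √X := by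
      conv_lhs => rw [← hw2, Real.log_pow]
      norm_num
    have h2 := Real.log_le_sub_one_of_pos hw0
    linarith
  have h2 : s ≤ √X := Real.le_sqrt_of_sq_le (by nlinarith)
  have h3 : s * Real.log X ≤ 2 * X := by
    calc s * Real.log X ≤ s * (2 * √X) := by gcongr
      _ ≤ √X * (2 * √X) := by gcongr
      _ = 2 * X := by nlinarith
  have h4 : s * P.B ≤ X := by
    have := h.lin_le_ρs hs
    nlinarith [h.B0]
  have h5 : s * Real.log (1 + 1 / P.τ s) ≤ 1 := by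
    have h6 := Real.log_le_sub_one_of_pos (show 0 < 1 + 1 / P.τ s by positivity)
    calc s * Real.log (1 + 1 / P.τ s) ≤ s * (1 / P.τ s) := by gcongr; linarith
      _ ≤ 1 := by rw [mul_one_div, div_le_one hτ]; exact h.le_τ
  have h6 : s * P.ell x s = s * Real.log X + s * P.B + s * Real.log (1 + 1 / P.τ s) := by
    unfold Par.ell; ring
  linarith

/-- comparison of `Ψ` at two arguments -/
theorem Ψ_le_of {x' s' : ℝ} (hx' : 0 ≤ x') (hs' : 0 ≤ s') (hB : 2 ≤ P.B)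
    (h1 : x' + P.ρs s' ≤ 2 * (x + P.ρs s)) (h2 : P.τ s ≤ 2 * P.τ s') :
    P.Ψ x' s' ≤ 16 * P.Ψ x s := by
  have hτ := h.τ_pos hs
  have hτ' := h.τ_pos hs'
  have hX : 1 ≤ x + P.ρs s := by linarith [h.one_le_ρs hs]
  have hX' : 1 ≤ x' + P.ρs s' := by linarith [h.one_le_ρs hs']
  have h3 := Real.log_le_log (by linarith) h1
  rw [Real.log_mul (by norm_num) (by linarith)] at h3
  have h4 : 1 + 1 / P.τ s' ≤ 2 * (1 + 1 / P.τ s) := by
    have : 1 / P.τ s' ≤ 2 * (1 / P.τ s) := by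
      rw [mul_one_div, div_le_div_iff₀ hτ' hτ]; linarith
    linarith
  have h5 := Real.log_le_log (by positivity) h4
  rw [Real.log_mul (by norm_num) (by positivity)] at h5
  have h6 := Real.log_two_lt_d9
  have h7 := h.B_le_ell hx hs
  have h8 : P.ell x' s' ≤ 2 * P.ell x s := by
    have : P.ell x' s' ≤ P.ell x s + 2 := by unfold Par.ell; linarith
    linarith
  calc P.Ψ x' s' ≤ (2 * (x + P.ρs s)) ^ 2 * (2 * P.ell x s) ^ 2 :=
        mul_le_mul (pow_le_pow_left₀ (by linarith) h1 2)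
          (pow_le_pow_left₀ (h.ell_pos hx' hs').le h8 2) (by positivity) (by positivity)
    _ = _ := by unfold Par.Ψ; ring

theorem τ_le_Ψ : P.τ s ≤ P.Ψ x s := by
  have h1 := h.B4_le_Ψ hx hs
  have h2 : 1 + s ≤ (1 + s) ^ 4 := le_self_pow₀ (by linarith) (by norm_num)
  have h3 : (1 + s) ^ 4 ≤ P.B ^ 4 * (1 + s) ^ 4 :=
    le_mul_of_one_le_left (by positivity) (one_le_pow₀ h.B1)
  linarith [h.τ_le (s := s)]

end par

/-! ## the step -/

variable {n : ℕ} {M : Type} [TopologicalSpace M] {A : Atl n M} [T2Space M] [ConnectedSpace M]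
  {K0 : Kah A} {p : M} {P : Par} {I : Init K0 p} {a : ℝ} {S : Stp P I a}

/-- the bound of the barrier on the cylinder -/
def Em (K V : ℝ) : ℝ := Real.exp (2 * K + 1 + V)

/-- the crude `g₀`-Lipschitz constant -/
def a0 (K V K1 : ℝ) : ℝ := 2 * K * Real.exp (K1 * Em K V)

theorem Em_pos (K V : ℝ) : 0 < Em K V := Real.exp_pos _

theorem one_le_a0 (h : P.Ok) : 1 ≤ a0 P.K P.V P.K1 := by
  have h1 : 1 ≤ Real.exp (P.K1 * Em P.K P.V) :=
    Real.one_le_exp (mul_pos h.K10 (Em_pos _ _)).le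
  unfold a0
  nlinarith [h.K_1]

theorem a0_sq (h : P.Ok) : 4 * P.K * Real.exp (P.K1 * Em P.K P.V) ≤ a0 P.K P.V P.K1 ^ 2 := by
  have h1 : 1 ≤ Real.exp (P.K1 * Em P.K P.V) :=
    Real.one_le_exp (mul_pos h.K10 (Em_pos _ _)).le
  have h2 := h.K_1
  have h3 : 1 ≤ P.K * Real.exp (P.K1 * Em P.K P.V) := one_le_mul_of_one_le_of_one_le h2 h1
  unfold a0
  nlinarith

/-- gradient bound for `g₀` -/
theorem grLe (h : P.Ok) (hE : S.OE) {s : ℝ} (hs : s ∈ Icc S.t S.t') {y : M} (hy : y ∈ S.Kc)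
    {f : ℝ → M → ℝ} (hf : SmST A (Icc S.t S.b) S.U f) {β c b : ℝ}
    (hβ : Gr (S.g s) (f s) y ≤ β) (hc : Real.exp (P.K1 * S.E s y) ≤ c) (hb : 4 * β * c ≤ b ^ 2) :
    Lo.GrLe K0 (f s) y b := by
  have hi := ch_mem A y
  have hsm : ContDiffAt ℝ ∞ (inC A (ch A y) (f s)) (A.e (ch A y) y) :=
    (smOn_of_SmST hf (Stp.mem_Icc h hs)).contDiffAt S.op hi hy.1
  have hpos : (S.g s (ch A y) (A.e (ch A y) y)).PosDef :=
    ((S.flow.kah s (Stp.mem_Icc h hs)).kah _ _ hi hy.1).pos.self_of_nhds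
  refine Lo.grLe_of_gsq K0 hi (hsm.of_le (by simp)) (g := S.g s (ch A y)) hpos
    ((Real.exp_pos _).le.trans hc) hβ (fun v => ?_) hb
  have h7 : gc K0 (ch A y) (A.e (ch A y) y) = K0.g (ch A y) y := by
    unfold gc; rw [(A.e _).left_inv hi]
  rw [h7]
  exact ((hE s hs y hy).1 (ch A y) hi v).trans (mul_le_mul_of_nonneg_right hc
    (Ev.nq_nonneg (K0.pos _ _ hi).posSemidef v))

theorem exp_E_le (h : P.Ok) {s : ℝ} (hs : s ∈ Icc S.t S.t') {y : M} (hy : y ∈ S.Kc) :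
    Real.exp (P.K1 * S.E s y) ≤ Real.exp (P.K1 * Em P.K P.V) :=
  Real.exp_le_exp.2 (mul_le_mul_of_nonneg_left (Stp.E_le h hs hy) h.K10.le)

/-- what the radius has to achieve -/
def Rad (S : Stp P I a) (s Λ' : ℝ) (x : M) (r' : ℝ) : Prop :=
  0 < r' ∧ r' ≤ 1 ∧ 1 / r' ^ 2 ≤ Λ' * Real.exp (4 * P.ell (S.ρ s x) s) ∧
    ∀ y, dK K0 x y < r' → y ∈ S.Kc ∧ S.ρ s y ≤ S.ρ s x + 1 ∧ |S.u s y - S.u s x| ≤ 1

/-- near the boundary the crude bounds suffice -/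
theorem rad_out (h : P.Ok) (hB : 2 ≤ P.B) (hB' : 32 * a0 P.K P.V P.K1 ^ 2 * P.L ≤ P.B)
    (hE : S.OE) {s : ℝ} (hs : s ∈ Icc S.t S.t') {Λ' : ℝ} (hΛ : 1 ≤ Λ') {x : M} (hx : x ∈ S.Kc)
    (h1 : S.σ / 2 ≤ S.ρ s x) (h2 : S.ρ s x ≤ S.σ) : Rad S s Λ' x (S.r / a0 P.K P.V P.K1) := by
  have ha := one_le_a0 h
  have ha2 := a0_sq h
  set b := a0 P.K P.V P.K1 with hb
  have hr := S.r_pos h
  have hr1 := S.r_le_one h
  have hb0 : 0 < b := by linarith
  have hbr : b * (S.r / b) = S.r := by field_simp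
  have ht : S.t ∈ Icc S.t S.t' := ⟨le_rfl, (S.t_lt h).le⟩
  have hs0 := Stp.nonneg h hs
  have hσ := S.σ0 h
  have hρ0 : 0 ≤ S.ρ s x := by linarith
  refine ⟨by positivity, by rw [div_le_one hb0]; linarith, ?_, fun y hy => ?_⟩
  · have hτ := h.τ_pos hs0
    have hτ' := h.τ_pos S.t0
    have h3 := Ψ_le_of h hρ0 hs0 hσ S.t0 hB
      (by linarith [h.ρs_mono S.t0 hs.1, h.one_le_ρs hs0]) (Stp.τ_le_two h hs)
    have h4 := BΨ_le h hρ0 hs0
    have h5 := S.τ_q h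
    have h6 := Stp.τ_le_two h hs
    have hq := S.q_pos h
    have hL := h.L0
    have hΨ := h.Ψ_pos hρ0 hs0
    have h7 : P.τ s * S.q ≤ 32 * P.L * P.Ψ (S.ρ s x) s := by
      calc P.τ s * S.q ≤ 2 * P.τ S.t * S.q := by gcongr
        _ = 2 * (P.L * P.Ψ S.σ S.t) := by rw [← h5]; ring
        _ ≤ 2 * (P.L * (16 * P.Ψ (S.ρ s x) s)) := by gcongr
        _ = _ := by ring
    have h8 : 1 / (S.r / b) ^ 2 = b ^ 2 * S.q := by unfold Stp.q; field_simp
    rw [h8]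
    refine le_trans ?_ (le_mul_of_one_le_left (Real.exp_pos _).le hΛ)
    refine le_trans ?_ h4
    rw [le_div_iff₀ hτ]
    calc b ^ 2 * S.q * P.τ s = b ^ 2 * (P.τ s * S.q) := by ring
      _ ≤ b ^ 2 * (32 * P.L * P.Ψ (S.ρ s x) s) := by gcongr
      _ = 32 * b ^ 2 * P.L * P.Ψ (S.ρ s x) s := by ring
      _ ≤ _ := by gcongr
  · have h3 := (abs_le.1 (Stp.crudeK h hs hx).oρ).1
    obtain ⟨h4, -, h5⟩ := Lo.lip_exit K0 S.cptK.isClosed (ρ := S.ρ S.t) (a := b)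
      (σ := S.σ + (P.K + 1) * S.r) (r := S.r / b) hb0
      (fun z hz => grLe h hE ht hz S.hρ.sm (Stp.crudeK h ht hz).gρ (exp_E_le h ht hz) ha2)
      (fun z hz hz' => Stp.Kc_mem_nhds h hz.1 hz') hx (by rw [hbr]; linarith) (y := y) hy
    have h6 := h5 (S.ρ s) b hb0.le fun z hz _ _ =>
      grLe h hE hs hz S.hρ.sm (Stp.crudeK h hs hz).gρ (exp_E_le h hs hz) ha2
    have h7 := h5 (S.u s) (b / S.r) (by positivity) fun z hz _ _ =>
      grLe h hE hs hz S.hu.sm (Stp.crudeK h hs hz).gu (exp_E_le h hs hz) (by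
        rw [div_pow, ← mul_div_assoc, div_mul_eq_mul_div]
        exact div_le_div_of_nonneg_right ha2 (by positivity))
    have h8 : b / S.r * (S.r / b) = 1 := by field_simp
    rw [hbr] at h6
    rw [h8] at h7
    exact ⟨h4, by linarith [(abs_le.1 h6).2], h7⟩

/-- deep inside the error of (g) is at most `1` -/
theorem err_small (h : P.Ok) (hB : 8 ≤ P.B) (hV : P.V ≤ P.B) (hK : 768 * P.K1 ≤ P.B) {s : ℝ}
    (hs : s ∈ Icc S.t S.t') {y : M} (hy : S.ρ s y ≤ S.σ / 2 + 1) :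
    P.K1 * P.τ s * S.q * S.E s y ≤ 1 := by
  have hr := S.r_pos h
  have hσ := S.B_le_σ h
  have hK1 := h.K10
  have hs0 := Stp.nonneg h hs
  have hτ := h.τ_pos hs0
  have hq := S.q_pos h
  set z := S.σ / (4 * S.r) with hz
  have hz0 : 0 < z := by have : 0 < S.σ := by linarith
                         positivity
  have h1 : S.E s y ≤ Real.exp (-z) := by
    rw [Stp.E_le_exp_iff h]
    have h2 := Stp.le_sg h hs
    have h3 := S.mul_r_le h hV
    have h4 : -z * S.r = -(S.σ / 4) := by rw [hz]; field_simp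
    linarith
  have h2 : z ^ 3 / 6 ≤ Real.exp z := by
    have := Real.pow_div_factorial_le_exp z hz0.le 3
    simpa [Nat.factorial] using this
  have h3 : P.τ s * S.r ≤ 2 := by
    have h4 := h.B2_r_le (S.σ0 h) S.t0
    change P.B ^ 2 * (1 + S.t) * S.r ≤ 1 at h4
    have h5 := Stp.τ_le_two h hs
    have h6 := h.τ_le (s := S.t)
    have h7 : (1 + S.t) * S.r ≤ P.B ^ 2 * ((1 + S.t) * S.r) :=
      le_mul_of_one_le_left (by have := S.t0; positivity) (one_le_pow₀ h.B1)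
    calc P.τ s * S.r ≤ 2 * (1 + S.t) * S.r := by gcongr; linarith
      _ ≤ 2 := by linarith
  have h4 : P.K1 * P.τ s * S.q ≤ Real.exp z := by
    refine le_trans ?_ h2
    have h5 : z ^ 3 / 6 = S.σ ^ 3 / 384 * S.q / S.r := by
      rw [hz]; unfold Stp.q; field_simp; ring
    rw [h5, le_div_iff₀ hr]
    have h6 : S.σ ≤ S.σ ^ 3 := le_self_pow₀ (by linarith) (by norm_num)
    calc P.K1 * P.τ s * S.q * S.r = P.K1 * (P.τ s * S.r) * S.q := by ring
      _ ≤ P.K1 * 2 * S.q := by gcongr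
      _ ≤ _ := by gcongr; linarith
  calc P.K1 * P.τ s * S.q * S.E s y ≤ Real.exp z * Real.exp (-z) :=
        mul_le_mul h4 h1 (Stp.E_pos s y).le (Real.exp_pos _).le
    _ = 1 := by rw [← Real.exp_add]; simp

/-- deep inside the gradient bound contained in (g) is used -/
theorem rad_in (h : P.Ok) (hB : 204 ≤ P.B) (hV : P.V ≤ P.B) (hK : 768 * P.K1 ≤ P.B) (hC : S.OC)
    (hE : S.OE) {s : ℝ} (hs : s ∈ Icc S.t S.t') {Λ' : ℝ} (hΛ : 1 ≤ Λ')
    (hG : ∀ y ∈ S.Kc, P.τ s * Gr (S.g s) (S.u s) y ≤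
      Λ' * P.Ψ (S.ρ s y) s + P.K1 * P.τ s * S.q * S.E s y)
    {x : M} (hx : x ∈ S.Kc) (h1 : S.ρ s x ≤ S.σ / 2) :
    Rad S s Λ' x (1 / √(204 * (Λ' * P.Ψ (S.ρ s x) s / P.τ s))) := by
  have hs0 := Stp.nonneg h hs
  have hτ := h.τ_pos hs0
  have hρ0 := (hC s hs x hx).1
  have hΨ := h.one_le_Ψ hρ0 hs0
  set Z := Λ' * P.Ψ (S.ρ s x) s / P.τ s with hZ
  have hZ1 : 1 ≤ Z := by
    rw [hZ, le_div_iff₀ hτ]
    have := τ_le_Ψ h hρ0 hs0
    nlinarith
  set b := √(204 * Z) with hb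
  have hb2 : b ^ 2 = 204 * Z := Real.sq_sqrt (by positivity)
  have hb5 : 5 ≤ b := Real.le_sqrt_of_sq_le (by linarith)
  have hb0 : 0 < b := by linarith
  refine ⟨by positivity, by rw [div_le_one hb0]; linarith, ?_, fun y hy => ?_⟩
  · have h4 := BΨ_le h hρ0 hs0
    calc 1 / (1 / b) ^ 2 = b ^ 2 := by field_simp
      _ = Λ' * (204 * P.Ψ (S.ρ s x) s / P.τ s) := by rw [hb2, hZ]; ring
      _ ≤ Λ' * (P.B * P.Ψ (S.ρ s x) s / P.τ s) := by gcongr
      _ ≤ _ := by gcongr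
  · have hcU : ContinuousOn (S.ρ s) S.U :=
      (smOn_of_SmST S.hρ.sm (Stp.mem_Icc h hs)).continuousOn
    have hF : IsClosed (S.Kc ∩ S.ρ s ⁻¹' Iic (S.ρ s x + 1)) :=
      (hcU.mono Stp.Kc_sub).preimage_isClosed_of_isClosed S.cptK.isClosed isClosed_Iic
    have he : ∀ z, S.ρ s z ≤ S.ρ s x + 1 → P.K1 * P.τ s * S.q * S.E s z ≤ 1 := fun z hz =>
      err_small h (by linarith) hV hK hs (by linarith)
    have he' : ∀ z, S.ρ s z ≤ S.ρ s x + 1 → P.K1 * S.E s z ≤ 1 := fun z hz => by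
      refine le_trans ?_ (he z hz)
      have h2 := Stp.one_le_τq h hs
      have h3 := mul_pos h.K10 (Stp.E_pos (S := S) s z)
      nlinarith
    have h5b : 5 * (1 / b) ≤ 1 := by rw [mul_one_div, div_le_one hb0]; exact hb5
    obtain ⟨h4, -, h5⟩ := Lo.lip_exit K0 hF (ρ := S.ρ s) (a := 5) (σ := S.ρ s x + 1) (r := 1 / b)
      (by norm_num) (fun z hz => Lp84.grLe h hC hE hs hz.1 (he' z hz.2))
      (fun z hz hz' => by
        have h2 : S.Kc ∈ 𝓝 z :=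
          Stp.Kc_mem_nhds' h hs hz.1.1 (by linarith [S.B_le_σ h, S.r_pos h])
        have h3 : ContinuousAt (S.ρ s) z := hcU.continuousAt (S.op.mem_nhds hz.1.1)
        filter_upwards [h2, h3.eventually (gt_mem_nhds hz')] with w hw hw'
        exact ⟨hw, le_of_lt hw'⟩)
      (x := x) ⟨hx, by change S.ρ s x ≤ _; linarith⟩ (by linarith) (y := y) hy
    have h7 := h5 (S.u s) b hb0.le fun z hz _ _ => by
      have hz2 : S.ρ s z ≤ S.ρ s x + 1 := hz.2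
      refine grLe h hE hs hz.1 S.hu.sm (β := 17 * Z) (c := 3) ?_
        ((Real.exp_le_exp.2 (he' z hz2)).trans (by linarith [Real.exp_one_lt_d9]))
        (by rw [hb2]; linarith)
      have h8 := hG z hz.1
      have h9 := Ψ_le_of h hρ0 hs0 (hC s hs z hz.1).1 hs0 (by linarith)
        (by linarith [h.one_le_ρs hs0]) (by linarith)
      have h10 := mul_le_mul_of_nonneg_left h9 (show 0 ≤ Λ' by linarith)
      have h11 : 1 ≤ Λ' * P.Ψ (S.ρ s x) s := one_le_mul_of_one_le_of_one_le hΛ hΨ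
      rw [hZ, ← mul_div_assoc, le_div_iff₀ hτ]
      linarith [he z hz2]
    rw [mul_one_div_cancel hb0.ne'] at h7
    exact ⟨h4.1, h4.2, h7⟩

/-- the constant in the bound for `Sf` -/
def c1 (C K V K1 N : ℝ) : ℝ := K1 * Em K V + 3 * C + K1 * (1 + C) * Em K V + N

/-- the lower bound -/
theorem lower (h : P.Ok) (hB1 : 6 + P.Cb * c1 P.Cb P.K P.V P.K1 n + P.K1 * Em P.K P.V ≤ P.B)
    (hB2 : 142 * P.Cb ^ 4 ≤ P.B) (hB3 : 2 * (P.K1 * Em P.K P.V) + 1 ≤ P.B) (hC : S.OC)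
    (hD : S.OD) (hE : S.OE) (hF : S.OF) {s : ℝ} (hs : s ∈ Icc S.t S.t') {Λ' : ℝ} (hΛ : 1 ≤ Λ')
    {x : M} (hx : x ∈ S.Kc) {r' : ℝ} (hr : Rad S s Λ' x r') :
    -(711 * (P.Cb ^ 5 * (1 + Real.log Λ') ^ 2 *
      ((S.ρ s x + P.ρs s) * P.ell (S.ρ s x) s))) ≤ S.u s x := by
  obtain ⟨hr0, hr1, hr2, hr3⟩ := hr
  obtain ⟨y, hy, hu⟩ := I.u0_ge a x r' hr0 hr1
  rw [S.hC] at hu
  obtain ⟨hyK, hyρ, hyu⟩ := hr3 y hy
  have hs0 := Stp.nonneg h hs
  have hρ0 := (hC s hs x hx).1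
  have hCb := h.Cb1
  have hK1 := h.K10
  have hEm := Em_pos P.K P.V
  have hEy : S.E s y ≤ Em P.K P.V := Stp.E_le h hs hyK
  set D := 2 + dK K0 p x with hDd
  set Λg := Real.log (D / r') with hΛg
  set X := S.ρ s x + P.ρs s with hX
  set l := P.ell (S.ρ s x) s with hl
  set μ := 1 + Real.log Λ' with hμ
  set e := P.K1 * Em P.K P.V with he
  have hD2 : 2 ≤ D := by linarith [Lp84.dK_nonneg (K0 := K0) p x]
  have hμ1 : 1 ≤ μ := by linarith [Real.log_nonneg hΛ]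
  have hl1 : 1 ≤ l := h.B1.trans (h.B_le_ell hρ0 hs0)
  have hXB : P.B ≤ X := by linarith [h.B_le_ρs hs0]
  have hX1 : 1 ≤ X := h.B1.trans hXB
  have hΛ0 : 0 ≤ Λg := Real.log_nonneg (by rw [le_div_iff₀ hr0]; linarith)
  have hΛ1 : Λg + 1 ≤ Real.log D + 2 * l + μ := by
    have h1 := Real.log_le_log (by positivity) hr2
    rw [Real.log_mul (by linarith) (Real.exp_pos _).ne', Real.log_exp,
      Real.log_div one_ne_zero (by positivity), Real.log_one, Real.log_pow] at h1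
    rw [hΛg, Real.log_div (by linarith) hr0.ne']
    push_cast at h1
    linarith
  have he1 : P.K1 * S.E s y ≤ e := mul_le_mul_of_nonneg_left hEy hK1.le
  have he2 : P.K1 * (1 + s) * S.E s y ≤ e * (1 + s) := by
    calc _ = P.K1 * S.E s y * (1 + s) := by ring
      _ ≤ _ := by gcongr
  have he3 : P.K1 * (1 + P.Cb) * S.E s y ≤ P.K1 * (1 + P.Cb) * Em P.K P.V := by gcongr
  -- `lv`, `Sf` at `y`
  have h1 : lv K0 (S.g s) y ≤
      3 * P.Cb + P.K1 * (1 + P.Cb) * Em P.K P.V + P.Cb * (S.ρ s x + D * Λg) := by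
    have h2 := (hD s hs y hyK).2.2 _ _ (Lp84.potC_u0 h S)
    have h3 : P.Cb * (2 + S.ρ s y) ≤ P.Cb * (3 + S.ρ s x) :=
      mul_le_mul_of_nonneg_left (by linarith) h.Cb0.le
    linarith
  have hc0 : 0 ≤ 3 * P.Cb + P.K1 * (1 + P.Cb) * Em P.K P.V := by positivity
  have h2 : Sf K0 (S.g s) (S.v s) s y ≤
      (1 + s) * c1 P.Cb P.K P.V P.K1 n + s * P.Cb * (S.ρ s x + D * Λg) := by
    have h3 := (hE s hs y hyK).2.2
    have h4 := mul_le_mul_of_nonneg_left h1 hs0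
    have h5 : (0 : ℝ) ≤ n := Nat.cast_nonneg n
    unfold Sf c1
    rw [← he]
    linarith
  have h3 := num_of (k := e) hCb hs0 hρ0 (by linarith) hΛ0
    (show 0 ≤ c1 P.Cb P.K P.V P.K1 n by unfold c1; positivity) h2 fun α hα => by
      have h4 := (hF s hs y hyK α hα).1 y
      rw [Lp84.zt_self y (by linarith)] at h4
      have h6 := Lp84.dK_tri (K0 := K0) p x y
      linarith
  have h4 : D ≤ 3 * X + 4 * (P.Cb ^ 2 * s * (Λg + 1)) := by
    have h5 : (6 + P.Cb * c1 P.Cb P.K P.V P.K1 n + e) * (1 + s) ≤ P.B * (1 + s) := by gcongr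
    linarith [h.lin_le_ρs hs0, h.one_le_ρs hs0]
  have h5 := num_D hCb hs0 (sq_le_X h hρ0 hs0) (s_ell_le h hρ0 hs0) hμ1 (by linarith) hΛ1 h4
  have h6 : Real.log D ≤ l + μ := by
    have h7 := Real.log_le_log (by linarith) (show D ≤ 142 * P.Cb ^ 4 * X * μ by linarith)
    rw [Real.log_mul (by positivity) (by linarith), Real.log_mul (by positivity) (by linarith)]
      at h7
    have h8 := Real.log_le_sub_one_of_pos (show 0 < 142 * P.Cb ^ 4 by positivity)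
    have h9 := Real.log_le_sub_one_of_pos (show 0 < μ by linarith)
    have h10 := h.log_τ_nonneg hs0
    have h11 : l = Real.log X + P.B + Real.log (1 + 1 / P.τ s) := rfl
    linarith
  have h7 : Λg ≤ 5 * (l * μ) := by
    have h8 : l ≤ l * μ := le_mul_of_one_le_right (by linarith) hμ1
    have h9 : μ ≤ l * μ := le_mul_of_one_le_left (by linarith) hl1
    linarith
  have h8 : P.Cb * D * Λg ≤ 710 * (P.Cb ^ 5 * μ ^ 2 * (X * l)) := by
    calc P.Cb * D * Λg ≤ P.Cb * (142 * (P.Cb ^ 4 * X * μ)) * (5 * (l * μ)) := by gcongr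
      _ = _ := by ring
  have h9 : X ≤ P.Cb ^ 5 * μ ^ 2 * (X * l) := by
    calc X ≤ X * l := le_mul_of_one_le_right (by linarith) hl1
      _ ≤ _ := le_mul_of_one_le_left (by positivity)
        (one_le_mul_of_one_le_of_one_le (one_le_pow₀ hCb) (one_le_pow₀ hμ1))
  have h10 := (hD s hs y hyK).1
  have h11 := (hE s hs y hyK).2.1
  have h12 := (abs_le.1 hyu).2
  linarith

/-- the upper bound -/
theorem upper (h : P.Ok) (hB : 2 * P.Cb + P.K1 * (1 + P.Cb) ≤ P.B) (hC : S.OC) (hD : S.OD) {s : ℝ}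
    (hs : s ∈ Icc S.t S.t') {x : M} (hx : x ∈ S.Kc) (hE : S.E s x ≤ 1) :
    S.u s x ≤ (S.ρ s x + P.ρs s) * P.ell (S.ρ s x) s := by
  have hs0 := Stp.nonneg h hs
  have hρ0 := (hC s hs x hx).1
  have hCb := h.Cb1
  have hK1 := h.K10
  have h1 := (hD s hs x hx).2.1
  have h0 : 0 ≤ P.K1 * (1 + P.Cb) := by positivity
  have h2 := mul_le_mul_of_nonneg_left hE h0
  have h3 := h.one_le_ρs hs0
  have h4 : (S.ρ s x + P.ρs s) * P.B ≤ (S.ρ s x + P.ρs s) * P.ell (S.ρ s x) s :=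
    mul_le_mul_of_nonneg_left (h.B_le_ell hρ0 hs0) (by linarith)
  have h5 : S.ρ s x * P.Cb ≤ S.ρ s x * P.B := mul_le_mul_of_nonneg_left (by linarith) hρ0
  have h6 : P.B ≤ P.ρs s * P.B := le_mul_of_one_le_left h.B0.le h3
  linarith

end Ll45

open Ll45 in
/-- **leaf Ll** -/
theorem llStmt (n : ℕ) : LlStmt n := by
  unfold LlStmt Leaf
  refine Ev.of_thr (fun Cb => (64 * n * 711 ^ 2 * 4096 * Cb ^ 10) ^ 2) (fun _ _ => 0)
    (fun _ _ _ => 0)
    (fun Cb K V K1 _ L => 204 + V + 768 * K1 + 32 * a0 K V K1 ^ 2 * L +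
      (6 + Cb * c1 Cb K V K1 n + K1 * Em K V) + 142 * Cb ^ 4 + (2 * (K1 * Em K V) + 1) +
      (2 * Cb + K1 * (1 + Cb))) ?_
  intro P h hΛ _ _ hB M _ _ _ A K0 p I a S hC hD hE hF s hs Λ' hΛ' hG x hx hE3
  have hCb := h.Cb1
  have e1 := h.V0
  have e2 := h.K10
  have e0 := h.L0
  have hEm := Em_pos P.K P.V
  have e3 : 0 ≤ 32 * a0 P.K P.V P.K1 ^ 2 * P.L := by positivity
  have e4 : 0 ≤ P.Cb * c1 P.Cb P.K P.V P.K1 n := by unfold c1; positivity
  have e5 : 0 ≤ P.K1 * Em P.K P.V := by positivity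
  have e6 : 0 ≤ P.Cb ^ 4 := by positivity
  have e7 : 0 ≤ P.K1 * (1 + P.Cb) := by positivity
  have hΛ1 : 1 ≤ Λ' := h.Λ1.trans hΛ'
  have hs0 := Stp.nonneg h hs
  have hρ0 := (hC s hs x hx).1
  have hE1 : S.E s x ≤ 1 := by linarith
  obtain ⟨r', hr⟩ : ∃ r', Rad S s Λ' x r' := by
    rcases le_total (S.σ / 2) (S.ρ s x) with h1 | h1
    · exact ⟨_, rad_out h (by linarith) (by linarith) hE hs hΛ1 hx h1
        (((Stp.E_le_one_iff h).1 hE1).trans (Stp.sg_le h hs))⟩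
    · exact ⟨_, rad_in h (by linarith) (by linarith) (by linarith) hC hE hs hΛ1 hG hx h1⟩
  have h1 := lower h (by linarith) (by linarith) (by linarith) hC hD hE hF hs hΛ1 hx hr
  have h2 := upper h (by linarith) hC hD hs hx hE1
  refine num_fin (C := P.Cb) (Nat.cast_nonneg n) hΛ1 (hΛ.trans hΛ') (abs_le.2 ⟨h1, h2.trans ?_⟩)
  have h3 : 0 ≤ (S.ρ s x + P.ρs s) * P.ell (S.ρ s x) s :=
    mul_nonneg (by linarith [h.one_le_ρs hs0]) (h.ell_pos hρ0 hs0).le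
  have h4 : 1 ≤ 1 + Real.log Λ' := by linarith [Real.log_nonneg hΛ1]
  have h5 := le_mul_of_one_le_left h3
    (one_le_mul_of_one_le_of_one_le (one_le_pow₀ (n := 5) hCb) (one_le_pow₀ (n := 2) h4))
  linarith

end

end Crest.Agent.T223.Os
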