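import Crest.Agent.T223.LxHB2_25

/-!
# Row 223 (helper25): higher order bounds, nonlinear equations (`QlHB`, `QlHB2`, `FnHB`)
-/

set_option autoImplicit false
set_option linter.unusedSectionVars false

open Set Metric Filter Topology
open scoped ContDiff

noncomputable section

namespace Crest.Agent.T223.Lx

open Crest.Agent.N207 Crest.Agent.N207.P

variable {n : ℕ} {V : Type} [NormedAddCommGroup V] [NormedSpace ℝ V]

theorem yl_comp {W : Type} [NormedAddCommGroup W] [NormedSpace ℝ W] {α β : ℝ} (hab : α < β)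
    {U : Set (En n)} (hU : IsOpen U) {O : Set W} (hO : IsOpen O) {F : W → V}
    (hF : ContDiffOn ℝ ∞ F O) {m : ℕ} {w : ℝ → En n → W} (h : Yl (Icc α β) U m w)
    (hw : ∀ t ∈ Icc α β, ∀ y ∈ U, w t y ∈ O) : Yl (Icc α β) U m (fun t y => F (w t y)) :=
  Yl.comp (Φ := fun q => F q.2) isCompact_Icc (uniqueDiffOn_Icc hab) hU hO
    (hF.comp contDiffOn_snd fun _ hq => hq.2) h hw

theorem lip_compact {W : Type} [NormedAddCommGroup W] [NormedSpace ℝ W] {O K : Set W}
    (hO : IsOpen O) (hK : IsCompact K) (hKO : K ⊆ O) {F : W → V} (hF : ContDiffOn ℝ ∞ F O) :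
    ∃ L : ℝ, 0 ≤ L ∧ ∀ x ∈ K, ∀ y ∈ K, ‖F x - F y‖ ≤ L * ‖x - y‖ := by
  obtain ⟨L, hL⟩ := LocallyLipschitzOn.exists_lipschitzOnWith_of_compact (f := F) hK fun x hx => by
    obtain ⟨L, t, ht, hL⟩ :=
      ((hF.contDiffAt (hO.mem_nhds (hKO hx))).of_le (by simp)).exists_lipschitzOnWith
    exact ⟨L, t, mem_nhdsWithin_of_mem_nhds ht, hL⟩
  exact ⟨L, L.2, fun x hx y hy => hL.norm_sub_le hx hy⟩

section ql

variable {ι : Type} {O K0 : Set V} {A : V → Matrix (Fin n) (Fin n) ℝ} {B : V × (Fin n → V) → V}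
  {R : ℝ} {α β : ι → ℝ} {u : ι → ℝ → En n → V}

theorem QlF.ub0 (h : QlF O K0 A B R α β u) : UBt (fun i => Icc (α i) (β i)) R 0 u := by
  obtain ⟨K, hK⟩ := h.grad
  obtain ⟨C, hC⟩ := h.cpt.isBounded.exists_norm_le
  exact ub_zero_of_pd (fun p y hy => hC _ (h.mem _ _ p.2 y hy))
    (fun p y hy => (h.uy _ 1).diff p.2 hy)
    fun k => ⟨K, fun p y hy => (pd_le_d1 _ _ _).trans (hK _ _ p.2 y hy)⟩

theorem QlF.ya (h : QlF O K0 A B R α β u) (i : ι) (m : ℕ) (k l : Fin n) :
    Yl (Icc (α i) (β i)) (ball 0 R) m (fun t y => A (u i t y) k l) :=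
  yl_comp (h.lt i) isOpen_ball h.opn (h.sa k l) (h.uy i m)
    fun t ht y hy => h.sub (h.mem i t ht y hy)

theorem QlF.yb (h : QlF O K0 A B R α β u) (i : ι) (m : ℕ) :
    Yl (Icc (α i) (β i)) (ball 0 R) m (fun t y => B (u i t y, d1 (u i t) y)) :=
  yl_comp (h.lt i) isOpen_ball (h.opn.prod isOpen_univ) h.sb
    ((h.uy i m).prod isOpen_ball (Yl.pi isOpen_ball fun k => (h.uy i (m + 1)).pd k))
    fun t ht y hy => ⟨h.sub (h.mem i t ht y hy), mem_univ _⟩

variable [FiniteDimensional ℝ V] [CompleteSpace V] {a0 : Matrix (Fin n) (Fin n) ℝ} {δ : ℝ}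

theorem Semi.ql0 (hS : Semi V a0 δ) {r θ : ℝ} (hr : r < R) (hθ : 0 < θ)
    (h : QlF O K0 A B R α β u) (cl : ∀ q ∈ K0, ∀ k l, |A q k l - a0 k l| ≤ δ) :
    UBt (fun i => Icc (α i + θ) (β i)) r 2 u := by
  have hU : IsOpen (ball (0 : En n) R) := isOpen_ball
  have : ProperSpace (Fin n → V) := FiniteDimensional.proper_real _
  obtain ⟨K, hK⟩ := h.grad
  have hK1 : IsCompact (K0 ×ˢ closedBall (0 : Fin n → V) K) := h.cpt.prod (isCompact_closedBall _ _)
  have hK2 : K0 ×ˢ closedBall (0 : Fin n → V) K ⊆ O ×ˢ univ := prod_mono h.sub (subset_univ _)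
  have hm : ∀ i, ∀ t ∈ Icc (α i) (β i), ∀ y ∈ ball (0 : En n) R,
      (u i t y, d1 (u i t) y) ∈ K0 ×ˢ closedBall (0 : Fin n → V) K := fun i t ht y hy =>
    ⟨h.mem i t ht y hy, mem_closedBall_zero_iff.2 (hK i t ht y hy)⟩
  obtain ⟨LB, hLB0, hLB⟩ := lip_compact (h.opn.prod isOpen_univ) hK1 hK2 h.sb
  obtain ⟨KB, hKB⟩ := hK1.exists_bound_of_continuousOn (h.sb.continuousOn.mono hK2)
  obtain ⟨Ku, hKu⟩ := UB.bdd h.ub0
  have yt : ∀ i m, Yl (Icc (α i) (β i)) (ball (0 : En n) R) m (fun t _ => t - α i) :=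
    fun i m => yl_time (by fun_prop)
  have c2 : ∀ i, ∀ t ∈ Icc (α i) (β i), ∀ y ∈ ball (0 : En n) R, ContDiffAt ℝ 2 (u i t) y :=
    fun i t ht y hy => ((h.uy i 2).contDiffOn hU t ht).contDiffAt (hU.mem_nhds hy)
  have key := hS ι R ((r + R) / 2) r α β (fun i t y => A (u i t y))
    (fun i t y => u i t y + (t - α i) • B (u i t y, d1 (u i t) y))
    (fun i t y => (t - α i) • u i t y) (by linarith) (by linarith) h.lt h.len
    (fun i => (yt i 2).smul isCompact_Icc hU (h.uy i 2)) (fun i => h.ya i 0)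
    (fun i => (h.uy i 0).add hU ((yt i 0).smul isCompact_Icc hU (h.yb i 0))) (fun i y _ => by simp)
    (fun i t ht y hy => ?_) (fun i t ht y hy => cl _ (h.mem i t ht y hy))
    (fun k l => UB.comp h.opn h.cpt h.sub (fun p y hy => h.mem _ _ p.2 y hy) (h.sa k l) h.ub0)
    ⟨Ku, fun i t ht y hy => ?_⟩ ?_
  · exact UBt.unscale hθ key fun _ _ _ _ _ => rfl
  · have h1 := ((hasDerivWithinAt_id t _).sub_const (α i)).smul (h.ev i t ht y hy)
    refine h1.congr_deriv ?_
    beta_reduce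
    have h2 := lop_aff (c2 i t ht y hy) (t - α i) 0 (A (u i t y))
    simp only [sub_zero] at h2
    rw [h2]
    simp only [id]
    module
  · rw [norm_smul, Real.norm_eq_abs]
    have := mul_le_mul (abs_sub_le_one (h.len i) ht) (hKu ⟨(i, t), ht⟩ y hy) (norm_nonneg _)
      zero_le_one
    rwa [one_mul] at this
  · obtain ⟨L, hL0, hL⟩ := wh_of_ub (UB.mono (r' := (r + R) / 2) (by linarith) h.ub0)
    have hs : ball (0 : En n) ((r + R) / 2) ⊆ ball 0 R := ball_subset_ball (by linarith)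
    have hKB0 : 0 ≤ |KB| := abs_nonneg _
    refine ⟨L + |KB| + 2 * LB, by positivity, fun i t ht X hX hw => ⟨?_, ?_⟩⟩
    · refine ((hL ⟨(i, t), ht⟩).1.add (ws_of_le (A := |KB|) fun y hy => ?_)).mono (by nlinarith)
      rw [norm_smul, Real.norm_eq_abs]
      have := mul_le_mul (abs_sub_le_one (h.len i) ht)
        ((hKB _ (hm i t ht y (hs hy))).trans (le_abs_self _)) (norm_nonneg _) zero_le_one
      rwa [one_mul] at this
    · refine ((hL ⟨(i, t), ht⟩).2.add (c' := 2 * LB * X) fun s y y' hy hy' => ?_).mono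
        (by nlinarith)
      have m1 := hs hy.mem
      have m2 := hs hy'.mem
      have h1 := hLB _ (hm i t ht y m1) _ (hm i t ht y' m2)
      have h2 := hw.2.2.1 s y y' hy hy'
      have h3 := hw.2.2.2 s y y' hy hy'
      have e : ∀ z ∈ ball (0 : En n) R, d1 (fun y => (t - α i) • u i t y) z
          = (t - α i) • d1 (u i t) z := fun z hz =>
        funext fun k => pd_smul_c _ ((h.uy i 1).diff ht hz) k
      rw [e y m1, e y' m2, ← smul_sub, norm_smul] at h2
      rw [← smul_sub, norm_smul] at h3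
      rw [← smul_sub, norm_smul]
      have h4 : ‖(u i t y, d1 (u i t) y) - (u i t y', d1 (u i t) y')‖ ≤
          ‖u i t y - u i t y'‖ + ‖d1 (u i t) y - d1 (u i t) y'‖ := by
        rw [Prod.mk_sub_mk, Prod.norm_def]
        exact max_le (le_add_of_nonneg_right (norm_nonneg _))
          (le_add_of_nonneg_left (norm_nonneg _))
      have h5 : 0 ≤ s ^ 3 * ‖t - α i‖ := mul_nonneg (pow_nonneg hy.1.le 3) (norm_nonneg _)
      have h6 := mul_le_mul_of_nonneg_left (h1.trans (mul_le_mul_of_nonneg_left h4 hLB0)) h5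
      have h7 := mul_le_mul_of_nonneg_left (add_le_add h2 h3) hLB0
      nlinarith

theorem Semi.ql (hS : Semi V a0 δ) (h : QlF O K0 A B R α β u)
    (cl : ∀ q ∈ K0, ∀ k l, |A q k l - a0 k l| ≤ δ) : ∀ (m : ℕ) {r θ : ℝ}, 0 < r → r < R → 0 < θ →
    UBt (fun i => Icc (α i + θ) (β i)) r (m + 2) u := by
  have : ProperSpace (Fin n → V) := FiniteDimensional.proper_real _
  intro m
  induction m with
  | zero => exact fun _ hr hθ => hS.ql0 hr hθ h cl
  | succ m ih =>
    intro r θ hr0 hr hθ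
    have h1 := ih (r := (r + R) / 2) (θ := θ / 2) (by linarith) (by linarith) (by linarith)
    have h2 : UBt (ι := {i // α i + θ / 2 < β i}) (fun i => Icc (α i.1 + θ / 2) (β i.1))
        ((r + R) / 2) (m + 2) (fun i => u i.1) := h1.sub fun i t ht => ⟨i.1, ht, rfl⟩
    have hs : ∀ i, Icc (α i + θ / 2) (β i) ⊆ Icc (α i) (β i) := fun i =>
      Icc_subset_Icc_left (by linarith)
    have hs2 : ∀ i, Icc (α i + θ) (β i) ⊆ Icc (α i) (β i) := fun i =>
      Icc_subset_Icc_left (by linarith)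
    have hb : ball (0 : En n) ((r + R) / 2) ⊆ ball 0 R := ball_subset_ball (by linarith)
    have hb' : ball (0 : En n) r ⊆ ball 0 R := ball_subset_ball hr.le
    obtain ⟨K, hK⟩ := h.grad
    have hF : LinF (ι := {i // α i + θ / 2 < β i}) a0 δ ((r + R) / 2) (m + 1)
        (fun i => α i.1 + θ / 2) (fun i => β i.1) (fun i t y => A (u i.1 t y))
        (fun i t y => B (u i.1 t y, d1 (u i.1 t) y)) (fun i => u i.1) :=
      { lt := fun i => i.2
        len := fun i => by linarith [h.len i.1]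
        uy := fun i => (h.uy i.1 _).mono (hs _) hb
        ay := fun i k l => (h.ya i.1 _ k l).mono (hs _) hb
        fy := fun i => (h.yb i.1 _).mono (hs _) hb
        ev := fun i t ht y hy => (h.ev i.1 t (hs _ ht) y (hb hy)).mono (hs _)
        cl := fun i t ht y hy => cl _ (h.mem i.1 t (hs _ ht) y (hb hy))
        ab := fun k l => UB.comp h.opn h.cpt h.sub
          (fun p y hy => h.mem _ _ (hs _ p.2) y (hb hy)) (h.sa k l) (UB.pred h2)
        fb := UB.comp (h.opn.prod isOpen_univ)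
          (h.cpt.prod (isCompact_closedBall (0 : Fin n → V) K)) (prod_mono h.sub (subset_univ _))
          (fun p y hy => ⟨h.mem _ _ (hs _ p.2) y (hb hy),
            mem_closedBall_zero_iff.2 (hK _ _ (hs _ p.2) y (hb hy))⟩) h.sb
          ((UB.pred h2).prod (UB.d1 h2)) }
    have h4 := hS.linHBi (m + 1) (r := r) (θ := θ / 2) hr0 (by linarith) (by linarith) hF
      ⟨K, fun i t ht y hy => hK _ _ (hs _ ht) y (hb hy)⟩
    obtain ⟨Ku, hKu⟩ := UB.bdd h.ub0
    exact ub_succ (fun p y hy => hKu ⟨p.1, hs2 _ p.2⟩ y (hb' hy))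
      (fun p y hy => (h.uy _ 1).diff (hs2 _ p.2) (hb' hy))
      fun k => UBt.late (u := fun i t => pd k (u i t)) hθ (h4 k)

end ql

theorem qlHB [FiniteDimensional ℝ V] (h : ISStep n V) (hI : IntStmt n V) : QlHB n V := by
  have : CompleteSpace V := FiniteDimensional.complete ℝ V
  intro a0 ha0
  obtain ⟨δ, hδ, hS⟩ := semi h hI ha0
  exact ⟨δ, hδ, fun ι O K0 A B R r θ m α β u hr0 hr hθ hF cl =>
    UB.of_le (by omega) (hS.ql hF cl m hr0 hr hθ)⟩

theorem yl_shift {I : Set ℝ} {R σ : ℝ} {c : En n} (hc : ‖c‖ + σ ≤ R) : ∀ {m : ℕ}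
    {f : ℝ → En n → V}, Yl I (ball 0 R) m f → Yl I (ball 0 σ) m (fun t y => f t (c + y)) := by
  have hc' : ∀ {f : ℝ → En n → V}, ContinuousOn (fun q : ℝ × En n => f q.1 q.2) (I ×ˢ ball 0 R) →
      ContinuousOn (fun q : ℝ × En n => f q.1 (c + q.2)) (I ×ˢ ball 0 σ) := fun h =>
    h.comp (f := fun q : ℝ × En n => (q.1, c + q.2)) (by fun_prop)
      fun q hq => ⟨hq.1, add_mem_ball hc hq.2⟩
  intro m
  induction m with
  | zero =>
    intro f h
    refine ⟨hc' h.1, fun y0 hy0 => ?_⟩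
    obtain ⟨r, hr, K, hK⟩ := h.2 _ (add_mem_ball hc hy0)
    refine ⟨r, hr, K, fun t ht y hy y' hy' => ?_⟩
    have := hK t ht (c + y) (by simpa using hy) (c + y') (by simpa using hy')
    rwa [dist_add_left] at this
  | succ m ih =>
    intro f h
    refine ⟨hc' h.1, fun t ht y hy => (h.diff ht (add_mem_ball hc hy)).comp y
      ((differentiableAt_const c).add differentiableAt_id), fun k => ?_⟩
    have e : (fun t => pd k fun y => f t (c + y)) = fun t y => pd k (f t) (c + y) :=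
      funext fun t => funext fun y => pd_shift _ _ _ _
    rw [e]
    exact ih (f := fun t => pd k (f t)) (h.pd k)

theorem d1_shift (f : En n → V) (c y : En n) : d1 (fun z => f (c + z)) y = d1 f (c + y) :=
  funext fun k => pd_shift f c y k

theorem lop_shift (A : Matrix (Fin n) (Fin n) ℝ) (f : En n → V) (c y : En n) :
    Lop A (fun z => f (c + z)) y = Lop A f (c + y) := by
  have e : ∀ l, (pd l fun z => f (c + z)) = fun z => pd l f (c + z) := fun l =>
    funext fun z => pd_shift f c z l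
  simp only [Lop, e, pd_shift]

theorem qlHB2_of [FiniteDimensional ℝ V] (hQ : QlHB n V) : QlHB2 n V := by
  intro ι O K0 A B R r θ m α β u hr0 hr hθ h hpos ⟨KT, hKT⟩
  have : ProperSpace V := FiniteDimensional.proper_real _
  have h1 : ∀ q : K0, ∃ ρ, 0 < ρ ∧ ∀ (κ : Type) (R r θ : ℝ) (α β : κ → ℝ)
      (u : κ → ℝ → En n → V), 0 < r → r < R → 0 < θ →
      QlF O (K0 ∩ closedBall q.1 (2 * ρ)) A B R α β u →
      UBt (fun i => Icc (α i + θ) (β i)) r m u := by
    intro q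
    obtain ⟨δ, hδ, hq⟩ := hQ (A q.1) (hpos _ q.2)
    have h2 : ∀ᶠ x in 𝓝 q.1, ∀ k l, |A x k l - A q.1 k l| ≤ δ :=
      eventually_all.2 fun k => eventually_all.2 fun l =>
        ((h.sa k l).continuousOn.continuousAt (h.opn.mem_nhds (h.sub q.2))).eventually
          (closedBall_mem_nhds _ hδ)
    obtain ⟨ε, hε, h3⟩ := nhds_basis_closedBall.mem_iff.1 h2
    refine ⟨ε / 2, by linarith, fun κ R r θ α β u hr0 hr hθ hF =>
      hq κ O _ A B R r θ m α β u hr0 hr hθ hF fun x hx => h3 ?_⟩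
    have := hx.2
    rwa [show 2 * (ε / 2) = ε by ring] at this
  choose ρ hρ H using h1
  obtain ⟨T, hT⟩ := h.cpt.elim_finite_subcover (fun q : K0 => ball q.1 (ρ q))
    (fun _ => isOpen_ball) fun x hx => mem_iUnion.2 ⟨⟨x, hx⟩, mem_ball_self (hρ _)⟩
  obtain ⟨ρ0, hρ0, hρ1⟩ : ∃ ρ0, 0 < ρ0 ∧ ∀ q ∈ T, ρ0 ≤ ρ q := by
    have : ∀ᶠ x in 𝓝[>] (0 : ℝ), ∀ q ∈ T, x ≤ ρ q :=
      (eventually_all_finset T).2 fun q _ => mem_nhdsWithin_of_mem_nhds (Iic_mem_nhds (hρ q))
    obtain ⟨x, hx, hx0⟩ := (this.and self_mem_nhdsWithin).exists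
    exact ⟨x, hx0, hx⟩
  obtain ⟨K, hK⟩ := h.grad
  have hKn : 0 ≤ n * |K| := by positivity
  have lip : ∀ i, ∀ t ∈ Icc (α i) (β i), ∀ y ∈ ball (0 : En n) R, ∀ y' ∈ ball (0 : En n) R,
      ‖u i t y - u i t y'‖ ≤ n * |K| * dist y y' := fun i t ht y hy y' hy' =>
    lip_of_d1 (convex_ball 0 R) (fun z hz => (h.uy i 1).diff ht hz)
      (fun z hz => (hK i t ht z hz).trans (le_abs_self _)) hy hy'
  set σ := min (R - r) (ρ0 / 2 / (n * |K| + 1)) with hσ
  have hσ0 : 0 < σ := lt_min (by linarith) (by positivity)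
  have hσ1 : n * |K| * σ ≤ ρ0 / 2 := by
    have : σ * (n * |K| + 1) ≤ ρ0 / 2 := (le_div_iff₀ (by positivity)).1 (min_le_right _ _)
    nlinarith
  set τ := min (min θ 1) (ρ0 / 2 / (|KT| + 1)) with hτ
  have hτ0 : 0 < τ := lt_min (lt_min hθ one_pos) (by positivity)
  have hτθ : τ ≤ θ := (min_le_left _ _).trans (min_le_left _ _)
  have hτ1 : τ ≤ 1 := (min_le_left _ _).trans (min_le_right _ _)
  have hτ2 : |KT| * τ ≤ ρ0 / 2 := by
    have : τ * (|KT| + 1) ≤ ρ0 / 2 := (le_div_iff₀ (by positivity)).1 (min_le_right _ _)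
    nlinarith
  refine ub_glue' (ρ := σ / 2) (by linarith) (ub_of_cover (α := T)
    (fun q p => u p.1.1.1 p.1.1.2 p.2.1 ∈ ball q.1.1 (ρ q.1)) (fun p => ?_) fun q => ?_)
  · have hp := p.1.2
    obtain ⟨q, hq, h2⟩ := mem_iUnion₂.1 (hT (h.mem _ _ ⟨by linarith [hp.1], hp.2⟩ _
      (ball_subset_ball hr.le p.2.2)))
    exact ⟨⟨q, hq⟩, h2⟩
  · let κ := {p : {p : ι × ℝ // p.2 ∈ Icc (α p.1 + θ) (β p.1)} × ball (0 : En n) r //
      u p.1.1.1 p.1.1.2 p.2.1 ∈ ball q.1.1 (ρ q.1)}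
    have hs : ∀ p : κ, Icc (p.1.1.1.2 - τ) p.1.1.1.2 ⊆ Icc (α p.1.1.1.1) (β p.1.1.1.1) :=
      fun p => Icc_subset_Icc (by linarith [p.1.1.2.1]) p.1.1.2.2
    have hc : ∀ p : κ, ‖p.1.2.1‖ + σ ≤ R := fun p => by
      have := mem_ball_zero_iff.1 p.1.2.2
      have : σ ≤ R - r := min_le_left _ _
      linarith
    have hF : QlF O (K0 ∩ closedBall q.1.1 (2 * ρ q.1)) A B σ (fun p : κ => p.1.1.1.2 - τ)
        (fun p : κ => p.1.1.1.2) (fun p t y => u p.1.1.1.1 t (p.1.2.1 + y)) :=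
      { opn := h.opn
        cpt := h.cpt.inter_right isClosed_closedBall
        sub := inter_subset_left.trans h.sub
        sa := h.sa
        sb := h.sb
        lt := fun p => by linarith
        len := fun p => by linarith
        uy := fun p m => (yl_shift (hc p) (h.uy _ m)).mono (hs p) subset_rfl
        ev := fun p t ht y hy => by
          beta_reduce
          rw [lop_shift, d1_shift]
          exact (h.ev _ t (hs p ht) _ (add_mem_ball (hc p) hy)).mono (hs p)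
        mem := fun p t ht y hy => by
          refine ⟨h.mem _ t (hs p ht) _ (add_mem_ball (hc p) hy), ?_⟩
          have hy0 : p.1.2.1 ∈ ball (0 : En n) R := ball_subset_ball hr.le p.1.2.2
          have e1 := lip _ t (hs p ht) _ (add_mem_ball (hc p) hy) _ hy0
          have e2 := hKT _ t (hs p ht) _ (hs p ⟨by linarith, le_rfl⟩) _ hy0
          have e3 := mem_ball.1 p.2
          have e4 : dist (p.1.2.1 + y) p.1.2.1 ≤ σ := by
            rw [dist_self_add_left]; exact (mem_ball_zero_iff.1 hy).le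
          have e5 : |t - p.1.1.1.2| ≤ τ := abs_le.2 ⟨by linarith [ht.1], by linarith [ht.2]⟩
          have e6 : KT * |t - p.1.1.1.2| ≤ |KT| * τ :=
            mul_le_mul (le_abs_self _) e5 (abs_nonneg _) (abs_nonneg _)
          have e7 := mul_le_mul_of_nonneg_left e4 hKn
          have e8 := hρ1 _ q.2
          rw [← dist_eq_norm] at e1 e2
          have e9 := dist_triangle4 (u p.1.1.1.1 t (p.1.2.1 + y)) (u p.1.1.1.1 t p.1.2.1)
            (u p.1.1.1.1 p.1.1.1.2 p.1.2.1) q.1.1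
          rw [mem_closedBall]
          linarith
        grad := ⟨K, fun p t ht y hy => by
          rw [d1_shift]; exact hK _ t (hs p ht) _ (add_mem_ball (hc p) hy)⟩ }
    exact UB.reindex (fun p : κ => (⟨(p, p.1.1.1.2), ⟨by simp, le_rfl⟩⟩ :
      {x : κ × ℝ // x.2 ∈ Icc (x.1.1.1.1.2 - τ + τ) x.1.1.1.1.2}))
      (H q.1 κ σ (σ / 2) τ _ _ _ (by linarith) (by linarith) hτ0 hF)

theorem qlHB2 [FiniteDimensional ℝ V] (h : ISStep n V) (hI : IntStmt n V) : QlHB2 n V :=
  qlHB2_of (qlHB h hI)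

end Crest.Agent.T223.Lx
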