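import Crest.Agent.T223.LxLoc_83

/-!
# Row 223 (helper83): the weighted interior Schauder estimate
-/

set_option autoImplicit false
set_option linter.unusedSectionVars false

open Set Metric Filter Topology
open scoped ContDiff

noncomputable section

namespace Crest.Agent.T223.Lx

open Crest.Agent.N207 Crest.Agent.N207.P

theorem LinD.c2 {n : ℕ} {V : Type*} [NormedAddCommGroup V] [NormedSpace ℝ V]
    {a0 : Matrix (Fin n) (Fin n) ℝ} {δ K α β : ℝ} {S : Set (En n)}
    {a : ℝ → En n → Matrix (Fin n) (Fin n) ℝ} {f w : ℝ → En n → V} {A c B : ℝ}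
    (h : LinD a0 δ K α β S a f w A c B) {t : ℝ} (ht : t ∈ Icc α β) : ContDiffOn ℝ 2 (w t) S :=
  h.w2.contDiffOn h.opn t ht

set_option maxHeartbeats 1000000 in
theorem isStep (n : ℕ) (V : Type) [NormedAddCommGroup V] [NormedSpace ℝ V] [CompleteSpace V] :
    ISStep n V := by
  intro a0 ha
  obtain ⟨C1, hC1, hloc⟩ := loc_est (V := V) ha
  obtain ⟨CI, hCI, hint⟩ := intStmt n V
  have C10 : 0 < C1 := by linarith
  set δ : ℝ := 1 / (128 * C1) with hδ
  have δ0 : 0 < δ := by positivity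
  have δ1 : 2 * δ ≤ 1 := by
    rw [hδ, mul_one_div, div_le_one (by positivity)]; linarith
  refine ⟨δ, δ0, fun K => ?_⟩
  set l : ℝ := min (1 / 4) (δ / (|K| + 1)) with hl
  have l0 : 0 < l := by positivity
  have l1 : l ≤ 1 / 4 := min_le_left _ _
  have l2 : l * (|K| + 1) ≤ δ := (le_div_iff₀ (by positivity)).1 (min_le_right _ _)
  set η : ℝ := l / (64 * C1) with hη
  have η0 : 0 < η := by positivity
  have η1 : η ≤ 1 := by rw [hη, div_le_one (by positivity)]; linarith
  set D : ℝ := CI / η ^ 4 with hD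
  have D0 : 0 ≤ D := by positivity
  set C : ℝ := C1 * (8 / l + 8 + 8 * D / l + 1 / l ^ 5) with hC
  have p1 : 0 ≤ 8 / l := by positivity
  have p2 : 0 ≤ 8 * D / l := by positivity
  have p3 : 0 ≤ 1 / l ^ 5 := by positivity
  refine ⟨C, by nlinarith, fun α β S a f w A c B N h N0 hN t ht => ?_⟩
  have A0 := h.A0
  have c0 := h.c0
  have B0 := h.B0
  set Q : ℝ := η * N + D * B with hQ
  have Q0 : 0 ≤ Q := by positivity
  have hQ2 : ∀ t ∈ Icc α β, WS S Q (d2 (w t)) := fun t ht =>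
    (hint S (w t) B N η h.opn (h.c2 ht) B0 N0 η0 η1 (h.wB t ht) (hN t ht)).1.mono
      (le_of_eq (by rw [hQ, hD]; ring))
  have eQ : C1 * (8 * Q / l) = N / 8 + C1 * (8 * D / l) * B := by
    rw [hQ, hη]; field_simp; ring
  have hCb : C1 * (8 / l) * A + C1 * 8 * c + C1 * (8 * D / l + 1 / l ^ 5) * B ≤ C * (A + c + B) := by
    have h1 : C1 * (8 / l) ≤ C := by rw [hC]; gcongr; linarith
    have h2 : C1 * 8 ≤ C := by rw [hC]; gcongr; linarith
    have h3 : C1 * (8 * D / l + 1 / l ^ 5) ≤ C := by rw [hC]; gcongr; linarith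
    nlinarith [mul_le_mul_of_nonneg_right h1 A0, mul_le_mul_of_nonneg_right h2 c0,
      mul_le_mul_of_nonneg_right h3 B0]
  intro s y y' hy hy'
  have hs := hy.1
  have hq : 0 < √s := Real.sqrt_pos.2 hs
  have hqq : √s ^ 2 = s := Real.sq_sqrt hs.le
  have q1 : √s ≤ 1 := Real.sqrt_le_one.2 hy.2.1
  have hd0 := Real.sqrt_nonneg (dist y y')
  set ρ : ℝ := l * √s with hρ
  have ρ0 : 0 < ρ := by positivity
  have ρl : ρ ≤ l := mul_le_of_le_one_right l0.le q1
  have ρ2 : ρ ^ 2 = l ^ 2 * s := by rw [hρ, mul_pow, hqq]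
  rcases lt_or_ge (dist y y') (ρ ^ 2) with hlt | hge
  · have sub : ball y (4 * ρ ^ 2) ⊆ ball y (s / 2) := ball_subset_ball (by
      rw [ρ2]; nlinarith [mul_le_mul l1 l1 l0.le (by norm_num)])
    have subS : ball y (4 * ρ ^ 2) ⊆ S := fun z hz => (hy.half (sub hz)).mem
    have pm := prod_mono (Subset.refl (Icc α β)) subS
    have key := hloc α β ρ (2 * δ) (8 * A / (s ^ 2 * √s) + ρ * (8 * c / s ^ 3)) B
      (8 * Q / (s ^ 2 * √s)) (8 * N / s ^ 3) y a f w h.lt h.len ρ0 (by positivity) δ1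
      (by positivity) (h.w2.mono Subset.rfl subS) (fun k l => (h.ac k l).mono pm) (h.fc.mono pm)
      (fun z hz => h.init z (subS hz)) (fun t ht z hz => h.ev t ht z (subS hz))
      (fun t ht k j => ⟨fun z hz => (h.cl t ht z (subS hz) k j).trans (by linarith),
        fun z hz z' hz' => ?_⟩)
      (fun t ht => ⟨fun z hz => ((h.fA t ht).half hy (sub hz)).trans
        (le_add_of_nonneg_right (by positivity)), fun z hz z' hz' => ?_⟩)
      (fun t ht z hz => h.wB t ht z (subS hz)) (fun t ht z hz => (hQ2 t ht).half hy (sub hz))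
      (fun t ht z hz z' hz' => (hN t ht).half hy (sub hz) (sub hz')) t ht y
      (mem_ball_self (by positivity)) y' (mem_ball'.2 hlt)
    · set q := √s
      have e : s ^ 3 * (C1 * (8 * A / (s ^ 2 * q) + ρ * (8 * c / s ^ 3) +
          2 * δ * ρ * (8 * N / s ^ 3) + (8 * Q / (s ^ 2 * q) + B / ρ ^ 4))) =
          ρ * (C1 * (8 / l) * A + C1 * 8 * c + N / 8 + C1 * (8 * Q / l) +
            C1 * (1 / l ^ 5) * B * q) := by
        rw [hρ, hδ, ← hqq]; field_simp; ring
      have h1 := mul_le_mul_of_nonneg_left key (pow_pos hs 3).le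
      rw [← mul_assoc (s ^ 3) (C1 * _), e, mul_left_comm, mul_assoc ρ] at h1
      refine (le_of_mul_le_mul_left h1 ρ0).trans (mul_le_mul_of_nonneg_right ?_ hd0)
      have : C1 * (1 / l ^ 5) * B * q ≤ C1 * (1 / l ^ 5) * B :=
        mul_le_of_le_one_right (by positivity) q1
      rw [eQ]
      linarith
    · have h1 := h.ah t ht z (subS hz) z' (subS hz') k j
      have h2 : ρ * K ≤ 2 * δ := by
        have k1 := mul_le_mul_of_nonneg_left (le_abs_self K) ρ0.le
        have k2 := mul_le_mul_of_nonneg_right ρl (abs_nonneg K)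
        rw [mul_add] at l2
        linarith
      rw [sub_sub_sub_cancel_right, Real.norm_eq_abs]
      calc _ ≤ ρ * (K * √(dist z z')) := by gcongr
        _ ≤ _ := by rw [← mul_assoc]; gcongr
    · have h1 := mul_le_mul_of_nonneg_left ((h.fH t ht).half hy (sub hz) (sub hz')) ρ0.le
      have h2 : 0 ≤ 8 * A / (s ^ 2 * √s) * √(dist z z') := by positivity
      rw [add_mul, mul_assoc ρ]
      linarith
  · have h2 : ρ ≤ √(dist y y') := Real.le_sqrt_of_sq_le hge
    have h5 : s ^ 2 * √s * ‖d2 (w t) y - d2 (w t) y'‖ ≤ 2 * Q := by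
      have := mul_le_mul_of_nonneg_left (norm_sub_le (d2 (w t) y) (d2 (w t) y'))
        (show 0 ≤ s ^ 2 * √s by positivity)
      linarith [hQ2 t ht s y hy, hQ2 t ht s y' hy']
    have h6 : 2 * Q / l ≤ N / 4 + C * (A + c + B) := by
      have h7 : 2 * Q / l ≤ C1 * (8 * Q / l) := by
        have : 0 ≤ Q / l := by positivity
        rw [mul_div_assoc, mul_div_assoc]; nlinarith
      have : 0 ≤ C1 * (8 / l) * A + C1 * 8 * c + C1 * (1 / l ^ 5) * B := by positivity
      rw [eQ] at h7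
      linarith
    calc s ^ 3 * ‖d2 (w t) y - d2 (w t) y'‖ = √s * (s ^ 2 * √s * ‖d2 (w t) y - d2 (w t) y'‖) := by
          rw [show s ^ 3 = √s * (s ^ 2 * √s) by nlinarith]; ring
      _ ≤ √s * (2 * Q) := by gcongr
      _ = 2 * Q / l * ρ := by rw [hρ]; field_simp
      _ ≤ _ := by gcongr

theorem isStmt (n : ℕ) (V : Type) [NormedAddCommGroup V] [NormedSpace ℝ V] [CompleteSpace V] :
    ISStmt n V := by
  intro a0 ha
  obtain ⟨δ, δ0, hδ⟩ := isStep n V a0 ha
  obtain ⟨CI, hCI, hint⟩ := intStmt n V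
  refine ⟨δ, δ0, fun K => ?_⟩
  obtain ⟨C, hC, hstep⟩ := hδ K
  refine ⟨2 * C + CI, by linarith, fun α β S a f w A c B h hfin t ht => ?_⟩
  have A0 := h.A0
  have c0 := h.c0
  have B0 := h.B0
  have D0 : 0 ≤ C * (A + c + B) := by positivity
  have h1 := absorb_wh D0 hfin (fun N N0 hN t ht =>
    (hstep α β S a f w A c B N h N0 hN t ht).mono (by linarith)) t ht
  have h2 := hint S (w t) B _ 1 h.opn (h.c2 ht) B0 (by positivity) one_pos le_rfl (h.wB t ht) h1
  have h3 : 1 * (2 * (C * (A + c + B))) + CI * B / 1 ^ 4 ≤ (2 * C + CI) * (A + c + B) := by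
    nlinarith [mul_nonneg (zero_le_one.trans hCI) (add_nonneg A0 c0)]
  exact ⟨h1.mono (by nlinarith [mul_nonneg (zero_le_one.trans hCI) (add_nonneg (add_nonneg A0 c0) B0)]),
    h2.1.mono h3, h2.2.1.mono h3⟩

end Crest.Agent.T223.Lx
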