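import Crest.Agent.T223.OsKitA_61
import Crest.Agent.T223.LoE_18

/-!
# T223, RENEW wrapper (helper48): `ρ t` is Lipschitz for the metric at the later time `t1`
-/

set_option autoImplicit false
set_option linter.unusedSectionVars false
set_option linter.unusedVariables false

open Set Filter Topology Metric
open scoped ContDiff ComplexConjugate Matrix ComplexOrder

noncomputable section

namespace Crest.Agent.T223.Rn48

open Crest.Agent.R275.Geo Crest.Agent.R273.Kah_333 Crest.Agent.R273.Hess_333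
open Crest.Agent.T223.Br Crest.Agent.T223.Tr
open Crest.Agent.T223.Db (dom SmST)

variable {n : ℕ}

theorem sq_le_nq {g : Mat n} (hg : g.PosDef) : ∃ T > 0, ∀ v : Cn n, ‖v‖ ^ 2 ≤ T * nq g v := by
  refine ⟨|trg g 1| + 1, by positivity, fun v => ?_⟩
  have h1 := Ev.nq_le_trg hg Matrix.isHermitian_one (b := 0)
    (fun v => by rw [nq_one, zero_mul, add_zero]; positivity) v
  rw [nq_one] at h1
  have h2 := nq_nonneg hg.posSemidef v
  have h3 := le_abs_self (trg g 1)
  nlinarith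

/-- a bound for the differential gives the infinitesimal Lipschitz bound -/
theorem ev_of_fderiv {f : Cn n → ℝ} {z : Cn n} (hf : DifferentiableAt ℝ f z) {g : Mat n}
    (hg : g.PosDef) {c : ℝ} (hc : ∀ v, |fderiv ℝ f z v| ≤ c * Real.sqrt (nq g v)) {ε : ℝ}
    (hε : 0 < ε) : ∀ᶠ w in 𝓝 z, |f w - f z| ≤ (c + ε) * Real.sqrt (nq g (w - z)) := by
  obtain ⟨T, hT, hT'⟩ := sq_le_nq hg
  have hs : 0 < Real.sqrt T := Real.sqrt_pos.2 hT
  have h1 := hf.hasFDerivAt.isLittleO.def (c := ε / Real.sqrt T) (by positivity)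
  filter_upwards [h1] with w hw
  have h2 : ‖w - z‖ ≤ Real.sqrt T * Real.sqrt (nq g (w - z)) := by
    rw [← Real.sqrt_mul hT.le]
    exact Real.le_sqrt_of_sq_le (hT' _)
  have h3 : |f w - f z - fderiv ℝ f z (w - z)| ≤ ε * Real.sqrt (nq g (w - z)) := by
    refine (show _ ≤ ε / Real.sqrt T * ‖w - z‖ from hw).trans ?_
    calc ε / Real.sqrt T * ‖w - z‖ ≤ ε / Real.sqrt T * (Real.sqrt T * Real.sqrt (nq g (w - z))) :=
          mul_le_mul_of_nonneg_left h2 (by positivity)
      _ = _ := by field_simp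
  have h4 := hc (w - z)
  have h5 := abs_add_le (f w - f z - fderiv ℝ f z (w - z)) (fderiv ℝ f z (w - z))
  rw [sub_add_cancel] at h5
  linarith

variable {M : Type} [TopologicalSpace M] {A : Atl n M}

/-- backward comparison of the metrics along the flow -/
theorem nq_back {U : Set M} {g : ℝ → MF A} {t b t1 l : ℝ} (h1 : t ≤ t1) (h2 : t1 < b)
    (hg : Os.FlowOn t b U g) {i : A.ι} {x : M} (hi : x ∈ (A.e i).source) (hx : x ∈ U)
    (hb : ∀ s ∈ Icc t t1, Os.BkAbs (g s) l x) (v : Cn n) :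
    nq (g t i (A.e i x)) v ≤ Real.exp (n * l * (t1 - t)) * nq (g t1 i (A.e i x)) v := by
  have h3 := Lo.le_exp_of_deriv (f := fun s => -nq (g s i (A.e i x)) v)
    (f' := fun s => nq (ric (g s i) (A.e i x)) v) (c := -(n * l)) h1
    ((Lo.cont_nq hg hi hx v).mono (Icc_subset_Icc le_rfl h2.le)).neg fun s hs => by
      have hs' : s ∈ Ioo t b := ⟨hs.1, hs.2.trans h2⟩
      refine ⟨(Lo.krf_nq (hg.krf s hs' i x hi hx) v).neg.congr_deriv (neg_neg _), ?_⟩
      have h4 := (hb s (Ioo_subset_Icc_self hs)).ric (hg.kah s (Ioo_subset_Icc_self hs')) hx hi v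
      have h5 := (abs_le.1 h4).2
      linarith
  have h4 : Real.exp (n * l * (t1 - t)) * Real.exp (-(n * l) * (t1 - t)) = 1 := by
    rw [← Real.exp_add, ← Real.exp_zero]; congr 1; ring
  have h5 := mul_le_mul_of_nonneg_left h3 (Real.exp_pos (n * l * (t1 - t))).le
  rw [← mul_assoc, h4] at h5
  linarith

theorem lipEnd {U V : Set M} {g : ℝ → MF A} {rho : ℝ → M → ℝ} {t b t1 l : ℝ} (hU : IsOpen U)
    (h1 : t ≤ t1) (h2 : t1 < b) (hg : Os.FlowOn t b U g) (hr : SmST A (Icc t b) U rho)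
    (hV : V ⊆ U) (hl : 0 ≤ l) (hl1 : l * (t1 - t) ≤ 1)
    (hb : ∀ s ∈ Icc t t1, ∀ x ∈ V, Os.BkAbs (g s) l x)
    (hgr : ∀ x ∈ V, Os.Gr (g t) (rho t) x ≤ 2) :
    LipOn (g t1) V (4 * Real.exp (n ^ 2)) (rho t) := by
  intro i x hi hxV ε hε
  have hx := hV hxV
  have htb : t ∈ Icc t b := ⟨le_rfl, h1.trans h2.le⟩
  have ht1 : t1 ∈ Icc t b := ⟨h1, h2.le⟩
  have hd : DifferentiableAt ℝ (inC A i (rho t)) (A.e i x) := by
    have h3 : ContDiffOn ℝ ∞ (inC A i (rho t)) (dom A i U) :=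
      (hr i).comp (f := fun y : Cn n => (t, y)) (contDiffOn_const.prodMk contDiffOn_id)
        fun y hy => ⟨htb, hy⟩
    exact (h3.contDiffAt (Os.dom_nhds hU hi hx)).differentiableAt (by simp)
  have hp0 := Lo.pos_g hg htb hi hx
  have hp1 := Lo.pos_g hg ht1 hi hx
  have h4 := ev_of_fderiv hd hp1 (c := 4 * Real.exp (n ^ 2)) (fun v => by
    have h5 := Lo.fderiv_sq_le hd hp0 v
    have h6 := hgr x hxV
    rw [Os.Gr_eq' (hg.kah t htb) hU hx hi hd] at h6
    unfold gsq at h6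
    have h7 := nq_back h1 h2 hg hi hx (fun s hs => hb s hs x hxV) v
    have h8 := nq_nonneg hp0.posSemidef v
    have h9 := nq_nonneg hp1.posSemidef v
    have h10 : Real.exp (n * l * (t1 - t)) ≤ Real.exp (n ^ 2) ^ 2 := by
      rw [← Real.exp_nat_mul]
      refine Real.exp_le_exp.2 ?_
      have h11 : (n : ℝ) ≤ n ^ 2 := by exact_mod_cast Nat.le_self_pow two_ne_zero n
      have h12 : (0 : ℝ) ≤ n := Nat.cast_nonneg n
      have h13 := mul_le_mul_of_nonneg_left hl1 h12
      push_cast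
      nlinarith
    rw [← Real.sqrt_sq (show 0 ≤ 4 * Real.exp (n ^ 2) by positivity),
      ← Real.sqrt_mul (sq_nonneg _)]
    refine Real.abs_le_sqrt ?_
    have h14 := mul_le_mul_of_nonneg_right h10 h9
    have h15 := mul_le_mul_of_nonneg_right h6 h8
    have h16 : 0 ≤ Real.exp (n ^ 2) ^ 2 * nq (g t1 i (A.e i x)) v := by positivity
    nlinarith) hε
  filter_upwards [h4] with w hw
  have h5 : inC A i (rho t) (A.e i x) = rho t x := by rw [inC, (A.e i).left_inv hi]
  rwa [h5] at hw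

end Crest.Agent.T223.Rn48
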