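import Crest.Agent.T223.RnWrA_17
import Crest.Agent.T223.RnLip_48

/-!
# Row 223, RENEW / WRAP (helper17): `QCStmt → CoreStmt → RenewStmt`
-/

set_option autoImplicit false

namespace Crest.Agent.T223.Rn

theorem wrapStmt (n : ℕ) : WrapStmt n :=
  Rn17.wrap_of (cL := 4 * Real.exp (n ^ 2)) (by positivity)
    fun _ _ _ _ _ _ _ _ _ _ _ hU h1 h2 hg hr hV hl hl1 hb hgr =>
      Rn48.lipEnd hU h1 h2 hg hr hV hl hl1 hb hgr

end Crest.Agent.T223.Rn
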