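import Crest.Agent.T223.Rn2_44
import Crest.Agent.T223.RnWr_17
import Crest.Agent.T223.LxHB3_25
import Crest.Agent.T223.LxIS_83

/-!
# Row 223, RENEW (helper44): `Os.renewStmt : QCStmt n → RenewStmt n`
-/

namespace Crest.Agent.T223.Os

theorem renewStmt {n : ℕ} (hC : QCStmt n) : RenewStmt n :=
  Rn.renewStmt (Rn.wrapStmt n) hC (Lx.qlHB (Lx.isStep _ _) (Lx.intStmt _ _))
    (Lx.linHBi (Lx.isStep _ _) (Lx.intStmt _ _))

end Crest.Agent.T223.Os
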