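import Mathlib

/-!
# Row 223 (helper44): almost holomorphic functions of one variable

* `ah_circle` : Cauchy's formula up to the error `2 B R` if `|∂̄ f| ≤ B`,
* `ah_modulus`: `|f a - f 0| ≤ 2 A |a| / R + 4 B R`,
* `ah_limit`  : a uniform limit of functions with `∂̄ f_j → 0` is holomorphic,
* `subh_bound`: `Δ h ≥ 4 m` on a disc of radius `r` and `0 ≤ h ≤ Λ` give `m r² ≤ Λ`.
-/

set_option autoImplicit false

open Set Filter Topology Complex Metric MeasureTheory
open scoped ContDiff ComplexConjugate Real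

namespace Crest.Agent.T223.Gr

noncomputable section

/-- `∂̄` component of a real linear map -/
def dbL (L : ℂ →L[ℝ] ℂ) : ℂ := (L 1 + I * L I) / 2

/-- `∂` component of a real linear map -/
def dL (L : ℂ →L[ℝ] ℂ) : ℂ := (L 1 - I * L I) / 2

theorem apply_dL (L : ℂ →L[ℝ] ℂ) (v : ℂ) : L v = v * dL L + conj v * dbL L := by
  have h : v = v.re • (1 : ℂ) + v.im • I := by simp [Complex.re_add_im]
  have h2 : L v = v.re • L 1 + v.im • L I := by
    conv_lhs => rw [h]
    rw [map_add, map_smul, map_smul]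
  have hv : v = (v.re : ℂ) + (v.im : ℂ) * I := (Complex.re_add_im v).symm
  have hc : conj v = (v.re : ℂ) - (v.im : ℂ) * I := by
    apply Complex.ext <;> simp
  rw [h2, hc, dL, dbL]
  conv_rhs => rw [hv]
  simp only [real_smul, add_re, add_im, ofReal_re, ofReal_im, mul_re, mul_im, I_re, I_im, mul_zero,
    mul_one, zero_add, add_zero, sub_self]
  linear_combination ((v.im : ℂ) * L I) * I_mul_I

theorem ah_circle_global {g : ℂ → ℂ} (hg : ContDiff ℝ 1 g) {R B : ℝ} {a : ℂ}
    (ha : a ∈ ball (0 : ℂ) R) (hB : ∀ w ∈ closedBall (0 : ℂ) R, ‖dbL (fderiv ℝ g w)‖ ≤ B) :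
    ‖g a - (2 * π * I : ℂ)⁻¹ • ∮ z in C(0, R), (z - a)⁻¹ • g z‖ ≤ 2 * B * R := by
  have hR : 0 < R := dist_nonneg.trans_lt ha
  have ha' : ‖a‖ < R := by simpa using ha
  set u : ℝ → ℂ := circleMap 0 R with hu
  have hun : ∀ θ, ‖u θ‖ = R := fun θ => by simp [hu, abs_of_pos hR]
  have hne : ∀ θ, u θ - a ≠ 0 := fun θ h => by
    have := hun θ
    rw [sub_eq_zero.1 h] at this
    linarith
  have huc : Continuous u := continuous_circleMap 0 R
  have hfd : Continuous (fderiv ℝ g) := hg.continuous_fderiv one_ne_zero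
  have hgd : Differentiable ℝ g := hg.differentiable one_ne_zero
  have hk : Continuous fun θ => u θ * I * (u θ - a)⁻¹ :=
    (huc.mul continuous_const).mul ((huc.sub continuous_const).inv₀ hne)
  set F : ℝ → ℝ → ℂ := fun s θ => u θ * I * (u θ - a)⁻¹ * g (u θ - s • (u θ - a)) with hF
  set F' : ℝ → ℝ → ℂ := fun s θ =>
    u θ * I * (u θ - a)⁻¹ * fderiv ℝ g (u θ - s • (u θ - a)) (-(u θ - a)) with hF'
  have hpt : Continuous fun p : ℝ × ℝ => u p.2 - p.1 • (u p.2 - a) := by fun_prop
  have hFc : Continuous fun p : ℝ × ℝ => F p.1 p.2 :=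
    (hk.comp continuous_snd).mul (hg.continuous.comp hpt)
  have hF'c : Continuous fun p : ℝ × ℝ => F' p.1 p.2 :=
    (hk.comp continuous_snd).mul ((hfd.comp hpt).clm_apply (by fun_prop))
  have hder : ∀ s θ, HasDerivAt (fun s => F s θ) (F' s θ) s := by
    intro s θ
    have h1 : HasDerivAt (fun s : ℝ => u θ - s • (u θ - a)) (-(u θ - a)) s := by
      simpa using ((hasDerivAt_id s).smul_const (u θ - a)).const_sub (u θ)
    exact ((hgd _).hasFDerivAt.comp_hasDerivAt s h1).const_mul _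
  have hJ : ∀ s, HasDerivAt (fun s => ∫ θ in (0 : ℝ)..2 * π, F s θ)
      (∫ θ in (0 : ℝ)..2 * π, F' s θ) s := by
    intro s
    obtain ⟨C, hC⟩ := ((isCompact_Icc (a := s - 1) (b := s + 1)).prod
      (isCompact_uIcc (a := (0 : ℝ)) (b := 2 * π))).exists_bound_of_continuousOn hF'c.continuousOn
    refine (intervalIntegral.hasDerivAt_integral_of_dominated_loc_of_deriv_le (bound := fun _ => C)
      (s := Icc (s - 1) (s + 1)) (Icc_mem_nhds (by linarith) (by linarith)) ?_ ?_ ?_ ?_ ?_ ?_).2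
    · exact Eventually.of_forall fun x =>
        (hFc.comp (Continuous.prodMk_right x)).aestronglyMeasurable
    · exact (hFc.comp (Continuous.prodMk_right s)).intervalIntegrable _ _
    · exact (hF'c.comp (Continuous.prodMk_right s)).aestronglyMeasurable
    · exact Eventually.of_forall fun θ hθ x hx => hC (x, θ) ⟨hx, uIoc_subset_uIcc hθ⟩
    · exact intervalIntegrable_const
    · exact Eventually.of_forall fun θ _ x _ => hder x θ
  have hbound : ∀ s ∈ Ico (0 : ℝ) 1, ‖∫ θ in (0 : ℝ)..2 * π, F' s θ‖ ≤ 2 * R * B * (2 * π) := by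
    intro s hs
    set L : ℝ → ℂ →L[ℝ] ℂ := fun θ => fderiv ℝ g (u θ - s • (u θ - a)) with hL
    have hLc : Continuous L := hfd.comp (hpt.comp (Continuous.prodMk_right s))
    have hLc2 : Continuous fun θ => L θ (u θ * I) := hLc.clm_apply (by fun_prop)
    -- the exact part
    have hex : ∫ θ in (0 : ℝ)..2 * π, L θ (u θ * I) = 0 := by
      have h1 : ∀ θ, HasDerivAt (fun θ => g (u θ - s • (u θ - a))) ((1 - s) • L θ (u θ * I)) θ := by
        intro θ
        have h0 : HasDerivAt u (u θ * I) θ := by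
          simpa [hu] using hasDerivAt_circleMap 0 R θ
        have h2 : HasDerivAt (fun θ => u θ - s • (u θ - a)) ((1 - s) • (u θ * I)) θ := by
          have := h0.sub ((h0.sub_const a).const_smul s)
          rw [sub_smul, one_smul]
          exact this
        have := (hgd _).hasFDerivAt.comp_hasDerivAt θ h2
        rwa [map_smul] at this
      have h3 := intervalIntegral.integral_eq_sub_of_hasDerivAt (a := 0) (b := 2 * π)
        (fun θ _ => h1 θ) ((hLc2.const_smul (1 - s)).intervalIntegrable _ _)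
      have h4 : u (2 * π) = u 0 := by
        simpa [hu] using periodic_circleMap 0 R 0
      rw [h4, sub_self, intervalIntegral.integral_smul] at h3
      exact (smul_eq_zero.1 h3).resolve_left (by linarith [hs.2])
    have hsplit : ∀ θ, F' s θ = -L θ (u θ * I) +
        (conj (u θ * I) - u θ * I * (u θ - a)⁻¹ * conj (u θ - a)) * dbL (L θ) := by
      intro θ
      have := hne θ
      simp only [hF', hL]
      rw [map_neg, apply_dL _ (u θ - a), apply_dL _ (u θ * I)]
      field_simp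
      ring
    have hFs : Continuous fun θ => F' s θ := by
      have := hF'c.comp (Continuous.prodMk_right s)
      simpa only [Function.comp_def] using this
    have h5 : ∫ θ in (0 : ℝ)..2 * π, F' s θ =
        ∫ θ in (0 : ℝ)..2 * π, (F' s θ + L θ (u θ * I)) := by
      rw [intervalIntegral.integral_add (hFs.intervalIntegrable _ _)
        (hLc2.intervalIntegrable _ _), hex, add_zero]
    rw [h5]
    refine (intervalIntegral.norm_integral_le_of_norm_le_const (C := 2 * R * B) ?_).trans ?_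
    · intro θ _
      rw [hsplit θ, neg_add_cancel_comm, norm_mul]
      have hmem : u θ - s • (u θ - a) ∈ closedBall (0 : ℂ) R := by
        have : u θ - s • (u θ - a) = (1 - s) • u θ + s • a := by
          rw [sub_smul, one_smul, smul_sub]; ring
        rw [this]
        exact (convex_closedBall (0 : ℂ) R) (by simp [hun θ]) (ball_subset_closedBall ha)
          (by linarith [hs.2]) hs.1 (by ring)
      have hb := hB _ hmem
      have h6 : ‖conj (u θ * I) - u θ * I * (u θ - a)⁻¹ * conj (u θ - a)‖ ≤ 2 * R := by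
        refine (norm_sub_le _ _).trans ?_
        have h7 : ‖u θ - a‖ ≠ 0 := norm_ne_zero_iff.2 (hne θ)
        rw [norm_mul, norm_mul, RCLike.norm_conj, RCLike.norm_conj, norm_inv, norm_mul, hun θ,
          Complex.norm_I, mul_assoc, inv_mul_cancel₀ h7]
        linarith
      exact mul_le_mul h6 hb (norm_nonneg _) (by linarith)
    · rw [sub_zero, abs_of_pos (by positivity)]
  have hmv := norm_image_sub_le_of_norm_deriv_le_segment_01'
    (f := fun s => ∫ θ in (0 : ℝ)..2 * π, F s θ) (fun s _ => (hJ s).hasDerivWithinAt) hbound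
  have h1 : ∫ θ in (0 : ℝ)..2 * π, F 1 θ = (2 * π * I) * g a := by
    rw [← circleIntegral.integral_sub_inv_of_mem_ball ha, circleIntegral,
      ← intervalIntegral.integral_mul_const]
    refine intervalIntegral.integral_congr fun θ _ => ?_
    simp [hF, hu, deriv_circleMap]
  have h0 : ∫ θ in (0 : ℝ)..2 * π, F 0 θ = ∮ z in C(0, R), (z - a)⁻¹ • g z := by
    rw [circleIntegral]
    refine intervalIntegral.integral_congr fun θ _ => ?_
    simp [hF, hu, deriv_circleMap, mul_assoc]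
  simp only [h1, h0] at hmv
  have hp : (2 * π * I : ℂ) ≠ 0 := two_pi_I_ne_zero
  have : g a - (2 * π * I : ℂ)⁻¹ • ∮ z in C(0, R), (z - a)⁻¹ • g z =
      (2 * π * I : ℂ)⁻¹ * ((2 * π * I) * g a - ∮ z in C(0, R), (z - a)⁻¹ • g z) := by
    rw [smul_eq_mul]; field_simp
  rw [this, norm_mul, norm_inv]
  have hn : ‖(2 * π * I : ℂ)‖ = 2 * π := by simp [abs_of_pos Real.pi_pos]
  rw [hn, inv_mul_le_iff₀ (by positivity)]
  linarith

/-- Cauchy's formula up to an error -/
theorem ah_circle {f : ℂ → ℂ} {R R' B : ℝ} (hRR : R < R') (hf : ContDiffOn ℝ 1 f (ball 0 R'))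
    {a : ℂ} (ha : a ∈ ball (0 : ℂ) R)
    (hB : ∀ w ∈ closedBall (0 : ℂ) R, ‖dbL (fderiv ℝ f w)‖ ≤ B) :
    ‖f a - (2 * π * I : ℂ)⁻¹ • ∮ z in C(0, R), (z - a)⁻¹ • f z‖ ≤ 2 * B * R := by
  have hR : 0 < R := dist_nonneg.trans_lt ha
  let χ : ContDiffBump (0 : ℂ) := ⟨(2 * R + R') / 3, (R + 2 * R') / 3, by linarith, by linarith⟩
  set g : ℂ → ℂ := fun w => χ w • f w with hg
  have hgc : ContDiff ℝ 1 g := by
    refine contDiff_iff_contDiffAt.2 fun x => ?_
    by_cases hx : x ∈ tsupport g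
    swap
    · exact contDiffAt_const.congr_of_eventuallyEq (notMem_tsupport_iff_eventuallyEq.1 hx)
    have h1 : x ∈ closedBall (0 : ℂ) ((R + 2 * R') / 3) := by
      have := tsupport_smul_subset_left χ f hx
      rwa [χ.tsupport_eq] at this
    have h2 : x ∈ ball (0 : ℂ) R' := closedBall_subset_ball (by linarith) h1
    exact χ.contDiff.contDiffAt.smul (hf.contDiffAt (isOpen_ball.mem_nhds h2))
  have heq : ∀ w ∈ closedBall (0 : ℂ) R, g =ᶠ[𝓝 w] f := by
    intro w hw
    have h2 : w ∈ ball (0 : ℂ) ((2 * R + R') / 3) := closedBall_subset_ball (by linarith) hw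
    filter_upwards [isOpen_ball.mem_nhds h2] with x hx
    simp [hg, χ.one_of_mem_closedBall (ball_subset_closedBall hx)]
  have := ah_circle_global hgc ha (B := B) fun w hw => by
    rw [(heq w hw).fderiv_eq]; exact hB w hw
  rwa [(heq a (ball_subset_closedBall ha)).eq_of_nhds,
    circleIntegral.integral_congr hR.le (g := fun z => (z - a)⁻¹ • f z) fun z hz => by
      simp only [(heq z (sphere_subset_closedBall hz)).eq_of_nhds]] at this

/-- modulus of continuity of an almost holomorphic function -/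
theorem ah_modulus {f : ℂ → ℂ} {R R' A B : ℝ} (hR : 0 < R) (hRR : R < R')
    (hf : ContDiffOn ℝ 1 f (ball 0 R')) {a : ℂ} (ha : ‖a‖ ≤ R / 2)
    (hA : ∀ w ∈ closedBall (0 : ℂ) R, ‖f w‖ ≤ A)
    (hB : ∀ w ∈ closedBall (0 : ℂ) R, ‖dbL (fderiv ℝ f w)‖ ≤ B) :
    ‖f a - f 0‖ ≤ 2 * A * ‖a‖ / R + 4 * B * R := by
  have ha' : a ∈ ball (0 : ℂ) R := by simp; linarith
  have h1 := ah_circle hRR hf ha' hB
  have h0 := ah_circle hRR hf (mem_ball_self hR) hB
  have hfc : ContinuousOn f (sphere (0 : ℂ) R) :=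
    hf.continuousOn.mono (sphere_subset_closedBall.trans (closedBall_subset_ball hRR))
  have hza : ∀ z ∈ sphere (0 : ℂ) R, R / 2 ≤ ‖z - a‖ := fun z hz => by
    have : ‖z‖ = R := by simpa using hz
    have := norm_sub_norm_le z a
    linarith
  have hi : ∀ b : ℂ, (∀ z ∈ sphere (0 : ℂ) R, z - b ≠ 0) →
      CircleIntegrable (fun z => (z - b)⁻¹ • f z) 0 R := fun b hb =>
    ContinuousOn.circleIntegrable hR.le
      (((continuousOn_id.sub continuousOn_const).inv₀ hb).smul hfc)
  have hna : ∀ z ∈ sphere (0 : ℂ) R, z - a ≠ 0 := fun z hz h => by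
    have := hza z hz
    rw [h, norm_zero] at this; linarith
  have hn0 : ∀ z ∈ sphere (0 : ℂ) R, z - 0 ≠ 0 := fun z hz h => by
    have : ‖z‖ = R := by simpa using hz
    rw [sub_zero] at h
    rw [h, norm_zero] at this; linarith
  have h2 : ‖(2 * π * I : ℂ)⁻¹ • (∮ z in C(0, R), (z - a)⁻¹ • f z) -
      (2 * π * I : ℂ)⁻¹ • ∮ z in C(0, R), (z - 0)⁻¹ • f z‖ ≤ R * (2 * A * ‖a‖ / R ^ 2) := by
    rw [← smul_sub, ← circleIntegral.integral_sub (hi a hna) (hi 0 hn0)]
    refine circleIntegral.norm_two_pi_i_inv_smul_integral_le_of_norm_le_const hR.le fun z hz => ?_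
    have hz' : ‖z‖ = R := by simpa using hz
    have e : (z - a)⁻¹ • f z - (z - 0)⁻¹ • f z = (a * ((z - a)⁻¹ * z⁻¹)) * f z := by
      have h3 := hna z hz
      have h4 := hn0 z hz
      rw [sub_zero] at h4
      simp only [smul_eq_mul, sub_zero]
      field_simp
      ring
    rw [e, norm_mul, norm_mul, norm_mul, norm_inv, norm_inv, hz']
    have h5 : ‖z - a‖⁻¹ ≤ (R / 2)⁻¹ := inv_anti₀ (by positivity) (hza z hz)
    have h6 := hA z (sphere_subset_closedBall hz)
    calc ‖a‖ * (‖z - a‖⁻¹ * R⁻¹) * ‖f z‖ ≤ ‖a‖ * ((R / 2)⁻¹ * R⁻¹) * A := by gcongr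
      _ = 2 * A * ‖a‖ / R ^ 2 := by field_simp
  have h7 : R * (2 * A * ‖a‖ / R ^ 2) = 2 * A * ‖a‖ / R := by field_simp
  set X := (2 * π * I : ℂ)⁻¹ • (∮ z in C(0, R), (z - a)⁻¹ • f z)
  set Y := (2 * π * I : ℂ)⁻¹ • (∮ z in C(0, R), (z - 0)⁻¹ • f z)
  have h8 : f a - f 0 = (f a - X) + (X - Y) - (f 0 - Y) := by ring
  rw [h8]
  have := norm_sub_le ((f a - X) + (X - Y)) (f 0 - Y)
  have := norm_add_le (f a - X) (X - Y)
  linarith

/-- uniform limits of almost holomorphic functions are holomorphic -/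
theorem ah_limit {f : ℕ → ℂ → ℂ} {g : ℂ → ℂ} {R R' : ℝ} {B : ℕ → ℝ} (hR : 0 < R) (hRR : R < R')
    (hf : ∀ j, ContDiffOn ℝ 1 (f j) (ball 0 R'))
    (hB : ∀ j, ∀ w ∈ closedBall (0 : ℂ) R, ‖dbL (fderiv ℝ (f j) w)‖ ≤ B j)
    (hB0 : Tendsto B atTop (𝓝 0)) (hg : TendstoUniformlyOn f g atTop (ball 0 R)) :
    DifferentiableOn ℂ g (ball 0 R) := by
  set H : ℕ → ℂ → ℂ := fun j a => (2 * π * I : ℂ)⁻¹ • ∮ z in C(0, R), (z - a)⁻¹ • f j z with hH
  have hHd : ∀ j, DifferentiableOn ℂ (H j) (ball 0 R) := by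
    intro j
    have hfc : ContinuousOn (f j) (sphere (0 : ℂ) R) :=
      (hf j).continuousOn.mono (sphere_subset_closedBall.trans (closedBall_subset_ball hRR))
    lift R to NNReal using hR.le with R0
    have := hasFPowerSeriesOn_cauchy_integral (R := R0) (c := 0)
      (hfc.circleIntegrable hR.le) (by exact_mod_cast hR)
    have h2 := this.differentiableOn
    rw [Metric.eball_coe] at h2
    rw [hH]
    exact h2
  have hlim : TendstoUniformlyOn H g atTop (ball 0 R) := by
    rw [Metric.tendstoUniformlyOn_iff] at hg ⊢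
    intro ε hε
    have h1 : Tendsto (fun j => 2 * B j * R) atTop (𝓝 0) := by
      simpa using (hB0.const_mul 2).mul_const R
    filter_upwards [hg (ε / 2) (by linarith), h1.eventually (gt_mem_nhds (half_pos hε))]
      with j h2 h3 a ha
    have h4 := ah_circle hRR (hf j) ha (hB j)
    have h5 := h2 a ha
    rw [← dist_eq_norm] at h4
    have := dist_triangle (g a) (f j a) (H j a)
    linarith
  exact hlim.tendstoLocallyUniformlyOn.differentiableOn (Eventually.of_forall hHd) isOpen_ball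

section line

variable {E : Type*} [NormedAddCommGroup E] [NormedSpace ℝ E]

theorem hasDerivAt_line (z v : E) (t : ℝ) : HasDerivAt (fun s : ℝ => z + s • v) v t := by
  simpa using ((hasDerivAt_id t).smul_const v).const_add z

/-- second derivative test along a line, with a quadratic correction -/
theorem snd_le_of_max {u : E → ℝ} {z v : E} (hu : ContDiffAt ℝ 2 u z) {m b : ℝ}
    (hm : ∀ᶠ t in 𝓝 (0 : ℝ), u (z + t • v) - (b * t + m * t ^ 2) ≤ u z) :
    fderiv ℝ (fderiv ℝ u) z v v ≤ 2 * m := by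
  by_contra hcon
  push Not at hcon
  set g : ℝ → ℝ := fun t => u (z + t • v) - (b * t + m * t ^ 2) with hg
  have hg0 : g 0 = u z := by simp [hg]
  have hmax : IsLocalMax g 0 := by
    filter_upwards [hm] with t ht
    rwa [hg0]
  have htend : Tendsto (fun t : ℝ => z + t • v) (𝓝 0) (𝓝 z) := by
    simpa using (hasDerivAt_line z v 0).continuousAt.tendsto
  have hd1 : ∀ᶠ t in 𝓝 (0 : ℝ), HasDerivAt g (fderiv ℝ u (z + t • v) v - (b + 2 * m * t)) t := by
    have := (hu.of_le (m := 1) (by norm_num)).eventually (by simp)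
    filter_upwards [htend.eventually this] with t ht
    have h1 := (ht.differentiableAt (by simp)).hasFDerivAt.comp_hasDerivAt t (hasDerivAt_line z v t)
    have h2 : HasDerivAt (fun t : ℝ => b * t + m * t ^ 2) (b + 2 * m * t) t := by
      have := ((hasDerivAt_id t).const_mul b).add ((hasDerivAt_pow 2 t).const_mul m)
      exact this.congr_deriv (by simp; ring)
    exact h1.sub h2
  have hdg : deriv g =ᶠ[𝓝 0] fun t => fderiv ℝ u (z + t • v) v - (b + 2 * m * t) := by
    filter_upwards [hd1] with t ht using ht.deriv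
  have hd2 : HasDerivAt (fun t : ℝ => fderiv ℝ u (z + t • v) v - (b + 2 * m * t))
      (fderiv ℝ (fderiv ℝ u) z v v - 2 * m) 0 := by
    have h2 : HasFDerivAt (fderiv ℝ u) (fderiv ℝ (fderiv ℝ u) z) (z + (0 : ℝ) • v) := by
      simpa using ((hu.fderiv_right (m := 1) (by norm_num)).differentiableAt (by simp)).hasFDerivAt
    have h2' : HasDerivAt (fun t : ℝ => fderiv ℝ u (z + t • v)) (fderiv ℝ (fderiv ℝ u) z v) 0 :=
      HasFDerivAt.comp_hasDerivAt (f := fun t : ℝ => z + t • v) (0 : ℝ) h2 (hasDerivAt_line z v 0)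
    have h3 : HasDerivAt (fun t : ℝ => fderiv ℝ u (z + t • v) v)
        (fderiv ℝ (fderiv ℝ u) z v v) 0 :=
      (h2'.clm_apply (hasDerivAt_const (0 : ℝ) v)).congr_deriv (by simp)
    have h4 : HasDerivAt (fun t : ℝ => b + 2 * m * t) (2 * m) 0 := by
      simpa using ((hasDerivAt_id (0 : ℝ)).const_mul (2 * m)).const_add b
    exact h3.sub h4
  have h10 : deriv (deriv g) 0 = fderiv ℝ (fderiv ℝ u) z v v - 2 * m := by
    rw [hdg.deriv_eq, hd2.deriv]
  have hmin : IsLocalMin g 0 :=
    isLocalMin_of_deriv_deriv_pos (by rw [h10]; linarith) hmax.deriv_eq_zero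
      hd1.self_of_nhds.continuousAt
  have hconst : g =ᶠ[𝓝 0] fun _ => g 0 := by
    filter_upwards [hmax, hmin] with t h8 h9
    exact le_antisymm h8 h9
  have h11 : deriv g =ᶠ[𝓝 0] fun _ => (0 : ℝ) := by
    filter_upwards [hconst.deriv] with t ht
    rw [ht]; simp
  rw [h11.deriv_eq] at h10
  simp at h10
  linarith

end line

/-- a bounded function cannot have a large Laplacian on a large complex disc -/
theorem subh_bound {E : Type*} [NormedAddCommGroup E] [NormedSpace ℂ E] {u : E → ℝ} {z v : E}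
    {r m Λ : ℝ} (hr : 0 < r)
    (hu : ∀ ζ ∈ closedBall (0 : ℂ) r, ContDiffAt ℝ 2 u (z + ζ • v))
    (hl : ∀ ζ ∈ closedBall (0 : ℂ) r, 4 * m ≤ fderiv ℝ (fderiv ℝ u) (z + ζ • v) v v +
      fderiv ℝ (fderiv ℝ u) (z + ζ • v) (I • v) (I • v))
    (h0 : 0 ≤ u z) (hΛ : ∀ ζ ∈ closedBall (0 : ℂ) r, u (z + ζ • v) ≤ Λ) : m * r ^ 2 ≤ Λ := by
  by_contra hcon
  push Not at hcon
  obtain ⟨m', h1, h2⟩ : ∃ m', Λ < m' * r ^ 2 ∧ m' < m := by
    refine ⟨(Λ / r ^ 2 + m) / 2, ?_, ?_⟩
    · have : (Λ / r ^ 2 + m) / 2 * r ^ 2 = (Λ + m * r ^ 2) / 2 := by field_simp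
      rw [this]; linarith
    · have : Λ / r ^ 2 < m := by rw [div_lt_iff₀ (by positivity)]; exact hcon
      linarith
  set φ : ℂ → ℝ := fun ζ => u (z + ζ • v) - m' * ‖ζ‖ ^ 2 with hφ
  have hφc : ContinuousOn φ (closedBall 0 r) := fun ζ hζ =>
    (((hu ζ hζ).continuousAt.comp (f := fun ζ : ℂ => z + ζ • v) (by fun_prop)).sub
      (by fun_prop)).continuousWithinAt
  obtain ⟨ζ, hζ, hmax⟩ := (isCompact_closedBall (0 : ℂ) r).exists_isMaxOn
    ⟨0, mem_closedBall_self hr.le⟩ hφc
  have hφ0 : φ 0 ≤ φ ζ := hmax (mem_closedBall_self hr.le)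
  have hlt : ‖ζ‖ < r := by
    refine lt_of_le_of_ne (by simpa using hζ) fun h => ?_
    have := hΛ ζ hζ
    simp only [hφ, h, zero_smul, add_zero, norm_zero] at hφ0
    nlinarith
  have key : ∀ w : ℂ, ‖w‖ = 1 →
      fderiv ℝ (fderiv ℝ u) (z + ζ • v) (w • v) (w • v) ≤ 2 * m' := by
    intro w hw
    refine snd_le_of_max (hu ζ hζ) (b := 2 * m' * (ζ * conj w).re) ?_
    have hc : Tendsto (fun t : ℝ => ζ + t • w) (𝓝 0) (𝓝 ζ) := by
      simpa using (hasDerivAt_line ζ w 0).continuousAt.tendsto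
    filter_upwards [hc.eventually (isOpen_ball.mem_nhds (mem_ball_zero_iff.2 hlt))] with t ht
    have h3 : φ (ζ + t • w) ≤ φ ζ := hmax (ball_subset_closedBall ht)
    have h4 : z + (ζ + t • w) • v = z + ζ • v + t • w • v := by
      rw [add_smul, smul_assoc, add_assoc]
    have h5 : ‖ζ + t • w‖ ^ 2 = ‖ζ‖ ^ 2 + 2 * t * (ζ * conj w).re + t ^ 2 := by
      have h6 : w.re ^ 2 + w.im ^ 2 = 1 := by
        have := Complex.sq_norm w
        rw [hw, Complex.normSq_apply] at this
        nlinarith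
      rw [Complex.sq_norm, Complex.sq_norm, Complex.normSq_apply, Complex.normSq_apply]
      simp only [add_re, add_im, real_smul, mul_re, mul_im, ofReal_re, ofReal_im, conj_re, conj_im]
      linear_combination t ^ 2 * h6
    simp only [hφ, h4, h5] at h3
    linarith
  have k1 := key 1 (by simp)
  have k2 := key I (by simp)
  rw [one_smul] at k1
  have := hl ζ hζ
  linarith

end

end Crest.Agent.T223.Gr
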