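import Crest.Agent.T223.Fr_38
import Crest.Agent.T223.Gr1_44

/-!
# Row 223 (helper44): matrix facts, Christoffel symbols `Gam G c = ∂_c G · G⁻¹`

* `polar`, `hC_herm`, `entry_le`, `det_ne_zero_of_lo`, `inv_entry_le`
* `wdM_mul`, `wdM_ct`, `Rm_ct`, `Rm_entry_le`
* `HB G z0 r Λ K` (Hermitian, `Λ`-comparable to the flat metric, `|bis| ≤ K` on a ball)
* `HB.wd_Gam` : `∂̄_d Γ_c = - Rm c d · G⁻¹`
-/

set_option autoImplicit false

open Set Filter Topology Complex Metric
open scoped ContDiff ComplexConjugate Matrix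

namespace Crest.Agent.T223.Gr

open Crest.Agent.R275.Geo Crest.Agent.R275.EDR890 Crest.Agent.R273.Hess_333
open Crest.Agent.T223.Br Crest.Agent.T223.Tr

noncomputable section

variable {n : ℕ}

theorem nq_eq_hC (H : Mat n) (v : Cn n) : nq H v = (hC H v).re := rfl

theorem hC_pair (H : Mat n) (a b : Fin n) (l : ℂ) :
    hC H (EuclideanSpace.single a 1 + EuclideanSpace.single b l) =
      H a a + H a b * conj l + H b a * l + H b b * l * conj l := by
  simp only [hC, PiLp.add_apply, PiLp.single_apply, map_add, mul_add, add_mul,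
    Finset.sum_add_distrib, apply_ite (starRingEnd ℂ), map_one, map_zero, mul_ite, mul_one, mul_zero,
    ite_mul, zero_mul, Finset.sum_ite_eq', Finset.mem_univ, if_true]
  ring

/-- polarisation -/
theorem polar {H : Mat n} {K : ℝ} (h : ∀ v : Cn n, ‖hC H v‖ ≤ K * ‖v‖ ^ 2) (a b : Fin n) :
    ‖H a b‖ ≤ 4 * K := by
  have hK : 0 ≤ K := by
    have := (norm_nonneg _).trans (h (EuclideanSpace.single a 1))
    simpa using this
  have hb : ∀ l : ℂ, ‖l‖ = 1 →
      ‖hC H (EuclideanSpace.single a 1 + EuclideanSpace.single b l)‖ ≤ 4 * K := by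
    intro l hl
    refine (h _).trans ?_
    have h1 : ‖(EuclideanSpace.single a 1 + EuclideanSpace.single b l : Cn n)‖ ≤ 2 := by
      refine (norm_add_le _ _).trans ?_
      simp [hl]; norm_num
    have h2 : ‖(EuclideanSpace.single a 1 + EuclideanSpace.single b l : Cn n)‖ ^ 2 ≤ 4 := by
      nlinarith [norm_nonneg (EuclideanSpace.single a 1 + EuclideanSpace.single b l : Cn n)]
    nlinarith
  have e : (4 : ℂ) * H a b =
      hC H (EuclideanSpace.single a 1 + EuclideanSpace.single b 1)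
      - hC H (EuclideanSpace.single a 1 + EuclideanSpace.single b (-1))
      + I * hC H (EuclideanSpace.single a 1 + EuclideanSpace.single b I)
      - I * hC H (EuclideanSpace.single a 1 + EuclideanSpace.single b (-I)) := by
    simp only [hC_pair, map_one, map_neg, conj_I]
    linear_combination (2 * H a b - 2 * H b a) * I_mul_I
  have h1 := hb 1 (by simp)
  have h2 := hb (-1) (by simp)
  have h3 := hb I (by simp)
  have h4 := hb (-I) (by simp)
  have h5 : ‖(4 : ℂ) * H a b‖ ≤ 16 * K := by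
    rw [e]
    refine (norm_sub_le _ _).trans ?_
    refine (add_le_add (norm_add_le _ _) le_rfl).trans ?_
    refine (add_le_add (add_le_add (norm_sub_le _ _) le_rfl) le_rfl).trans ?_
    rw [norm_mul, norm_mul, Complex.norm_I]
    linarith
  rw [norm_mul] at h5
  have : ‖(4 : ℂ)‖ = 4 := by simp
  rw [this] at h5
  linarith

theorem hC_herm {H : Mat n} (h : H.IsHermitian) (v : Cn n) : hC H v = (nq H v : ℂ) := by
  rw [nq_eq_hC]
  symm
  rw [← Complex.conj_eq_iff_re]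
  simp only [hC, map_sum, map_mul, Complex.conj_conj]
  rw [Finset.sum_comm]
  refine Finset.sum_congr rfl fun a _ => Finset.sum_congr rfl fun b _ => ?_
  have : conj (H b a) = H a b := h.apply a b
  rw [this]; ring

theorem entry_le {H : Mat n} (h : H.IsHermitian) {K : ℝ} (hK : ∀ v : Cn n, |nq H v| ≤ K * ‖v‖ ^ 2)
    (a b : Fin n) : ‖H a b‖ ≤ 4 * K :=
  polar (fun v => by rw [hC_herm h, Complex.norm_real]; exact hK v) a b

theorem hC_vecMul (H : Mat n) (u : Fin n → ℂ) :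
    hC H (WithLp.toLp 2 u) = ∑ b, (u ᵥ* H) b * conj (u b) := by
  simp only [hC, Matrix.vecMul, dotProduct, Finset.sum_mul]
  rw [Finset.sum_comm]
  refine Finset.sum_congr rfl fun a _ => Finset.sum_congr rfl fun b _ => ?_
  ring

theorem det_ne_zero_of_lo {H : Mat n} {Λ : ℝ} (h : ∀ v : Cn n, ‖v‖ ^ 2 ≤ Λ * nq H v) :
    H.det ≠ 0 := by
  intro hd
  obtain ⟨u, hu, h0⟩ := Matrix.exists_vecMul_eq_zero_iff.2 hd
  have h1 := h (WithLp.toLp 2 u)
  rw [nq_eq_hC, hC_vecMul, h0] at h1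
  simp only [Pi.zero_apply, zero_mul, Finset.sum_const_zero, zero_re, mul_zero] at h1
  have h2 : (WithLp.toLp 2 u : Cn n) = 0 := by
    rw [← norm_eq_zero]; nlinarith [norm_nonneg (WithLp.toLp 2 u : Cn n)]
  exact hu (by simpa using h2)

theorem inv_entry_le {H : Mat n} {Λ : ℝ} (hΛ : 0 ≤ Λ) (h : ∀ v : Cn n, ‖v‖ ^ 2 ≤ Λ * nq H v)
    (p q : Fin n) : ‖H⁻¹ p q‖ ≤ Λ := by
  have hd := det_ne_zero_of_lo h
  have hi : H⁻¹ * H = 1 := Matrix.nonsing_inv_mul H (isUnit_iff_ne_zero.2 hd)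
  set u : Fin n → ℂ := fun a => H⁻¹ p a with hu
  have h1 : ∀ b, (u ᵥ* H) b = if p = b then 1 else 0 := fun b => by
    have := congrFun (congrFun hi p) b
    rw [Matrix.one_apply] at this
    rw [← this]; rfl
  have h2 := h (WithLp.toLp 2 u)
  rw [nq_eq_hC, hC_vecMul] at h2
  simp only [h1, ite_mul, one_mul, zero_mul, Finset.sum_ite_eq, Finset.mem_univ, if_true,
    conj_re] at h2
  have h3 : ∀ a, ‖u a‖ ≤ ‖(WithLp.toLp 2 u : Cn n)‖ := fun a =>
    PiLp.norm_apply_le (WithLp.toLp 2 u : Cn n) a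
  have h4 : (u p).re ≤ ‖(WithLp.toLp 2 u : Cn n)‖ := (Complex.re_le_norm _).trans (h3 p)
  have h5 : ‖(WithLp.toLp 2 u : Cn n)‖ ≤ Λ := by
    by_contra hc
    push Not at hc
    nlinarith [mul_le_mul_of_nonneg_left h4 hΛ]
  exact (h3 q).trans h5

theorem mul_entry_le {A B : Mat n} {α β : ℝ} (hA : ∀ a b, ‖A a b‖ ≤ α) (hB : ∀ a b, ‖B a b‖ ≤ β)
    (a b : Fin n) : ‖(A * B) a b‖ ≤ n * α * β := by
  rw [Matrix.mul_apply]
  refine (norm_sum_le _ _).trans ?_
  calc ∑ k, ‖A a k * B k b‖ ≤ ∑ _k : Fin n, α * β := Finset.sum_le_sum fun k _ => by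
        rw [norm_mul]
        exact mul_le_mul (hA _ _) (hB _ _) (norm_nonneg _) ((norm_nonneg _).trans (hA a k))
    _ = n * α * β := by simp [mul_assoc]

theorem wdM_apply (s : WI n) (g : Cn n → Mat n) (z : Cn n) (a b : Fin n) :
    wdM s g z a b = wd s (fun w => g w a b) z := rfl

theorem wdM_congr {A B : Cn n → Mat n} {z : Cn n} (h : A =ᶠ[𝓝 z] B) (s : WI n) :
    wdM s A z = wdM s B z := by
  ext a b
  refine wd_congr ?_ s
  filter_upwards [h] with w hw
  rw [hw]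

theorem wdM_mul {A B : Cn n → Mat n} {z : Cn n}
    (hA : ∀ a b, DifferentiableAt ℝ (fun w => A w a b) z)
    (hB : ∀ a b, DifferentiableAt ℝ (fun w => B w a b) z) (s : WI n) :
    wdM s (fun w => A w * B w) z = wdM s A z * B z + A z * wdM s B z := by
  ext a b
  simp only [wdM_apply, Matrix.mul_apply, Matrix.add_apply]
  rw [wd_sum _ (f := fun k w => A w a k * B w k b) fun k _ => (hA a k).mul (hB k b),
    ← Finset.sum_add_distrib]
  exact Finset.sum_congr rfl fun k _ => wd_mul (hA a k) (hB k b) s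

theorem wdM_ct {A : Cn n → Mat n} {z : Cn n}
    (hA : ∀ a b, DifferentiableAt ℝ (fun w => A w a b) z) (s : WI n) :
    (wdM s A z)ᴴ = wdM (!s.1, s.2) (fun w => (A w)ᴴ) z := by
  ext a b
  simp only [Matrix.conjTranspose_apply, wdM_apply]
  exact conj_wd s (hA b a)

/-- Christoffel symbols -/
def Gam (G : Cn n → Mat n) (c : Fin n) (z : Cn n) : Mat n := wdM (false, c) G z * (G z)⁻¹

/-- smooth Hermitian matrix field on a ball, comparable to the flat one, with bounded curvature -/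
structure HB (G : Cn n → Mat n) (z0 : Cn n) (r Λ K : ℝ) : Prop where
  sm : ∀ a b, ContDiffOn ℝ ∞ (fun z => G z a b) (ball z0 r)
  herm : ∀ z ∈ ball z0 r, (G z).IsHermitian
  lo : ∀ z ∈ ball z0 r, ∀ v, ‖v‖ ^ 2 ≤ Λ * nq (G z) v
  hi : ∀ z ∈ ball z0 r, ∀ v, nq (G z) v ≤ Λ * ‖v‖ ^ 2
  cur : ∀ z ∈ ball z0 r, ∀ v w, |bis G z v w| ≤ K * nq (G z) v * nq (G z) w
  Λ_pos : 0 < Λ
  K_nonneg : 0 ≤ K

namespace HB

variable {G : Cn n → Mat n} {z0 z : Cn n} {r Λ K : ℝ}

theorem nq_nonneg (H : HB G z0 r Λ K) (hz : z ∈ ball z0 r) (v : Cn n) : 0 ≤ nq (G z) v :=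
  nonneg_of_mul_nonneg_right ((sq_nonneg _).trans (H.lo z hz v)) H.Λ_pos

theorem mono (H : HB G z0 r Λ K) {z1 : Cn n} {r1 K1 : ℝ} (h : ball z1 r1 ⊆ ball z0 r)
    (hK : K ≤ K1) : HB G z1 r1 Λ K1 where
  sm a b := (H.sm a b).mono h
  herm z hz := H.herm z (h hz)
  lo z hz := H.lo z (h hz)
  hi z hz := H.hi z (h hz)
  cur z hz v w := (H.cur z (h hz) v w).trans
    (mul_le_mul_of_nonneg_right (mul_le_mul_of_nonneg_right hK (H.nq_nonneg (h hz) v))
      (H.nq_nonneg (h hz) w))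
  Λ_pos := H.Λ_pos
  K_nonneg := H.K_nonneg.trans hK

theorem cd (H : HB G z0 r Λ K) (hz : z ∈ ball z0 r) (a b : Fin n) :
    ContDiffAt ℝ ∞ (fun z => G z a b) z := (H.sm a b).contDiffAt (isOpen_ball.mem_nhds hz)

theorem df (H : HB G z0 r Λ K) (hz : z ∈ ball z0 r) (a b : Fin n) :
    DifferentiableAt ℝ (fun z => G z a b) z := (H.cd hz a b).differentiableAt (by simp)

theorem cd_wdM (H : HB G z0 r Λ K) (hz : z ∈ ball z0 r) (s : WI n) (a b : Fin n) :
    ContDiffAt ℝ ∞ (fun z => wdM s G z a b) z := contDiffAt_wd (H.cd hz a b) s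

theorem det_ne (H : HB G z0 r Λ K) (hz : z ∈ ball z0 r) : (G z).det ≠ 0 :=
  det_ne_zero_of_lo (H.lo z hz)

theorem inv_mul (H : HB G z0 r Λ K) (hz : z ∈ ball z0 r) : (G z)⁻¹ * G z = 1 :=
  Matrix.nonsing_inv_mul _ (isUnit_iff_ne_zero.2 (H.det_ne hz))

theorem mul_inv (H : HB G z0 r Λ K) (hz : z ∈ ball z0 r) : G z * (G z)⁻¹ = 1 :=
  Matrix.mul_nonsing_inv _ (isUnit_iff_ne_zero.2 (H.det_ne hz))

theorem cd_inv (H : HB G z0 r Λ K) (hz : z ∈ ball z0 r) (a b : Fin n) :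
    ContDiffAt ℝ ∞ (fun z => (G z)⁻¹ a b) z :=
  (Crest.Agent.R273.Ric_798.contDiffOn_inv H.sm (fun _ h => H.det_ne h) a b).contDiffAt
    (isOpen_ball.mem_nhds hz)

theorem cd_Gam (H : HB G z0 r Λ K) (hz : z ∈ ball z0 r) (c a b : Fin n) :
    ContDiffAt ℝ ∞ (fun z => Gam G c z a b) z := by
  simp only [Gam, Matrix.mul_apply]
  exact ContDiffAt.sum fun k _ => (H.cd_wdM hz _ a k).mul (H.cd_inv hz k b)

theorem G_le (H : HB G z0 r Λ K) (hz : z ∈ ball z0 r) (a b : Fin n) : ‖G z a b‖ ≤ 4 * Λ :=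
  entry_le (H.herm z hz) (fun v => by rw [abs_of_nonneg (H.nq_nonneg hz v)]; exact H.hi z hz v) a b

theorem inv_le (H : HB G z0 r Λ K) (hz : z ∈ ball z0 r) (a b : Fin n) : ‖(G z)⁻¹ a b‖ ≤ Λ :=
  inv_entry_le H.Λ_pos.le (H.lo z hz) a b

theorem Gam_mul (H : HB G z0 r Λ K) (hz : z ∈ ball z0 r) (c : Fin n) :
    Gam G c z * G z = wdM (false, c) G z := by
  rw [Gam, Matrix.mul_assoc, H.inv_mul hz, Matrix.mul_one]

theorem wdM_ct' (H : HB G z0 r Λ K) (hz : z ∈ ball z0 r) (s : WI n) :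
    (wdM s G z)ᴴ = wdM (!s.1, s.2) G z := by
  rw [wdM_ct (H.df hz)]
  refine wdM_congr ?_ _
  filter_upwards [isOpen_ball.mem_nhds hz] with w hw using (H.herm w hw).eq

theorem wdM_comm (H : HB G z0 r Λ K) (hz : z ∈ ball z0 r) (s t : WI n) :
    wdM s (wdM t G) z = wdM t (wdM s G) z := by
  ext a b
  exact wd_comm (H.cd hz a b) s t

theorem Rm_ct (H : HB G z0 r Λ K) (hz : z ∈ ball z0 r) (c d : Fin n) :
    (Rm G z c d)ᴴ = Rm G z d c := by
  have h1 : (wdM (false, c) (wdM (true, d) G) z)ᴴ = wdM (false, d) (wdM (true, c) G) z := by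
    rw [wdM_ct fun a b => (H.cd_wdM hz _ a b).differentiableAt (by simp), H.wdM_comm hz]
    refine wdM_congr ?_ _
    filter_upwards [isOpen_ball.mem_nhds hz] with w hw using H.wdM_ct' hw (true, d)
  simp only [Rm, Matrix.conjTranspose_add, Matrix.conjTranspose_neg, h1, Matrix.conjTranspose_mul,
    H.wdM_ct' hz, (H.herm z hz).inv.eq, Matrix.mul_assoc, Bool.not_true, Bool.not_false]

theorem Rm_le (H : HB G z0 r Λ K) (hz : z ∈ ball z0 r) (c d a b : Fin n) :
    ‖Rm G z c d a b‖ ≤ 16 * K * Λ ^ 2 := by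
  have h1 : ∀ w : Cn n, ∀ a b,
      ‖hC (Matrix.of fun c d => Rm G z c d a b) w‖ ≤ 4 * (K * Λ ^ 2 * ‖w‖ ^ 2) := by
    intro w a b
    have hh : (Matrix.of fun a b => hC (Matrix.of fun c d => Rm G z c d a b) w :
        Mat n).IsHermitian := by
      ext a b
      simp only [Matrix.conjTranspose_apply, Matrix.of_apply, hC, star_def, map_sum, map_mul,
        Complex.conj_conj]
      rw [Finset.sum_comm]
      refine Finset.sum_congr rfl fun c _ => Finset.sum_congr rfl fun d _ => ?_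
      have : conj (Rm G z d c b a) = Rm G z c d a b := by
        rw [← H.Rm_ct hz d c]; rfl
      rw [this]; ring
    refine entry_le hh (K := K * Λ ^ 2 * ‖w‖ ^ 2) (fun v => ?_) a b
    have e : nq (Matrix.of fun a b => hC (Matrix.of fun c d => Rm G z c d a b) w) v =
        bis G z v w := by
      simp only [nq, bis, hC, Matrix.of_apply, Finset.sum_mul]
      congr 1
      refine Finset.sum_congr rfl fun a _ => Finset.sum_congr rfl fun b _ =>
        Finset.sum_congr rfl fun c _ => Finset.sum_congr rfl fun d _ => ?_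
      ring
    rw [e]
    refine (H.cur z hz v w).trans ?_
    have h2 := H.hi z hz v
    have h3 := H.hi z hz w
    have h4 := H.nq_nonneg hz w
    have h5 := H.K_nonneg
    have h6 := H.Λ_pos
    calc K * nq (G z) v * nq (G z) w ≤ K * (Λ * ‖v‖ ^ 2) * (Λ * ‖w‖ ^ 2) := by gcongr
      _ = _ := by ring
  have := polar (H := Matrix.of fun c d => Rm G z c d a b) (K := 4 * K * Λ ^ 2)
    (fun w => (h1 w a b).trans_eq (by ring)) c d
  rw [Matrix.of_apply] at this
  linarith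

theorem wd_Gam (H : HB G z0 r Λ K) (hz : z ∈ ball z0 r) (c d : Fin n) :
    wdM (true, d) (Gam G c) z = -(Rm G z c d * (G z)⁻¹) := by
  have h1 : wdM (true, d) (fun w => Gam G c w * G w) z = wdM (true, d) (wdM (false, c) G) z := by
    refine wdM_congr ?_ _
    filter_upwards [isOpen_ball.mem_nhds hz] with w hw using H.Gam_mul hw c
  rw [wdM_mul (fun a b => (H.cd_Gam hz c a b).differentiableAt (by simp)) (H.df hz),
    H.wdM_comm hz] at h1
  have h2 : wdM (true, d) (Gam G c) z * G z = -Rm G z c d := by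
    rw [Rm, ← h1, Gam]; abel
  rw [← Matrix.neg_mul, ← h2, Matrix.mul_assoc, H.mul_inv hz, Matrix.mul_one]

theorem wd_Gam_le (H : HB G z0 r Λ K) (hz : z ∈ ball z0 r) (c d a b : Fin n) :
    ‖wd (true, d) (fun w => Gam G c w a b) z‖ ≤ n * (16 * K * Λ ^ 2) * Λ := by
  rw [← wdM_apply, H.wd_Gam hz, Matrix.neg_apply, norm_neg]
  exact mul_entry_le (H.Rm_le hz c d) (H.inv_le hz) a b

end HB

end

end Crest.Agent.T223.Gr
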