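import Crest.Agent.T223.OsKitA_61
import Crest.Agent.T223.Gr2_44

/-!
# Row 223, JETBD (helper38): bounds of the jets in a chart give bounds of the tensors

* `WB m f z`, `WM m g z` : families of germs with uniformly bounded Wirtinger jets of order `m`
* `chart_bd`  : `1/2 ≤ g`, `|D^j g| ≤ C` (`j ≤ 4`) bound `bis`, `ric`, `lyhS`
* scaling laws `ric_smul`, `scal_smul`, `bis_smul`, `nabRic_smul`, `gsq_smul`, `lyhS_smul`
* `crude_of_jets` : `LyhAbs`, `BkAbs` from the jets of `pull G ψ`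
* `hesAbs_of_jets`, `gr_le_of_jet`, `fderiv_le_of_gr`
-/

set_option autoImplicit false
set_option linter.unusedVariables false

open Set Filter Topology Metric
open scoped ContDiff ComplexConjugate Matrix ComplexOrder

namespace Crest.Agent.T223.Jb

open Crest.Agent.R275.Geo Crest.Agent.R275.EDR890 Crest.Agent.R273.Kah_333
open Crest.Agent.R273.Hess_333 Crest.Agent.R273.HessB_333
open Crest.Agent.T223.Br Crest.Agent.T223.Tr Crest.Agent.T223.Os

noncomputable section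

variable {n : ℕ} {ι : Type}

/-- smooth germs with bounded values -/
def W0 (f : ι → Cn n → ℂ) (z : ι → Cn n) : Prop :=
  (∀ i, ∀ᶠ w in 𝓝 (z i), ContDiffAt ℝ ∞ (f i) w) ∧ ∃ C : ℝ, ∀ i, ‖f i (z i)‖ ≤ C

/-- smooth germs with bounded jets -/
def WB : ℕ → (ι → Cn n → ℂ) → (ι → Cn n) → Prop
  | 0, f, z => W0 f z
  | m + 1, f, z => W0 f z ∧ ∀ s, WB m (fun i => wd s (f i)) z

variable {z : ι → Cn n} {f g : ι → Cn n → ℂ} {m : ℕ}

theorem WB.w0 (h : WB m f z) : W0 f z := by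
  cases m with
  | zero => exact h
  | succ m => exact h.1

theorem WB.sm (h : WB m f z) (i : ι) : ∀ᶠ w in 𝓝 (z i), ContDiffAt ℝ ∞ (f i) w := h.w0.1 i

theorem WB.wd (h : WB (m + 1) f z) (s : WI n) : WB m (fun i => wd s (f i)) z := h.2 s

theorem WB.pred (h : WB (m + 1) f z) : WB m f z := by
  induction m generalizing f with
  | zero => exact h.1
  | succ m ih => exact ⟨h.1, fun s => ih (h.2 s)⟩

theorem WB.of_le {k : ℕ} (h : WB k f z) (hk : m ≤ k) : WB m f z := by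
  induction hk with
  | refl => exact h
  | step _ ih => exact ih h.pred

theorem W0.congr (h : W0 f z) (e : ∀ i, g i =ᶠ[𝓝 (z i)] f i) : W0 g z := by
  refine ⟨fun i => ?_, h.2.imp fun C hC i => by rw [(e i).self_of_nhds]; exact hC i⟩
  filter_upwards [h.1 i, (e i).eventually_nhds] with w hw he
  exact hw.congr_of_eventuallyEq he

theorem WB.congr (h : WB m f z) (e : ∀ i, g i =ᶠ[𝓝 (z i)] f i) : WB m g z := by
  induction m generalizing f g with
  | zero => exact W0.congr h e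
  | succ m ih =>
    exact ⟨h.1.congr e, fun s => ih (h.2 s) fun i =>
      (e i).eventually_nhds.mono fun w hw => wd_congr hw s⟩

theorem wb_const {c : ι → ℂ} (hc : ∃ C : ℝ, ∀ i, ‖c i‖ ≤ C) : WB m (fun i _ => c i) z := by
  induction m generalizing c with
  | zero => exact ⟨fun i => Eventually.of_forall fun _ => contDiffAt_const, hc⟩
  | succ m ih =>
    refine ⟨⟨fun i => Eventually.of_forall fun _ => contDiffAt_const, hc⟩, fun s => ?_⟩
    exact (ih (c := fun _ => 0) ⟨0, by simp⟩).congr fun i =>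
      Eventually.of_forall fun w => wd_const _ _ _

theorem W0.add (hf : W0 f z) (hg : W0 g z) : W0 (fun i w => f i w + g i w) z := by
  obtain ⟨C, hC⟩ := hf.2
  obtain ⟨D, hD⟩ := hg.2
  refine ⟨fun i => ?_, C + D, fun i => (norm_add_le _ _).trans (add_le_add (hC i) (hD i))⟩
  filter_upwards [hf.1 i, hg.1 i] with w h1 h2
  exact h1.add h2

theorem WB.add (hf : WB m f z) (hg : WB m g z) : WB m (fun i w => f i w + g i w) z := by
  induction m generalizing f g with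
  | zero => exact W0.add hf hg
  | succ m ih =>
    refine ⟨hf.1.add hg.1, fun s => (ih (hf.2 s) (hg.2 s)).congr fun i => ?_⟩
    filter_upwards [hf.sm i, hg.sm i] with w h1 h2
    exact wd_add (h1.differentiableAt (by simp)) (h2.differentiableAt (by simp)) s

theorem W0.mul (hf : W0 f z) (hg : W0 g z) : W0 (fun i w => f i w * g i w) z := by
  obtain ⟨C, hC⟩ := hf.2
  obtain ⟨D, hD⟩ := hg.2
  refine ⟨fun i => ?_, C * D, fun i => ?_⟩
  · filter_upwards [hf.1 i, hg.1 i] with w h1 h2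
    exact h1.mul h2
  · rw [norm_mul]
    exact mul_le_mul (hC i) (hD i) (norm_nonneg _) ((norm_nonneg _).trans (hC i))

theorem WB.mul (hf : WB m f z) (hg : WB m g z) : WB m (fun i w => f i w * g i w) z := by
  induction m generalizing f g with
  | zero => exact W0.mul hf hg
  | succ m ih =>
    refine ⟨hf.1.mul hg.1, fun s =>
      ((ih (hf.2 s) hg.pred).add (ih hf.pred (hg.2 s))).congr fun i => ?_⟩
    filter_upwards [hf.sm i, hg.sm i] with w h1 h2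
    exact wd_mul (h1.differentiableAt (by simp)) (h2.differentiableAt (by simp)) s

theorem WB.const_mul (c : ℂ) (hf : WB m f z) : WB m (fun i w => c * f i w) z :=
  (wb_const (c := fun _ => c) ⟨‖c‖, fun _ => le_rfl⟩).mul hf

theorem WB.neg (hf : WB m f z) : WB m (fun i w => -f i w) z :=
  (hf.const_mul (-1)).congr fun i => Eventually.of_forall fun w => by simp

theorem WB.sum {κ : Type*} (S : Finset κ) {F : κ → ι → Cn n → ℂ} (h : ∀ k ∈ S, WB m (F k) z) :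
    WB m (fun i w => ∑ k ∈ S, F k i w) z := by
  classical
  induction S using Finset.induction_on with
  | empty =>
    exact (wb_const (c := fun _ => 0) ⟨0, by simp⟩).congr fun i =>
      Eventually.of_forall fun w => by simp
  | insert a S ha ih =>
    exact ((h a (Finset.mem_insert_self a S)).add
      (ih fun k hk => h k (Finset.mem_insert_of_mem hk))).congr fun i =>
      Eventually.of_forall fun w => by simp only [Finset.sum_insert ha]

theorem W0.conj (hf : W0 f z) : W0 (fun i w => conj (f i w)) z := by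
  refine ⟨fun i => ?_, hf.2.imp fun C hC i => by simpa using hC i⟩
  filter_upwards [hf.1 i] with w h1
  exact (Complex.conjCLE : ℂ →L[ℝ] ℂ).contDiff.contDiffAt.comp w h1

theorem WB.conj (hf : WB m f z) : WB m (fun i w => conj (f i w)) z := by
  induction m generalizing f with
  | zero => exact W0.conj hf
  | succ m ih =>
    refine ⟨hf.1.conj, fun s => (ih (hf.2 (!s.1, s.2))).congr fun i => ?_⟩
    filter_upwards [hf.sm i] with w h1
    rw [conj_wd _ (h1.differentiableAt (by simp))]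
    simp

theorem WB.re (hf : WB m f z) : WB m (fun i => cu fun w => (f i w).re) z :=
  ((hf.add hf.conj).const_mul (1 / 2)).congr fun i => Eventually.of_forall fun w => by
    simp only [cu, Complex.add_conj]
    push_cast
    ring

theorem wb_of_jets (hs : ∀ i, ∀ᶠ w in 𝓝 (z i), ContDiffAt ℝ ∞ (f i) w)
    (hb : ∃ C : ℝ, ∀ i, ∀ j ≤ m, ‖iteratedFDeriv ℝ j (f i) (z i)‖ ≤ C) : WB m f z := by
  induction m generalizing f with
  | zero =>
    exact ⟨hs, hb.imp fun C hC i => by simpa only [norm_iteratedFDeriv_zero] using hC i 0 le_rfl⟩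
  | succ m ih =>
    obtain ⟨C, hC⟩ := hb
    refine ⟨⟨hs, C, fun i => by
      simpa only [norm_iteratedFDeriv_zero] using hC i 0 (Nat.zero_le _)⟩, fun s => ?_⟩
    refine ih (fun i => (hs i).mono fun w hw => contDiffAt_wd hw s)
      ⟨‖(wdLc s : (Cn n →L[ℝ] ℂ) →L[ℝ] ℂ)‖ * C, fun i j hj => ?_⟩
    have h1 : ContDiffAt ℝ ∞ (fderiv ℝ (f i)) (z i) := (hs i).self_of_nhds.fderiv_right (by simp)
    have h2 := (wdLc s : (Cn n →L[ℝ] ℂ) →L[ℝ] ℂ).norm_iteratedFDeriv_comp_left h1 (n := j)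
      (by exact_mod_cast le_top)
    rw [norm_iteratedFDeriv_fderiv] at h2
    exact h2.trans (mul_le_mul_of_nonneg_left (hC i (j + 1) (by omega)) (norm_nonneg _))

/-- matrix valued version -/
def WM (m : ℕ) (G : ι → Cn n → Mat n) (z : ι → Cn n) : Prop :=
  ∀ a b, WB m (fun i w => G i w a b) z

variable {G H : ι → Cn n → Mat n}

theorem WM.sm (h : WM m G z) (i : ι) : ∀ᶠ w in 𝓝 (z i), SmM (G i) w :=
  eventually_all.2 fun a => eventually_all.2 fun b => (h a b).sm i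

theorem WM.bdd (h : WM m G z) : ∃ C : ℝ, 0 ≤ C ∧ ∀ i a b, ‖G i (z i) a b‖ ≤ C := by
  choose C hC using fun a b => (h a b).w0.2
  refine ⟨∑ a, ∑ b, |C a b|, by positivity, fun i a b => (hC a b i).trans
    ((le_abs_self _).trans ?_)⟩
  calc |C a b| ≤ ∑ b, |C a b| :=
        Finset.single_le_sum (f := fun b => |C a b|) (fun _ _ => abs_nonneg _) (Finset.mem_univ b)
    _ ≤ _ := Finset.single_le_sum (f := fun a => ∑ b, |C a b|) (fun _ _ => by positivity)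
        (Finset.mem_univ a)

theorem WM.pred (h : WM (m + 1) G z) : WM m G z := fun a b => (h a b).pred

theorem WM.of_le {k : ℕ} (h : WM k G z) (hk : m ≤ k) : WM m G z := fun a b => (h a b).of_le hk

theorem WM.congr (h : WM m G z) (e : ∀ i, H i =ᶠ[𝓝 (z i)] G i) : WM m H z := fun a b =>
  (h a b).congr fun i => (e i).mono fun w hw => by simp only [hw]

theorem WM.wdM (h : WM (m + 1) G z) (s : WI n) : WM m (fun i => wdM s (G i)) z := fun a b =>
  (h a b).wd s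

theorem WM.add (hG : WM m G z) (hH : WM m H z) : WM m (fun i w => G i w + H i w) z := fun a b =>
  (hG a b).add (hH a b)

theorem WM.neg (hG : WM m G z) : WM m (fun i w => -G i w) z := fun a b => (hG a b).neg

theorem WM.sub (hG : WM m G z) (hH : WM m H z) : WM m (fun i w => G i w - H i w) z :=
  (hG.add hH.neg).congr fun i => Eventually.of_forall fun w => sub_eq_add_neg _ _

theorem WM.mul (hG : WM m G z) (hH : WM m H z) : WM m (fun i w => G i w * H i w) z := fun a b =>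
  (WB.sum Finset.univ fun c _ => (hG a c).mul (hH c b)).congr fun i =>
    Eventually.of_forall fun w => Matrix.mul_apply

theorem WM.trace (hG : WM m G z) : WB m (fun i w => (G i w).trace) z :=
  WB.sum Finset.univ fun a _ => hG a a

theorem WM.inv (hG : WM m G z) (h0 : ∀ i, (G i (z i)).det ≠ 0)
    (hb : ∃ C : ℝ, ∀ i a b, ‖(G i (z i))⁻¹ a b‖ ≤ C) : WM m (fun i w => (G i w)⁻¹) z := by
  have hd : ∀ i, ∀ᶠ w in 𝓝 (z i), (G i w).det ≠ 0 := fun i =>
    (hG.sm i).self_of_nhds.det.continuousAt.eventually_ne (h0 i)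
  have hw : ∀ a b, W0 (fun i w => (G i w)⁻¹ a b) z := by
    intro a b
    refine ⟨fun i => ?_, hb.imp fun C hC i => hC i a b⟩
    filter_upwards [hG.sm i, hd i] with w h1 h2
    exact h1.inv h2 a b
  induction m with
  | zero => exact hw
  | succ m ih =>
    intro a b
    refine ⟨hw a b, fun s => ?_⟩
    have h1 := ih hG.pred
    refine (((h1.mul (hG.wdM s)).mul h1).neg a b).congr fun i => ?_
    filter_upwards [hG.sm i, hd i] with w h2 h3
    exact congrFun (congrFun (Tr.wdM_inv h2 h3 s) a) b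

theorem wm_hess {u : ι → Cn n → ℝ} (h : WB (m + 2) (fun i => cu (u i)) z) :
    WM m (fun i => hess (u i)) z := fun a b => (h.wd (true, b)).wd (false, a)

/-- Kaehler families bounded below -/
structure KF (G : ι → Cn n → Mat n) (z : ι → Cn n) : Prop where
  kah : ∀ i, KahAt (G i) (z i)
  inv : ∃ C : ℝ, ∀ i a b, ‖(G i (z i))⁻¹ a b‖ ≤ C

theorem KF.wm_inv (K : KF G z) (h : WM m G z) : WM m (fun i w => (G i w)⁻¹) z :=
  h.inv (fun i => (K.kah i).det_ne) K.inv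

theorem KF.wm_Rm (K : KF G z) (h : WM (m + 2) G z) (c d : Fin n) :
    WM m (fun i w => Rm (G i) w c d) z :=
  ((h.wdM (true, d)).wdM (false, c)).neg.add
    (((h.pred.wdM (false, c)).mul (K.wm_inv h.pred.pred)).mul (h.pred.wdM (true, d)))

theorem KF.wm_ric (K : KF G z) (h : WM (m + 2) G z) : WM m (fun i => ric (G i)) z := fun c d =>
  ((K.wm_inv h.pred.pred).mul (K.wm_Rm h c d)).trace.congr fun i =>
    (K.kah i).eventually.mono fun w hw => Tr.ric_eq_trace hw.smE hw.pos c d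

theorem KF.wb_scal (K : KF G z) (h : WM (m + 2) G z) : WB m (fun i => cu (scal (G i))) z :=
  ((K.wm_inv h.pred.pred).mul (K.wm_ric h)).trace.re

theorem KF.wm_nabRic (K : KF G z) (h : WM (m + 3) G z) (k : Fin n) :
    WM m (fun i w => nabRic (G i) w k) z :=
  ((K.wm_ric h).wdM (false, k)).sub
    (((h.pred.pred.wdM (false, k)).mul (K.wm_inv h.pred.pred.pred)).mul (K.wm_ric h.pred))

/-! ### from entries to forms -/

theorem sum_norm_le (v : Cn n) : ∑ a, ‖v a‖ ≤ n * ‖v‖ := by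
  calc ∑ a, ‖v a‖ ≤ ∑ _a : Fin n, ‖v‖ := Finset.sum_le_sum fun a _ => PiLp.norm_apply_le v a
    _ = n * ‖v‖ := by simp

theorem norm_form_le {F : Fin n → Fin n → ℂ} {C : ℝ} (hC : 0 ≤ C) (h : ∀ a b, ‖F a b‖ ≤ C)
    (v : Cn n) : ‖∑ a, ∑ b, F a b * v a * conj (v b)‖ ≤ n ^ 2 * C * ‖v‖ ^ 2 := by
  calc ‖∑ a, ∑ b, F a b * v a * conj (v b)‖ ≤ ∑ _a : Fin n, ∑ _b : Fin n, C * ‖v‖ * ‖v‖ := by
        refine (norm_sum_le _ _).trans (Finset.sum_le_sum fun a _ =>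
          (norm_sum_le _ _).trans (Finset.sum_le_sum fun b _ => ?_))
        rw [norm_mul, norm_mul, RCLike.norm_conj]
        exact mul_le_mul (mul_le_mul (h a b) (PiLp.norm_apply_le v a) (norm_nonneg _) hC)
          (PiLp.norm_apply_le v b) (norm_nonneg _) (by positivity)
    _ = n ^ 2 * C * ‖v‖ ^ 2 := by simp; ring

theorem norm_hC_le {H : Mat n} {C : ℝ} (hC : 0 ≤ C) (h : ∀ a b, ‖H a b‖ ≤ C) (v : Cn n) :
    ‖T223.hC H v‖ ≤ n ^ 2 * C * ‖v‖ ^ 2 := norm_form_le hC h v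

theorem abs_nq_le {H : Mat n} {C : ℝ} (hC : 0 ≤ C) (h : ∀ a b, ‖H a b‖ ≤ C) (v : Cn n) :
    |nq H v| ≤ n ^ 2 * C * ‖v‖ ^ 2 := (Complex.abs_re_le_norm _).trans (norm_hC_le hC h v)

theorem abs_bis_le {g : Cn n → Mat n} {z : Cn n} {C : ℝ} (hC : 0 ≤ C)
    (h : ∀ c d a b, ‖Rm g z c d a b‖ ≤ C) (v w : Cn n) :
    |bis g z v w| ≤ n ^ 4 * C * ‖v‖ ^ 2 * ‖w‖ ^ 2 := by
  rw [bis_eq]
  refine (Complex.abs_re_le_norm _).trans ((norm_form_le (by positivity)
    (fun c d => norm_hC_le hC (h c d) v) w).trans (le_of_eq (by ring)))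

theorem exists_forall_bd {κ : Type*} [Fintype κ] {P : κ → ℝ → Prop}
    (hm : ∀ k C D, C ≤ D → P k C → P k D) (h : ∀ k, ∃ C, 0 ≤ C ∧ P k C) :
    ∃ C, 0 ≤ C ∧ ∀ k, P k C := by
  choose C h0 hC using h
  exact ⟨∑ k, C k, Finset.sum_nonneg fun k _ => h0 k, fun k => hm k _ _
    (Finset.single_le_sum (f := C) (fun k _ => h0 k) (Finset.mem_univ k)) (hC k)⟩

/-- the three parts of `lyhS` and `bis`, `ric` are bounded by the `4`-jet of the metric -/
theorem chart_bd (n : ℕ) (C : ℝ) : ∃ K : ℝ, 0 ≤ K ∧ ∀ (g : Cn n → Mat n) (z : Cn n), KahAt g z →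
    (∀ v, ‖v‖ ^ 2 ≤ 2 * nq (g z) v) →
    (∀ j ≤ 4, ∀ a b, ‖iteratedFDeriv ℝ j (fun y => g y a b) z‖ ≤ C) →
    (∀ v w, |bis g z v w| ≤ K * ‖v‖ ^ 2 * ‖w‖ ^ 2) ∧ (∀ v, |nq (ric g z) v| ≤ K * ‖v‖ ^ 2) ∧
    (∀ v, |nq (hess (scal g) z + ric g z * (g z)⁻¹ * ric g z) v| ≤ K * ‖v‖ ^ 2) ∧
    ∀ a v : Cn n, ‖∑ k, a k * hC (nabRic g z k) v‖ ≤ K * ‖a‖ * ‖v‖ ^ 2 := by
  let ι : Type := {p : (Cn n → Mat n) × Cn n // KahAt p.1 p.2 ∧
    (∀ v, ‖v‖ ^ 2 ≤ 2 * nq (p.1 p.2) v) ∧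
    ∀ j ≤ 4, ∀ a b, ‖iteratedFDeriv ℝ j (fun y => p.1 y a b) p.2‖ ≤ C}
  let G : ι → Cn n → Mat n := fun i => i.1.1
  let z : ι → Cn n := fun i => i.1.2
  have K : KF G z := ⟨fun i => i.2.1, 2, fun i => Gr.inv_entry_le (by norm_num) i.2.2.1⟩
  have h4 : WM 4 G z := fun a b => wb_of_jets (fun i => (K.kah i).smE.mono fun w hw => hw a b)
    ⟨C, fun i j hj => i.2.2.2 j hj a b⟩
  obtain ⟨C1, h10, h1⟩ := exists_forall_bd (κ := Fin n × Fin n)
    (P := fun k C => ∀ i a b, ‖Rm (G i) (z i) k.1 k.2 a b‖ ≤ C)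
    (fun k C D h H i a b => (H i a b).trans h)
    fun k => (K.wm_Rm (m := 0) (h4.of_le (by norm_num)) k.1 k.2).bdd
  have hr : WM 0 (fun i => ric (G i)) z := K.wm_ric (h4.of_le (by norm_num))
  obtain ⟨C2, h20, h2⟩ := hr.bdd
  obtain ⟨C3, h30, h3⟩ := ((wm_hess (m := 0) (K.wb_scal h4)).add
    ((hr.mul (K.wm_inv (h4.of_le (by norm_num)))).mul hr)).bdd
  obtain ⟨C4, h40, h4'⟩ := exists_forall_bd (κ := Fin n)
    (P := fun k C => ∀ i a b, ‖nabRic (G i) (z i) k a b‖ ≤ C)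
    (fun k C D h H i a b => (H i a b).trans h)
    fun k => (K.wm_nabRic (m := 0) (h4.of_le (by norm_num)) k).bdd
  refine ⟨n ^ 4 * C1 + n ^ 2 * C2 + n ^ 2 * C3 + n ^ 3 * C4, by positivity,
    fun g z0 hk hl hj => ?_⟩
  let i : ι := ⟨(g, z0), hk, hl, hj⟩
  have p1 : (0 : ℝ) ≤ n ^ 4 * C1 := by positivity
  have p2 : (0 : ℝ) ≤ n ^ 2 * C2 := by positivity
  have p3 : (0 : ℝ) ≤ n ^ 2 * C3 := by positivity
  have p4 : (0 : ℝ) ≤ n ^ 3 * C4 := by positivity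
  refine ⟨fun v w => (abs_bis_le h10 (fun c d => h1 (c, d) i) v w).trans ?_,
    fun v => (abs_nq_le h20 (h2 i) v).trans ?_, fun v => (abs_nq_le h30 (h3 i) v).trans ?_,
    fun a v => ?_⟩
  · gcongr; linarith
  · gcongr; linarith
  · gcongr; linarith
  · calc ‖∑ k, a k * hC (nabRic g z0 k) v‖ ≤ ∑ k, ‖a k‖ * (n ^ 2 * C4 * ‖v‖ ^ 2) := by
          refine (norm_sum_le _ _).trans (Finset.sum_le_sum fun k _ => ?_)
          rw [norm_mul]
          exact mul_le_mul_of_nonneg_left (norm_hC_le h40 (h4' k i) v) (norm_nonneg _)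
      _ ≤ n * ‖a‖ * (n ^ 2 * C4 * ‖v‖ ^ 2) := by
          rw [← Finset.sum_mul]
          exact mul_le_mul_of_nonneg_right (sum_norm_le a) (by positivity)
      _ = n ^ 3 * C4 * ‖a‖ * ‖v‖ ^ 2 := by ring
      _ ≤ _ := by gcongr; linarith

/-! ### scaling -/

section scale

variable {g : Cn n → Mat n} {z : Cn n} {t : ℝ}

theorem kahAt_smul (hg : KahAt g z) (ht : 0 < t) : KahAt (fun w => (t : ℂ) • g w) z := by
  refine ⟨hg.smE.mono fun w hw => SmM.smul contDiffAt_const hw,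
    hg.pos.mono fun w hw => hw.smul (by exact_mod_cast ht), ?_, ?_⟩
  · filter_upwards [hg.smE, hg.closed] with w h1 h2 a b c
    simp only [Matrix.smul_apply]
    rw [wd_const_smul _ (SmM.diff h1 a b), wd_const_smul _ (SmM.diff h1 c b), h2]
  · filter_upwards [hg.smE, hg.closed'] with w h1 h2 a b c
    simp only [Matrix.smul_apply]
    rw [wd_const_smul _ (SmM.diff h1 a b), wd_const_smul _ (SmM.diff h1 a c), h2]

theorem inv_smul' {H : Mat n} (h0 : H.det ≠ 0) (ht : t ≠ 0) :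
    ((t : ℂ) • H)⁻¹ = ((t⁻¹ : ℝ) : ℂ) • H⁻¹ := by
  refine Matrix.inv_eq_left_inv ?_
  rw [Matrix.smul_mul, Matrix.mul_smul, Matrix.nonsing_inv_mul _ (isUnit_iff_ne_zero.2 h0),
    smul_smul, ← Complex.ofReal_mul, inv_mul_cancel₀ ht, Complex.ofReal_one, one_smul]

theorem Rm_smul (hg : KahAt g z) (ht : t ≠ 0) (c d : Fin n) :
    Rm (fun w => (t : ℂ) • g w) z c d = (t : ℂ) • Rm g z c d := by
  have h1 : wdM (true, d) (fun w => (t : ℂ) • g w) =ᶠ[𝓝 z]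
      fun w => (t : ℂ) • wdM (true, d) g w := hg.smE.mono fun w hw => wdM_const_smul _ hw _
  have hs : SmM g z := hg.sm
  unfold Rm
  rw [T223.wdM_congr h1, wdM_const_smul _ (hs.wdM _), wdM_const_smul _ hs, wdM_const_smul _ hs,
    inv_smul' hg.det_ne ht]
  simp only [Matrix.smul_mul, Matrix.mul_smul, smul_smul, smul_add, smul_neg]
  congr 2
  have : (t : ℂ) ≠ 0 := Complex.ofReal_ne_zero.2 ht
  push_cast
  field_simp

theorem bis_smul (hg : KahAt g z) (ht : t ≠ 0) (v w : Cn n) :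
    bis (fun y => (t : ℂ) • g y) z v w = t * bis g z v w := by
  rw [bis_eq, bis_eq, ← Complex.re_ofReal_mul]
  refine congrArg Complex.re ?_
  simp only [Rm_smul hg ht, hC_smul, Finset.mul_sum, mul_assoc]

theorem trace_smul_aux {H X : Mat n} (h0 : H.det ≠ 0) (ht : t ≠ 0) :
    ((t : ℂ) • H)⁻¹ * ((t : ℂ) • X) = H⁻¹ * X := by
  rw [inv_smul' h0 ht, Matrix.smul_mul, Matrix.mul_smul, smul_smul, ← Complex.ofReal_mul,
    inv_mul_cancel₀ ht, Complex.ofReal_one, one_smul]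

theorem ric_smul (hg : KahAt g z) (ht : 0 < t) : ric (fun w => (t : ℂ) • g w) z = ric g z := by
  ext c d
  rw [Tr.ric_eq_trace (kahAt_smul hg ht).smE (kahAt_smul hg ht).pos, Tr.ric_eq_trace hg.smE hg.pos,
    Rm_smul hg ht.ne', trace_smul_aux hg.det_ne ht.ne']

theorem trg_smul_left {H : Mat n} (h0 : H.det ≠ 0) (ht : t ≠ 0) (X : Mat n) :
    trg ((t : ℂ) • H) X = t⁻¹ * trg H X := by
  unfold trg
  rw [inv_smul' h0 ht, Matrix.smul_mul, Matrix.trace_smul, smul_eq_mul, Complex.re_ofReal_mul]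

theorem scal_smul (hg : KahAt g z) (ht : 0 < t) :
    scal (fun w => (t : ℂ) • g w) z = t⁻¹ * scal g z := by
  unfold scal
  rw [ric_smul hg ht, trg_smul_left hg.det_ne ht.ne']

theorem gsq_smul (h0 : (g z).det ≠ 0) (ht : t ≠ 0) (u : Cn n → ℝ) :
    gsq (fun w => (t : ℂ) • g w) u z = t⁻¹ * gsq g u z := by
  unfold gsq
  rw [nqi_eq_trg, nqi_eq_trg, trg_smul_left h0 ht]

theorem lap_smul (h0 : (g z).det ≠ 0) (ht : t ≠ 0) (u : Cn n → ℝ) :
    lap (fun w => (t : ℂ) • g w) u z = t⁻¹ * lap g u z := trg_smul_left h0 ht _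

theorem nabRic_smul (hg : KahAt g z) (ht : 0 < t) (k : Fin n) :
    nabRic (fun w => (t : ℂ) • g w) z k = nabRic g z k := by
  have h1 : ric (fun w => (t : ℂ) • g w) =ᶠ[𝓝 z] ric g :=
    hg.eventually.mono fun w hw => ric_smul hw ht
  unfold nabRic
  rw [T223.wdM_congr h1, h1.self_of_nhds, wdM_const_smul _ hg.sm, inv_smul' hg.det_ne ht.ne',
    Matrix.smul_mul, Matrix.mul_smul, smul_smul, ← Complex.ofReal_mul, mul_inv_cancel₀ ht.ne',
    Complex.ofReal_one, one_smul]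

theorem hess_scal_smul (hg : KahAt g z) (ht : 0 < t) :
    hess (scal fun w => (t : ℂ) • g w) z = ((t⁻¹ : ℝ) : ℂ) • hess (scal g) z := by
  have h1 : scal (fun w => (t : ℂ) • g w) =ᶠ[𝓝 z] fun w => t⁻¹ * scal g w :=
    hg.eventually.mono fun w hw => scal_smul hw ht
  rw [hess_congr h1, hess_const_mul _ hg.cd_scal]

end scale

theorem nq_add' (H H' : Mat n) (v : Cn n) : nq (H + H') v = nq H v + nq H' v := by
  rw [nq_eq_re, hC_add, Complex.add_re]
  rfl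

/-- **jets of order four give the crude bounds**, chart form -/
theorem crudeC (n : ℕ) (C : ℝ) : ∃ K : ℝ, 1 ≤ K ∧ ∀ (g : Cn n → Mat n) (z : Cn n) (r : ℝ), 0 < r →
    KahAt g z → (∀ v, r ^ 2 * ‖v‖ ^ 2 ≤ 2 * nq (g z) v) →
    (∀ j ≤ 4, ∀ a b, ‖iteratedFDeriv ℝ j (fun y => g y a b) z‖ ≤ C * r ^ 2) →
    (∀ τ, r ^ 2 ≤ τ → LyhAbsC g τ (1 / r ^ 2) (K / r ^ 2) z) ∧ BkAbsC g (K / r ^ 2) z := by
  obtain ⟨K, hK0, hK⟩ := chart_bd n C
  refine ⟨8 * K + 1, by linarith, fun g z r hr hg hlo hj => ?_⟩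
  have hr2 : 0 < r ^ 2 := by positivity
  have ht : 0 < (r ^ 2)⁻¹ := by positivity
  obtain ⟨b1, b2, b3, b4⟩ := hK (fun w => (((r ^ 2)⁻¹ : ℝ) : ℂ) • g w) z (kahAt_smul hg ht)
    (fun v => by
      rw [nq_smul]
      have := mul_le_mul_of_nonneg_left (hlo v) ht.le
      rw [← mul_assoc, inv_mul_cancel₀ hr2.ne', one_mul] at this
      linarith)
    (fun j hj4 a b => by
      have h1 : (fun y => ((((r ^ 2)⁻¹ : ℝ) : ℂ) • g y) a b) =
          (r ^ 2)⁻¹ • fun y => g y a b := by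
        funext y
        simp
      rw [h1, iteratedFDeriv_const_smul_apply ((hg.sm a b).of_le (by exact_mod_cast le_top)),
        norm_smul, Real.norm_of_nonneg ht.le]
      calc (r ^ 2)⁻¹ * ‖iteratedFDeriv ℝ j (fun y => g y a b) z‖ ≤ (r ^ 2)⁻¹ * (C * r ^ 2) :=
            mul_le_mul_of_nonneg_left (hj j hj4 a b) ht.le
        _ = C := by field_simp)
  simp only [bis_smul hg ht.ne', ric_smul hg ht, nabRic_smul hg ht, hess_scal_smul hg ht,
    inv_smul' hg.det_ne ht.ne', inv_inv, Matrix.mul_smul, Matrix.smul_mul, ← smul_add,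
    nq_smul] at b1 b2 b3 b4
  have c1 : ∀ v w, |bis g z v w| ≤ K * r ^ 2 * ‖v‖ ^ 2 * ‖w‖ ^ 2 := by
    intro v w
    have h := b1 v w
    rw [abs_mul, abs_of_pos ht, inv_mul_le_iff₀ hr2] at h
    linarith
  have c3 : ∀ v, r ^ 2 * |nq (hess (scal g) z + ric g z * (g z)⁻¹ * ric g z) v| ≤
      K * ‖v‖ ^ 2 := by
    intro v
    have h := b3 v
    rwa [abs_mul, abs_of_pos hr2] at h
  have hq : ∀ v, 0 ≤ nq (g z) v := fun v => by nlinarith [hlo v, sq_nonneg ‖v‖]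
  have c5 : ∀ v w, |bis g z v w| ≤ (8 * K + 1) / r ^ 2 * nq (g z) v * nq (g z) w := by
    intro v w
    refine (c1 v w).trans ?_
    rw [div_mul_eq_mul_div, div_mul_eq_mul_div, le_div_iff₀ hr2]
    have h := mul_le_mul (hlo v) (hlo w) (by positivity) (by linarith [hq v])
    have h' := mul_nonneg (hq v) (hq w)
    nlinarith
  refine ⟨fun τ hτ c a v => ?_, fun v w => (abs_le.1 (c5 v w)).1, fun v w => (abs_le.1 (c5 v w)).2⟩
  have hτ0 : 0 < τ := hr2.trans_le hτ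
  have d1 : r ^ 2 * |nq (hess (scal g) z + ric g z * (g z)⁻¹ * ric g z
      + ((τ⁻¹ : ℝ) : ℂ) • ric g z) v| ≤ 2 * K * ‖v‖ ^ 2 := by
    rw [nq_add', nq_smul]
    have h1 : r ^ 2 * |τ⁻¹ * nq (ric g z) v| ≤ K * ‖v‖ ^ 2 := by
      rw [abs_mul, abs_of_pos (inv_pos.2 hτ0), ← mul_assoc]
      have h2 : r ^ 2 * τ⁻¹ ≤ 1 := by rw [← div_eq_mul_inv, div_le_one hτ0]; exact hτ
      exact (mul_le_of_le_one_left (abs_nonneg _) h2).trans (b2 v)
    have h2 := mul_le_mul_of_nonneg_left (abs_add_le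
      (nq (hess (scal g) z + ric g z * (g z)⁻¹ * ric g z) v) (τ⁻¹ * nq (ric g z) v)) hr2.le
    linarith [c3 v]
  have d2 : |(conj c * ∑ k, a k * hC (nabRic g z k) v).re| ≤ ‖c‖ * (K * ‖a‖ * ‖v‖ ^ 2) := by
    refine (Complex.abs_re_le_norm _).trans ?_
    rw [norm_mul, RCLike.norm_conj]
    exact mul_le_mul_of_nonneg_left (b4 a v) (norm_nonneg _)
  have d3 := c1 v a
  unfold lyhS
  set X := nq (hess (scal g) z + ric g z * (g z)⁻¹ * ric g z + ((τ⁻¹ : ℝ) : ℂ) • ric g z) v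
  set Y := (conj c * ∑ k, a k * hC (nabRic g z k) v).re
  set Z := bis g z v a
  have e1 : |‖c‖ ^ 2 * X + 2 * Y + Z| ≤ ‖c‖ ^ 2 * |X| + 2 * |Y| + |Z| := by
    refine (abs_add_le _ _).trans (add_le_add ((abs_add_le _ _).trans ?_) le_rfl)
    rw [abs_mul, abs_mul, abs_of_nonneg (sq_nonneg ‖c‖), abs_two]
  -- multiply by `r ^ 2`
  have e2 : r ^ 2 * |‖c‖ ^ 2 * X + 2 * Y + Z| ≤
      K * (3 * ‖c‖ ^ 2 + 2 * (r ^ 2 * (r ^ 2 * ‖a‖ ^ 2))) * ‖v‖ ^ 2 := by
    have f1 := mul_le_mul_of_nonneg_left e1 hr2.le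
    have f2 := mul_le_mul_of_nonneg_left d1 (sq_nonneg ‖c‖)
    have f3 := mul_le_mul_of_nonneg_left d2 hr2.le
    have f4 := mul_le_mul_of_nonneg_left d3 hr2.le
    have f5 : 0 ≤ K * ‖v‖ ^ 2 * (‖c‖ - r ^ 2 * ‖a‖) ^ 2 := by positivity
    nlinarith
  have e3 : K * (3 * ‖c‖ ^ 2 + 2 * (r ^ 2 * (r ^ 2 * ‖a‖ ^ 2))) * (r ^ 2 * ‖v‖ ^ 2) ≤
      K * (4 * ‖c‖ ^ 2 + 4 * (r ^ 2 * nq (g z) a)) * (2 * nq (g z) v) := by
    have f1 := mul_le_mul_of_nonneg_left (hlo a) hr2.le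
    refine mul_le_mul (mul_le_mul_of_nonneg_left (by nlinarith [sq_nonneg ‖c‖]) hK0) (hlo v)
      (by positivity) (mul_nonneg hK0 (by nlinarith [sq_nonneg ‖c‖, mul_nonneg hr2.le (hq a)]))
  have e4 : (8 * K + 1) / r ^ 2 * (nq (g z) a + 1 / r ^ 2 * ‖c‖ ^ 2) * nq (g z) v =
      (8 * K + 1) * (‖c‖ ^ 2 + r ^ 2 * nq (g z) a) * nq (g z) v / (r ^ 2 * r ^ 2) := by
    field_simp
    ring
  rw [e4, le_div_iff₀ (by positivity)]
  have e5 := mul_le_mul_of_nonneg_left e2 hr2.le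
  have e6 : 0 ≤ (‖c‖ ^ 2 + r ^ 2 * nq (g z) a) * nq (g z) v :=
    mul_nonneg (add_nonneg (sq_nonneg _) (mul_nonneg hr2.le (hq a))) (hq v)
  nlinarith

/-! ### functions -/

theorem norm_single_le (a : Fin n) {c : ℂ} (hc : ‖c‖ = 1) :
    ‖(EuclideanSpace.single a c : Cn n)‖ = 1 := by
  rw [PiLp.norm_single, hc]

theorem norm_wdL_le {W : Type*} [NormedAddCommGroup W] [NormedSpace ℂ W] (s : WI n)
    (L : Cn n →L[ℝ] W) : ‖wdL s L‖ ≤ ‖L‖ := by
  have h1 : ‖L (EuclideanSpace.single s.2 1)‖ ≤ ‖L‖ := by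
    simpa only [norm_single_le s.2 norm_one, mul_one] using L.le_opNorm (EuclideanSpace.single s.2 1)
  have h2 : ‖L (EuclideanSpace.single s.2 Complex.I)‖ ≤ ‖L‖ := by
    simpa only [norm_single_le s.2 Complex.norm_I, mul_one] using
      L.le_opNorm (EuclideanSpace.single s.2 Complex.I)
  have h3 : ‖cI s.1‖ = 1 := by cases s.1 <;> simp
  unfold wdL
  rw [norm_smul]
  have h4 := norm_add_le (L (EuclideanSpace.single s.2 1))
    (cI s.1 • L (EuclideanSpace.single s.2 Complex.I))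
  rw [norm_smul, h3, one_mul] at h4
  have h5 : ‖(1 / 2 : ℂ)‖ = 1 / 2 := by simp
  rw [h5]
  linarith

theorem norm_wdLc_le (s : WI n) : ‖(wdLc s : (Cn n →L[ℝ] ℂ) →L[ℝ] ℂ)‖ ≤ 1 :=
  ContinuousLinearMap.opNorm_le_bound _ zero_le_one fun L => by
    rw [one_mul]; exact norm_wdL_le s L

theorem jet_wd {f : Cn n → ℂ} {z : Cn n} (hf : ContDiffAt ℝ ∞ f z) (s : WI n) (j : ℕ) :
    ‖iteratedFDeriv ℝ j (wd s f) z‖ ≤ ‖iteratedFDeriv ℝ (j + 1) f z‖ := by
  have h1 : ContDiffAt ℝ ∞ (fderiv ℝ f) z := hf.fderiv_right (by simp)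
  have h2 := (wdLc s : (Cn n →L[ℝ] ℂ) →L[ℝ] ℂ).norm_iteratedFDeriv_comp_left h1 (n := j)
    (by exact_mod_cast le_top)
  rw [norm_iteratedFDeriv_fderiv] at h2
  exact h2.trans (mul_le_of_le_one_left (norm_nonneg _) (norm_wdLc_le s))

theorem jet_cu {u : Cn n → ℝ} {z : Cn n} (hu : ContDiffAt ℝ ∞ u z) (j : ℕ) :
    ‖iteratedFDeriv ℝ j (cu u) z‖ ≤ ‖iteratedFDeriv ℝ j u z‖ := by
  have h := Complex.ofRealCLM.norm_iteratedFDeriv_comp_left hu (n := j) (by exact_mod_cast le_top)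
  rw [Complex.ofRealCLM_norm, one_mul] at h
  exact h

theorem jet_hess {u : Cn n → ℝ} {z : Cn n} (hu : ContDiffAt ℝ ∞ u z) (a b : Fin n) (j : ℕ) :
    ‖iteratedFDeriv ℝ j (fun w => hess u w a b) z‖ ≤ ‖iteratedFDeriv ℝ (j + 2) u z‖ :=
  (jet_wd (contDiffAt_wd (contDiffAt_cu hu) _) _ j).trans
    ((jet_wd (contDiffAt_cu hu) _ (j + 1)).trans (jet_cu hu (j + 2)))

theorem norm_hess_le {u : Cn n → ℝ} {z : Cn n} (hu : ContDiffAt ℝ ∞ u z) (a b : Fin n) :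
    ‖hess u z a b‖ ≤ ‖iteratedFDeriv ℝ 2 u z‖ := by
  simpa only [norm_iteratedFDeriv_zero] using jet_hess hu a b 0

theorem norm_dz_le {u : Cn n → ℝ} {z : Cn n} (hu : DifferentiableAt ℝ u z) (a : Fin n) :
    ‖dz u z a‖ ≤ ‖fderiv ℝ u z‖ := by
  have h : fderiv ℝ (cu u) z = Complex.ofRealCLM.comp (fderiv ℝ u z) :=
    (Complex.ofRealCLM.hasFDerivAt.comp z hu.hasFDerivAt).fderiv
  refine (norm_wdL_le (false, a) (fderiv ℝ (cu u) z)).trans ?_
  rw [h]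
  refine (ContinuousLinearMap.opNorm_comp_le _ _).trans ?_
  rw [Complex.ofRealCLM_norm, one_mul]

theorem hesAbsC_of_jet {g : Cn n → Mat n} {u : Cn n → ℝ} {z : Cn n} {r c : ℝ} (hr : 0 < r)
    (hlo : ∀ v, r ^ 2 * ‖v‖ ^ 2 ≤ 2 * nq (g z) v) (hu : ContDiffAt ℝ ∞ u z)
    (hc : ‖iteratedFDeriv ℝ 2 u z‖ ≤ c) : HesAbsC g u (2 * n ^ 2 * c / r ^ 2) z := by
  intro v
  have hc0 : 0 ≤ c := (norm_nonneg _).trans hc
  refine (abs_nq_le hc0 (fun a b => (norm_hess_le hu a b).trans hc) v).trans ?_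
  rw [div_mul_eq_mul_div, le_div_iff₀ (by positivity)]
  have := mul_le_mul_of_nonneg_left (hlo v) (by positivity : (0 : ℝ) ≤ n ^ 2 * c)
  linarith

theorem gsq_le_of_jet {g : Cn n → Mat n} {u : Cn n → ℝ} {z : Cn n} {r c : ℝ} (hr : 0 < r)
    (hlo : ∀ v, r ^ 2 * ‖v‖ ^ 2 ≤ 2 * nq (g z) v) (hu : DifferentiableAt ℝ u z)
    (hc : ‖fderiv ℝ u z‖ ≤ c) : gsq g u z ≤ 2 * n ^ 4 * c ^ 2 / r ^ 2 := by
  have hc0 : 0 ≤ c := (norm_nonneg _).trans hc
  have h1 : ∀ a b, ‖(g z)⁻¹ a b‖ ≤ 2 / r ^ 2 := Gr.inv_entry_le (by positivity) fun v => by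
    rw [div_mul_eq_mul_div, le_div_iff₀ (by positivity)]
    linarith [hlo v]
  have h2 : ‖dz u z‖ ≤ n * c := by
    have h3 : ‖dz u z‖ ≤ ∑ a, ‖dz u z a‖ := by
      rw [EuclideanSpace.norm_eq]
      refine Real.sqrt_le_iff.2 ⟨by positivity, ?_⟩
      exact Finset.sum_sq_le_sq_sum_of_nonneg fun a _ => norm_nonneg _
    refine h3.trans ?_
    calc ∑ a, ‖dz u z a‖ ≤ ∑ _a : Fin n, c :=
          Finset.sum_le_sum fun a _ => (norm_dz_le hu a).trans hc
      _ = n * c := by simp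
  refine ((le_abs_self _).trans (Complex.abs_re_le_norm _)).trans
    ((norm_form_le (F := fun a b => (g z)⁻¹ b a) (by positivity) (fun a b => h1 b a) _).trans ?_)
  calc (n : ℝ) ^ 2 * (2 / r ^ 2) * ‖dz u z‖ ^ 2 ≤ n ^ 2 * (2 / r ^ 2) * (n * c) ^ 2 := by gcongr
    _ = _ := by ring

theorem fderiv_eq_re_dz {u : Cn n → ℝ} {z : Cn n} (hd : DifferentiableAt ℝ u z) (v : Cn n) :
    fderiv ℝ u z v = 2 * (∑ a, dz u z a * v a).re := by
  have h1 : fderiv ℝ (cu u) z = Complex.ofRealCLM.comp (fderiv ℝ u z) :=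
    (Complex.ofRealCLM.hasFDerivAt.comp z hd.hasFDerivAt).fderiv
  have h2 := wdL_vec false (fderiv ℝ (cu u) z) v
  have h3 : ∑ a, dz u z a * v a = ∑ a, cj false (v a) • wdL (false, a) (fderiv ℝ (cu u) z) :=
    Finset.sum_congr rfl fun a _ => mul_comm _ _
  rw [h3, ← h2, h1]
  simp

/-- Cauchy-Schwarz: `du(v)² ≤ 4 |∂u|² |v|²` -/
theorem fderiv_sq_le {g : Cn n → Mat n} {u : Cn n → ℝ} {z : Cn n} (hp : (g z).PosDef)
    (hd : DifferentiableAt ℝ u z) (v : Cn n) :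
    fderiv ℝ u z v ^ 2 ≤ 4 * gsq g u z * nq (g z) v := by
  set ξ := dz u z with hξ
  have h1 : ∀ v : Cn n, nq (Matrix.of fun a b => ξ a * conj (ξ b)) v = ‖∑ a, ξ a * v a‖ ^ 2 := by
    intro v
    have h2 : T223.hC (Matrix.of fun a b => ξ a * conj (ξ b)) v =
        (∑ a, ξ a * v a) * conj (∑ a, ξ a * v a) := by
      simp only [T223.hC, Matrix.of_apply, map_sum, map_mul, Finset.sum_mul, Finset.mul_sum]
      rw [Finset.sum_comm]
      exact Finset.sum_congr rfl fun a _ => Finset.sum_congr rfl fun b _ => by ring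
    rw [nq_eq_re, h2, Complex.mul_conj, Complex.ofReal_re, Complex.normSq_eq_norm_sq]
  have h3 : (Matrix.of fun a b => ξ a * conj (ξ b) : Mat n).IsHermitian := by
    ext a b
    simp [Matrix.conjTranspose_apply, mul_comm]
  have h4 := Ev.nq_le_trg hp h3 (b := 0) (fun v => by rw [h1, zero_mul, add_zero]; positivity) v
  rw [h1, zero_mul, add_zero, mul_zero, add_zero, ← nqi_eq_trg] at h4
  have h5 := Complex.abs_re_le_norm (∑ a, ξ a * v a)
  have h6 := sq_le_sq' (abs_le.1 h5).1 (abs_le.1 h5).2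
  rw [fderiv_eq_re_dz hd, gsq]
  nlinarith

theorem norm_fderiv_le {g : Cn n → Mat n} {u : Cn n → ℝ} {z : Cn n} {b c : ℝ} (hp : (g z).PosDef)
    (hd : DifferentiableAt ℝ u z) (hb : gsq g u z ≤ b) (hc : 0 ≤ c) (hb0 : 0 ≤ b)
    (hi : ∀ v, nq (g z) v ≤ c * ‖v‖ ^ 2) : ‖fderiv ℝ u z‖ ≤ 2 * Real.sqrt (b * c) := by
  refine ContinuousLinearMap.opNorm_le_bound _ (by positivity) fun v => ?_
  rw [Real.norm_eq_abs]
  refine abs_le_of_sq_le_sq' ?_ (by positivity) |> abs_le.2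
  have h1 := fderiv_sq_le hp hd v
  have h2 : gsq g u z * nq (g z) v ≤ b * (c * ‖v‖ ^ 2) :=
    mul_le_mul hb (hi v) (nq_nonneg hp.posSemidef v) hb0
  rw [mul_pow, mul_pow, Real.sq_sqrt (mul_nonneg hb0 hc)]
  nlinarith

/-! ### on the manifold -/

variable {M : Type} [TopologicalSpace M] {A : Atl n M}

/-- **jets of order four give the crude bounds** -/
theorem crude_of_jets (n : ℕ) (C : ℝ) : ∃ K : ℝ, 1 ≤ K ∧ ∀ (M : Type) [TopologicalSpace M]
    (A : Atl n M) (G : MF A) (U : Set M) (ψ : Cn n → M) (D : Set (Cn n)) (w : Cn n) (r : ℝ),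
    KahOn G U → IsOpen U → Imm A ψ D → IsOpen D → w ∈ D → ψ w ∈ U → 0 < r →
    (∀ v, r ^ 2 * ‖v‖ ^ 2 ≤ 2 * nq (pull G ψ w) v) →
    (∀ j ≤ 4, ∀ a b, ‖iteratedFDeriv ℝ j (fun y => pull G ψ y a b) w‖ ≤ C * r ^ 2) →
    (∀ τ, r ^ 2 ≤ τ → LyhAbs G τ (1 / r ^ 2) (K / r ^ 2) (ψ w)) ∧ BkAbs G (K / r ^ 2) (ψ w) := by
  obtain ⟨K, hK1, hK⟩ := crudeC n C
  refine ⟨K, hK1, fun M _ A G U ψ D w r hG hU hψ hD hw hx hr hlo hj => ?_⟩
  obtain ⟨h1, h2⟩ := hK (pull G ψ) w r hr (kahAt_pull hG hψ hD hw (hU.mem_nhds hx)) hlo hj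
  exact ⟨fun τ hτ => (lyhAbs_pull hG hU hψ hD hw hx _ _ _).2 (h1 τ hτ),
    (bkAbs_pull hG hU hψ hD hw hx _).2 h2⟩

variable {G' : MF A} {U : Set M} {ψ : Cn n → M} {D : Set (Cn n)} {w : Cn n} {u : M → ℝ} {r c : ℝ}

theorem hesAbs_of_jet (hG : KahOn G' U) (hU : IsOpen U) (hψ : Imm A ψ D) (hD : IsOpen D)
    (hw : w ∈ D) (hx : ψ w ∈ U) (hu : SmOn A U u) (hr : 0 < r)
    (hlo : ∀ v, r ^ 2 * ‖v‖ ^ 2 ≤ 2 * nq (pull G' ψ w) v)
    (hc : ‖iteratedFDeriv ℝ 2 (fun y => u (ψ y)) w‖ ≤ c) :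
    HesAbs G' u (2 * n ^ 2 * c / r ^ 2) (ψ w) :=
  (hesAbs_pull hG hU hψ hD hw hx hu _).2
    (hesAbsC_of_jet hr hlo (hu.cda_pull hU hψ.1 hD hw hx) hc)

theorem gr_le_of_jet (hG : KahOn G' U) (hU : IsOpen U) (hψ : Imm A ψ D) (hD : IsOpen D)
    (hw : w ∈ D) (hx : ψ w ∈ U) (hu : SmOn A U u) (hr : 0 < r)
    (hlo : ∀ v, r ^ 2 * ‖v‖ ^ 2 ≤ 2 * nq (pull G' ψ w) v)
    (hc : ‖fderiv ℝ (fun y => u (ψ y)) w‖ ≤ c) :
    Gr G' u (ψ w) ≤ 2 * n ^ 4 * c ^ 2 / r ^ 2 := by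
  rw [Gr_pull hG hU hψ hD hw hx hu]
  exact gsq_le_of_jet hr hlo ((hu.cda_pull hU hψ.1 hD hw hx).differentiableAt (by simp)) hc

theorem fderiv_le_of_gr (hG : KahOn G' U) (hU : IsOpen U) (hψ : Imm A ψ D) (hD : IsOpen D)
    (hw : w ∈ D) (hx : ψ w ∈ U) (hu : SmOn A U u) {b : ℝ} (hb : Gr G' u (ψ w) ≤ b) (hb0 : 0 ≤ b)
    (hc : 0 ≤ c) (hi : ∀ v, nq (pull G' ψ w) v ≤ c * ‖v‖ ^ 2) :
    ‖fderiv ℝ (fun y => u (ψ y)) w‖ ≤ 2 * Real.sqrt (b * c) := by
  rw [Gr_pull hG hU hψ hD hw hx hu] at hb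
  exact norm_fderiv_le (kahAt_pull hG hψ hD hw (hU.mem_nhds hx)).posDef
    ((hu.cda_pull hU hψ.1 hD hw hx).differentiableAt (by simp)) hb hc hb0 hi

/-- a gradient bound gives `LipOn` -/
theorem lipOn_of_gsq {V : Set M} (hc : 0 ≤ c)
    (h : ∀ i, ∀ x ∈ (A.e i).source, x ∈ V → (G' i (A.e i x)).PosDef ∧
      DifferentiableAt ℝ (inC A i u) (A.e i x) ∧ 4 * gsq (G' i) (inC A i u) (A.e i x) ≤ c ^ 2) :
    LipOn G' V c u := by
  intro i x hi hx ε hε
  obtain ⟨hp, hd, hb⟩ := h i x hi hx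
  obtain ⟨m, hm, hlo⟩ : ∃ m : ℝ, 0 < m ∧ ∀ v : Cn n,
      m * ‖v‖ ≤ Real.sqrt (nq (G' i (A.e i x)) v) := by
    rcases (sphere (0 : Cn n) 1).eq_empty_or_nonempty with he | hne
    · refine ⟨1, one_pos, fun v => ?_⟩
      by_cases hv : v = 0
      · simp [hv]
      · have : ‖v‖⁻¹ • v ∈ sphere (0 : Cn n) 1 := by simp [norm_smul, hv]
        rw [he] at this
        exact this.elim
    · have hcont : Continuous fun v : Cn n => nq (G' i (A.e i x)) v := by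
        unfold nq
        fun_prop
      obtain ⟨v0, hv0, hmin⟩ := (isCompact_sphere (0 : Cn n) 1).exists_isMinOn hne
        hcont.continuousOn
      have h0 : v0 ≠ 0 := by
        intro h0
        simp [h0] at hv0
      refine ⟨Real.sqrt (nq (G' i (A.e i x)) v0), Real.sqrt_pos.2 (Ev.nq_pos hp h0), fun v => ?_⟩
      by_cases hv : v = 0
      · simp [hv]
      · have hn : 0 < ‖v‖ := norm_pos_iff.2 hv
        have h1 : ‖v‖⁻¹ • v ∈ sphere (0 : Cn n) 1 := by simp [norm_smul, hv]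
        have h2 : nq (G' i (A.e i x)) v = ‖v‖ ^ 2 * nq (G' i (A.e i x)) (‖v‖⁻¹ • v) := by
          unfold nq
          rw [← Complex.re_ofReal_mul]
          refine congrArg Complex.re ?_
          have h3 : ((‖v‖ : ℝ) : ℂ) ≠ 0 := Complex.ofReal_ne_zero.2 hn.ne'
          simp only [Finset.mul_sum, PiLp.smul_apply, Complex.real_smul, map_mul,
            Complex.conj_ofReal]
          refine Finset.sum_congr rfl fun a _ => Finset.sum_congr rfl fun b _ => ?_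
          push_cast
          field_simp
        rw [h2, Real.sqrt_mul (sq_nonneg _), Real.sqrt_sq hn.le, mul_comm]
        exact mul_le_mul_of_nonneg_left (Real.sqrt_le_sqrt (hmin h1)) hn.le
  have h1 := (hasFDerivAt_iff_isLittleO.1 hd.hasFDerivAt).def (mul_pos hε hm)
  filter_upwards [h1] with y hy
  rw [T223.inC_apply hi, Real.norm_eq_abs] at hy
  have h2 : |fderiv ℝ (inC A i u) (A.e i x) (y - A.e i x)| ≤
      c * Real.sqrt (nq (G' i (A.e i x)) (y - A.e i x)) := by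
    refine abs_le.2 (abs_le_of_sq_le_sq' ?_ (by positivity))
    have h3 := nq_nonneg hp.posSemidef (y - A.e i x)
    rw [mul_pow, Real.sq_sqrt h3]
    exact (fderiv_sq_le hp hd _).trans (mul_le_mul_of_nonneg_right hb h3)
  have h3 := mul_le_mul_of_nonneg_left (hlo (y - A.e i x)) hε.le
  have h4 := abs_add_le (inC A i u y - u x - fderiv ℝ (inC A i u) (A.e i x) (y - A.e i x))
    (fderiv ℝ (inC A i u) (A.e i x) (y - A.e i x))
  rw [sub_add_cancel] at h4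
  nlinarith

theorem lipOn_of_gr (hG : KahOn G' U) (hU : IsOpen U) (hu : SmOn A U u) {V : Set M} (hV : V ⊆ U)
    (hc : 0 ≤ c) (h : ∀ x ∈ V, 4 * Gr G' u x ≤ c ^ 2) : LipOn G' V c u :=
  lipOn_of_gsq hc fun i x hi hx => ⟨(hG.kah i x hi (hV hx)).posDef,
    (hu.contDiffAt hU hi (hV hx)).differentiableAt (by simp), by
      rw [← Gr_eq hG hU (hV hx) hi hu]; exact h x hx⟩

end

end Crest.Agent.T223.Jb
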