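import Crest.Agent.T223.CnF_87

/-!
# Row 223, module EVO (helper41): evolution laws in a differential ring

`ip K M N = tr (g⁻¹ M g⁻¹ N)`, `sc K` scalar curvature, `g2 K u v = ⟨∇ u, ∇ v⟩`,
`bx K f = (∂_t - Δ) f`.
* `bx_sc`   : `(∂_t - Δ) R = |Ric|²`
* `bochner` : `(∂_t - Δ) |∇u|² ≤ -|∂∂̄u|² + 2 Re ⟨∇ (∂_t - Δ) u, ∇ u⟩`
* `bx_mul`  : product rule
-/

set_option autoImplicit false
set_option linter.unusedSectionVars false

open Finset Matrix
open scoped ComplexConjugate ComplexOrder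

namespace Crest.Agent.T223.Ev

open Crest.Agent.T223.Cn

noncomputable section

variable {n : ℕ} {S : Type} [CommRing S] [Algebra ℂ S] {R : DR n S} (K : KM R)

/-- inner product of `(1,1)`-tensors -/
def ip (M N : Matrix (Fin n) (Fin n) S) : S := (K.gi * M * K.gi * N).trace

/-- scalar curvature -/
def sc : S := K.tr K.ric

/-- `⟨∇ u, ∇ v⟩ = g^{a b̄} u_a v_{b̄}` -/
def g2 (u v : S) : S := K.tr (R.gr u v)

/-- heat operator -/
def bx (f : S) : S := R.D f - K.lap f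

/-- `δ log det g` -/
def be (δ : Der S) : S := K.tr (dM δ K.g)

theorem D_tr (δ : Der S) (M : Matrix (Fin n) (Fin n) S) :
    δ (K.tr M) = K.tr (dM δ M) - ip K (dM δ K.g) M := by
  unfold KM.tr ip
  rw [D_trace, dM_mul, dM_inv δ K.inv, trace_add, Matrix.neg_mul, trace_neg]
  ring

theorem ip_comm (M N : Matrix (Fin n) (Fin n) S) : ip K M N = ip K N M := by
  unfold ip
  rw [Matrix.mul_assoc (K.gi * M), trace_mul_comm, Matrix.mul_assoc (K.gi * N)]

theorem ip_neg (M N : Matrix (Fin n) (Fin n) S) : ip K (-M) N = -ip K M N := by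
  simp only [ip, Matrix.mul_neg, Matrix.neg_mul, trace_neg]

theorem ip_add (M M' N : Matrix (Fin n) (Fin n) S) : ip K (M + M') N = ip K M N + ip K M' N := by
  simp only [ip, Matrix.mul_add, Matrix.add_mul, trace_add]

theorem ip_g (M : Matrix (Fin n) (Fin n) S) : ip K K.g M = K.tr M := by
  simp only [ip, KM.tr, K.inv', Matrix.one_mul]

theorem be_symm {δ δ' : Der S} (h : ∀ f, δ (δ' f) = δ' (δ f)) : δ (be K δ') = δ' (be K δ) := by
  unfold be
  rw [D_tr, D_tr, ip_comm]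
  congr 2
  ext i j
  exact h _

theorem tr_Th (δ δ' : Der S) : K.tr (Th δ δ' K.g K.gi) = -δ (be K δ') := by
  unfold be Th
  rw [D_tr, K.tr_add, K.tr_neg]
  simp only [ip, KM.tr, Matrix.mul_assoc]
  ring

theorem ric_eq (k l : Fin n) : K.ric k l = -R.d k (be K (R.db l)) := tr_Th K _ _

variable {K}

theorem D_g (h : K.Flow 0) : dM R.D K.g = -K.ric := by
  unfold KM.Flow at h
  simpa using h

theorem be_D (h : K.Flow 0) : be K R.D = -sc K := by
  rw [be, D_g h, K.tr_neg, sc]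

theorem D_tr_flow (h : K.Flow 0) (M : Matrix (Fin n) (Fin n) S) :
    R.D (K.tr M) = K.tr (dM R.D M) + ip K K.ric M := by
  rw [D_tr, D_g h, ip_neg, sub_neg_eq_add]

/-- `∂_t Ric = ∂∂̄ R` -/
theorem D_ric (h : K.Flow 0) : dM R.D K.ric = R.hs (sc K) := by
  ext k l
  rw [dM_apply, ric_eq, map_neg, R.Dd, be_symm K (R.Ddb l), be_D h, map_neg, map_neg, neg_neg]
  rfl

/-- `(∂_t - Δ) R = |Ric|²` -/
theorem bx_sc (h : K.Flow 0) : bx K (sc K) = ip K K.ric K.ric := by
  unfold bx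
  rw [sc, D_tr_flow h, D_ric h, KM.lap, sc]
  ring

theorem D_hs (f : S) : dM R.D (R.hs f) = R.hs (R.D f) := by
  ext k l
  simp only [dM_apply, DR.hs, of_apply, R.Dd, R.Ddb]

/-- `∂_t Δ f = Δ ∂_t f + ⟨Ric, ∂∂̄ f⟩` -/
theorem D_lap (h : K.Flow 0) (f : S) : R.D (K.lap f) = K.lap (R.D f) + ip K K.ric (R.hs f) := by
  rw [KM.lap, D_tr_flow h, D_hs, KM.lap]

theorem hs_add (f g : S) : R.hs (f + g) = R.hs f + R.hs g := by
  ext k l; simp [DR.hs]

theorem hs_sub (f g : S) : R.hs (f - g) = R.hs f - R.hs g := by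
  ext k l; simp [DR.hs]

theorem hs_mul (f g : S) :
    R.hs (f * g) = f • R.hs g + g • R.hs f + R.gr f g + R.gr g f := by
  ext k l
  simp only [DR.hs, DR.gr, of_apply, Matrix.add_apply, Matrix.smul_apply, smul_eq_mul, D_mul,
    map_add]
  ring

variable (K)

theorem lap_add (f g : S) : K.lap (f + g) = K.lap f + K.lap g := by
  rw [KM.lap, hs_add, K.tr_add]; rfl

theorem lap_sub (f g : S) : K.lap (f - g) = K.lap f - K.lap g := by
  rw [KM.lap, hs_sub, K.tr_sub]; rfl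

theorem lap_mul (f g : S) :
    K.lap (f * g) = f * K.lap g + g * K.lap f + g2 K f g + g2 K g f := by
  rw [KM.lap, hs_mul, K.tr_add, K.tr_add, K.tr_add, K.tr_smul, K.tr_smul]; rfl

theorem bx_add (f g : S) : bx K (f + g) = bx K f + bx K g := by
  simp only [bx, map_add, lap_add]; ring

theorem bx_sub (f g : S) : bx K (f - g) = bx K f - bx K g := by
  simp only [bx, map_sub, lap_sub]; ring

theorem bx_mul (f g : S) : bx K (f * g) = f * bx K g + g * bx K f - g2 K f g - g2 K g f := by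
  simp only [bx, D_mul, lap_mul]; ring

theorem g2_sub (f f' g : S) : g2 K (f - f') g = g2 K f g - g2 K f' g := by
  unfold g2
  rw [← K.tr_sub]
  congr 1
  ext k l
  simp [DR.gr, sub_mul]

theorem g2_eq (u v : S) : g2 K u v = ∑ a, ∑ b, K.gi b a * (R.d a u * R.db b v) := by
  simp only [g2, KM.tr, trace, diag_apply, Matrix.mul_apply, DR.gr, of_apply]
  rw [sum_comm]

theorem lap_eq (u : S) : K.lap u = ∑ a, ∑ b, K.gi b a * R.d a (R.db b u) := by
  simp only [KM.lap, KM.tr, trace, diag_apply, Matrix.mul_apply, DR.hs, of_apply]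
  rw [sum_comm]

theorem cj_g2 (u v : S) : R.cj (g2 K u v) = g2 K (R.cj v) (R.cj u) := by
  rw [g2_eq, g2_eq, sum_comm]
  simp only [map_sum, map_mul, K.cj_gi, R.cj_d, R.cj_db]
  exact sum_congr rfl fun _ _ => sum_congr rfl fun _ _ => by ring

theorem cj_lap (u : S) : R.cj (K.lap u) = K.lap (R.cj u) := by
  rw [lap_eq, lap_eq, sum_comm]
  simp only [map_sum, map_mul, K.cj_gi, R.cj_d, R.cj_db, R.ddb]

theorem cj_bx (u : S) : R.cj (bx K u) = bx K (R.cj u) := by
  simp only [bx, map_sub, R.cj_D, cj_lap]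

variable {K}

theorem D_g2 (h : K.Flow 0) (u v : S) :
    R.D (g2 K u v) = g2 K (R.D u) v + g2 K u (R.D v) + ip K K.ric (R.gr u v) := by
  unfold g2
  rw [D_tr_flow h, ← K.tr_add]
  congr 2
  ext k l
  simp only [dM_apply, DR.gr, of_apply, Matrix.add_apply, D_mul, R.Dd, R.Ddb]

/-! ### invariance -/

section fr

variable (K) (F : Frm R)

theorem fr_ip (M N : Matrix (Fin n) (Fin n) S) : ip (K.fr F) (F.pb M) (F.pb N) = ip K M N := by
  have h1 : R.cM F.A * R.cM F.B = 1 := by rw [← R.cM_mul, F.AB, R.cM_one]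
  have h2 : F.Bᵀ * F.Aᵀ = 1 := by rw [← Matrix.transpose_mul, F.AB, Matrix.transpose_one]
  change (R.cM F.B * K.gi * F.Bᵀ * (F.Aᵀ * M * R.cM F.A) * (R.cM F.B * K.gi * F.Bᵀ) *
    (F.Aᵀ * N * R.cM F.A)).trace = (K.gi * M * K.gi * N).trace
  calc _ = (R.cM F.B * (K.gi * (F.Bᵀ * F.Aᵀ) * M * (R.cM F.A * R.cM F.B) * K.gi *
          (F.Bᵀ * F.Aᵀ) * N * R.cM F.A)).trace := by
        simp only [Matrix.mul_assoc]
    _ = _ := by
        rw [h2, h1, Matrix.mul_one, Matrix.mul_one, Matrix.mul_one, Matrix.trace_mul_comm,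
          Matrix.mul_assoc, h1, Matrix.mul_one]

theorem fr_g2 (u v : S) : g2 (K.fr F) u v = g2 K u v := by
  unfold g2
  rw [F.dr_gr, K.fr_tr]

theorem fr_sc : sc (K.fr F) = sc K := by
  unfold sc
  rw [K.fr_ric, K.fr_tr]

theorem fr_bx (u : S) : bx (K.fr F) u = bx K u := by
  unfold bx
  rw [K.fr_lap, F.dr_D]

end fr

/-! ### normal frames -/

section normal

theorem gi0 (h : K.Normal) : R.eM K.gi = 1 := by
  have := congrArg R.eM K.inv
  rwa [R.eM_mul, h.g0, Matrix.one_mul, R.eM_one] at this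

theorem g1b (h : K.Normal) (k : Fin n) : R.eM (dM (R.db k) K.g) = 0 := by
  ext a b
  have := congrFun (congrFun (h.g1 k) b) a
  simp only [DR.eM_apply, dM_apply, Matrix.zero_apply] at this ⊢
  rw [← K.cj_g b a, ← R.cj_d, R.ev_cj, this, map_zero]

theorem gi1 (h : K.Normal) (k : Fin n) : R.eM (dM (R.d k) K.gi) = 0 := by
  rw [dM_inv _ K.inv, R.eM_neg, R.eM_mul, R.eM_mul, h.g1]; simp

theorem gi1b (h : K.Normal) (k : Fin n) : R.eM (dM (R.db k) K.gi) = 0 := by
  rw [dM_inv _ K.inv, R.eM_neg, R.eM_mul, R.eM_mul, g1b h]; simp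

theorem Th0 (h : K.Normal) (k l : Fin n) :
    R.eM (Th (R.d k) (R.db l) K.g K.gi) = -R.eM (dM (R.d k) (dM (R.db l) K.g)) := by
  rw [Th, R.eM_add, R.eM_neg, R.eM_mul, R.eM_mul, h.g1]; simp

theorem gi2 (h : K.Normal) (k l : Fin n) :
    R.eM (dM (R.d k) (dM (R.db l) K.gi)) = -R.eM (dM (R.d k) (dM (R.db l) K.g)) := by
  have := congrArg R.eM (Th_inv (R.d k) (R.db l) K.inv)
  rw [R.eM_sub, R.eM_mul, R.eM_mul, R.eM_mul, R.eM_mul, gi1 h, gi0 h, Th0 h] at this
  simpa using this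

theorem ddb_symm (a b c d : Fin n) :
    R.d c (R.db d (K.g a b)) = R.d a (R.db b (K.g c d)) := by
  rw [R.ddb, K.closed, ← R.ddb, K.closed']

theorem ev_tr (h : K.Normal) (M : Matrix (Fin n) (Fin n) S) :
    R.ev (K.tr M) = ∑ a, R.ev (M a a) := by
  rw [KM.tr, R.ev_trace, R.eM_mul, gi0 h, Matrix.one_mul]
  rfl

theorem ev_ip (h : K.Normal) (M N : Matrix (Fin n) (Fin n) S) :
    R.ev (ip K M N) = ∑ a, ∑ b, R.ev (M a b) * R.ev (N b a) := by
  rw [ip, R.ev_trace, R.eM_mul, R.eM_mul, R.eM_mul, gi0 h, Matrix.one_mul, Matrix.mul_one]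
  rfl

theorem ev_ric (h : K.Normal) (a b : Fin n) :
    R.ev (K.ric a b) = ∑ c, R.ev (R.d c (R.db c (K.gi a b))) := by
  rw [KM.ric, of_apply, ev_tr h]
  refine sum_congr rfl fun c _ => ?_
  have h1 := congrFun (congrFun (Th0 h a b) c) c
  have h2 := congrFun (congrFun (gi2 h c c) a) b
  simp only [DR.eM_apply, dM_apply, Matrix.neg_apply] at h1 h2
  rw [h1, h2, ddb_symm]

theorem ev_g2 (h : K.Normal) (u v : S) :
    R.ev (g2 K u v) = ∑ a, R.ev (R.d a u) * R.ev (R.db a v) := by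
  rw [g2, ev_tr h]
  simp only [DR.gr, of_apply, map_mul]

theorem ev_d_lap (h : K.Normal) (u : S) (a : Fin n) :
    R.ev (R.d a (K.lap u)) = ∑ c, R.ev (R.d a (R.d c (R.db c u))) := by
  rw [KM.lap, D_tr, map_sub, ev_tr h, ev_ip h]
  have : ∀ i j, R.ev (dM (R.d a) K.g i j) = 0 := fun i j => congrFun (congrFun (h.g1 a) i) j
  simp only [this, zero_mul, sum_const_zero, sub_zero]
  rfl

theorem ev_db_lap (h : K.Normal) (u : S) (a : Fin n) :
    R.ev (R.db a (K.lap u)) = ∑ c, R.ev (R.db a (R.d c (R.db c u))) := by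
  rw [KM.lap, D_tr, map_sub, ev_tr h, ev_ip h]
  have : ∀ i j, R.ev (dM (R.db a) K.g i j) = 0 := fun i j => congrFun (congrFun (g1b h a) i) j
  simp only [this, zero_mul, sum_const_zero, sub_zero]
  rfl

/-- the Bochner formula in a normal frame -/
theorem ev_lap_g2 (h : K.Normal) (u v : S) :
    R.ev (K.lap (g2 K u v)) = R.ev (ip K K.ric (R.gr u v)) + R.ev (g2 K (K.lap u) v) +
      R.ev (g2 K u (K.lap v)) + R.ev (ip K (R.hs u) (R.hs v)) +
      ∑ c, ∑ a, R.ev (R.d c (R.d a u)) * R.ev (R.db c (R.db a v)) := by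
  have e0 : ∀ a b, R.ev (K.gi a b) = if a = b then 1 else 0 := fun a b =>
    congrFun (congrFun (gi0 h) a) b
  have e1 : ∀ c a b, R.ev (R.d c (K.gi a b)) = 0 := fun c a b =>
    congrFun (congrFun (gi1 h c) a) b
  have e2 : ∀ c a b, R.ev (R.db c (K.gi a b)) = 0 := fun c a b =>
    congrFun (congrFun (gi1b h c) a) b
  have key : ∀ c, R.ev (R.d c (R.db c (g2 K u v))) =
      ∑ a, ∑ b, R.ev (R.d c (R.db c (K.gi b a))) * (R.ev (R.d a u) * R.ev (R.db b v)) +
      ∑ a, (R.ev (R.d a (R.d c (R.db c u))) * R.ev (R.db a v) +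
        R.ev (R.d a u) * R.ev (R.db a (R.d c (R.db c v))) +
        R.ev (R.d a (R.db c u)) * R.ev (R.d c (R.db a v)) +
        R.ev (R.d c (R.d a u)) * R.ev (R.db c (R.db a v))) := by
    intro c
    rw [g2_eq, ← sum_add_distrib]
    simp only [map_sum]
    refine sum_congr rfl fun a _ => ?_
    simp only [D_mul, map_add, map_mul, e0, e1, e2, zero_mul, zero_add, add_zero, sum_add_distrib,
      ite_mul, one_mul, sum_ite_eq', mem_univ, if_true]
    have t1 : R.d c (R.db c (R.d a u)) = R.d a (R.d c (R.db c u)) := by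
      rw [← R.ddb a c u, R.dd]
    have t2 : R.d c (R.db c (R.db a v)) = R.db a (R.d c (R.db c v)) := by
      rw [R.dbdb c a, R.ddb]
    rw [t1, t2, ← R.ddb a c u]
    ring
  rw [KM.lap, ev_tr h]
  simp only [DR.hs, of_apply, key, sum_add_distrib]
  rw [ev_ip h, ev_ip h, ev_g2 h, ev_g2 h]
  simp only [ev_d_lap h, ev_db_lap h, ev_ric h, DR.gr, of_apply, map_mul, sum_mul, mul_sum]
  have s1 : ∑ c, ∑ a, ∑ b, R.ev (R.d c (R.db c (K.gi b a))) * (R.ev (R.d a u) * R.ev (R.db b v)) =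
      ∑ b, ∑ a, ∑ c, R.ev (R.d c (R.db c (K.gi b a))) * (R.ev (R.d a u) * R.ev (R.db b v)) := by
    rw [sum_comm]
    simp only [sum_comm (γ := Fin n) (s := univ) (t := univ)
      (f := fun c b => R.ev (R.d c (R.db c (K.gi b _))) * (R.ev (R.d _ u) * R.ev (R.db b v)))]
    rw [sum_comm]
  rw [s1, sum_comm (f := fun c a => R.ev (R.d a (R.d c (R.db c u))) * R.ev (R.db a v)),
    sum_comm (f := fun c a => R.ev (R.d a u) * R.ev (R.db a (R.d c (R.db c v)))),
    sum_comm (f := fun c a => R.ev (R.d a (R.db c u)) * R.ev (R.d c (R.db a v)))]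
  ring

end normal

/-- **Bochner inequality along the flow** -/
theorem bochner (h : K.Flow 0) {u : S} (hu : R.cj u = u) :
    (R.ev (bx K (g2 K u u))).re ≤
      -(R.ev (ip K (R.hs u) (R.hs u))).re + 2 * (R.ev (g2 K (bx K u) u)).re := by
  obtain ⟨F, hF⟩ := K.exists_normal
  have e := ev_lap_g2 hF u u
  simp only [fr_g2, K.fr_lap, K.fr_ric, F.dr_gr, F.dr_hs, fr_ip, F.dr_ev] at e
  have hq : 0 ≤ (∑ c, ∑ a, R.ev (F.dr.d c (F.dr.d a u)) * R.ev (F.dr.db c (F.dr.db a u))).re := by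
    rw [Complex.re_sum]
    refine sum_nonneg fun c _ => ?_
    rw [Complex.re_sum]
    refine sum_nonneg fun a _ => ?_
    have : R.ev (F.dr.db c (F.dr.db a u)) = conj (R.ev (F.dr.d c (F.dr.d a u))) := by
      rw [← R.ev_cj, ← F.dr_cj, F.dr.cj_d, F.dr.cj_d, F.dr_cj, hu]
    rw [this, Complex.mul_conj]
    simpa using Complex.normSq_nonneg _
  have c1 : (R.ev (g2 K u (R.D u))).re = (R.ev (g2 K (R.D u) u)).re := by
    have := cj_g2 K (R.D u) u
    rw [R.cj_D, hu] at this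
    rw [← this, R.ev_cj, Complex.conj_re]
  have c2 : (R.ev (g2 K u (K.lap u))).re = (R.ev (g2 K (K.lap u) u)).re := by
    have := cj_g2 K (K.lap u) u
    rw [cj_lap, hu] at this
    rw [← this, R.ev_cj, Complex.conj_re]
  have e' := congrArg Complex.re e
  rw [bx, bx, g2_sub, D_g2 h]
  simp only [map_sub, map_add, Complex.add_re, Complex.sub_re] at e' ⊢
  linarith

end

end Crest.Agent.T223.Ev
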