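import Crest.Agent.R273.HessB_333

/-!
# T223, module COVER (helper25): the statement

`CovStmt n` : a local homeomorphism `Ψ : ℂⁿ → M` with shrinking charts `χ j`, uniformly Lipschitz
local deck maps in the charts and a deck invariant Ricci potential `u` is injective.
In the application `u = - log det (Ψ^* g₀)`, `Ψ ∘ χ j = ψ j` is the quasi-chart at time `t j`.
-/

set_option autoImplicit false

open Set Filter Topology Complex Metric
open scoped ContDiff ComplexOrder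

namespace Crest.Agent.T223.Cov

open Crest.Agent.R275.Geo Crest.Agent.R273.Hess_333

/-- the covering statement -/
def CovStmt (n : ℕ) : Prop :=
  ∀ (M : Type) [TopologicalSpace M] [T2Space M] (Ψ : Cn n → M) (χ : ℕ → Cn n → Cn n)
    (u : Cn n → ℝ) (μ : ℕ → ℝ) (r Λ C : ℝ),
    0 < r → IsLocalHomeomorph Ψ →
    -- the charts
    (∀ j, DifferentiableOn ℂ (χ j) (ball 0 r)) → (∀ j, InjOn (χ j) (ball 0 r)) →
    (∀ j, ∀ w ∈ ball (0 : Cn n) r, (fderiv ℂ (χ j) w).det ≠ 0) → (∀ j, χ j 0 = 0) →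
    (∀ j, 1 ≤ μ j) →
    -- compact sets shrink faster than `μ⁻ⁿ` (for some `j`)
    (∀ R δ : ℝ, 0 < δ → ∃ j, closedBall (0 : Cn n) R ⊆ χ j '' ball 0 (min r (δ / μ j ^ n))) →
    -- local deck maps are holomorphic, `u` is the logarithm of an invariant volume form
    (∀ (U : Set (Cn n)) (θ : Cn n → Cn n), IsOpen U → ContinuousOn θ U →
      (∀ z ∈ U, Ψ (θ z) = Ψ z) → DifferentiableOn ℂ θ U ∧
        ∀ z ∈ U, u (θ z) = u z + Real.log (‖(fderiv ℂ θ z).det‖ ^ 2)) →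
    -- local deck maps are `Λ`-Lipschitz in the charts
    (∀ (j : ℕ) (U : Set (Cn n)) (θ : Cn n → Cn n), IsOpen U → U ⊆ ball 0 r →
      MapsTo θ U (ball 0 r) → DifferentiableOn ℂ θ U →
      (∀ w ∈ U, Ψ (χ j (θ w)) = Ψ (χ j w)) → ∀ w ∈ U, ‖fderiv ℂ θ w‖ ≤ Λ) →
    -- `u` is smooth, plurisubharmonic, strictly at `0`
    ContDiff ℝ ∞ u → (∀ z, (hess u z).PosSemidef) → (hess u 0).det ≠ 0 →
    -- bounds in the charts
    (∀ j, ∀ w ∈ ball (0 : Cn n) r,
      u (χ j w) - Real.log (‖(fderiv ℂ (χ j) w).det‖ ^ 2) ≤ C * μ j) →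
    (∀ j, Real.log ‖(fderiv ℂ (χ j) 0).det‖ ≤ C * μ j) →
    Function.Injective Ψ

end Crest.Agent.T223.Cov
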