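import Crest.Agent.T223.TrLift_90
import Crest.Agent.T223.CovDef_25

/-!
# Row 223, module TRANS / END (helper90): definitions and statements

* `nq g v = re ∑ g a b v_a conj v_b`, `jac T z` (Jacobian matrix), `pbm K f z` = pull-back of the
  Kaehler metric `K` under `f : Cn n → M` at `z` (chart independent, `pbm_eq` in `TrPb_90`)
* `QCh`   : a sequence of quasi-charts `ψ j : ball 0 1 → M` at `p` for the metrics `K j / τ j`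
* `Coc`   : the transition cocycle `Φ j k` (`j ≤ k`), input of DYN
* `Basin` : the conclusion of DYN (the direct limit is `ℂⁿ`)
* `TransStmt`, `EndStmt`
-/

set_option autoImplicit false
set_option linter.unusedVariables false

open Set Filter Topology Metric
open scoped ContDiff ComplexConjugate Matrix ComplexOrder

namespace Crest.Agent.T223.Tr

open Crest.Agent.R275.Geo Crest.Agent.R273.Kah_333 Crest.Agent.R273.Hess_333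

noncomputable section

variable {n : ℕ} {M : Type} [TopologicalSpace M] {A : Atl n M}

/-- the quadratic form of a Hermitian matrix `g a b = g_{a b̄}` -/
def nq (g : Matrix (Fin n) (Fin n) ℂ) (v : Cn n) : ℝ :=
  (∑ a, ∑ b, g a b * v a * conj (v b)).re

/-- Jacobian matrix, `jac T z b a = ∂ T_b / ∂ z_a` -/
def jac (T : Cn n → Cn n) (z : Cn n) : Matrix (Fin n) (Fin n) ℂ :=
  Matrix.of fun b a => fderiv ℂ T z (EuclideanSpace.single a 1) b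

/-- pull-back computed in the chart `i` -/
def pbi (K : Kah A) (i : A.ι) (f : Cn n → M) (z : Cn n) : Matrix (Fin n) (Fin n) ℂ :=
  (jac (rd A i f) z)ᵀ * K.g i (f z) * (jac (rd A i f) z).map conj

/-- pull-back of the metric `K` under `f` at `z` -/
def pbm (K : Kah A) (f : Cn n → M) (z : Cn n) : Matrix (Fin n) (Fin n) ℂ :=
  pbi K (A.cover (f z)).choose f z

/-- `K ≤ c K'` everywhere -/
def KLe (K : Kah A) (c : ℝ) (K' : Kah A) : Prop :=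
  ∀ i, ∀ x ∈ (A.e i).source, ∀ v, nq (K.g i x) v ≤ c * nq (K'.g i x) v

/-- `ψ` is a `Λ`-quasi-chart of radius one for the metric `K / τ` -/
structure IsQC (K : Kah A) (τ Λ : ℝ) (ψ : Cn n → M) : Prop where
  imm : Imm A ψ (ball 0 1)
  lo : ∀ w ∈ ball (0 : Cn n) 1, ∀ v, τ * ‖v‖ ^ 2 ≤ Λ * nq (pbm K ψ w) v
  hi : ∀ w ∈ ball (0 : Cn n) 1, ∀ v, nq (pbm K ψ w) v ≤ Λ * τ * ‖v‖ ^ 2

/-- a sequence of quasi-charts at `p` (application: `K j = g(t j)`, `K0 = g(0)`) -/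
structure QCh (K0 : Kah A) (p : M) (K : ℕ → Kah A) (τ : ℕ → ℝ) (Λ : ℝ) (ψ : ℕ → Cn n → M) :
    Prop where
  one_le : 1 ≤ Λ
  τ_lo : ∀ j, 1 ≤ Λ * τ j
  τ_mono : ∀ j k, j ≤ k → τ j ≤ Λ * τ k
  qc : ∀ j, IsQC (K j) (τ j) Λ (ψ j)
  zero : ∀ j, ψ j 0 = p
  anti : ∀ j k, j ≤ k → KLe (K k) 1 (K j)
  anti0 : ∀ j, KLe (K j) 1 K0

/-- a cocycle of transition maps -/
structure Coc (Φ : ℕ → ℕ → Cn n → Cn n) (r κ : ℝ) : Prop where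
  r_pos : 0 < r
  one_le : 1 ≤ κ
  hol : ∀ j k, j ≤ k → DifferentiableOn ℂ (Φ j k) (ball 0 r)
  zero : ∀ j k, j ≤ k → Φ j k 0 = 0
  lip : ∀ j k, j ≤ k → ∀ w ∈ ball (0 : Cn n) r, ‖fderiv ℂ (Φ j k) w‖ ≤ κ
  bd : ∀ j k, j ≤ k → ∀ w ∈ ball (0 : Cn n) r, ‖Φ j k w‖ ≤ κ * ‖w‖
  imm : ∀ j k, j ≤ k → ∀ w ∈ ball (0 : Cn n) r, Function.Injective (fderiv ℂ (Φ j k) w)
  self : ∀ j, ∀ w ∈ ball (0 : Cn n) r, Φ j j w = w
  coc : ∀ j k l, j ≤ k → k ≤ l → ∀ w ∈ ball (0 : Cn n) (r / κ), Φ k l (Φ j k w) = Φ j l w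

/-- `Φ j k` is the lift of `ψ j` through `ψ k` -/
def IsTr (ψ : ℕ → Cn n → M) (Φ : ℕ → ℕ → Cn n → Cn n) (r : ℝ) : Prop :=
  r ≤ 1 / 2 ∧ ∀ j k, j ≤ k → ∀ w ∈ ball (0 : Cn n) r,
    Φ j k w ∈ ball (0 : Cn n) (1 / 2) ∧ ψ k (Φ j k w) = ψ j w

/-- conclusion of DYN: the direct limit of the cocycle is `ℂⁿ` -/
def Basin (Φ : ℕ → ℕ → Cn n → Cn n) (r κ : ℝ) : Prop :=
  ∃ (ρ : ℝ) (χ : ℕ → Cn n → Cn n), 0 < ρ ∧ ρ ≤ r ∧
    (∀ j, DifferentiableOn ℂ (χ j) (ball 0 ρ)) ∧ (∀ j, InjOn (χ j) (ball 0 ρ)) ∧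
    (∀ j, ∀ w ∈ ball (0 : Cn n) ρ, (fderiv ℂ (χ j) w).det ≠ 0) ∧ (∀ j, χ j 0 = 0) ∧
    (∀ j k, j ≤ k → ∀ w ∈ ball (0 : Cn n) (ρ / κ), χ k (Φ j k w) = χ j w) ∧
    ∀ R : ℝ, ∃ j, closedBall (0 : Cn n) R ⊆ χ j '' ball 0 (ρ / κ)

/-- compact sets shrink in the quasi-charts (output of the pinching) -/
def Shrink (K0 : Kah A) (ψ : ℕ → Cn n → M) : Prop :=
  ∃ (μ : ℕ → ℝ) (C : ℝ), (∀ j, 1 ≤ μ j) ∧
    (∀ j, Real.log (pbm K0 (ψ j) 0).det.re ≤ C * μ j) ∧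
    ∀ Q : Set M, IsCompact Q → ∀ δ : ℝ, 0 < δ → ∀ᶠ j in atTop,
      ∀ w ∈ ball (0 : Cn n) (1 / 2), ψ j w ∈ Q → ∀ v,
        μ j ^ (2 * n) * ‖v‖ ^ 2 ≤ δ * nq (pbm K0 (ψ j) w) v

/-- positive Ricci curvature -/
def RicPos (K : Kah A) : Prop :=
  ∀ i, ∀ z ∈ (A.e i).target,
    (hess (fun w => - Real.log (K.g i ((A.e i).symm w)).det.re) z).PosDef

/-- existence of the transition cocycle -/
def TransStmt (n : ℕ) : Prop :=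
  ∀ (M : Type) [TopologicalSpace M] [T2Space M] (A : Atl n M) (K0 : Kah A) (p : M)
    (K : ℕ → Kah A) (τ : ℕ → ℝ) (Λ : ℝ) (ψ : ℕ → Cn n → M), QCh K0 p K τ Λ ψ →
    ∃ (Φ : ℕ → ℕ → Cn n → Cn n), Coc Φ (1 / (4 * Λ ^ 2)) (Λ ^ 2) ∧ IsTr ψ Φ (1 / (4 * Λ ^ 2))

/-- the end of the proof -/
def EndStmt (n : ℕ) : Prop :=
  ∀ (M : Type) [TopologicalSpace M] [T2Space M] [ConnectedSpace M] (A : Atl n M) (K0 : Kah A)
    (p : M) (K : ℕ → Kah A) (τ : ℕ → ℝ) (Λ : ℝ) (ψ : ℕ → Cn n → M)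
    (Φ : ℕ → ℕ → Cn n → Cn n) (r κ : ℝ), QCh K0 p K τ Λ ψ → RicPos K0 → Shrink K0 ψ →
    Coc Φ r κ → IsTr ψ Φ r → Basin Φ r κ →
    ∃ F : M → Cn n, Function.Bijective F ∧
      ∀ i, DifferentiableOn ℂ (fun z => F ((A.e i).symm z)) (A.e i).target

end

end Crest.Agent.T223.Tr
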