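import Crest.Agent.T223.BrDef2_13
import Crest.Agent.T223.TrDef_90

/-!
# Row 223 (S0345): THE FRAME (helper38)

Conventions: `g z a b = g_{a b̄}` (as `Kah`), `wdM`, `Rm`, `bis`, `gc`, `BKpos`, `Exh`, `YauStmt`
from `BrDef_13`; `nq`, `jac`, `rd`, `Hol`, `Imm`, `pbm`, `KLe`, `IsQC` from `TrDef_90`.

* §1 static calculus in one chart: `hC`, `nqi`, `trg`, `ldet`, `ric`, `scal`, `lap`, `dz`, `gsq`,
  `nabRic`, `KahAt`, `BKge`, `BKle`
* §2 time dependent calculus in one chart: `KRFat`, `box`, `ricT`, `lyh`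
* §3 the manifold: `inC`, `MF`, `KahOn`, `pbF`, `pull`, `LipOn`, `QC`, `dK`, `gφ`
* §4 the data passed between the modules: `Hyp`, `Pot`, `Init`, `Apx`, `Flow`
* §5 the modules: `InitStmt`, `QCStmt`, `OsgStmt`, `LimStmt`, `FinStmt`, and `yau_of`.
-/

set_option autoImplicit false
set_option linter.unusedVariables false

open Set Filter Topology Metric
open scoped ContDiff ComplexConjugate Matrix ComplexOrder

namespace Crest.Agent.T223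

open Crest.Agent.R275.Geo Crest.Agent.R275.EDR890 Crest.Agent.R273.Kah_333
open Crest.Agent.R273.Hess_333 Crest.Agent.R273.RMan4_798
open Crest.Agent.R275.Core144 (Jm)
open Crest.Agent.T223.Br Crest.Agent.T223.Tr

noncomputable section

/-- square matrices -/
abbrev Mat (n : ℕ) : Type := Matrix (Fin n) (Fin n) ℂ

variable {n : ℕ}

/-! ## §1 static calculus in one chart -/

/-- `H(v, v̄) = ∑ H_{a b̄} v^a conj v^b` (complex valued; `nq H v` is its real part) -/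
def hC (H : Mat n) (v : Cn n) : ℂ := ∑ a, ∑ b, H a b * v a * conj (v b)

/-- squared norm of the covector `ξ_a dz^a`: `g^{a b̄} ξ_a conj ξ_b` -/
def nqi (G : Mat n) (ξ : Cn n) : ℝ := (∑ a, ∑ b, G⁻¹ b a * ξ a * conj (ξ b)).re

/-- `tr_G H = g^{a b̄} H_{a b̄}` -/
def trg (G H : Mat n) : ℝ := (G⁻¹ * H).trace.re

/-- `log det g` -/
def ldet (g : Cn n → Mat n) (z : Cn n) : ℝ := Real.log (g z).det.re

/-- `R_{a b̄} = - ∂_a ∂_{b̄} log det g` -/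
def ric (g : Cn n → Mat n) (z : Cn n) : Mat n := - hess (ldet g) z

/-- `R = g^{a b̄} R_{a b̄}` (half of the Riemannian scalar curvature, up to normalisation) -/
def scal (g : Cn n → Mat n) (z : Cn n) : ℝ := trg (g z) (ric g z)

/-- `Δ φ = g^{a b̄} ∂_a ∂_{b̄} φ` -/
def lap (g : Cn n → Mat n) (φ : Cn n → ℝ) (z : Cn n) : ℝ := trg (g z) (hess φ z)

/-- `∂ φ` -/
def dz (φ : Cn n → ℝ) (z : Cn n) : Cn n := WithLp.toLp 2 fun a => wd (false, a) (cu φ) z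

/-- `|∂ φ|² = g^{a b̄} φ_a φ_{b̄}`; a function with `|dφ(v)| ≤ c √(nq g v)` has `gsq ≤ c² / 4` -/
def gsq (g : Cn n → Mat n) (φ : Cn n → ℝ) (z : Cn n) : ℝ := nqi (g z) (dz φ z)

/-- `∇_k R_{a b̄}` -/
def nabRic (g : Cn n → Mat n) (z : Cn n) (k : Fin n) : Mat n :=
  wdM (false, k) (ric g) z - wdM (false, k) g z * (g z)⁻¹ * ric g z

/-- `g` is a smooth Kaehler matrix field near `z` -/
structure KahAt (g : Cn n → Mat n) (z : Cn n) : Prop where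
  smE : ∀ᶠ w in 𝓝 z, ∀ a b, ContDiffAt ℝ ∞ (fun y => g y a b) w
  pos : ∀ᶠ w in 𝓝 z, (g w).PosDef
  closed : ∀ᶠ w in 𝓝 z, ∀ a b c,
    wd (false, c) (fun y => g y a b) w = wd (false, a) (fun y => g y c b) w
  closed' : ∀ᶠ w in 𝓝 z, ∀ a b c,
    wd (true, c) (fun y => g y a b) w = wd (true, b) (fun y => g y a c) w

theorem KahAt.sm {g : Cn n → Mat n} {z : Cn n} (h : KahAt g z) (a b : Fin n) :
    ContDiffAt ℝ ∞ (fun w => g w a b) z := h.smE.self_of_nhds a b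

theorem KahAt.eventually {g : Cn n → Mat n} {z : Cn n} (h : KahAt g z) :
    ∀ᶠ w in 𝓝 z, KahAt g w := by
  filter_upwards [h.smE.eventually_nhds, h.pos.eventually_nhds, h.closed.eventually_nhds,
    h.closed'.eventually_nhds] with w h1 h2 h3 h4
  exact ⟨h1, h2, h3, h4⟩

/-- bisectional curvature `≥ -l` at `z` -/
def BKge (g : Cn n → Mat n) (z : Cn n) (l : ℝ) : Prop :=
  ∀ v w, -(l * nq (g z) v * nq (g z) w) ≤ bis g z v w

/-- bisectional curvature `≤ K` at `z` -/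
def BKle (g : Cn n → Mat n) (z : Cn n) (K : ℝ) : Prop :=
  ∀ v w, bis g z v w ≤ K * nq (g z) v * nq (g z) w

/-! ## §2 time dependent calculus in one chart -/

/-- `g` solves the Kaehler-Ricci flow `∂_t g = ∂∂̄ log det g` near `(t0, z0)` -/
structure KRFat (g : ℝ → Cn n → Mat n) (t0 : ℝ) (z0 : Cn n) : Prop where
  smE : ∀ᶠ q : ℝ × Cn n in 𝓝 (t0, z0), ∀ a b,
    ContDiffAt ℝ ∞ (fun q : ℝ × Cn n => g q.1 q.2 a b) q
  pos : ∀ᶠ q : ℝ × Cn n in 𝓝 (t0, z0), (g q.1 q.2).PosDef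
  closed : ∀ᶠ q : ℝ × Cn n in 𝓝 (t0, z0), ∀ a b c,
    wd (false, c) (fun y => g q.1 y a b) q.2 = wd (false, a) (fun y => g q.1 y c b) q.2
  closed' : ∀ᶠ q : ℝ × Cn n in 𝓝 (t0, z0), ∀ a b c,
    wd (true, c) (fun y => g q.1 y a b) q.2 = wd (true, b) (fun y => g q.1 y a c) q.2
  flow : ∀ᶠ q : ℝ × Cn n in 𝓝 (t0, z0), ∀ a b,
    HasDerivAt (fun s => g s q.2 a b) (hess (ldet (g q.1)) q.2 a b) q.1

theorem KRFat.sm {g : ℝ → Cn n → Mat n} {t0 : ℝ} {z0 : Cn n} (h : KRFat g t0 z0) (a b : Fin n) :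
    ContDiffAt ℝ ∞ (fun q : ℝ × Cn n => g q.1 q.2 a b) (t0, z0) := h.smE.self_of_nhds a b

theorem KRFat.eventually {g : ℝ → Cn n → Mat n} {t0 : ℝ} {z0 : Cn n} (h : KRFat g t0 z0) :
    ∀ᶠ q : ℝ × Cn n in 𝓝 (t0, z0), KRFat g q.1 q.2 := by
  filter_upwards [h.smE.eventually_nhds, h.pos.eventually_nhds, h.closed.eventually_nhds,
    h.closed'.eventually_nhds, h.flow.eventually_nhds] with w h1 h2 h3 h4 h5
  exact ⟨h1, h2, h3, h4, h5⟩

theorem KRFat.kahAt {g : ℝ → Cn n → Mat n} {t0 : ℝ} {z0 : Cn n} (h : KRFat g t0 z0) :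
    KahAt (g t0) z0 := by
  have hc : Tendsto (fun w : Cn n => ((t0, w) : ℝ × Cn n)) (𝓝 z0) (𝓝 (t0, z0)) :=
    (Continuous.prodMk_right t0).continuousAt
  refine ⟨?_, hc.eventually h.pos, hc.eventually h.closed, hc.eventually h.closed'⟩
  filter_upwards [hc.eventually h.smE] with w hw a b
  exact (hw a b).comp w (contDiffAt_const.prodMk contDiffAt_id)

/-- `(∂_t - Δ_{g(t)}) φ` -/
def box (g : ℝ → Cn n → Mat n) (φ : ℝ → Cn n → ℝ) (t : ℝ) (z : Cn n) : ℝ :=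
  deriv (fun s => φ s z) t - lap (g t) (φ t) z

/-- the past of `(t0, z0)` -/
def past (t0 : ℝ) (z0 : Cn n) : Filter (ℝ × Cn n) := 𝓝[{q | q.1 ≤ t0}] (t0, z0)

/-- `∂_t Ric` -/
def ricT (g : ℝ → Cn n → Mat n) (t : ℝ) (z : Cn n) : Mat n :=
  Matrix.of fun a b => deriv (fun s => ric (g s) z a b) t

/-- Cao's matrix Harnack form with time parameter `τ` (`τ = t` on the complete flow):
`|c|² (Ric_t + Ric g⁻¹ Ric + Ric/τ)(v,v̄) + 2 re (c̄ ∇_a Ric (v,v̄)) + R(v,v̄,a,ā)` -/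
def lyh (g : ℝ → Cn n → Mat n) (τ t : ℝ) (z : Cn n) (c : ℂ) (a v : Cn n) : ℝ :=
  ‖c‖ ^ 2 * nq (ricT g t z + ric (g t) z * (g t z)⁻¹ * ric (g t) z
      + ((τ⁻¹ : ℝ) : ℂ) • ric (g t) z) v
    + 2 * (conj c * ∑ k, a k * hC (nabRic (g t) z k) v).re + bis (g t) z v a

/-! ## §3 the manifold -/

variable {M : Type} [TopologicalSpace M] {A : Atl n M}

/-- a function on `M` read in the chart `i` -/
def inC {W : Type*} (A : Atl n M) (i : A.ι) (f : M → W) : Cn n → W := fun z => f ((A.e i).symm z)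

/-- matrix fields in the charts of the atlas (local metrics; `gc K` is the global case) -/
abbrev MF (A : Atl n M) : Type := A.ι → Cn n → Mat n

/-- transformation law on `U` -/
def TrOn (G : MF A) (U : Set M) : Prop :=
  ∀ i j, ∀ x ∈ (A.e i).source ∩ (A.e j).source, x ∈ U →
    G i (A.e i x) = (Jm A i j x)ᵀ * G j (A.e j x) * (Jm A i j x).map conj

/-- `G` is a Kaehler metric at (near) the points of `U` -/
structure KahOn (G : MF A) (U : Set M) : Prop where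
  kah : ∀ i, ∀ x ∈ (A.e i).source, x ∈ U → KahAt (G i) (A.e i x)
  tr : TrOn G U

/-- pull-back of `G` under `f : Cn n → M`, computed in the chart `i` -/
def pbF (G : MF A) (i : A.ι) (f : Cn n → M) (w : Cn n) : Mat n :=
  (jac (rd A i f) w)ᵀ * G i (A.e i (f w)) * (jac (rd A i f) w).map conj

/-- pull-back of `G` under `f` (chart free; `pull (gc K) f w = pbm K f w`) -/
def pull (G : MF A) (f : Cn n → M) (w : Cn n) : Mat n := pbF G (A.cover (f w)).choose f w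

/-- `ρ` is infinitesimally `c`-Lipschitz for `G` at the points of `U` (no differentiability; covers
smooth `ρ` with `4 * gsq ≤ c²` and distance functions, `c = 1`) -/
def LipOn (G : MF A) (U : Set M) (c : ℝ) (ρ : M → ℝ) : Prop :=
  ∀ i, ∀ x ∈ (A.e i).source, x ∈ U → ∀ ε : ℝ, 0 < ε → ∀ᶠ w in 𝓝 (A.e i x),
    |inC A i ρ w - ρ x| ≤ (c + ε) * Real.sqrt (nq (G i (A.e i x)) (w - A.e i x))

/-- `ψ : ball 0 1 → U` is an `ε`-flat holomorphic quasi-chart of radius `r` at `x` -/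
structure QC (G : MF A) (U : Set M) (x : M) (r ε : ℝ) (ψ : Cn n → M) : Prop where
  imm : Imm A ψ (ball 0 1)
  maps : MapsTo ψ (ball 0 1) U
  zero : ψ 0 = x
  ctr : pull G ψ 0 = ((r ^ 2 : ℝ) : ℂ) • (1 : Mat n)
  lo : ∀ w ∈ ball (0 : Cn n) 1, ∀ v, (1 - ε) * r ^ 2 * ‖v‖ ^ 2 ≤ nq (pull G ψ w) v
  hi : ∀ w ∈ ball (0 : Cn n) 1, ∀ v, nq (pull G ψ w) v ≤ (1 + ε) * r ^ 2 * ‖v‖ ^ 2

/-- the metric `g₀ - t Ric₀ + ∂∂̄ φ(t)` of a potential flow -/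
def gφ (K0 : Kah A) (φ : ℝ → M → ℝ) (t : ℝ) : MF A := fun i z =>
  gc K0 i z - (t : ℂ) • ric (gc K0 i) z + hess (inC A i (φ t)) z

/-- `log (det g₀ / det G)` at `x`, computed in the chart `i` -/
def lvol (K0 : Kah A) (G : MF A) (i : A.ι) (x : M) : ℝ :=
  ldet (gc K0 i) (A.e i x) - ldet (G i) (A.e i x)

/-- the Riemannian distance of `K` (length element `√(nq g v)`) -/
def dK [T2Space M] [ConnectedSpace M] (K : Kah A) (x y : M) : ℝ :=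
  dist (α := (ofKah K).M) x y

/-! ## §4 the data passed between the modules -/

variable [T2Space M] [ConnectedSpace M]

/-- the hypotheses of `YauStmt` -/
structure Hyp (K0 : Kah A) : Prop where
  proper : ProperSpace (ofKah K0).M
  exh : ∃ rho, Exh K0 rho
  bk : BKpos K0

/-- `θ` is a Ricci potential from above on `U`: smooth, `∂∂̄ θ ≥ Ric₀` at the points of `U` -/
structure Pot (K0 : Kah A) (U : Set M) (θ : M → ℝ) : Prop where
  sm : A.Sm θ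
  ge : ∀ i, ∀ x ∈ (A.e i).source, x ∈ U → ∀ v,
    nq (ric (gc K0 i) (A.e i x)) v ≤ nq (hess (inC A i θ) (A.e i x)) v

/-- static input of the flow construction (everything at time `0`) -/
structure Init (K0 : Kah A) (p : M) where
  /-- smoothed distance to `p` -/
  ρ0 : M → ℝ
  /-- start function for the start radius `a`, `u0 a = log ∑ c_i |s_i|²` -/
  u0 : ℝ → M → ℝ
  C : ℝ
  one_le : 1 ≤ C
  ρ0_sm : A.Sm ρ0
  ρ0_near : ∀ x, |ρ0 x - dK K0 p x| ≤ 1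
  ρ0_nonneg : ∀ x, 0 ≤ ρ0 x
  ρ0_grad : ∀ i, ∀ z ∈ (A.e i).target, gsq (gc K0 i) (inC A i ρ0) z ≤ 1
  u0_pot : ∀ a, Pot K0 {x | ρ0 x < a} (u0 a)
  u0_le : ∀ a x, ρ0 x ≤ a → u0 a x ≤ C * (1 + dK K0 p x)
  /-- three circles -/
  u0_ge : ∀ a x, ∀ r : ℝ, 0 < r → r ≤ 1 → ∃ y, dK K0 x y < r ∧
    -(C * (2 + dK K0 p x) * Real.log ((2 + dK K0 p x) / r)) ≤ u0 a y
  u0_p : ∀ a, -C ≤ u0 a p
  /-- other potentials, bounded below on a given compact set (their slope depends on the set) -/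
  pot : ∀ Q : Set M, IsCompact Q → ∃ C' : ℝ, 0 ≤ C' ∧ ∀ a, ∃ θ : M → ℝ,
    Pot K0 {x | ρ0 x < a} θ ∧ (∀ x, ρ0 x ≤ a → θ x ≤ C' * (1 + dK K0 p x)) ∧ ∀ x ∈ Q, -C' ≤ θ x
  /-- Levi barrier: `∂∂̄ d(x,·)² ≤ C g₀` in the support sense -/
  levi : ∀ x i, ∀ y ∈ (A.e i).source, ∃ b : Cn n → ℝ, ContDiffAt ℝ ∞ b (A.e i y) ∧
    b (A.e i y) = dK K0 x y ^ 2 ∧
    (∀ᶠ w in 𝓝 (A.e i y), dK K0 x ((A.e i).symm w) ^ 2 ≤ b w) ∧
    ∀ v, nq (hess b (A.e i y)) v ≤ C * nq (gc K0 i (A.e i y)) v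

/-- output of the barrier induction: local flows `G k` with `k`-independent bounds; every field
reads "on every compact set, for all large `k`" -/
structure Apx (K0 : Kah A) (p : M) where
  G : ℕ → ℝ → MF A
  krf : ∀ (T : ℝ) (Q : Set M), IsCompact Q → ∀ᶠ k in atTop, ∀ t ∈ Ioc 0 T,
    TrOn (G k t) Q ∧ ∀ i, ∀ x ∈ (A.e i).source, x ∈ Q → KRFat (fun s => G k s i) t (A.e i x)
  bk : ∀ (T : ℝ) (Q : Set M), IsCompact Q → ∀ ε : ℝ, 0 < ε → ∀ᶠ k in atTop, ∀ t ∈ Ioc 0 T,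
    ∀ i, ∀ x ∈ (A.e i).source, x ∈ Q → BKge (G k t i) (A.e i x) ε
  lyh : ∀ (t1 T : ℝ) (Q : Set M), 0 < t1 → IsCompact Q → ∀ ε : ℝ, 0 < ε → ∀ᶠ k in atTop,
    ∀ t ∈ Icc t1 T, ∀ i, ∀ x ∈ (A.e i).source, x ∈ Q → ∀ (c : ℂ) (a v : Cn n),
      -(ε * (‖c‖ ^ 2 + nq (G k t i (A.e i x)) a) * nq (G k t i (A.e i x)) v) ≤
        lyh (fun s => G k s i) t t (A.e i x) c a v
  upper : ∀ (T : ℝ) (Q : Set M), IsCompact Q → ∀ ε : ℝ, 0 < ε → ∀ᶠ k in atTop, ∀ t ∈ Ioc 0 T,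
    ∀ i, ∀ x ∈ (A.e i).source, x ∈ Q → ∀ v,
      nq (G k t i (A.e i x)) v ≤ (1 + ε) * nq (K0.g i x) v
  lower : ∀ (T : ℝ) (Q : Set M), IsCompact Q → ∃ C : ℝ, ∀ᶠ k in atTop, ∀ t ∈ Ioc 0 T,
    ∀ i, ∀ x ∈ (A.e i).source, x ∈ Q → lvol K0 (G k t) i x ≤ C
  curv : ∀ (t1 T : ℝ) (Q : Set M), 0 < t1 → IsCompact Q → ∃ C : ℝ, ∀ᶠ k in atTop,
    ∀ t ∈ Icc t1 T, ∀ i, ∀ x ∈ (A.e i).source, x ∈ Q → BKle (G k t i) (A.e i x) C
  prop : ∀ T : ℝ, ∃ C : ℝ, 0 ≤ C ∧ ∀ Q : Set M, IsCompact Q → ∀ᶠ k in atTop, ∀ t ∈ Ioc 0 T,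
    ∃ ρ : M → ℝ, LipOn (G k t) Q C ρ ∧ ∀ x ∈ Q, dK K0 p x ≤ C * (1 + |ρ x - ρ p|)
  sig : ∃ C : ℝ, ∀ T : ℝ, ∀ᶠ k in atTop, ∀ t ∈ Ioc 0 T,
    ∀ i, p ∈ (A.e i).source → lvol K0 (G k t) i p ≤ C * (1 + t)

/-- the complete Kaehler-Ricci flow on `(0, ∞)` (values of `K t` for `t ≤ 0` are junk) -/
structure Flow (K0 : Kah A) (p : M) where
  K : ℝ → Kah A
  krf : ∀ t, 0 < t → ∀ i, ∀ z ∈ (A.e i).target, KRFat (fun s => gc (K s) i) t z
  bk : ∀ t, 0 < t → ∀ i, ∀ z ∈ (A.e i).target, BKge (gc (K t) i) z 0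
  lyh : ∀ t, 0 < t → ∀ i, ∀ z ∈ (A.e i).target, ∀ (c : ℂ) (a v : Cn n),
    0 ≤ lyh (fun s => gc (K s) i) t t z c a v
  le0 : ∀ t, 0 < t → KLe (K t) 1 K0
  proper : ∀ t, 0 < t → ProperSpace (ofKah (K t)).M
  sig : ∃ C : ℝ, ∀ t, 0 < t → ∀ i, p ∈ (A.e i).source → lvol K0 (gc (K t)) i p ≤ C * (1 + t)

end

/-! ## §5 the modules -/

/-- INIT (15, 79, 93, 77) -/
def InitStmt (n : ℕ) : Prop :=
  ∀ (M : Type) [TopologicalSpace M] [T2Space M] [ConnectedSpace M] [SecondCountableTopology M]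
    [NoncompactSpace M] (A : Atl n M) (K0 : Kah A) (p : M), Hyp K0 → Nonempty (Init K0 p)

/-- QC, static form (47, 35, 48, 44): small curvature on a compact sublevel set of a Lipschitz
function gives an `ε`-flat holomorphic quasi-chart -/
def QCStmt (n : ℕ) : Prop :=
  ∀ ε : ℝ, 0 < ε → ∃ ε0 N : ℝ, 0 < ε0 ∧ 0 < N ∧
    ∀ (M : Type) [TopologicalSpace M] [T2Space M] (A : Atl n M) (G : MF A) (U : Set M)
      (ρ : M → ℝ) (c r σ : ℝ), IsOpen U → KahOn G U → 0 < c → 0 < r → LipOn G U c ρ →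
      IsCompact {y | y ∈ U ∧ ρ y ≤ σ} →
      (∀ i, ∀ y ∈ (A.e i).source, y ∈ U → ρ y ≤ σ →
        BKge (G i) (A.e i y) (ε0 / r ^ 2) ∧ BKle (G i) (A.e i y) (ε0 / r ^ 2)) →
      ∀ x ∈ U, ρ x ≤ σ - N * c * r → ∃ ψ : Cn n → M, QC G {y | y ∈ U ∧ ρ y ≤ σ} x r ε ψ

/-- OSG (21 and leaves; uses `QCStmt`, the step solvers of 83/88, the cones of 87/43) -/
def OsgStmt (n : ℕ) : Prop :=
  ∀ (M : Type) [TopologicalSpace M] [T2Space M] [ConnectedSpace M] [SecondCountableTopology M]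
    [NoncompactSpace M] (A : Atl n M) (K0 : Kah A) (p : M), Hyp K0 → Init K0 p →
    Nonempty (Apx K0 p)

/-- LIMIT (19, 23, 78) -/
def LimStmt (n : ℕ) : Prop :=
  ∀ (M : Type) [TopologicalSpace M] [T2Space M] [ConnectedSpace M] [SecondCountableTopology M]
    [NoncompactSpace M] (A : Atl n M) (K0 : Kah A) (p : M), Hyp K0 → Apx K0 p →
    Nonempty (Flow K0 p)

/-- from the complete flow to `ℂⁿ` (76, 90, 25, 20; uses `QCStmt`) -/
def FinStmt (n : ℕ) : Prop :=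
  ∀ (M : Type) [TopologicalSpace M] [T2Space M] [ConnectedSpace M] [SecondCountableTopology M]
    [NoncompactSpace M] (A : Atl n M) (K0 : Kah A) (p : M), Hyp K0 → Flow K0 p →
    ∃ F : M → Cn n, Function.Bijective F ∧
      (∀ i, DifferentiableOn ℂ (fun z => F ((A.e i).symm z)) (A.e i).target) ∧
      ∀ i, ∀ z ∈ (A.e i).target,
        Function.Injective (fderiv ℂ (fun z => F ((A.e i).symm z)) z)

theorem yau_of {n : ℕ} (h1 : InitStmt n) (h2 : OsgStmt n) (h3 : LimStmt n) (h4 : FinStmt n) :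
    YauImm n := by
  intro M _ _ _ _ _ A K0 hp he hb
  have H : Hyp K0 := ⟨hp, he, hb⟩
  obtain ⟨p⟩ : Nonempty M := inferInstance
  obtain ⟨I⟩ := h1 M A K0 p H
  obtain ⟨X⟩ := h2 M A K0 p H I
  obtain ⟨F⟩ := h3 M A K0 p H X
  exact h4 M A K0 p H F

end Crest.Agent.T223
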