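import Crest.Agent.T223.CnG_87
import Crest.Agent.T223.EvA_41
import Crest.Agent.T223.Fr_38

/-!
# Row 223 (helper41): the dictionary between the ring of germs and the frame `Fr_38`

`RepM Φ f` : the matrix of germs `Φ` is represented by `f`;
`KahP g p`, `KRFp g p` : Kaehler family / Kaehler-Ricci flow near `p` in the past;
`KahP.km : KM (gdr p)`, `KRFp.flow0 : h.km.Flow 0`, `rep_gi`, `rep_ldet`, `rep_ric`, `rep_Th`,
`rep_lap`, `rep_gsq`, `rep_scal`, `ev_bx` (`= boxp`, `boxp_eq_box`).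
-/

set_option autoImplicit false
set_option linter.unusedSectionVars false

open Set Filter Topology
open scoped ContDiff ComplexConjugate ComplexOrder Matrix

namespace Crest.Agent.T223.Cn

open Crest.Agent.R275.Geo Crest.Agent.R275.EDR890 Crest.Agent.R273.Hess_333
open Crest.Agent.R273.HessB_333 Crest.Agent.T223.Br Crest.Agent.T223.Tr Crest.Agent.T223.Ev

noncomputable section

variable {n : ℕ}

/-! ### Jacobi's formula -/

section jac

variable {S : Type} [CommRing S] [Algebra ℂ S]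

theorem D_prod {ι : Type*} [DecidableEq ι] (δ : Der S) (s : Finset ι) (f : ι → S) :
    δ (∏ i ∈ s, f i) = ∑ j ∈ s, δ (f j) * ∏ i ∈ s.erase j, f i := by
  induction s using Finset.induction_on with
  | empty => simp
  | insert a s ha ih =>
    rw [Finset.prod_insert ha, Finset.sum_insert ha, D_mul, ih, Finset.erase_insert ha,
      Finset.mul_sum]
    congr 1
    refine Finset.sum_congr rfl fun j hj => ?_
    have hne : a ≠ j := fun h => ha (h ▸ hj)
    rw [Finset.erase_insert_of_ne hne,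
      Finset.prod_insert fun h => ha (Finset.mem_of_mem_erase h)]
    ring

theorem D_det (δ : Der S) (M : Matrix (Fin n) (Fin n) S) :
    δ M.det = (M.adjugate * dM δ M).trace := by
  have h1 : ∀ j, (M.adjugate * dM δ M) j j = (M.updateCol j fun i => δ (M i j)).det := by
    intro j
    rw [← Matrix.cramer_apply, Matrix.cramer_eq_adjugate_mulVec]
    rfl
  simp only [Matrix.trace, Matrix.diag_apply, h1, Matrix.det_apply', map_sum]
  rw [Finset.sum_comm]
  refine Finset.sum_congr rfl fun σ _ => ?_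
  rw [D_mul, Derivation.map_intCast, zero_mul, zero_add, D_prod, Finset.mul_sum]
  refine Finset.sum_congr rfl fun j _ => ?_
  congr 1
  rw [← Finset.mul_prod_erase _ _ (Finset.mem_univ j), Matrix.updateCol_self]
  congr 1
  exact Finset.prod_congr rfl fun i hi => by
    rw [Matrix.updateCol_ne (Finset.ne_of_mem_erase hi)]

theorem D_det_km {R : DR n S} (K : KM R) (δ : Der S) : δ K.g.det = K.g.det * be K δ := by
  have h : K.g.adjugate = K.g.det • K.gi := by
    calc K.g.adjugate = K.g.adjugate * (K.g * K.gi) := by rw [K.inv, Matrix.mul_one]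
      _ = _ := by rw [← Matrix.mul_assoc, Matrix.adjugate_mul, Matrix.smul_mul, Matrix.one_mul]
  rw [D_det, h, Matrix.smul_mul, Matrix.trace_smul]
  rfl

end jac

variable {p : ℝ × Cn n}

/-! ### matrices of germs -/

/-- `Φ` is the matrix of germs of `f` -/
def RepM (Φ : Matrix (Fin n) (Fin n) (Gm p)) (f : ℝ → Cn n → Mat n) : Prop :=
  ∀ a b, Rep (Φ a b) fun t z => f t z a b

namespace Rep

variable {φ ψ : Gm p} {f g : ℝ → Cn n → ℂ}

/-- a real germ is represented by the real part -/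
theorem re_of_cj (h : Rep φ f) (hc : (gdr p).cj φ = φ) : Rep φ fun t z => ((f t z).re : ℂ) := by
  have h1 := h.cj
  rw [hc] at h1
  refine h.congr ?_
  filter_upwards [h1.unique h] with q hq
  exact Complex.conj_eq_iff_re.1 hq

theorem hs {u : ℝ → Cn n → ℝ} (h : Rep φ fun t z => (u t z : ℂ)) :
    RepM ((gdr p).hs φ) fun t z => hess (u t) z := fun a b => (h.db b).d a

theorem gr {u v : ℝ → Cn n → ℝ} (h : Rep φ fun t z => (u t z : ℂ))
    (h' : Rep ψ fun t z => (v t z : ℂ)) :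
    RepM ((gdr p).gr φ ψ) fun t z => Matrix.of fun a b => dz (u t) z a * conj (dz (v t) z b) := by
  intro a b
  have h1 := (h'.d b).cj
  rw [(gdr p).cj_d, h'.cj_real] at h1
  exact (h.d a).mul h1

theorem dz {u : ℝ → Cn n → ℝ} (h : Rep φ fun t z => (u t z : ℂ)) (a : Fin n) :
    Rep ((gdr p).d a φ) fun t z => dz (u t) z a := h.d a

theorem dzb {u : ℝ → Cn n → ℝ} (h : Rep φ fun t z => (u t z : ℂ)) (a : Fin n) :
    Rep ((gdr p).db a φ) fun t z => conj (T223.dz (u t) z a) := by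
  have h1 := (h.d a).cj
  rwa [(gdr p).cj_d, h.cj_real] at h1

/-- time derivative of a real germ -/
theorem D_real {u : ℝ → Cn n → ℝ} (h : Rep φ fun t z => (u t z : ℂ)) :
    Rep ((gdr p).D φ) fun t z => ((derivWithin (fun s => u s z) (Iic p.1) t : ℝ) : ℂ) := by
  have hu : SmP p u := h.sm.re
  refine h.D.congr ?_
  filter_upwards [hu.hasDeriv, self_mem_nhdsWithin] with q h1 h2
  exact (h1.ofReal_comp.derivWithin (uniqueDiffOn_Iic _ _ h2)).symm

end Rep

namespace RepM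

variable {Φ Ψ : Matrix (Fin n) (Fin n) (Gm p)} {f g : ℝ → Cn n → Mat n}

theorem ev (h : RepM Φ f) : (gdr p).eM Φ = f p.1 p.2 := by
  ext a b; exact (h a b).ev

theorem congr (h : RepM Φ f) (e : ∀ᶠ q in past p, g q.1 q.2 = f q.1 q.2) : RepM Φ g :=
  fun a b => (h a b).congr (e.mono fun _ hq => by simp only [hq])

theorem congr' (h : RepM Φ f) (e : ∀ t z, g t z = f t z) : RepM Φ g :=
  h.congr (Eventually.of_forall fun _ => e _ _)

theorem ext (h : RepM Φ f) (h' : RepM Ψ g) (e : ∀ᶠ q in past p, f q.1 q.2 = g q.1 q.2) : Φ = Ψ := by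
  ext a b
  exact (h a b).ext (h' a b) (e.mono fun _ hq => by simp only [hq])

theorem unique (h : RepM Φ f) (h' : RepM Φ g) : ∀ᶠ q in past p, f q.1 q.2 = g q.1 q.2 := by
  have : ∀ᶠ q in past p, ∀ a b, f q.1 q.2 a b = g q.1 q.2 a b :=
    eventually_all.2 fun a => eventually_all.2 fun b => (h a b).unique (h' a b)
  exact this.mono fun q hq => Matrix.ext hq

theorem add (h : RepM Φ f) (h' : RepM Ψ g) : RepM (Φ + Ψ) fun t z => f t z + g t z :=
  fun a b => (h a b).add (h' a b)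

theorem neg (h : RepM Φ f) : RepM (-Φ) fun t z => -f t z := fun a b => (h a b).neg

theorem sub (h : RepM Φ f) (h' : RepM Ψ g) : RepM (Φ - Ψ) fun t z => f t z - g t z :=
  fun a b => (h a b).sub (h' a b)

theorem mul (h : RepM Φ f) (h' : RepM Ψ g) : RepM (Φ * Ψ) fun t z => f t z * g t z :=
  fun a b => Rep.sum Finset.univ fun c => (h a c).mul (h' c b)

theorem smul {φ : Gm p} {u : ℝ → Cn n → ℂ} (hu : Rep φ u) (h : RepM Φ f) :
    RepM (φ • Φ) fun t z => u t z • f t z := fun a b => hu.mul (h a b)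

theorem smulC (c : ℂ) (h : RepM Φ f) : RepM (c • Φ) fun t z => c • f t z :=
  fun a b => (h a b).smul c

theorem transpose (h : RepM Φ f) : RepM Φᵀ fun t z => (f t z)ᵀ := fun a b => h b a

theorem cM (h : RepM Φ f) : RepM ((gdr p).cM Φ) fun t z => (f t z).map conj :=
  fun a b => (h a b).cj

theorem one : RepM (1 : Matrix (Fin n) (Fin n) (Gm p)) fun _ _ => 1 := by
  intro a b
  by_cases hab : a = b
  · subst hab
    simpa using Rep.one
  · simpa [Matrix.one_apply_ne hab] using Rep.zero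

theorem zero : RepM (0 : Matrix (Fin n) (Fin n) (Gm p)) fun _ _ => 0 := fun _ _ => Rep.zero

theorem d (h : RepM Φ f) (k : Fin n) :
    RepM (dM ((gdr p).d k) Φ) fun t z => wdM (false, k) (f t) z := fun a b => (h a b).d k

theorem db (h : RepM Φ f) (k : Fin n) :
    RepM (dM ((gdr p).db k) Φ) fun t z => wdM (true, k) (f t) z := fun a b => (h a b).db k

theorem D (h : RepM Φ f) : RepM (dM (gdr p).D Φ)
    fun t z => Matrix.of fun a b => derivWithin (fun s => f s z a b) (Iic p.1) t :=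
  fun a b => (h a b).D

theorem D_eq (h : RepM Φ f) (h' : RepM Ψ g) (e : ∀ᶠ q in past p, ∀ a b,
    HasDerivWithinAt (fun s => f s q.2 a b) (g q.1 q.2 a b) (Iic p.1) q.1) : dM (gdr p).D Φ = Ψ := by
  ext a b
  exact (h a b).D_eq (h' a b) (e.mono fun _ hq => hq a b)

theorem trace (h : RepM Φ f) : Rep Φ.trace fun t z => (f t z).trace :=
  Rep.sum Finset.univ fun a => h a a

theorem det (h : RepM Φ f) : Rep Φ.det fun t z => (f t z).det := by
  rw [Matrix.det_apply']
  refine (Rep.sum Finset.univ fun σ : Equiv.Perm (Fin n) =>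
    (Rep.const (p := p) ((Equiv.Perm.sign σ : ℤ) : ℂ)).mul
      (Rep.prod Finset.univ fun i => h (σ i) i)).congr' (fun t z => Matrix.det_apply' _) |>
    fun h => ?_
  simpa only [map_intCast] using h

theorem bf (h : RepM Φ f) {x y : Fin n → Gm p} {u v : Fin n → ℝ → Cn n → ℂ}
    (hx : ∀ a, Rep (x a) (u a)) (hy : ∀ a, Rep (y a) (v a)) :
    Rep ((gdr p).bf Φ x y) fun t z => ∑ a, ∑ b, f t z a b * u a t z * conj (v b t z) := by
  rw [DR.bf_eq]
  exact (Rep.sum Finset.univ fun a => Rep.sum Finset.univ fun b =>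
    ((hx a).mul (hy b).cj).mul (h a b)).congr' fun t z =>
      Finset.sum_congr rfl fun a _ => Finset.sum_congr rfl fun b _ => by ring

/-- a Hermitian field gives a Hermitian matrix of germs -/
theorem herm (h : RepM Φ f) (e : ∀ᶠ q in past p, (f q.1 q.2).IsHermitian) : (gdr p).cM Φ = Φᵀ :=
  h.cM.ext h.transpose (e.mono fun q hq => by
    ext a b
    exact hq.apply b a)

end RepM

/-- the matrix of germs of a smooth matrix field -/
def mkM {f : ℝ → Cn n → Mat n} (h : ∀ a b, SmP p fun t z => f t z a b) :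
    Matrix (Fin n) (Fin n) (Gm p) := Matrix.of fun a b => mk (h a b)

theorem rep_mkM {f : ℝ → Cn n → Mat n} (h : ∀ a b, SmP p fun t z => f t z a b) :
    RepM (mkM h) f := fun a b => (h a b).rep

/-! ### Kaehler families -/

/-- a smooth family of Kaehler metrics near `p`, in the past -/
structure KahP (g : ℝ → Cn n → Mat n) (p : ℝ × Cn n) : Prop where
  sm : ∀ a b, SmP p fun t z => g t z a b
  pos : ∀ᶠ q in past p, (g q.1 q.2).PosDef
  closed : ∀ᶠ q in past p, ∀ a b c,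
    wd (false, c) (fun y => g q.1 y a b) q.2 = wd (false, a) (fun y => g q.1 y c b) q.2

/-- Kaehler-Ricci flow near `p`, in the past -/
structure KRFp (g : ℝ → Cn n → Mat n) (p : ℝ × Cn n) : Prop extends KahP g p where
  flow : ∀ᶠ q in past p, ∀ a b,
    HasDerivWithinAt (fun s => g s q.2 a b) (hess (ldet (g q.1)) q.2 a b) (Iic p.1) q.1

theorem _root_.Crest.Agent.T223.KRFat.krfp {g : ℝ → Cn n → Mat n} {t : ℝ} {z : Cn n}
    (h : KRFat g t z) : KRFp g (t, z) where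
  sm a b := SmP.of_contDiffAt (h.sm a b)
  pos := nhdsWithin_le_nhds h.pos
  closed := nhdsWithin_le_nhds h.closed
  flow := nhdsWithin_le_nhds (h.flow.mono fun _ hq a b => (hq a b).hasDerivWithinAt)

/-- a static metric as a constant family -/
theorem _root_.Crest.Agent.T223.KahAt.kahP {g : Cn n → Mat n} {z : Cn n} (h : KahAt g z) (t : ℝ) :
    KahP (fun _ => g) (t, z) where
  sm a b := SmP.of_contDiffAt ((h.sm a b).comp (t, z) contDiffAt_snd)
  pos := nhdsWithin_le_nhds (continuousAt_snd (p := (t, z)).eventually h.pos)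
  closed := nhdsWithin_le_nhds (continuousAt_snd (p := (t, z)).eventually h.closed)

/-- the heat operator with the left time derivative -/
def boxp (g : ℝ → Cn n → Mat n) (φ : ℝ → Cn n → ℝ) (t : ℝ) (z : Cn n) : ℝ :=
  derivWithin (fun s => φ s z) (Iic t) t - lap (g t) (φ t) z

theorem boxp_eq_box {g : ℝ → Cn n → Mat n} {φ : ℝ → Cn n → ℝ} {t : ℝ} {z : Cn n}
    (h : DifferentiableAt ℝ (fun s => φ s z) t) : boxp g φ t z = box g φ t z := by
  rw [boxp, box, h.derivWithin (uniqueDiffOn_Iic t t self_mem_Iic)]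

theorem boxp_eq_box' {g : ℝ → Cn n → Mat n} {φ : ℝ → Cn n → ℝ} {t : ℝ} {z : Cn n}
    (h : DifferentiableAt ℝ (fun q : ℝ × Cn n => φ q.1 q.2) (t, z)) :
    boxp g φ t z = box g φ t z :=
  boxp_eq_box (h.comp t (f := fun s : ℝ => (s, z))
    (differentiableAt_id.prodMk (differentiableAt_const z)))

namespace KahP

variable {g : ℝ → Cn n → Mat n} (h : KahP g p)

include h

theorem pd : (g p.1 p.2).PosDef := h.pos.self_of_nhdsWithin (mem_Pa p)

/-- the metric over the ring of germs -/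
def km : KM (gdr p) where
  g := mkM h.sm
  gi := (mkM h.sm)⁻¹
  inv := (gdr p).mul_inv (by rw [(rep_mkM h.sm).ev]; exact h.pd.det_pos.ne')
  herm := (rep_mkM h.sm).herm (h.pos.mono fun _ hq => hq.1)
  pos v := by
    choose u hu using fun a => exists_rep (v a)
    refine ((rep_mkM h.sm).bf hu hu).pos ?_
    filter_upwards [h.pos] with q hq
    have := hq.posSemidef.dotProduct_mulVec_nonneg fun a => conj (u a q.1 q.2)
    refine le_of_le_of_eq (Complex.nonneg_iff.1 this).1 ?_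
    congr 1
    simp only [dotProduct, Matrix.mulVec, Pi.star_apply, Finset.mul_sum, RCLike.star_def,
      Complex.conj_conj]
    exact Finset.sum_congr rfl fun a _ => Finset.sum_congr rfl fun b _ => by ring
  pd := by rw [(rep_mkM h.sm).ev]; exact h.pd
  closed a b c := ((rep_mkM h.sm a b).d c).ext ((rep_mkM h.sm c b).d a)
    (h.closed.mono fun _ hq => hq a b c)

theorem rep_g : RepM h.km.g g := rep_mkM h.sm

theorem rep_gi : RepM h.km.gi fun t z => (g t z)⁻¹ := by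
  choose f hf using fun a b => exists_rep (h.km.gi a b)
  have h1 : RepM h.km.gi fun t z => Matrix.of fun a b => f a b t z := hf
  refine h1.congr ?_
  have h2 := h.rep_g.mul h1
  rw [h.km.inv] at h2
  filter_upwards [h2.unique RepM.one] with q hq
  exact Matrix.inv_eq_right_inv hq

theorem rep_tr {Φ : Matrix (Fin n) (Fin n) (Gm p)} {f : ℝ → Cn n → Mat n} (hf : RepM Φ f) :
    Rep (h.km.tr Φ) fun t z => ((g t z)⁻¹ * f t z).trace := (h.rep_gi.mul hf).trace

theorem cj_tr {Φ : Matrix (Fin n) (Fin n) (Gm p)} (hΦ : (gdr p).cM Φ = Φᵀ) :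
    (gdr p).cj (h.km.tr Φ) = h.km.tr Φ := by
  have : (gdr p).cj (h.km.gi * Φ).trace = ((gdr p).cM (h.km.gi * Φ)).trace := by
    simp [Matrix.trace, map_sum]
  unfold KM.tr
  rw [this, DR.cM_mul, hΦ, h.km.herm_gi, ← Matrix.transpose_mul, Matrix.trace_transpose,
    Matrix.trace_mul_comm]

theorem rep_trg {Φ : Matrix (Fin n) (Fin n) (Gm p)} {f : ℝ → Cn n → Mat n} (hf : RepM Φ f)
    (hΦ : (gdr p).cM Φ = Φᵀ) : Rep (h.km.tr Φ) fun t z => (trg (g t z) (f t z) : ℂ) :=
  (h.rep_tr hf).re_of_cj (h.cj_tr hΦ)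

theorem rep_ip {Φ Ψ : Matrix (Fin n) (Fin n) (Gm p)} {f f' : ℝ → Cn n → Mat n} (hf : RepM Φ f)
    (hf' : RepM Ψ f') :
    Rep (ip h.km Φ Ψ) fun t z => ((g t z)⁻¹ * f t z * (g t z)⁻¹ * f' t z).trace :=
  (((h.rep_gi.mul hf).mul h.rep_gi).mul hf').trace

theorem rep_Th (c d : Fin n) :
    RepM (Th ((gdr p).d c) ((gdr p).db d) h.km.g h.km.gi) fun t z => Rm (g t) z c d :=
  ((h.rep_g.db d).d c).neg.add (((h.rep_g.d c).mul h.rep_gi).mul (h.rep_g.db d))

theorem rep_det : Rep h.km.g.det fun t z => ((g t z).det.re : ℂ) := by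
  refine h.rep_g.det.congr ?_
  filter_upwards [h.pos] with q hq
  exact Complex.ext rfl (Complex.pos_iff.1 hq.det_pos).2

theorem det_pos : ∀ᶠ q in past p, 0 < (g q.1 q.2).det.re :=
  h.pos.mono fun _ hq => (Complex.pos_iff.1 hq.det_pos).1

theorem smP_ldet : SmP p fun t z => ldet (g t) z :=
  h.rep_det.sm.re.comp (F := Real.log)
    (Real.contDiffAt_log.2 (h.det_pos.self_of_nhdsWithin (mem_Pa p)).ne')

/-- the germ of `log det g` -/
def ld : Gm p := Cn.mk h.smP_ldet.ofReal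

theorem rep_ldet : Rep h.ld fun t z => (ldet (g t) z : ℂ) := h.smP_ldet.ofReal.rep

theorem ld_der : (∀ k, (gdr p).d k h.ld = be h.km ((gdr p).d k)) ∧
    (∀ k, (gdr p).db k h.ld = be h.km ((gdr p).db k)) ∧ (gdr p).D h.ld = be h.km (gdr p).D := by
  have h0 := (h.det_pos.self_of_nhdsWithin (mem_Pa p)).ne'
  have hi : SmP p fun t z => (((g t z).det.re⁻¹ : ℝ) : ℂ) :=
    (h.rep_det.sm.re.comp (F := fun x => x⁻¹) (contDiffAt_inv ℝ h0)).ofReal
  have hc := Rep.chain (F := Real.log) (F' := fun x => x⁻¹) h.rep_det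
    ((eventually_ne_nhds h0).mono fun x hx => Real.hasDerivAt_log hx) h.rep_ldet hi.rep
  have h1 : Cn.mk hi * h.km.g.det = 1 := (hi.rep.mul h.rep_det).ext Rep.one
    (h.det_pos.mono fun q hq => by
      rw [← Complex.ofReal_mul, inv_mul_cancel₀ hq.ne', Complex.ofReal_one])
  refine ⟨fun k => ?_, fun k => ?_, ?_⟩
  · rw [hc.1, D_det_km, ← mul_assoc, h1, one_mul]
  · rw [hc.2.1, D_det_km, ← mul_assoc, h1, one_mul]
  · rw [hc.2.2, D_det_km, ← mul_assoc, h1, one_mul]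

theorem hs_ld : (gdr p).hs h.ld = -h.km.ric := by
  ext k l
  rw [Matrix.neg_apply, ric_eq, neg_neg, ← h.ld_der.2.1]
  rfl

theorem rep_ric : RepM h.km.ric fun t z => ric (g t) z := by
  have := h.rep_ldet.hs.neg
  rwa [h.hs_ld, neg_neg] at this

theorem herm_hs {φ : Gm p} (hφ : (gdr p).cj φ = φ) :
    (gdr p).cM ((gdr p).hs φ) = ((gdr p).hs φ)ᵀ := by
  ext a b
  simp only [DR.cM_apply, DR.hs, Matrix.of_apply, Matrix.transpose_apply, DR.cj_d, DR.cj_db, hφ,
    DR.ddb]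

theorem herm_ric : (gdr p).cM h.km.ric = h.km.ricᵀ := by
  have := h.herm_hs h.rep_ldet.cj_real
  rw [h.hs_ld] at this
  ext a b
  have h1 := congrFun (congrFun this a) b
  simp only [DR.cM_apply, Matrix.neg_apply, map_neg, Matrix.transpose_apply, neg_inj] at h1
  exact h1

theorem rep_scal : Rep (sc h.km) fun t z => (scal (g t) z : ℂ) := h.rep_trg h.rep_ric h.herm_ric

theorem rep_lap {φ : Gm p} {u : ℝ → Cn n → ℝ} (hu : Rep φ fun t z => (u t z : ℂ)) :
    Rep (h.km.lap φ) fun t z => (lap (g t) (u t) z : ℂ) :=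
  h.rep_trg hu.hs (h.herm_hs hu.cj_real)

theorem rep_g2 {φ ψ : Gm p} {u v : ℝ → Cn n → ℝ} (hu : Rep φ fun t z => (u t z : ℂ))
    (hv : Rep ψ fun t z => (v t z : ℂ)) : Rep (g2 h.km φ ψ)
      fun t z => ∑ a, ∑ b, (g t z)⁻¹ b a * dz (u t) z a * conj (dz (v t) z b) := by
  rw [g2_eq]
  exact (Rep.sum Finset.univ fun a => Rep.sum Finset.univ fun b =>
    (h.rep_gi b a).mul ((hu.dz a).mul (hv.dzb b))).congr' fun t z =>
      Finset.sum_congr rfl fun a _ => Finset.sum_congr rfl fun b _ => mul_assoc _ _ _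

theorem rep_gsq {φ : Gm p} {u : ℝ → Cn n → ℝ} (hu : Rep φ fun t z => (u t z : ℂ)) :
    Rep (g2 h.km φ φ) fun t z => (gsq (g t) (u t) z : ℂ) :=
  (h.rep_g2 hu hu).re_of_cj (by rw [cj_g2, hu.cj_real])

theorem rep_nabRic (k : Fin n) :
    RepM (dM ((gdr p).d k) h.km.ric - dM ((gdr p).d k) h.km.g * h.km.gi * h.km.ric)
      fun t z => nabRic (g t) z k :=
  (h.rep_ric.d k).sub (((h.rep_g.d k).mul h.rep_gi).mul h.rep_ric)

theorem rep_bx {φ : Gm p} {u : ℝ → Cn n → ℝ} (hu : Rep φ fun t z => (u t z : ℂ)) :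
    Rep (bx h.km φ) fun t z =>
      ((derivWithin (fun s => u s z) (Iic p.1) t - lap (g t) (u t) z : ℝ) : ℂ) :=
  (hu.D_real.sub (h.rep_lap hu)).congr' fun _ _ => Complex.ofReal_sub _ _

theorem ev_bx {φ : Gm p} {u : ℝ → Cn n → ℝ} (hu : Rep φ fun t z => (u t z : ℂ)) :
    (gdr p).ev (bx h.km φ) = (boxp g u p.1 p.2 : ℝ) := (h.rep_bx hu).ev

theorem ev_D_sub_lap {φ : Gm p} {u : ℝ → Cn n → ℝ} (hu : Rep φ fun t z => (u t z : ℂ)) :
    ((gdr p).ev ((gdr p).D φ - h.km.lap φ)).re = boxp g u p.1 p.2 :=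
  (congrArg Complex.re (h.ev_bx hu)).trans (Complex.ofReal_re _)

theorem smP_ric (a b : Fin n) : SmP p fun t z => ric (g t) z a b := (h.rep_ric a b).sm

theorem smP_scal : SmP p fun t z => scal (g t) z := h.rep_scal.sm.re

theorem smP_Rm (c d a b : Fin n) : SmP p fun t z => Rm (g t) z c d a b := (h.rep_Th c d a b).sm

theorem smP_lap {u : ℝ → Cn n → ℝ} (hu : SmP p u) : SmP p fun t z => lap (g t) (u t) z :=
  (h.rep_lap hu.ofReal.rep).sm.re

theorem smP_gsq {u : ℝ → Cn n → ℝ} (hu : SmP p u) : SmP p fun t z => gsq (g t) (u t) z :=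
  (h.rep_gsq hu.ofReal.rep).sm.re

/-- `Ric = tr_g Rm` -/
theorem ric_eq_trace (c d : Fin n) :
    ric (g p.1) p.2 c d = ((g p.1 p.2)⁻¹ * Rm (g p.1) p.2 c d).trace := by
  exact (h.rep_ric c d).ev.symm.trans (h.rep_tr (h.rep_Th c d)).ev

end KahP

namespace KRFp

variable {g : ℝ → Cn n → Mat n} (h : KRFp g p)

include h

theorem flow0 : h.toKahP.km.Flow 0 := by
  unfold KM.Flow
  rw [Complex.ofReal_zero, zero_smul, neg_zero, zero_sub, ← h.toKahP.hs_ld]
  exact h.toKahP.rep_g.D_eq h.toKahP.rep_ldet.hs h.flow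

theorem rep_ricT : RepM (dM (gdr p).D h.toKahP.km.ric) fun t z => hess (scal (g t)) z := by
  rw [D_ric h.flow0]
  exact h.toKahP.rep_scal.hs

end KRFp

/-! ### two-sided smoothness -/

section two

variable {g : ℝ → Cn n → Mat n}

theorem cda_wd {f : ℝ → Cn n → ℂ} (hf : ContDiffAt ℝ ∞ (fun q : ℝ × Cn n => f q.1 q.2) p)
    (s : WI n) : ContDiffAt ℝ ∞ (fun q : ℝ × Cn n => wd s (f q.1) q.2) p := by
  have h1 : ContDiffAt ℝ ∞ (Function.uncurry fun (x : ℝ × Cn n) (y : Cn n) => f x.1 y) (p, p.2) :=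
    ContDiffAt.comp (g := fun q : ℝ × Cn n => f q.1 q.2)
      (f := fun w : (ℝ × Cn n) × Cn n => (w.1.1, w.2)) (p, p.2) hf
      (contDiffAt_fst.fst.prodMk contDiffAt_snd)
  exact (wdLc s).contDiff.contDiffAt.comp p (h1.fderiv (m := ∞) contDiffAt_snd (by simp))

theorem cda_cu {u : ℝ → Cn n → ℝ} (hu : ContDiffAt ℝ ∞ (fun q : ℝ × Cn n => u q.1 q.2) p) :
    ContDiffAt ℝ ∞ (fun q : ℝ × Cn n => cu (u q.1) q.2) p :=
  Complex.ofRealCLM.contDiff.contDiffAt.comp p hu

theorem cda_dz {u : ℝ → Cn n → ℝ} (hu : ContDiffAt ℝ ∞ (fun q : ℝ × Cn n => u q.1 q.2) p)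
    (a : Fin n) : ContDiffAt ℝ ∞ (fun q : ℝ × Cn n => dz (u q.1) q.2 a) p :=
  cda_wd (f := fun t => cu (u t)) (cda_cu hu) _

theorem cda_hess {u : ℝ → Cn n → ℝ} (hu : ContDiffAt ℝ ∞ (fun q : ℝ × Cn n => u q.1 q.2) p)
    (a b : Fin n) : ContDiffAt ℝ ∞ (fun q : ℝ × Cn n => hess (u q.1) q.2 a b) p :=
  cda_wd (f := fun t => wd (true, b) (cu (u t))) (cda_wd (f := fun t => cu (u t)) (cda_cu hu) _) _

theorem cda_det {E : Type*} [NormedAddCommGroup E] [NormedSpace ℝ E] {x : E} {k : WithTop ℕ∞}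
    {G : E → Mat n} (h : ∀ a b, ContDiffAt ℝ k (fun q => G q a b) x) :
    ContDiffAt ℝ k (fun q => (G q).det) x := by
  simp only [Matrix.det_apply']
  exact ContDiffAt.sum fun σ _ => contDiffAt_const.mul (contDiffAt_prod fun i _ => h _ _)

theorem cda_inv {E : Type*} [NormedAddCommGroup E] [NormedSpace ℝ E] {x : E} {k : WithTop ℕ∞}
    {G : E → Mat n} (h : ∀ a b, ContDiffAt ℝ k (fun q => G q a b) x) (h0 : (G x).det ≠ 0)
    (a b : Fin n) : ContDiffAt ℝ k (fun q => (G q)⁻¹ a b) x := by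
  simp only [Matrix.inv_def, Ring.inverse_eq_inv', Matrix.smul_apply, smul_eq_mul,
    Matrix.adjugate_apply]
  refine ((cda_det h).inv h0).mul (cda_det fun i j => ?_)
  simp only [Matrix.updateRow_apply]
  split_ifs
  · exact contDiffAt_const
  · exact h _ _

theorem cda_mul {E : Type*} [NormedAddCommGroup E] [NormedSpace ℝ E] {x : E} {k : WithTop ℕ∞}
    {G H : E → Mat n} (h : ∀ a b, ContDiffAt ℝ k (fun q => G q a b) x)
    (h' : ∀ a b, ContDiffAt ℝ k (fun q => H q a b) x) (a b : Fin n) :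
    ContDiffAt ℝ k (fun q => (G q * H q) a b) x := by
  simp only [Matrix.mul_apply]
  exact ContDiffAt.sum fun c _ => (h a c).mul (h' c b)

theorem cda_trg {E : Type*} [NormedAddCommGroup E] [NormedSpace ℝ E] {x : E} {k : WithTop ℕ∞}
    {G H : E → Mat n} (h : ∀ a b, ContDiffAt ℝ k (fun q => G q a b) x) (h0 : (G x).det ≠ 0)
    (h' : ∀ a b, ContDiffAt ℝ k (fun q => H q a b) x) :
    ContDiffAt ℝ k (fun q => trg (G q) (H q)) x :=
  Complex.reCLM.contDiff.contDiffAt.comp x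
    (ContDiffAt.sum fun a _ => cda_mul (cda_inv h h0) h' a a)

theorem cda_ldet (h : ∀ a b, ContDiffAt ℝ ∞ (fun q : ℝ × Cn n => g q.1 q.2 a b) p)
    (h0 : (g p.1 p.2).PosDef) : ContDiffAt ℝ ∞ (fun q : ℝ × Cn n => ldet (g q.1) q.2) p :=
  (Complex.reCLM.contDiff.contDiffAt.comp p (cda_det h)).log (Complex.pos_iff.1 h0.det_pos).1.ne'

theorem cda_ric (h : ∀ a b, ContDiffAt ℝ ∞ (fun q : ℝ × Cn n => g q.1 q.2 a b) p)
    (h0 : (g p.1 p.2).PosDef) (a b : Fin n) :
    ContDiffAt ℝ ∞ (fun q : ℝ × Cn n => ric (g q.1) q.2 a b) p :=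
  (cda_hess (u := fun t => ldet (g t)) (cda_ldet h h0) a b).neg

theorem cda_scal (h : ∀ a b, ContDiffAt ℝ ∞ (fun q : ℝ × Cn n => g q.1 q.2 a b) p)
    (h0 : (g p.1 p.2).PosDef) : ContDiffAt ℝ ∞ (fun q : ℝ × Cn n => scal (g q.1) q.2) p :=
  cda_trg h h0.det_pos.ne' (cda_ric h h0)

theorem cda_lap (h : ∀ a b, ContDiffAt ℝ ∞ (fun q : ℝ × Cn n => g q.1 q.2 a b) p)
    (h0 : (g p.1 p.2).PosDef) {u : ℝ → Cn n → ℝ}
    (hu : ContDiffAt ℝ ∞ (fun q : ℝ × Cn n => u q.1 q.2) p) :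
    ContDiffAt ℝ ∞ (fun q : ℝ × Cn n => lap (g q.1) (u q.1) q.2) p :=
  cda_trg h h0.det_pos.ne' (cda_hess hu)

theorem cda_gsq (h : ∀ a b, ContDiffAt ℝ ∞ (fun q : ℝ × Cn n => g q.1 q.2 a b) p)
    (h0 : (g p.1 p.2).PosDef) {u : ℝ → Cn n → ℝ}
    (hu : ContDiffAt ℝ ∞ (fun q : ℝ × Cn n => u q.1 q.2) p) :
    ContDiffAt ℝ ∞ (fun q : ℝ × Cn n => gsq (g q.1) (u q.1) q.2) p :=
  Complex.reCLM.contDiff.contDiffAt.comp p (ContDiffAt.sum fun a _ => ContDiffAt.sum fun b _ =>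
    ((cda_inv h h0.det_pos.ne' b a).mul (cda_dz hu a)).mul
      (Complex.conjCLE.contDiff.contDiffAt.comp p (cda_dz hu b)))

theorem cda_Rm (h : ∀ a b, ContDiffAt ℝ ∞ (fun q : ℝ × Cn n => g q.1 q.2 a b) p)
    (h0 : (g p.1 p.2).PosDef) (c d a b : Fin n) :
    ContDiffAt ℝ ∞ (fun q : ℝ × Cn n => Rm (g q.1) q.2 c d a b) p := by
  have h1 : ∀ s a b, ContDiffAt ℝ ∞ (fun q : ℝ × Cn n => wdM s (g q.1) q.2 a b) p :=
    fun s a b => cda_wd (f := fun t z => g t z a b) (h a b) s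
  exact (cda_wd (f := fun t z => wdM (true, d) (g t) z a b) (h1 _ a b) _).neg.add
    (cda_mul (cda_mul (h1 _) (cda_inv h h0.det_pos.ne')) (h1 _) a b)

theorem diff_time {W : Type*} [NormedAddCommGroup W] [NormedSpace ℝ W] {f : ℝ → Cn n → W}
    {t : ℝ} {z : Cn n} (h : ContDiffAt ℝ ∞ (fun q : ℝ × Cn n => f q.1 q.2) (t, z)) :
    DifferentiableAt ℝ (fun s => f s z) t :=
  (h.differentiableAt (by simp)).comp t (f := fun s : ℝ => (s, z))
    (differentiableAt_id.prodMk (differentiableAt_const z))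

end two

/-- `∂_t Ric` of the frame is the value of the ring derivative -/
theorem _root_.Crest.Agent.T223.KRFat.ricT_eq {g : ℝ → Cn n → Mat n} {t : ℝ} {z : Cn n}
    (h : KRFat g t z) :
    ricT g t z = (gdr (t, z)).eM (dM (gdr (t, z)).D h.krfp.toKahP.km.ric) := by
  rw [h.krfp.toKahP.rep_ric.D.ev]
  ext a b
  exact ((diff_time (f := fun s y => ric (g s) y a b)
    (cda_ric h.sm h.pos.self_of_nhds a b)).derivWithin (uniqueDiffOn_Iic t t self_mem_Iic)).symm

/-- `∂_t Ric = ∂∂̄ R` -/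
theorem _root_.Crest.Agent.T223.KRFat.ricT_eq_hess {g : ℝ → Cn n → Mat n} {t : ℝ} {z : Cn n}
    (h : KRFat g t z) : ricT g t z = hess (scal (g t)) z := by
  rw [h.ricT_eq, h.krfp.rep_ricT.ev]

/-- `Ric = tr_g Rm` -/
theorem _root_.Crest.Agent.T223.KahAt.ric_eq_trace {g : Cn n → Mat n} {z : Cn n} (h : KahAt g z)
    (c d : Fin n) : ric g z c d = ((g z)⁻¹ * Rm g z c d).trace :=
  (h.kahP 0).ric_eq_trace c d

end

end Crest.Agent.T223.Cn
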