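import Crest.Agent.T223.OsKitA_61
import Crest.Agent.T223.CnD_41
import Crest.Agent.T223.LoCal_18

/-!
# Row 223, module OSG, kit B (helper61): time dependent calculus up to the end points

* `cdo_*`, `Fam I D g` : joint smoothness on `I ×ˢ D`, `D` open, `I` arbitrary
* `FlowOn.fam`, `FlowOn.smST_Sc/lv/Gr/lap`, `SmST` algebra, continuity
* local readings, `ev_past`, time derivatives, `mono`, `of_eq`, pull-backs of flows
-/

set_option autoImplicit false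
set_option linter.unusedSectionVars false

open Set Filter Topology Metric
open scoped ContDiff ComplexConjugate Matrix ComplexOrder

namespace Crest.Agent.T223.Os

open Crest.Agent.R275.Geo Crest.Agent.R273.Kah_333 Crest.Agent.R273.Hess_333
open Crest.Agent.R273.HessB_333 Crest.Agent.R275.EDR890
open Crest.Agent.R275.Core144 (Jm)
open Crest.Agent.T223.Br Crest.Agent.T223.Tr
open Crest.Agent.T223.Db (dom SmST)

noncomputable section

variable {n : ℕ}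

/-! ### matrices on a set -/

section mat

variable {X : Type*} [NormedAddCommGroup X] [NormedSpace ℝ X] {S : Set X} {G H : X → Mat n}

theorem cdo_mul (hG : ∀ a b, ContDiffOn ℝ ∞ (fun q => G q a b) S)
    (hH : ∀ a b, ContDiffOn ℝ ∞ (fun q => H q a b) S) (a b : Fin n) :
    ContDiffOn ℝ ∞ (fun q => (G q * H q) a b) S := by
  simp only [Matrix.mul_apply]
  exact ContDiffOn.sum fun c _ => (hG a c).mul (hH c b)

theorem cdo_det (hG : ∀ a b, ContDiffOn ℝ ∞ (fun q => G q a b) S) :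
    ContDiffOn ℝ ∞ (fun q => (G q).det) S := by
  simp only [Matrix.det_apply']
  exact ContDiffOn.sum fun σ _ => contDiffOn_const.mul (contDiffOn_prod fun i _ => hG _ _)

theorem cdo_inv (hG : ∀ a b, ContDiffOn ℝ ∞ (fun q => G q a b) S) (h0 : ∀ q ∈ S, (G q).det ≠ 0)
    (a b : Fin n) : ContDiffOn ℝ ∞ (fun q => (G q)⁻¹ a b) S := by
  simp only [Matrix.inv_def, Ring.inverse_eq_inv', Matrix.smul_apply, smul_eq_mul,
    Matrix.adjugate_apply]
  refine ((cdo_det hG).inv h0).mul (cdo_det fun c d => ?_)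
  simp only [Matrix.updateRow_apply]
  split_ifs
  · exact contDiffOn_const
  · exact hG c d

theorem cdo_re {f : X → ℂ} (h : ContDiffOn ℝ ∞ f S) : ContDiffOn ℝ ∞ (fun q => (f q).re) S :=
  Complex.reCLM.contDiff.comp_contDiffOn h

theorem cdo_conj {f : X → ℂ} (h : ContDiffOn ℝ ∞ f S) : ContDiffOn ℝ ∞ (fun q => conj (f q)) S :=
  Complex.conjCLE.contDiff.comp_contDiffOn h

theorem cdo_ofReal {f : X → ℝ} (h : ContDiffOn ℝ ∞ f S) : ContDiffOn ℝ ∞ (fun q => (f q : ℂ)) S :=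
  Complex.ofRealCLM.contDiff.comp_contDiffOn h

theorem cdo_trg (hG : ∀ a b, ContDiffOn ℝ ∞ (fun q => G q a b) S) (h0 : ∀ q ∈ S, (G q).det ≠ 0)
    (hH : ∀ a b, ContDiffOn ℝ ∞ (fun q => H q a b) S) :
    ContDiffOn ℝ ∞ (fun q => trg (G q) (H q)) S :=
  cdo_re (ContDiffOn.sum fun a _ => cdo_mul (cdo_inv hG h0) hH a a)

end mat

section cont

variable {X : Type*} [TopologicalSpace X] {S : Set X} {H : X → Mat n} {v : X → Cn n}

theorem cont_coord (hv : ContinuousOn v S) (a : Fin n) : ContinuousOn (fun x => v x a) S :=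
  (EuclideanSpace.proj a : Cn n →L[ℂ] ℂ).continuous.comp_continuousOn hv

theorem cont_hC (hH : ∀ a b, ContinuousOn (fun x => H x a b) S) (hv : ContinuousOn v S) :
    ContinuousOn (fun x => hC (H x) (v x)) S :=
  continuousOn_finsetSum _ fun a _ => continuousOn_finsetSum _ fun b _ =>
    ((hH a b).mul (cont_coord hv a)).mul
      (Complex.continuous_conj.comp_continuousOn (cont_coord hv b))

theorem cont_nq (hH : ∀ a b, ContinuousOn (fun x => H x a b) S) (hv : ContinuousOn v S) :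
    ContinuousOn (fun x => nq (H x) (v x)) S :=
  Complex.continuous_re.comp_continuousOn (cont_hC hH hv)

end cont

/-! ### space derivatives on `I ×ˢ D` -/

section cdo

variable {I : Set ℝ} {D : Set (Cn n)}

theorem cdo_fderiv {W : Type*} [NormedAddCommGroup W] [NormedSpace ℝ W] {F : ℝ → Cn n → W}
    (hD : IsOpen D) (h : ContDiffOn ℝ ∞ (fun q : ℝ × Cn n => F q.1 q.2) (I ×ˢ D)) :
    ContDiffOn ℝ ∞ (fun q : ℝ × Cn n => fderiv ℝ (F q.1) q.2) (I ×ˢ D) := by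
  intro q hq
  have h1 : ContDiffWithinAt ℝ ∞ (Function.uncurry fun (x : ℝ × Cn n) (y : Cn n) => F x.1 y)
      ((I ×ˢ D) ×ˢ D) (q, q.2) :=
    ContDiffWithinAt.comp (g := fun q : ℝ × Cn n => F q.1 q.2)
      (f := fun w : (ℝ × Cn n) × Cn n => (w.1.1, w.2)) (q, q.2) (h q hq)
      (contDiff_fst.fst.prodMk contDiff_snd).contDiffWithinAt fun w hw => ⟨hw.1.1, hw.2⟩
  have h2 := h1.fderivWithin (m := ∞) contDiffWithinAt_snd hD.uniqueDiffOn (by simp) hq
    fun w hw => hw.2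
  exact h2.congr (fun w hw => (fderivWithin_of_isOpen hD hw.2).symm)
    (fderivWithin_of_isOpen hD hq.2).symm

theorem cdo_wd {F : ℝ → Cn n → ℂ} (hD : IsOpen D)
    (h : ContDiffOn ℝ ∞ (fun q : ℝ × Cn n => F q.1 q.2) (I ×ˢ D)) (s : WI n) :
    ContDiffOn ℝ ∞ (fun q : ℝ × Cn n => wd s (F q.1) q.2) (I ×ˢ D) := by
  have h1 := (wdLc (W := ℂ) s).contDiff.comp_contDiffOn (cdo_fderiv hD h)
  exact h1

theorem cdo_dz {φ : ℝ → Cn n → ℝ} (hD : IsOpen D)
    (h : ContDiffOn ℝ ∞ (fun q : ℝ × Cn n => φ q.1 q.2) (I ×ˢ D)) (a : Fin n) :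
    ContDiffOn ℝ ∞ (fun q : ℝ × Cn n => dz (φ q.1) q.2 a) (I ×ˢ D) :=
  cdo_wd (F := fun t => cu (φ t)) hD (cdo_ofReal h) _

theorem cdo_hess {φ : ℝ → Cn n → ℝ} (hD : IsOpen D)
    (h : ContDiffOn ℝ ∞ (fun q : ℝ × Cn n => φ q.1 q.2) (I ×ˢ D)) (a b : Fin n) :
    ContDiffOn ℝ ∞ (fun q : ℝ × Cn n => hess (φ q.1) q.2 a b) (I ×ˢ D) :=
  cdo_wd (F := fun t => wd (true, b) (cu (φ t))) hD
    (cdo_wd (F := fun t => cu (φ t)) hD (cdo_ofReal h) _) _

theorem cdo_slice {W : Type*} [NormedAddCommGroup W] [NormedSpace ℝ W] {F : ℝ → Cn n → W}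
    (h : ContDiffOn ℝ ∞ (fun q : ℝ × Cn n => F q.1 q.2) (I ×ˢ D)) {s : ℝ} (hs : s ∈ I) :
    ContDiffOn ℝ ∞ (F s) D :=
  h.comp (contDiff_const.prodMk contDiff_id).contDiffOn fun _ hz => ⟨hs, hz⟩

theorem cdo_line {W : Type*} [NormedAddCommGroup W] [NormedSpace ℝ W] {F : ℝ → Cn n → W}
    (h : ContDiffOn ℝ ∞ (fun q : ℝ × Cn n => F q.1 q.2) (I ×ˢ D)) {z : Cn n} (hz : z ∈ D) :
    ContDiffOn ℝ ∞ (fun s => F s z) I :=
  h.comp (contDiff_id.prodMk contDiff_const).contDiffOn fun _ hs => ⟨hs, hz⟩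

/-- a smooth family of positive matrices on `I ×ˢ D` -/
structure Fam (I : Set ℝ) (D : Set (Cn n)) (g : ℝ → Cn n → Mat n) : Prop where
  op : IsOpen D
  sm : ∀ a b, ContDiffOn ℝ ∞ (fun q : ℝ × Cn n => g q.1 q.2 a b) (I ×ˢ D)
  pos : ∀ q ∈ I ×ˢ D, (g q.1 q.2).PosDef

namespace Fam

variable {g : ℝ → Cn n → Mat n} (h : Fam I D g) {φ : ℝ → Cn n → ℝ}

include h

theorem det_ne : ∀ q ∈ I ×ˢ D, (g q.1 q.2).det ≠ 0 := fun q hq => (h.pos q hq).det_pos.ne'

theorem inv (a b : Fin n) : ContDiffOn ℝ ∞ (fun q : ℝ × Cn n => (g q.1 q.2)⁻¹ a b) (I ×ˢ D) :=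
  cdo_inv h.sm h.det_ne a b

theorem ldet : ContDiffOn ℝ ∞ (fun q : ℝ × Cn n => ldet (g q.1) q.2) (I ×ˢ D) :=
  (cdo_re (cdo_det h.sm)).log fun q hq => (det_re_pos (h.pos q hq)).ne'

theorem ric (a b : Fin n) : ContDiffOn ℝ ∞ (fun q : ℝ × Cn n => ric (g q.1) q.2 a b) (I ×ˢ D) :=
  (cdo_hess (φ := fun t => T223.ldet (g t)) h.op h.ldet a b).neg

theorem scal : ContDiffOn ℝ ∞ (fun q : ℝ × Cn n => scal (g q.1) q.2) (I ×ˢ D) :=
  cdo_trg h.sm h.det_ne h.ric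

theorem wdM (s : WI n) (a b : Fin n) :
    ContDiffOn ℝ ∞ (fun q : ℝ × Cn n => wdM s (g q.1) q.2 a b) (I ×ˢ D) :=
  cdo_wd (F := fun t w => g t w a b) h.op (h.sm a b) s

theorem Rm (c d a b : Fin n) :
    ContDiffOn ℝ ∞ (fun q : ℝ × Cn n => Rm (g q.1) q.2 c d a b) (I ×ˢ D) :=
  (cdo_wd (F := fun t w => Br.wdM (true, d) (g t) w a b) h.op (h.wdM _ a b) (false, c)).neg.add
    (cdo_mul (cdo_mul (h.wdM _) h.inv) (h.wdM _) a b)

theorem nabRic (k a b : Fin n) :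
    ContDiffOn ℝ ∞ (fun q : ℝ × Cn n => nabRic (g q.1) q.2 k a b) (I ×ˢ D) :=
  (cdo_wd (F := fun t w => T223.ric (g t) w a b) h.op (h.ric a b) (false, k)).sub
    (cdo_mul (cdo_mul (h.wdM _) h.inv) h.ric a b)

theorem hess_scal (a b : Fin n) :
    ContDiffOn ℝ ∞ (fun q : ℝ × Cn n => hess (T223.scal (g q.1)) q.2 a b) (I ×ˢ D) :=
  cdo_hess (φ := fun t => T223.scal (g t)) h.op h.scal a b

theorem lap (hφ : ContDiffOn ℝ ∞ (fun q : ℝ × Cn n => φ q.1 q.2) (I ×ˢ D)) :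
    ContDiffOn ℝ ∞ (fun q : ℝ × Cn n => lap (g q.1) (φ q.1) q.2) (I ×ˢ D) :=
  cdo_trg h.sm h.det_ne (cdo_hess h.op hφ)

theorem gsq (hφ : ContDiffOn ℝ ∞ (fun q : ℝ × Cn n => φ q.1 q.2) (I ×ˢ D)) :
    ContDiffOn ℝ ∞ (fun q : ℝ × Cn n => gsq (g q.1) (φ q.1) q.2) (I ×ˢ D) :=
  cdo_re (ContDiffOn.sum fun a _ => ContDiffOn.sum fun b _ =>
    ((h.inv b a).mul (cdo_dz h.op hφ a)).mul (cdo_conj (cdo_dz h.op hφ b)))

variable {X : Type*} [TopologicalSpace X] {S : Set X} {q : X → ℝ × Cn n}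
  (hq : ContinuousOn q S) (hm : MapsTo q S (I ×ˢ D)) {a v : X → Cn n}

include hq hm

theorem cont_nq (hv : ContinuousOn v S) : ContinuousOn (fun x => nq (g (q x).1 (q x).2) (v x)) S :=
  Os.cont_nq (fun a b => (h.sm a b).continuousOn.comp hq hm) hv

theorem cont_ric (hv : ContinuousOn v S) :
    ContinuousOn (fun x => nq (T223.ric (g (q x).1) (q x).2) (v x)) S :=
  Os.cont_nq (fun a b => (h.ric a b).continuousOn.comp hq hm) hv

theorem cont_hess (hφ : ContDiffOn ℝ ∞ (fun q : ℝ × Cn n => φ q.1 q.2) (I ×ˢ D))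
    (hv : ContinuousOn v S) : ContinuousOn (fun x => nq (hess (φ (q x).1) (q x).2) (v x)) S :=
  Os.cont_nq (fun a b => (cdo_hess h.op hφ a b).continuousOn.comp hq hm) hv

theorem cont_bis (hv : ContinuousOn v S) (ha : ContinuousOn a S) :
    ContinuousOn (fun x => bis (g (q x).1) (q x).2 (v x) (a x)) S := by
  simp only [bis_eq]
  exact Complex.continuous_re.comp_continuousOn (continuousOn_finsetSum _ fun c _ =>
    continuousOn_finsetSum _ fun d _ =>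
      ((cont_hC (fun k l => (h.Rm c d k l).continuousOn.comp hq hm) hv).mul (cont_coord ha c)).mul
        (Complex.continuous_conj.comp_continuousOn (cont_coord ha d)))

theorem cont_lyhS {τ : X → ℝ} {c : X → ℂ} (hτ : ContinuousOn τ S) (hτ0 : ∀ x ∈ S, τ x ≠ 0)
    (hc : ContinuousOn c S) (ha : ContinuousOn a S) (hv : ContinuousOn v S) :
    ContinuousOn (fun x => lyhS (g (q x).1) (τ x) (q x).2 (c x) (a x) (v x)) S := by
  refine (((hc.norm.pow 2).mul (Os.cont_nq (fun k l => ?_) hv)).add (continuousOn_const.mul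
    (Complex.continuous_re.comp_continuousOn ((Complex.continuous_conj.comp_continuousOn hc).mul
      (continuousOn_finsetSum _ fun k _ => (cont_coord ha k).mul
        (cont_hC (fun c d => (h.nabRic k c d).continuousOn.comp hq hm) hv)))))).add
    (h.cont_bis hq hm hv ha)
  exact (((h.hess_scal k l).continuousOn.comp hq hm).add
    ((cdo_mul (cdo_mul h.ric h.inv) h.ric k l).continuousOn.comp hq hm)).add
    ((Complex.continuous_ofReal.comp_continuousOn (hτ.inv₀ hτ0)).mul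
      ((h.ric k l).continuousOn.comp hq hm))

end Fam

end cdo

/-! ### `SmST` -/

variable {M : Type} [TopologicalSpace M] {A : Atl n M} {U W : Set M} {i j : A.ι} {x : M}
  {a b s : ℝ} {I J : Set ℝ} {g : ℝ → MF A} {f f' : ℝ → M → ℝ}

theorem smST_mono (h : SmST A I W f) (hI : J ⊆ I) (hU : U ⊆ W) : SmST A J U f :=
  fun i => (h i).mono (prod_mono hI (dom_mono i hU))

theorem smST_congr (h : SmST A I U f) (e : ∀ s ∈ I, ∀ x ∈ U, f' s x = f s x) : SmST A I U f' :=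
  fun i => (h i).congr fun q hq => e _ hq.1 _ hq.2.2

theorem smST_const (c : ℝ) : SmST A I U fun _ _ => c := fun _ => contDiffOn_const

theorem smST_time {τ : ℝ → ℝ} (h : ContDiffOn ℝ ∞ τ I) : SmST A I U fun s _ => τ s :=
  fun _ => h.comp contDiff_fst.contDiffOn fun _ hq => hq.1

theorem smST_id : SmST A I U fun s _ => s := smST_time contDiffOn_id

theorem smST_add (h : SmST A I U f) (h' : SmST A I U f') : SmST A I U fun s x => f s x + f' s x :=
  fun i => (h i).add (h' i)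

theorem smST_sub (h : SmST A I U f) (h' : SmST A I U f') : SmST A I U fun s x => f s x - f' s x :=
  fun i => (h i).sub (h' i)

theorem smST_mul (h : SmST A I U f) (h' : SmST A I U f') : SmST A I U fun s x => f s x * f' s x :=
  fun i => (h i).mul (h' i)

theorem smST_neg (h : SmST A I U f) : SmST A I U fun s x => - f s x := fun i => (h i).neg

theorem smST_pow (h : SmST A I U f) (k : ℕ) : SmST A I U fun s x => f s x ^ k :=
  fun i => (h i).pow k

theorem smST_comp {F : ℝ → ℝ} (hF : ContDiff ℝ ∞ F) (h : SmST A I U f) :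
    SmST A I U fun s x => F (f s x) := fun i => hF.comp_contDiffOn (h i)

/-- the cylinder is a neighbourhood of its interior points -/
theorem cyl_nhds (hU : IsOpen U) (hs : s ∈ Ioo a b) (hx : x ∈ U) (hi : x ∈ (A.e i).source) :
    Ioo a b ×ˢ dom A i U ∈ 𝓝 (s, A.e i x) :=
  prod_mem_nhds (Ioo_mem_nhds hs.1 hs.2) (dom_nhds hU hi hx)

theorem cyl_nhds' (hU : IsOpen U) (hs : s ∈ Ioo a b) (hx : x ∈ U) (hi : x ∈ (A.e i).source) :
    Icc a b ×ˢ dom A i U ∈ 𝓝 (s, A.e i x) :=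
  mem_of_superset (cyl_nhds hU hs hx hi) (prod_mono Ioo_subset_Icc_self Subset.rfl)

theorem cdo_ev {V : Type*} [NormedAddCommGroup V] [NormedSpace ℝ V] {F : ℝ × Cn n → V}
    (h : ContDiffOn ℝ ∞ F (Icc a b ×ˢ dom A i U)) (hU : IsOpen U) (hs : s ∈ Ioo a b) (hx : x ∈ U)
    (hi : x ∈ (A.e i).source) : ∀ᶠ q in 𝓝 (s, A.e i x), ContDiffAt ℝ ∞ F q := by
  filter_upwards [eventually_eventually_nhds.2 (cyl_nhds' hU hs hx hi)] with q hq
  exact h.contDiffAt hq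

theorem smST_ev (h : SmST A (Icc a b) U f) (hU : IsOpen U) (hs : s ∈ Ioo a b) (hx : x ∈ U)
    (hi : x ∈ (A.e i).source) : ∀ᶠ q : ℝ × Cn n in 𝓝 (s, A.e i x),
      ContDiffAt ℝ ∞ (fun q : ℝ × Cn n => inC A i (f q.1) q.2) q := cdo_ev (h i) hU hs hx hi

theorem smST_cda (h : SmST A (Icc a b) U f) (hU : IsOpen U) (hs : s ∈ Ioo a b) (hx : x ∈ U)
    (hi : x ∈ (A.e i).source) :
    ContDiffAt ℝ ∞ (fun q : ℝ × Cn n => inC A i (f q.1) q.2) (s, A.e i x) :=
  (smST_ev h hU hs hx hi).self_of_nhds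

theorem smST_smP (h : SmST A (Icc a b) U f) (hU : IsOpen U) (hs : s ∈ Ioc a b) (hx : x ∈ U)
    (hi : x ∈ (A.e i).source) : Cn.SmP (s, A.e i x) fun s => inC A i (f s) :=
  Cn.SmP.of_contDiffOn (h i) (dom_nhds hU hi hx) hs.1 hs.2

theorem smST_line (h : SmST A I U f) (hx : x ∈ U) : ContDiffOn ℝ ∞ (fun s => f s x) I := by
  have h1 := cdo_line (F := fun s => inC A (ch A x) (f s)) (h _) (mem_dom (ch_mem A x) hx)
  simpa only [inC_apply _ (ch_mem A x)] using h1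

theorem smST_diff (h : SmST A (Icc a b) U f) (hs : s ∈ Ioo a b) (hx : x ∈ U) :
    DifferentiableAt ℝ (fun s => f s x) s :=
  ((smST_line h hx).contDiffAt (Icc_mem_nhds hs.1 hs.2)).differentiableAt (by simp)

/-- the past of a point of `ℝ × M`, read in a chart -/
theorem ev_past {p : ℝ × M} {P : ℝ × M → Prop} (hi : p.2 ∈ (A.e i).source)
    (h : ∀ᶠ q in 𝓝[{q : ℝ × M | q.1 ≤ p.1}] p, P q) :
    ∀ᶠ q in past p.1 (A.e i p.2), P (q.1, (A.e i).symm q.2) := by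
  have hc : Tendsto (fun q : ℝ × Cn n => ((q.1, (A.e i).symm q.2) : ℝ × M))
      (𝓝 (p.1, A.e i p.2)) (𝓝 p) :=
    Tendsto.prodMk_nhds continuousAt_fst ((tendsto_symm hi).comp continuousAt_snd)
  exact (tendsto_nhdsWithin_of_tendsto_nhds_of_eventually_within _
    (hc.mono_left nhdsWithin_le_nhds) self_mem_nhdsWithin).eventually h

theorem ev_nhds {p : ℝ × M} {P : ℝ × M → Prop} (hi : p.2 ∈ (A.e i).source)
    (h : ∀ᶠ q in 𝓝 p, P q) :
    ∀ᶠ q : ℝ × Cn n in 𝓝 (p.1, A.e i p.2), P (q.1, (A.e i).symm q.2) := by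
  have hc : Tendsto (fun q : ℝ × Cn n => ((q.1, (A.e i).symm q.2) : ℝ × M))
      (𝓝 (p.1, A.e i p.2)) (𝓝 p) :=
    Tendsto.prodMk_nhds continuousAt_fst ((tendsto_symm hi).comp continuousAt_snd)
  exact hc.eventually h

/-- the chart map on `ℝ × M` -/
theorem cont_chart {X : Type*} [TopologicalSpace X] {S : Set X} {q : X → ℝ × M}
    (hq : ContinuousOn q S) (hm : MapsTo q S (I ×ˢ ((A.e i).source ∩ U))) :
    ContinuousOn (fun y => (((q y).1, A.e i (q y).2) : ℝ × Cn n)) S ∧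
      MapsTo (fun y => (((q y).1, A.e i (q y).2) : ℝ × Cn n)) S (I ×ˢ dom A i U) :=
  ⟨hq.fst.prodMk ((A.e i).continuousOn.comp hq.snd fun _ hy => (hm hy).2.1),
    fun _ hy => ⟨(hm hy).1, mem_dom (hm hy).2.1 (hm hy).2.2⟩⟩

/-- restriction to the domain of a chart does not change the neighbourhood filter -/
theorem nhdsWithin_src {D : Set (ℝ × M)} {p : ℝ × M} (hi : p.2 ∈ (A.e i).source) :
    𝓝[D ∩ {q | q.2 ∈ (A.e i).source}] p = 𝓝[D] p :=
  nhdsWithin_inter_of_mem' (mem_nhdsWithin_of_mem_nhds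
    (continuousAt_snd.preimage_mem_nhds ((A.e i).open_source.mem_nhds hi)))

theorem box_inC (g : ℝ → MF A) (f : ℝ → M → ℝ) (s : ℝ) (hi : x ∈ (A.e i).source) :
    box (fun s => g s i) (fun s => inC A i (f s)) s (A.e i x) =
      deriv (fun s => f s x) s - lap (g s i) (inC A i (f s)) (A.e i x) := by
  simp only [box, inC_apply _ hi]

theorem lyh_eq_lyhS {g : ℝ → Cn n → Mat n} {t : ℝ} {z : Cn n} (h : KRFat g t z) (τ : ℝ) (c : ℂ)
    (a v : Cn n) : lyh g τ t z c a v = lyhS (g t) τ z c a v := by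
  rw [lyh, lyhS, h.ricT_eq_hess]

/-! ### static readings on the domain of a chart -/

section read

variable {G : MF A} (hG : KahOn G U) (hU : IsOpen U) {z : Cn n} (hz : z ∈ dom A i U)

include hG hU hz

theorem Sc_read : Sc G ((A.e i).symm z) = scal (G i) z := by
  rw [Sc_eq hG hU hz.2 (dom_src hz), dom_inv hz]

theorem Gr_read {φ : M → ℝ} (hφ : SmOn A U φ) :
    Gr G φ ((A.e i).symm z) = gsq (G i) (inC A i φ) z := by
  rw [Gr_eq hG hU hz.2 (dom_src hz) hφ, dom_inv hz]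

theorem lv_read (K0 : Kah A) : lv K0 G ((A.e i).symm z) = ldet (gc K0 i) z - ldet (G i) z := by
  rw [lv_eq hG hU hz.2 (dom_src hz), lvol, dom_inv hz]

end read

theorem fam_gc (K : Kah A) (I : Set ℝ) (hU : IsOpen U) (i : A.ι) :
    Fam I (dom A i U) fun _ => gc K i :=
  ⟨isOpen_dom i hU, fun a b => (K.sm i a b).comp contDiff_snd.contDiffOn fun _ hq => hq.2.1,
    fun _ hq => K.pos i _ (dom_src hq.2)⟩

/-! ### flows -/

namespace FlowOn

variable (h : FlowOn a b U g)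

include h

theorem mono {a' b' : ℝ} (ha : a ≤ a') (hb : b' ≤ b) (hW : W ⊆ U) : FlowOn a' b' W g :=
  ⟨fun i k l => (h.sm i k l).mono (prod_mono (Icc_subset_Icc ha hb) (dom_mono i hW)),
    fun s hs => (h.kah s (Icc_subset_Icc ha hb hs)).mono hW,
    fun s hs i x hi hx => h.krf s (Ioo_subset_Ioo ha hb hs) i x hi (hW hx)⟩

theorem fam (hU : IsOpen U) (i : A.ι) : Fam (Icc a b) (dom A i U) fun s => g s i :=
  ⟨isOpen_dom i hU, h.sm i, fun q hq => (kahAt_dom (h.kah q.1 hq.1) hq.2).posDef⟩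

theorem krf_dom (hs : s ∈ Ioo a b) {z : Cn n} (hz : z ∈ dom A i U) :
    KRFat (fun s => g s i) s z := dom_inv hz ▸ h.krf s hs i _ (dom_src hz) hz.2

theorem congr {g' : ℝ → MF A} (hU : IsOpen U) (e : ∀ s ∈ Icc a b, EqF (g' s) (g s) U) :
    FlowOn a b U g' := by
  have e' : ∀ i, ∀ q ∈ Icc a b ×ˢ dom A i U, g' q.1 i q.2 = g q.1 i q.2 := fun i q hq => by
    have h1 := e q.1 hq.1 i _ (dom_src hq.2) hq.2.2
    rwa [dom_inv hq.2] at h1
  refine ⟨fun i k l => (h.sm i k l).congr fun q hq => by simp only [e' i q hq],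
    fun s hs => (e s hs).kahOn hU (h.kah s hs), fun s hs i x hi hx => ?_⟩
  exact (h.krf s hs i x hi hx).congr (mem_of_superset (cyl_nhds' hU hs hx hi) (e' i))

theorem smST_Sc (hU : IsOpen U) : SmST A (Icc a b) U fun s x => Sc (g s) x := fun i =>
  (h.fam hU i).scal.congr fun q hq => Sc_read (h.kah q.1 hq.1) hU hq.2

theorem smST_lv (hU : IsOpen U) (K0 : Kah A) : SmST A (Icc a b) U fun s x => lv K0 (g s) x :=
  fun i => ((fam_gc K0 _ hU i).ldet.sub (h.fam hU i).ldet).congr fun q hq =>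
    lv_read (h.kah q.1 hq.1) hU hq.2 K0

theorem smST_Gr (hU : IsOpen U) (hf : SmST A (Icc a b) U f) :
    SmST A (Icc a b) U fun s x => Gr (g s) (f s) x := fun i =>
  ((h.fam hU i).gsq (φ := fun s => inC A i (f s)) (hf i)).congr fun q hq =>
    Gr_read (h.kah q.1 hq.1) hU hq.2 (smOn_of_SmST hf hq.1)

theorem smST_Phi (hU : IsOpen U) (hf : SmST A (Icc a b) U f) {τ : ℝ → ℝ}
    (hτ : ContDiffOn ℝ ∞ τ (Icc a b)) : SmST A (Icc a b) U fun s x => Phi (g s) (f s) (τ s) x :=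
  smST_add (smST_mul (smST_time hτ) (h.smST_Sc hU)) (smST_mul (smST_const _)
    (smST_add (smST_mul (smST_time hτ) (h.smST_Gr hU hf)) (smST_pow hf 2)))

theorem smST_Sf (hU : IsOpen U) (hf : SmST A (Icc a b) U f) (K0 : Kah A) :
    SmST A (Icc a b) U fun s x => Sf K0 (g s) (f s) s x :=
  smST_add (smST_add hf (smST_mul smST_id (h.smST_lv hU K0))) (smST_mul (smST_const _) smST_id)

theorem cont_Sc (hU : IsOpen U) : ContinuousOn (fun q : ℝ × M => Sc (g q.1) q.2) (Icc a b ×ˢ U) :=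
  continuousOn_of_SmST (h.smST_Sc hU)

theorem cont_lv (hU : IsOpen U) (K0 : Kah A) :
    ContinuousOn (fun q : ℝ × M => lv K0 (g q.1) q.2) (Icc a b ×ˢ U) :=
  continuousOn_of_SmST (h.smST_lv hU K0)

theorem cont_Gr (hU : IsOpen U) (hf : SmST A (Icc a b) U f) :
    ContinuousOn (fun q : ℝ × M => Gr (g q.1) (f q.1) q.2) (Icc a b ×ˢ U) :=
  continuousOn_of_SmST (h.smST_Gr hU hf)

theorem cont_Phi (hU : IsOpen U) (hf : SmST A (Icc a b) U f) {τ : ℝ → ℝ}
    (hτ : ContDiffOn ℝ ∞ τ (Icc a b)) :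
    ContinuousOn (fun q : ℝ × M => Phi (g q.1) (f q.1) (τ q.1) q.2) (Icc a b ×ˢ U) :=
  continuousOn_of_SmST (h.smST_Phi hU hf hτ)

theorem cont_Sf (hU : IsOpen U) (hf : SmST A (Icc a b) U f) (K0 : Kah A) :
    ContinuousOn (fun q : ℝ × M => Sf K0 (g q.1) (f q.1) q.1 q.2) (Icc a b ×ˢ U) :=
  continuousOn_of_SmST (h.smST_Sf hU hf K0)

section contM

variable (hU : IsOpen U) {X : Type*} [TopologicalSpace X] {S : Set X} {q : X → ℝ × M}
  (hq : ContinuousOn q S) (hm : MapsTo q S (Icc a b ×ˢ ((A.e i).source ∩ U))) {c v : X → Cn n}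

include hU hq hm

theorem cont_nq (hv : ContinuousOn v S) :
    ContinuousOn (fun y => nq (g (q y).1 i (A.e i (q y).2)) (v y)) S :=
  (h.fam hU i).cont_nq (cont_chart hq hm).1 (cont_chart hq hm).2 hv

theorem cont_ric (hv : ContinuousOn v S) :
    ContinuousOn (fun y => nq (ric (g (q y).1 i) (A.e i (q y).2)) (v y)) S :=
  (h.fam hU i).cont_ric (cont_chart hq hm).1 (cont_chart hq hm).2 hv

theorem cont_hess (hf : SmST A (Icc a b) U f) (hv : ContinuousOn v S) :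
    ContinuousOn (fun y => nq (hess (inC A i (f (q y).1)) (A.e i (q y).2)) (v y)) S :=
  (h.fam hU i).cont_hess (φ := fun s => inC A i (f s)) (cont_chart hq hm).1 (cont_chart hq hm).2
    (hf i) hv

theorem cont_bis (hv : ContinuousOn v S) (hc : ContinuousOn c S) :
    ContinuousOn (fun y => bis (g (q y).1 i) (A.e i (q y).2) (v y) (c y)) S :=
  (h.fam hU i).cont_bis (cont_chart hq hm).1 (cont_chart hq hm).2 hv hc

theorem cont_lyhS {τ : X → ℝ} {e : X → ℂ} (hτ : ContinuousOn τ S) (hτ0 : ∀ y ∈ S, τ y ≠ 0)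
    (he : ContinuousOn e S) (hc : ContinuousOn c S) (hv : ContinuousOn v S) :
    ContinuousOn (fun y => lyhS (g (q y).1 i) (τ y) (A.e i (q y).2) (e y) (c y) (v y)) S :=
  (h.fam hU i).cont_lyhS (cont_chart hq hm).1 (cont_chart hq hm).2 hτ hτ0 he hc hv

end contM

section ev

variable (hU : IsOpen U) (hs : s ∈ Ioo a b) (hx : x ∈ U) (hi : x ∈ (A.e i).source)

include hU hs hx hi

theorem Sc_ev : (fun q : ℝ × Cn n => Sc (g q.1) ((A.e i).symm q.2)) =ᶠ[𝓝 (s, A.e i x)]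
    fun q => scal (g q.1 i) q.2 :=
  mem_of_superset (cyl_nhds' hU hs hx hi) fun q hq => Sc_read (h.kah q.1 hq.1) hU hq.2

theorem lv_ev (K0 : Kah A) : (fun q : ℝ × Cn n => lv K0 (g q.1) ((A.e i).symm q.2))
    =ᶠ[𝓝 (s, A.e i x)] fun q => ldet (gc K0 i) q.2 - ldet (g q.1 i) q.2 :=
  mem_of_superset (cyl_nhds' hU hs hx hi) fun q hq => lv_read (h.kah q.1 hq.1) hU hq.2 K0

theorem Gr_ev (hf : SmST A (Icc a b) U f) :
    (fun q : ℝ × Cn n => Gr (g q.1) (f q.1) ((A.e i).symm q.2)) =ᶠ[𝓝 (s, A.e i x)]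
      fun q => gsq (g q.1 i) (inC A i (f q.1)) q.2 :=
  mem_of_superset (cyl_nhds' hU hs hx hi) fun q hq =>
    Gr_read (h.kah q.1 hq.1) hU hq.2 (smOn_of_SmST hf hq.1)

theorem box_chg (hj : x ∈ (A.e j).source) (hf : SmOn A U (f s)) :
    box (fun s => g s i) (fun s => inC A i (f s)) s (A.e i x) =
      box (fun s => g s j) (fun s => inC A j (f s)) s (A.e j x) := by
  rw [box_inC g f s hi, box_inC g f s hj,
    lap_chg (h.kah s (Ioo_subset_Icc_self hs)) hU hx hi hj (hf.contDiffAt hU hj hx)]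

end ev

theorem hasDerivAt_lv (K0 : Kah A) (hs : s ∈ Ioo a b) (hx : x ∈ U) :
    HasDerivAt (fun s => lv K0 (g s) x) (Sc (g s) x) s := by
  have h1 := (Lo.krf_ldet (h.krf s hs _ x (ch_mem A x) hx)).const_sub
    (ldet (gc K0 (ch A x)) (A.e (ch A x) x))
  rwa [neg_neg] at h1

theorem hasDerivAt_nq (hs : s ∈ Ioo a b) (hx : x ∈ U) (hi : x ∈ (A.e i).source) (v : Cn n) :
    HasDerivAt (fun s => nq (g s i (A.e i x)) v) (-nq (ric (g s i) (A.e i x)) v) s :=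
  Lo.krf_nq (h.krf s hs i x hi hx) v

theorem cont_nq_line (hU : IsOpen U) (hx : x ∈ U) (hi : x ∈ (A.e i).source) (v : Cn n) :
    ContinuousOn (fun s => nq (g s i (A.e i x)) v) (Icc a b) :=
  h.cont_nq hU (q := fun s => (s, x)) (by fun_prop) (fun _ hs => ⟨hs, hi, hx⟩) continuousOn_const

theorem lyh_eq (hs : s ∈ Ioo a b) (hx : x ∈ U) (hi : x ∈ (A.e i).source) (τ : ℝ) (c : ℂ)
    (v w : Cn n) : lyh (fun s => g s i) τ s (A.e i x) c v w = lyhS (g s i) τ (A.e i x) c v w :=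
  lyh_eq_lyhS (h.krf s hs i x hi hx) τ c v w

theorem ev_tr (hU : IsOpen U) (hs : s ∈ Ioo a b) (hx : x ∈ U) :
    ∀ᶠ q : ℝ × M in 𝓝 (s, x), TrOn (g q.1) {q.2} := by
  filter_upwards [prod_mem_nhds (Icc_mem_nhds hs.1 hs.2) (hU.mem_nhds hx)] with q hq
  exact (h.kah q.1 hq.1).tr.mono (singleton_subset_iff.2 hq.2)

section pull

variable {ψ : Cn n → M} {D : Set (Cn n)} {w : Cn n} (hU : IsOpen U) (hψ : Imm A ψ D)
  (hD : IsOpen D)

include hU hψ hD

theorem relT_pull (hs : s ∈ Ioo a b) (hw : w ∈ D) (hx : ψ w ∈ U) (hi : ψ w ∈ (A.e i).source) :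
    RelT (rd A i ψ) s w (fun s => pull (g s) ψ) fun s => g s i :=
  T223.relT_pull hψ hD hw (h.ev_tr hU hs hx) hi (h.krf s hs i _ hi hx)

theorem krf_pull (hs : s ∈ Ioo a b) (hw : w ∈ D) (hx : ψ w ∈ U) :
    KRFat (fun s => pull (g s) ψ) s w := (h.relT_pull hU hψ hD hs hw hx (ch_mem A _)).krfAt

theorem box_pull (hs : s ∈ Ioo a b) (hw : w ∈ D) (hx : ψ w ∈ U) (hi : ψ w ∈ (A.e i).source)
    (hf : SmOn A U (f s)) : box (fun s => g s i) (fun s => inC A i (f s)) s (A.e i (ψ w)) =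
      box (fun s => pull (g s) ψ) (fun s y => f s (ψ y)) s w := by
  rw [box_inC g f s hi, lap_pull (h.kah s (Ioo_subset_Icc_self hs)) hU hψ hD hw hx hi hf]
  rfl

theorem sm_pull (hm : MapsTo ψ D U) (k l : Fin n) :
    ContDiffOn ℝ ∞ (fun q : ℝ × Cn n => pull (g q.1) ψ q.2 k l) (Icc a b ×ˢ D) := by
  intro q hq
  have hi := ch_mem A (ψ q.2)
  set i := ch A (ψ q.2)
  have hT := holAt_rd hψ.1 hD hq.2 hi
  have h1 : ∀ᶠ y in 𝓝[Icc a b ×ˢ D] q, ψ y.2 ∈ (A.e i).source := mem_nhdsWithin_of_mem_nhds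
    (continuousAt_snd.eventually ((hψ.1 _ hq.2).1 ((A.e i).open_source.mem_nhds hi)))
  have h2 : ∀ c d, ContDiffWithinAt ℝ ∞ (fun y : ℝ × Cn n => g y.1 i (rd A i ψ y.2) c d)
      (Icc a b ×ˢ D) q := fun c d =>
    ContDiffWithinAt.comp_of_mem_nhdsWithin_image (g := fun y : ℝ × Cn n => g y.1 i y.2 c d)
      (f := fun y : ℝ × Cn n => (y.1, rd A i ψ y.2)) (t := Icc a b ×ˢ dom A i U) q
      (h.sm i c d _ ⟨hq.1, mem_dom hi (hm hq.2)⟩)
      (contDiffAt_fst.prodMk (hT.cd.comp q contDiffAt_snd)).contDiffWithinAt (by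
        refine mem_nhdsWithin_iff_exists_mem_nhds_inter.2 ⟨univ ×ˢ dom A i U,
          prod_mem_nhds univ_mem (dom_nhds hU hi (hm hq.2)), ?_⟩
        rintro _ ⟨hy, y, hy', rfl⟩
        exact ⟨hy'.1, hy.2⟩)
  have h3 : ContDiffWithinAt ℝ ∞ (fun y : ℝ × Cn n => pbk (rd A i ψ) (g y.1 i) y.2 k l)
      (Icc a b ×ˢ D) q := by
    simp only [pbk, Matrix.mul_apply]
    exact ContDiffWithinAt.sum fun d _ => (ContDiffWithinAt.sum fun c _ =>
      ((hT.smP k c).comp q contDiffAt_snd).contDiffWithinAt.mul (h2 c d)).mul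
      ((hT.smQ d l).comp q contDiffAt_snd).contDiffWithinAt
  refine h3.congr_of_eventuallyEq_of_mem ?_ hq
  filter_upwards [h1, self_mem_nhdsWithin] with y hy hy'
  rw [pull_eq (h.kah y.1 hy'.1).tr hψ.1 hy'.2 (hm hy'.2) hy, pbF_eq_pbk]

theorem fam_pull (hm : MapsTo ψ D U) : Fam (Icc a b) D fun s => pull (g s) ψ :=
  ⟨hD, h.sm_pull hU hψ hD hm, fun q hq =>
    (kahAt_pull (h.kah q.1 hq.1) hψ hD hq.2 (hU.mem_nhds (hm hq.2))).posDef⟩

end pull

end FlowOn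

theorem smST_pull {ψ : Cn n → M} {D : Set (Cn n)} (hf : SmST A I U f) (hU : IsOpen U)
    (hψ : Hol A ψ D) (hD : IsOpen D) (hm : MapsTo ψ D U) :
    ContDiffOn ℝ ∞ (fun q : ℝ × Cn n => f q.1 (ψ q.2)) (I ×ˢ D) := by
  intro q hq
  have hi := ch_mem A (ψ q.2)
  set i := ch A (ψ q.2)
  have hT := holAt_rd hψ hD hq.2 hi
  have h1 : ∀ᶠ y in 𝓝[I ×ˢ D] q, ψ y.2 ∈ (A.e i).source := mem_nhdsWithin_of_mem_nhds
    (continuousAt_snd.eventually ((hψ _ hq.2).1 ((A.e i).open_source.mem_nhds hi)))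
  have h2 : ContDiffWithinAt ℝ ∞ (fun y : ℝ × Cn n => inC A i (f y.1) (rd A i ψ y.2)) (I ×ˢ D) q :=
    ContDiffWithinAt.comp_of_mem_nhdsWithin_image (g := fun y : ℝ × Cn n => inC A i (f y.1) y.2)
      (f := fun y : ℝ × Cn n => (y.1, rd A i ψ y.2)) (t := I ×ˢ dom A i U) q
      (hf i _ ⟨hq.1, mem_dom hi (hm hq.2)⟩)
      (contDiffAt_fst.prodMk (hT.cd.comp q contDiffAt_snd)).contDiffWithinAt (by
        refine mem_nhdsWithin_iff_exists_mem_nhds_inter.2 ⟨univ ×ˢ dom A i U,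
          prod_mem_nhds univ_mem (dom_nhds hU hi (hm hq.2)), ?_⟩
        rintro _ ⟨hy, y, hy', rfl⟩
        exact ⟨hy'.1, hy.2⟩)
  refine h2.congr_of_eventuallyEq_of_mem ?_ hq
  filter_upwards [h1] with y hy
  exact (inC_apply _ hy).symm

/-- constructor: the equation in every chart -/
theorem FlowOn.of_eq (hU : IsOpen U)
    (sm : ∀ i k l, ContDiffOn ℝ ∞ (fun q : ℝ × Cn n => g q.1 i q.2 k l) (Icc a b ×ˢ dom A i U))
    (kah : ∀ s ∈ Icc a b, KahOn (g s) U)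
    (eq : ∀ s ∈ Ioo a b, ∀ i, ∀ x ∈ (A.e i).source, x ∈ U → ∀ k l,
      HasDerivAt (fun s => g s i (A.e i x) k l) (-ric (g s i) (A.e i x) k l) s) :
    FlowOn a b U g := by
  refine ⟨sm, kah, fun s hs i x hi hx => ?_⟩
  have h1 : ∀ᶠ q : ℝ × Cn n in 𝓝 (s, A.e i x), KahAt (g q.1 i) q.2 :=
    mem_of_superset (cyl_nhds' hU hs hx hi) fun q hq => kahAt_dom (kah q.1 hq.1) hq.2
  refine ⟨eventually_all.2 fun k => eventually_all.2 fun l => cdo_ev (sm i k l) hU hs hx hi,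
    h1.mono fun _ hq => hq.posDef, h1.mono fun _ hq => hq.closed.self_of_nhds,
    h1.mono fun _ hq => hq.closed'.self_of_nhds, ?_⟩
  filter_upwards [cyl_nhds hU hs hx hi] with q hq k l
  have h2 := eq q.1 hq.1 i _ (dom_src hq.2) hq.2.2 k l
  rw [dom_inv hq.2] at h2
  exact h2.congr_deriv (by simp [ric])

/-- constructor: the equation in one chart at every point -/
theorem FlowOn.of_eq' (hU : IsOpen U)
    (sm : ∀ i k l, ContDiffOn ℝ ∞ (fun q : ℝ × Cn n => g q.1 i q.2 k l) (Icc a b ×ˢ dom A i U))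
    (kah : ∀ s ∈ Icc a b, KahOn (g s) U)
    (eq : ∀ s ∈ Ioo a b, ∀ x ∈ U, ∃ i, x ∈ (A.e i).source ∧ ∀ k l,
      HasDerivAt (fun s => g s i (A.e i x) k l) (-ric (g s i) (A.e i x) k l) s) :
    FlowOn a b U g := by
  refine FlowOn.of_eq hU sm kah fun s hs i x hi hx k l => ?_
  obtain ⟨j, hj, he⟩ := eq s hs x hx
  have h1 := hasDerivAt_pull (Jm A i j x)ᵀ ((Jm A i j x).map conj)
    (H' := -ric (g s j) (A.e j x)) he k l
  rw [Matrix.mul_neg, Matrix.neg_mul,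
    ← (kah s (Ioo_subset_Icc_self hs)).trOn_ric hU i j x ⟨hi, hj⟩ hx] at h1
  refine h1.congr_of_eventuallyEq ?_
  filter_upwards [Icc_mem_nhds hs.1 hs.2] with t ht
  rw [(kah t ht).tr i j x ⟨hi, hj⟩ hx]

namespace HeatOn

variable (h : HeatOn a b U g f)

include h

theorem mono {a' b' : ℝ} (ha : a ≤ a') (hb : b' ≤ b) (hW : W ⊆ U) : HeatOn a' b' W g f :=
  ⟨smST_mono h.sm (Icc_subset_Icc ha hb) hW,
    fun s hs i x hi hx => h.eq s (Ioo_subset_Ioo ha hb hs) i x hi (hW hx)⟩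

theorem smOn (hs : s ∈ Icc a b) : SmOn A U (f s) := smOn_of_SmST h.sm hs

theorem cont : ContinuousOn (fun q : ℝ × M => f q.1 q.2) (Icc a b ×ˢ U) :=
  continuousOn_of_SmST h.sm

theorem hasDerivAt (hs : s ∈ Ioo a b) (hx : x ∈ U) (hi : x ∈ (A.e i).source) :
    HasDerivAt (fun s => f s x) (lap (g s i) (inC A i (f s)) (A.e i x)) s := by
  have h1 := h.eq s hs i x hi hx
  rw [box_inC g f s hi, sub_eq_zero] at h1
  exact h1 ▸ (smST_diff h.sm hs hx).hasDerivAt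

/-- the heat equation holds near an interior point -/
theorem box_ev (hU : IsOpen U) (hs : s ∈ Ioo a b) (hx : x ∈ U) (hi : x ∈ (A.e i).source) :
    ∀ᶠ q : ℝ × Cn n in 𝓝 (s, A.e i x),
      box (fun s => g s i) (fun s => inC A i (f s)) q.1 q.2 = 0 := by
  filter_upwards [cyl_nhds hU hs hx hi] with q hq
  have h1 := h.eq q.1 hq.1 i _ (dom_src hq.2) hq.2.2
  rwa [dom_inv hq.2] at h1

theorem box_pull (hg : FlowOn a b U g) {ψ : Cn n → M} {D : Set (Cn n)} {w : Cn n} (hU : IsOpen U)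
    (hψ : Imm A ψ D) (hD : IsOpen D) (hs : s ∈ Ioo a b) (hw : w ∈ D) (hx : ψ w ∈ U) :
    box (fun s => pull (g s) ψ) (fun s y => f s (ψ y)) s w = 0 := by
  rw [← hg.box_pull hU hψ hD hs hw hx (ch_mem A _) (h.smOn (Ioo_subset_Icc_self hs))]
  exact h.eq s hs _ _ (ch_mem A _) hx

end HeatOn

/-- constructor: the equation in one chart at every point -/
theorem HeatOn.of_eq (hg : FlowOn a b U g) (hU : IsOpen U) (sm : SmST A (Icc a b) U f)
    (eq : ∀ s ∈ Ioo a b, ∀ x ∈ U, ∃ i, x ∈ (A.e i).source ∧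
      HasDerivAt (fun s => f s x) (lap (g s i) (inC A i (f s)) (A.e i x)) s) :
    HeatOn a b U g f := by
  refine ⟨sm, fun s hs i x hi hx => ?_⟩
  obtain ⟨j, hj, he⟩ := eq s hs x hx
  rw [hg.box_chg hU hs hx hi hj (smOn_of_SmST sm (Ioo_subset_Icc_self hs)), box_inC g f s hj,
    he.deriv, sub_self]

theorem VOn.mono {K0 : Kah A} (h : VOn K0 a b U g f) {a' b' : ℝ} (ha : a ≤ a') (hb : b' ≤ b)
    (hW : W ⊆ U) : VOn K0 a' b' W g f :=
  ⟨smST_mono h.sm (Icc_subset_Icc ha hb) hW, fun s hs => (h.pot s (Icc_subset_Icc ha hb hs)).mono hW,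
    fun s hs x hx => h.dt s (Ioo_subset_Ioo ha hb hs) x (hW hx)⟩

theorem PhiOn.mono (h : PhiOn a b U g f) {b' : ℝ} (hb : b' ≤ b) (hW : W ⊆ U) :
    PhiOn a b' W g f :=
  ⟨smST_mono h.sm (Icc_subset_Icc le_rfl hb) hW, fun x hx => h.zero x (hW hx),
    fun s hs i x hi hx => h.pot s (Icc_subset_Icc le_rfl hb hs) i x hi (hW hx),
    fun s hs i x hi hx => h.dt s (Ioo_subset_Ioo le_rfl hb hs) i x hi (hW hx)⟩

end

end Crest.Agent.T223.Os
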