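import Crest.Agent.T223.StDefB_88
import Crest.Agent.T223.OsKitB_61
import Crest.Agent.T223.Jb_38

/-!
# Row 223, STEP: the assembly `St.asmStmt` (helper93)
-/

set_option autoImplicit false
set_option linter.unusedVariables false

open Set Filter Topology Metric
open scoped ContDiff ComplexConjugate Matrix ComplexOrder

namespace Crest.Agent.T223.St

open Crest.Agent.R275.Geo Crest.Agent.R273.Hess_333 Crest.Agent.T223.Tr Crest.Agent.T223.Os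
open Crest.Agent.R273.HessB_333
open Crest.Agent.T223.Db (eR dom SmST)
open Crest.Agent.N207.P (En d1)
open Crest.Agent.T223.Lx (d2 WH WS CB)

namespace As93

variable {n : ℕ}

/-- the Ricci form of a flat metric is bounded at the centre -/
theorem exists_ricB {ε : ℝ}
    (h : ∀ G : Mat n, (∀ a b, ‖G a b - (1 : Mat n) a b‖ ≤ ε * RR n) → 1 / 2 ≤ G.det.re) :
    ∃ B : ℝ, 0 ≤ B ∧ ∀ G : Cn n → Mat n, FlG ε G → ∀ a b, ‖ric G 0 a b‖ ≤ B := by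
  have h1 : UM 2 (5 + 2) (fun G : {G : Cn n → Mat n // FlG ε G} => G.1) := um_flG fun G => G.2
  obtain ⟨B, hB0, hB⟩ := UE.bdd (h1.ric (c := 1 / 2) (by norm_num) fun G y hy =>
    h _ fun a b => G.2.near (symm_mem hy) a b)
  refine ⟨B, hB0, fun G hG a b => ?_⟩
  have h2 := hB ⟨G, hG⟩ 0 (mem_ball_self (by norm_num)) a b
  rwa [rr_zero] at h2

theorem zero_mem : (0 : Cn n) ∈ ball (0 : Cn n) (RR n) :=
  mem_ball_self (one_pos.trans_le (one_le_RR n))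

theorem cb_mono {E V : Type*} [NormedAddCommGroup E] [NormedSpace ℝ E] [NormedAddCommGroup V]
    [NormedSpace ℝ V] {r K K' : ℝ} {m : ℕ} {f : E → V} (h : CB r m K f) (hK : K ≤ K') :
    CB r m K' f := fun j hj y hy => (h j hj y hy).trans hK

theorem cb_congr {V : Type*} [NormedAddCommGroup V] [NormedSpace ℝ V] {K : ℝ} {m : ℕ}
    {F F' : Cn n → V} (h : CB (1 / 4) m K (rr F)) (e : ∀ w ∈ ball (0 : Cn n) (RR n), F' w = F w) :
    CB (1 / 4) m K (rr F') := fun j hj y hy => by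
  have h1 : rr F' =ᶠ[𝓝 y] rr F := by
    filter_upwards [isOpen_ball.mem_nhds (ball_subset_ball (by norm_num : (1 / 4 : ℝ) ≤ 2) hy)]
      with z hz using e _ (symm_mem hz)
  rw [(h1.iteratedFDeriv ℝ j).eq_of_nhds]
  exact h j hj y hy

variable {M : Type} [TopologicalSpace M] {A : Atl n M} {G : MF A} {u0 ρ0 : M → ℝ} {W : Set M}
  {ε Kρ : ℝ} {x : M} {ψ : Cn n → M}

theorem flG (h : Fl G u0 ρ0 W ε Kρ x ψ) (hW : IsOpen W) (hG : KahOn G W) : FlG ε (pull G ψ) :=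
  ⟨fun w hw => kahAt_pull hG h.imm isOpen_ball hw (hW.mem_nhds (h.maps hw)), h.ctr, h.dG⟩

theorem rho_le (h : Fl G u0 ρ0 W ε Kρ x ψ) (hW : IsOpen W) (hρ : SmOn A W ρ0) {w : Cn n}
    (hw : w ∈ ball (0 : Cn n) (RR n)) : ρ0 (ψ w) ≤ ρ0 x + 4 * RR n := by
  have h1 := norm_sub_zero_le (F := fun y => ρ0 (ψ y)) (fun w hw =>
    (hρ.cda_pull hW h.imm.1 isOpen_ball hw (h.maps hw)).differentiableAt (by simp)) h.dρ1 hw
  rw [h.zero, Real.norm_eq_abs] at h1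
  linarith [le_abs_self (ρ0 (ψ w) - ρ0 x)]

theorem isOpen_sub (hW : IsOpen W) (hρ : SmOn A W ρ0) (c : ℝ) :
    IsOpen {x | x ∈ W ∧ ρ0 x < c} :=
  hρ.continuousOn.isOpen_inter_preimage hW isOpen_Iio

theorem isCompact_sub [T2Space M] (hρ : SmOn A W ρ0) {c c' : ℝ}
    (hK : IsCompact {x | x ∈ W ∧ ρ0 x ≤ c}) (hc : c' ≤ c) : IsCompact {x | x ∈ W ∧ ρ0 x ≤ c'} := by
  have h1 := (hρ.continuousOn.mono fun x (hx : x ∈ {x | x ∈ W ∧ ρ0 x ≤ c}) =>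
    hx.1).preimage_isClosed_of_isClosed hK.isClosed (isClosed_Iic (a := c'))
  have h2 : {x | x ∈ W ∧ ρ0 x ≤ c'} = {x | x ∈ W ∧ ρ0 x ≤ c} ∩ ρ0 ⁻¹' Iic c' :=
    Set.ext fun x => ⟨fun h => ⟨⟨h.1, h.2.trans hc⟩, h.2⟩, fun h => ⟨h.1.1, h.2⟩⟩
  rw [h2]
  exact hK.of_isClosed_subset h1 inter_subset_left

theorem pull_sub (G H : MF A) (ψ : Cn n → M) (w : Cn n) :
    pull (fun i z => G i z - H i z) ψ w = pull G ψ w - pull H ψ w := by
  simp only [pull, pbF, Matrix.mul_sub, Matrix.sub_mul]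

theorem trOn_sub {G H : MF A} {U : Set M} (hG : TrOn G U) (hH : TrOn H U) :
    TrOn (fun i z => G i z - H i z) U := fun i j x hx hU => by
  simp only [hG i j x hx hU, hH i j x hx hU, Matrix.mul_sub, Matrix.sub_mul]

theorem trOn_hess {f : M → ℝ} {U : Set M} (hU : IsOpen U) (hf : SmOn A U f) :
    TrOn (fun i => hess (inC A i f)) U := fun i j x hx hxU =>
  hess_inC_tm hx.1 hx.2 (hf.contDiffAt hU hx.2 hxU)

theorem pull_hess {f : M → ℝ} {U : Set M} (hU : IsOpen U) (hf : SmOn A U f) {D : Set (Cn n)}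
    (hψ : Hol A ψ D) (hD : IsOpen D) {w : Cn n} (hw : w ∈ D) (hx : ψ w ∈ U) :
    pull (fun i => hess (inC A i f)) ψ w = hess (fun y => f (ψ y)) w := by
  have hi := ch_mem A (ψ w)
  rw [pull_eq (trOn_hess hU hf) hψ hw hx hi, hess_congr (comp_rd (hψ w hw).1 hi f),
    hess_pbk (T := rd A (ch A (ψ w)) ψ) (hf.contDiffAt hU hi hx) (holAt_rd hψ hD hw hi)]
  rfl

/-- the Laplacian of the initial function at the centre of a chart -/
theorem abs_lap_le {g : MF A} {V : Set M} (hV : IsOpen V) (hg : KahOn g V) {f : M → ℝ}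
    (hf : SmOn A V f) {D : Set (Cn n)} (hψ : Imm A ψ D) (hD : IsOpen D) (h0 : (0 : Cn n) ∈ D)
    (e : ψ 0 = x) (hx : x ∈ V) (hlo : ∀ v, ‖v‖ ^ 2 / 2 ≤ nq (pull g ψ 0) v) {K : ℝ}
    (hK : ‖iteratedFDeriv ℝ 2 (fun y => f (ψ y)) 0‖ ≤ K) :
    |lap (g (ch A x)) (inC A (ch A x) f) (A.e (ch A x) x)| ≤ n * (2 * n ^ 2 * K) := by
  subst e
  have hc := hf.cda_pull hV hψ.1 hD h0 hx
  rw [lap_pull hg hV hψ hD h0 hx (ch_mem A _) hf]
  have h1 := Jb.hesAbsC_of_jet (g := pull g ψ) (r := 1) one_pos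
    (fun v => by linarith [hlo v]) hc hK
  rw [one_pow, div_one] at h1
  exact abs_trg_le (kahAt_pull hg hψ hD h0 (hV.mem_nhds hx)).posDef (hess_herm hc) h1

end As93

open As93

theorem asmStmt (n : ℕ) : AsmStmt n := by
  intro hT hF hH hM hK hC hR
  obtain ⟨ηK, hηK, hK⟩ := hK
  obtain ⟨ηH, hηH, hC⟩ := hC
  obtain ⟨η0, hη0, h0⟩ := exists_η0 n
  have hR1 := one_le_RR n
  have hR0 : 0 < RR n := one_pos.trans_le hR1
  obtain ⟨B, hB0, hB⟩ := exists_ricB (n := n) (ε := η0 / RR n) fun G hG =>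
    (h0 G (by rwa [div_mul_cancel₀ _ hR0.ne'] at hG)).1
  obtain ⟨m, hm, hmK, hmH, hm0, hm1⟩ :
      ∃ m : ℝ, 0 < m ∧ m ≤ ηK ∧ m ≤ ηH ∧ m ≤ η0 ∧ m ≤ 1 :=
    ⟨min (min ηK ηH) (min η0 1), by positivity, (min_le_left _ _).trans (min_le_left _ _),
      (min_le_left _ _).trans (min_le_right _ _), (min_le_right _ _).trans (min_le_left _ _),
      (min_le_right _ _).trans (min_le_right _ _)⟩
  obtain ⟨η, hη, hηm⟩ : ∃ η : ℝ, 0 < η ∧ η * ((2 * n ^ 2 + 1) * (B + 1) + RR n) = m :=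
    ⟨m / ((2 * n ^ 2 + 1) * (B + 1) + RR n), by positivity, div_mul_cancel₀ _ (by positivity)⟩
  have p1 : 0 ≤ η * B := by positivity
  have p2 : 0 ≤ (n : ℝ) ^ 2 * η := by positivity
  have p3 : 0 ≤ (n : ℝ) ^ 2 * (η * B) := by positivity
  have p4 : η ≤ η * RR n := le_mul_of_one_le_right hη.le hR1
  have e1 : η * RR n ≤ m := by linarith
  have e2 : η ≤ m := p4.trans e1
  have e3 : η * B + η ≤ m := by linarith
  have e4 : 2 * n ^ 2 * η ≤ m := by linarith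
  have e5 : 2 * n ^ 2 * (η * B + η) + η * RR n ≤ m := by linarith
  obtain ⟨ε, β, N, C1, hε, hεη, hβ, hβη, hC1, hM⟩ := hM η hη
  have hεR : ε * RR n ≤ η * RR n := mul_le_mul_of_nonneg_right hεη hR0.le
  have hβ1 : β ≤ 1 := by linarith
  obtain ⟨CK, hK⟩ := hK N
  refine ⟨ε, β, C1 + 2 + 4 * RR n, hε, hβ, hβ1, by linarith, fun Kρ => ?_⟩
  obtain ⟨Kp, hKp1, hKp⟩ : ∃ Kp : ℝ, 1 ≤ Kp ∧ Kρ ≤ Kp := ⟨max 1 Kρ, le_max_left _ _, le_max_right _ _⟩
  obtain ⟨Ch, hCh⟩ : ∃ Ch : ℝ, Ch = n * (2 * n ^ 2 * Kp) := ⟨_, rfl⟩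
  have hCh0 : 0 ≤ Ch := by rw [hCh]; positivity
  have hβC : β * Ch ≤ Ch := mul_le_of_le_one_left hCh0 hβ1
  obtain ⟨C', hC⟩ := hC (max (max CK Kp) Ch)
  obtain ⟨K0, hK01, hR⟩ := hR (max CK C')
  refine ⟨max K0 Ch, le_max_of_le_left hK01,
    fun M _ _ _ A G u0 ρ0 W c hW hG hu0 hρ0 hc hFl => ?_⟩
  obtain ⟨Ψ, hΨ⟩ : ∃ Ψ : M → Cn n → M, ∀ x ∈ W, ρ0 x ≤ c → Fl G u0 ρ0 W ε Kρ x (Ψ x) := by
    classical
    refine ⟨fun x => if h : x ∈ W ∧ ρ0 x ≤ c then (hFl x h.1 h.2).choose else fun _ => x,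
      fun x h1 h2 => ?_⟩
    simp only [dif_pos (And.intro h1 h2)]
    exact (hFl x h1 h2).choose_spec
  obtain ⟨φ, hφ, hφb⟩ := hM M A G u0 ρ0 W c Kρ Ψ hW hG hρ0 hc hΨ
  obtain ⟨V, hVe⟩ : ∃ V : Set M, V = {x | x ∈ W ∧ ρ0 x < c - C1} := ⟨_, rfl⟩
  have hVm : ∀ x, x ∈ V ↔ x ∈ W ∧ ρ0 x < c - C1 := fun x => by rw [hVe]; rfl
  have hV : IsOpen V := hVe ▸ isOpen_sub hW hρ0 _
  rw [← hVe] at hφ
  have hVW : V ⊆ W := fun x hx => ((hVm x).1 hx).1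
  have hGV : KahOn G V := hG.mono hVW
  have hρV : SmOn A V ρ0 := hρ0.mono hVW
  obtain ⟨hfl, hph, heq, hch⟩ := hF M A G V β φ hβ hV hGV hφ
  have hFV : ∀ x ∈ V, Fl G u0 ρ0 W ε Kρ x (Ψ x) := fun x hx =>
    hΨ x (hVW hx) (by linarith [((hVm x).1 hx).2])
  have hφs : ∀ s ∈ Icc 0 β, SmOn A V (φ s) := fun s hs => smOn_of_SmST hφ.sm hs
  -- the part of the chart at `x` that lies in `V`
  have hD : ∀ x ∈ V, IsOpen (ball (0 : Cn n) (RR n) ∩ Ψ x ⁻¹' V) := fun x hx =>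
    (hFV x hx).imm.1.continuousOn.isOpen_inter_preimage isOpen_ball hV
  have hD0 : ∀ x ∈ V, (0 : Cn n) ∈ ball (0 : Cn n) (RR n) ∩ Ψ x ⁻¹' V := fun x hx =>
    ⟨zero_mem, by rw [mem_preimage, (hFV x hx).zero]; exact hx⟩
  -- the metric at the centre of a chart
  have ctr : ∀ x ∈ V, ∀ s ∈ Icc 0 β, ∀ a b,
      ‖pull (fun i z => gM G φ s i z - G i z) (Ψ x) 0 a b‖ ≤ η * B + η := by
    intro x hx s hs a b
    have h1 := ((hch (Ψ x) _ (hD x hx) ((hFV x hx).imm.mono inter_subset_left)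
      fun w hw => hw.2).2 s hs 0 (hD0 x hx)).1
    have h2 := hB _ ((flG (hFV x hx) hW hG).mono (ε' := η0 / RR n)
      (by rw [le_div_iff₀ hR0]; linarith)) a b
    have h3 := (hφb x (hVW hx) ((hVm x).1 hx).2 s hs).1 a b
    have h4 : pull (fun i z => gM G φ s i z - G i z) (Ψ x) 0 a b =
        -((s : ℂ) * ric (pull G (Ψ x)) 0 a b) + hess (fun w => φ s (Ψ x w)) 0 a b := by
      rw [pull_sub, h1]
      simp only [gs, Matrix.sub_apply, Matrix.add_apply, Matrix.smul_apply, smul_eq_mul]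
      ring
    rw [h4]
    refine (norm_add_le _ _).trans (add_le_add ?_ h3)
    rw [norm_neg, norm_mul, Complex.norm_real, Real.norm_of_nonneg hs.1]
    exact mul_le_mul (hs.2.trans hβη) h2 (norm_nonneg _) hη.le
  -- the region of the heat equation, and the final region
  obtain ⟨V2, hV2e⟩ : ∃ V2 : Set M, V2 = {x | x ∈ V ∧ ρ0 x < c - C1 - 1 - 1} := ⟨_, rfl⟩
  have hV2m : ∀ x, x ∈ V2 ↔ x ∈ V ∧ ρ0 x < c - C1 - 1 - 1 := fun x => by rw [hV2e]; rfl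
  have hV2 : IsOpen V2 := hV2e ▸ isOpen_sub hV hρV _
  have hV2V : V2 ⊆ V := fun x hx => ((hV2m x).1 hx).1
  obtain ⟨V3, hV3e⟩ : ∃ V3 : Set M, V3 = {x | x ∈ W ∧ ρ0 x < c - (C1 + 2 + 4 * RR n)} := ⟨_, rfl⟩
  have hV3m : ∀ x, x ∈ V3 ↔ x ∈ W ∧ ρ0 x < c - (C1 + 2 + 4 * RR n) := fun x => by rw [hV3e]; rfl
  have hV32 : V3 ⊆ V2 := fun x hx => (hV2m x).2 ⟨(hVm x).2 ⟨((hV3m x).1 hx).1,
    by linarith [((hV3m x).1 hx).2]⟩, by linarith [((hV3m x).1 hx).2]⟩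
  have hV3V : V3 ⊆ V := hV32.trans hV2V
  have maps2 : ∀ x ∈ V3, MapsTo (Ψ x) (ball 0 (RR n)) V2 := fun x hx w hw => by
    have h1 := rho_le (hFV x (hV3V hx)) hW hρ0 hw
    have h2 := ((hV3m x).1 hx).2
    exact (hV2m _).2 ⟨(hVm _).2 ⟨(hFV x (hV3V hx)).maps hw, by linarith⟩, by linarith⟩
  have maps1 : ∀ x ∈ V3, MapsTo (Ψ x) (ball 0 (RR n)) V := fun x hx w hw => hV2V (maps2 x hx hw)
  -- comparison of the charts
  have cmp : ∀ x ∈ V3, ∀ w ∈ ball (0 : Cn n) (RR n), ∀ (H : MF A) (b : ℝ), TrOn H V →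
      (∀ k l, ‖pull H (Ψ (Ψ x w)) 0 k l‖ ≤ b) → ∀ k l, ‖pull H (Ψ x) w k l‖ ≤ 2 * n ^ 2 * b := by
    intro x hx w hw H b hH hb
    have h1 := hFV x (hV3V hx)
    have h2 := hFV _ (maps1 x hx hw)
    refine cmp_pull hGV.tr hH h1.imm.1 h2.imm.1 hw zero_mem h2.zero (maps1 x hx hw) h2.ctr
      (fun a => ?_) hb
    have h3 := (flG h1 hW hG).near hw a a
    have h4 := norm_add_le (pull G (Ψ x) w a a - (1 : Mat n) a a) ((1 : Mat n) a a)
    rw [sub_add_cancel, Matrix.one_apply_eq, norm_one] at h4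
    rw [Matrix.one_apply_eq] at h3
    linarith
  have near : ∀ x ∈ V3, ∀ s ∈ Icc 0 β, ∀ w ∈ ball (0 : Cn n) (RR n), ∀ a b,
      ‖pull (gM G φ s) (Ψ x) w a b - (1 : Mat n) a b‖ ≤ m := by
    intro x hx s hs w hw a b
    have h1 := cmp x hx w hw _ _ (trOn_sub (hfl.kah s hs).tr hGV.tr)
      (ctr _ (maps1 x hx hw) s hs) a b
    have h2 := (flG (hFV x (hV3V hx)) hW hG).near hw a b
    rw [pull_sub, Matrix.sub_apply] at h1
    have h3 := norm_add_le (pull (gM G φ s) (Ψ x) w a b - pull G (Ψ x) w a b)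
      (pull G (Ψ x) w a b - (1 : Mat n) a b)
    rw [sub_add_sub_cancel] at h3
    linarith
  have chx := fun x (hx : x ∈ V3) => hch (Ψ x) _ isOpen_ball (hFV x (hV3V hx)).imm (maps1 x hx)
  have cb : ∀ x ∈ V3, ∀ s ∈ Icc 0 β, ∀ a b,
      CB (1 / 4) 5 CK (rr fun w => pull (gM G φ s) (Ψ x) w a b) := by
    intro x hx s hs a b
    have h1 := hFV x (hV3V hx)
    refine cb_congr (hK β (pull G (Ψ x)) (fun s w => φ s (Ψ x w)) hβ (by linarith)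
      ((flG h1 hW hG).mono (by linarith))
      ((hT M A _ φ).1 V _ _ hV isOpen_ball h1.imm (maps1 x hx) hφ.sm)
      (fun w hw => hφ.zero _ (maps1 x hx hw)) (fun s hs w hw => ((chx x hx).2 s hs w hw).2)
      (fun s hs w hw a b => ?_)
      (fun s hs => (hφb x (hVW (hV3V hx)) ((hVm x).1 (hV3V hx)).2 s hs).2) s hs a b)
      fun w hw => by rw [((chx x hx).2 s hs w hw).1]
    have hx' := maps1 x hx hw
    have h2 := hFV _ hx'
    have h3 := cmp x hx w hw _ η (trOn_hess hV (hφs s hs)) (fun k l => by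
      rw [pull_hess hV (hφs s hs) h2.imm.1 isOpen_ball zero_mem (by rw [h2.zero]; exact hx')]
      exact (hφb _ (hVW hx') ((hVm _).1 hx').2 s hs).1 k l) a b
    rw [pull_hess hV (hφs s hs) h1.imm.1 isOpen_ball hw hx'] at h3
    linarith
  have cru := fun x (hx : x ∈ V3) s (hs : s ∈ Icc 0 β) => hR (pull (gM G φ s) (Ψ x))
    (fun w hw => kahAt_pull (hfl.kah s hs) (hFV x (hV3V hx)).imm isOpen_ball hw
      (hV.mem_nhds (maps1 x hx hw)))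
    (fun w hw v => ((h0 _ fun a b => (near x hx s hs w hw a b).trans hm0).2.1 v).1)
    fun a b => cb_mono (cb x hx s hs a b) (le_max_left _ _)
  -- the heat equation
  have heat : ∀ f0 : M → ℝ, SmOn A W f0 → (∀ x ∈ V, ∀ j, 1 ≤ j → j ≤ 4 →
      ∀ w ∈ ball (0 : Cn n) (RR n), ‖iteratedFDeriv ℝ j (fun y => f0 (Ψ x y)) w‖ ≤ Kp) →
      ∃ f : ℝ → M → ℝ, HeatOn 0 β V3 (gM G φ) f ∧ ∀ x ∈ V3, f 0 x = f0 x ∧ ∀ s ∈ Icc 0 β,
        HesAbs (gM G φ s) (f s) K0 x ∧ Gr (gM G φ s) (f s) x ≤ K0 ∧ |f s x - f 0 x| ≤ Ch := by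
    intro f0 hf0 hd
    have hK' : IsCompact {x | x ∈ V ∧ ρ0 x ≤ c - C1 - 1} := by
      have h1 : {x | x ∈ V ∧ ρ0 x ≤ c - C1 - 1} = {x | x ∈ W ∧ ρ0 x ≤ c - C1 - 1} :=
        Set.ext fun x => ⟨fun h => ⟨hVW h.1, h.2⟩,
          fun h => ⟨(hVm x).2 ⟨h.1, by linarith [h.2]⟩, h.2⟩⟩
      rw [h1]
      exact isCompact_sub hρ0 hc (by linarith)
    obtain ⟨f, hf, hfb⟩ := hH M A (gM G φ) V f0 ρ0 β (c - C1 - 1) Ch hβ hCh0 hV hfl (hf0.mono hVW)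
      hρV hK' fun s hs x hx _ => by
        rw [hCh]
        refine abs_lap_le hV (hfl.kah s hs) (hf0.mono hVW) (hFV x hx).imm isOpen_ball zero_mem
          (hFV x hx).zero hx (fun v => ((h0 _ fun a b => ?_).2.1 v).1)
          (hd x hx 2 (by norm_num) (by norm_num) 0 zero_mem)
        have h1 := ctr x hx s hs a b
        rw [pull_sub, (hFV x hx).ctr, Matrix.sub_apply] at h1
        linarith
    rw [← hV2e] at hf
    replace hfb := fun x (hx : x ∈ V2) => hfb x ((hV2m x).1 hx).1 ((hV2m x).1 hx).2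
    refine ⟨f, hf.mono le_rfl le_rfl hV32, fun x hx => ⟨(hfb x (hV32 hx)).1, fun s hs => ?_⟩⟩
    have h1 := hFV x (hV3V hx)
    have h2 := hC β (fun s => pull (gM G φ s) (Ψ x)) (fun s w => f s (Ψ x w)) hβ hβ1
      (fun a b => ((chx x hx).1 a b).congr fun q hq => by rw [((chx x hx).2 q.1 hq.1 q.2 hq.2).1])
      (fun s hs w hw a b => (near x hx s hs w hw a b).trans hmH)
      (fun s hs a b => cb_mono (cb x hx s hs a b) ((le_max_left _ _).trans (le_max_left _ _)))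
      ((hT M A _ f).1 V2 _ _ hV2 isOpen_ball h1.imm (maps2 x hx) hf.sm)
      (fun s hs w hw => by
        have h3 := (((hfb _ (maps2 x hx hw)).2) s hs).2
        rwa [lap_pull ((hfl.kah s hs).mono hV2V) hV2 h1.imm isOpen_ball hw (maps2 x hx hw)
          (ch_mem A _) (hf.smOn hs)] at h3)
      (fun j hj hj' w hw => by
        have h3 : (fun y => f 0 (Ψ x y)) =ᶠ[𝓝 w] fun y => f0 (Ψ x y) := by
          filter_upwards [isOpen_ball.mem_nhds hw] with y hy using (hfb _ (maps2 x hx hy)).1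
        rw [(h3.iteratedFDeriv ℝ j).eq_of_nhds]
        exact (hd x (hV3V hx) j hj hj' w hw).trans ((le_max_right _ _).trans (le_max_left _ _)))
      (fun s hs w hw => by
        rw [(hfb _ (maps2 x hx hw)).1]
        exact ((((hfb _ (maps2 x hx hw)).2) s hs).1.trans hβC).trans (le_max_right _ _)) s hs
    obtain ⟨-, -, -, h3, h4⟩ := cru x hx s hs
    have hx0 : Ψ x 0 ∈ V2 := maps2 x hx zero_mem
    have h5 := (hesAbs_pull ((hfl.kah s hs).mono hV2V) hV2 h1.imm isOpen_ball zero_mem hx0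
      (hf.smOn hs) K0).2 (h3 _ fun a b => (h2.1 a b).trans (le_max_right _ _))
    have h6 := Gr_pull ((hfl.kah s hs).mono hV2V) hV2 h1.imm isOpen_ball zero_mem hx0 (hf.smOn hs)
    rw [h1.zero] at h5 h6
    refine ⟨h5, h6 ▸ h4 _ (h2.2.trans (le_max_right _ _)), ?_⟩
    rw [(hfb x (hV32 hx)).1]
    exact (((hfb x (hV32 hx)).2 s hs).1).trans hβC
  obtain ⟨u, hu, hub⟩ := heat u0 hu0 fun x hx j h1 h2 w hw =>
    ((hFV x hx).du j h1 h2 w hw).trans hKp1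
  obtain ⟨ρ, hρ, hρb⟩ := heat ρ0 hρ0 fun x hx j h1 h2 w hw =>
    ((hFV x hx).dρ j h1 h2 w hw).trans hKp
  rw [← hV3e]
  refine ⟨gM G φ, u, ρ, φ, hfl.mono le_rfl le_rfl hV3V, hu, hρ, hph.mono le_rfl hV3V,
    heq.mono hV3V, fun x hxW hxρ => ?_⟩
  have hx : x ∈ V3 := (hV3m x).2 ⟨hxW, hxρ⟩
  refine ⟨(hub x hx).1, (hρb x hx).1, fun s hs => ?_⟩
  have h1 := hFV x (hV3V hx)
  have hk := hfl.kah s hs
  have hx0 : Ψ x 0 ∈ V := maps1 x hx zero_mem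
  obtain ⟨c1, c2, c3, -, -⟩ := cru x hx s hs
  obtain ⟨u1, u2, u3⟩ := (hub x hx).2 s hs
  obtain ⟨r1, r2, r3⟩ := (hρb x hx).2 s hs
  have hKK : K0 ≤ max K0 Ch / 1 ^ 2 := by rw [one_pow, div_one]; exact le_max_left _ _
  refine ⟨fun τ hτ => ?_, ?_, u1.mono hk (hV3V hx) hKK, u2.trans hKK, r2.trans (le_max_left _ _),
    by rw [mul_one]; exact r3.trans (le_max_right _ _), u3.trans (le_max_right _ _)⟩
  · have h2 := (lyhAbs_pull hk hV h1.imm isOpen_ball zero_mem hx0 τ 1 K0).2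
      (c1 τ (by rwa [one_pow] at hτ))
    rw [h1.zero] at h2
    exact h2.mono hk (hV3V hx) (zero_le_one.trans hK01) zero_le_one hKK (by norm_num)
  · have h2 := (bkAbs_pull hk hV h1.imm isOpen_ball zero_mem hx0 K0).2 ⟨c2, c3⟩
    rw [h1.zero] at h2
    exact h2.mono hk (hV3V hx) hKK

end Crest.Agent.T223.St
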