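import Crest.Agent.T223.DbAlg_88

/-!
# Row 223 (helper88): the linear solver `linSol : LinSolStmt n`
-/

set_option autoImplicit false
set_option linter.unusedSectionVars false

open Set Filter Function
open scoped ContDiff Topology Matrix ComplexConjugate ComplexOrder

noncomputable section

namespace Crest.Agent.T223.Db

open Crest.Agent.R275.Geo Crest.Agent.R275.Core144 Crest.Agent.N207.P Crest.Agent.N222

section real

variable {m : ℕ} {ι : Type} [Fintype ι] {Y : Type} [TopologicalSpace Y] {N : Imm m ι Y} {I : Set ℝ}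

theorem cdw_change {c c' : OpenPartialHomeomorph Y (En m)} (hc : IsChart N.x c)
    (hc' : IsChart N.x c') {u : ℝ → Y → ℝ} {t : ℝ} {z : En m} (hz : z ∈ c'.target)
    (hp : c'.symm z ∈ c.source)
    (h : ContDiffWithinAt ℝ ∞ (fun q : ℝ × En m => u q.1 (c.symm q.2)) (I ×ˢ univ)
      (t, c (c'.symm z))) (ht : t ∈ I) :
    ContDiffWithinAt ℝ ∞ (fun q : ℝ × En m => u q.1 (c'.symm q.2)) (I ×ˢ univ) (t, z) := by
  have h1 := hc.trans_smooth hc' hp (c'.map_target hz)
  rw [c'.right_inv hz] at h1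
  have h2 : ContDiffAt ℝ ∞ (fun q : ℝ × En m => (q.1, c (c'.symm q.2))) (t, z) :=
    contDiffAt_fst.prodMk (ContDiffAt.comp (g := c ∘ c'.symm) (f := Prod.snd) (t, z) h1
      contDiffAt_snd)
  have h3 := ContDiffWithinAt.comp (g := fun q : ℝ × En m => u q.1 (c.symm q.2)) (t := I ×ˢ univ)
    (s := I ×ˢ univ) (f := fun q : ℝ × En m => (q.1, c (c'.symm q.2))) (t, z) h
    h2.contDiffWithinAt fun q hq => ⟨hq.1, mem_univ _⟩
  have h4 : ∀ᶠ q : ℝ × En m in 𝓝 (t, z), c'.symm q.2 ∈ c.source :=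
    (ContinuousAt.comp (g := c'.symm) (f := Prod.snd) (c'.continuousAt_symm hz)
      continuousAt_snd).eventually (c.open_source.mem_nhds hp)
  refine h3.congr_of_eventuallyEq_of_mem (mem_nhdsWithin_of_mem_nhds ?_) ⟨ht, mem_univ _⟩
  filter_upwards [h4] with q hq
  simp [c.left_inv hq]

theorem cdw_univ {F : Type*} [NormedAddCommGroup F] [NormedSpace ℝ F] {G : Type*}
    [NormedAddCommGroup G] [NormedSpace ℝ G] {f : ℝ × F → G} {U : Set F} (hU : IsOpen U)
    (h : ContDiffOn ℝ ∞ f (I ×ˢ U)) {t : ℝ} (ht : t ∈ I) {z : F} (hz : z ∈ U) :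
    ContDiffWithinAt ℝ ∞ f (I ×ˢ univ) (t, z) := by
  refine (h (t, z) ⟨ht, hz⟩).mono_of_mem_nhdsWithin ?_
  filter_upwards [mem_nhdsWithin_of_mem_nhds
    (continuousAt_snd.eventually (hU.mem_nhds hz) : ∀ᶠ q : ℝ × F in 𝓝 (t, z), q.2 ∈ U),
    self_mem_nhdsWithin] with q h1 h2
  exact ⟨h2.1, h1⟩

theorem SmY.chart {u : ℝ → Y → ℝ} (h : SmY N I u) {c : OpenPartialHomeomorph Y (En m)}
    (hc : IsChart N.x c) {t : ℝ} (ht : t ∈ I) {z : En m} (hz : z ∈ c.target) :
    ContDiffWithinAt ℝ ∞ (fun q : ℝ × En m => u q.1 (c.symm q.2)) (I ×ˢ univ) (t, z) :=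
  cdw_change (N.isChart (c.symm z)) hc hz (N.mem _)
    (cdw_univ (N.ch _).open_target (h _) ht ((N.ch _).map_source (N.mem _))) ht

end real

variable {n : ℕ} {M : Type} [TopologicalSpace M] {A : Atl n M}

theorem isOpen_dom (i : A.ι) {W : Set M} (hW : IsOpen W) : IsOpen (dom A i W) :=
  (A.e i).isOpen_inter_preimage_symm hW

theorem mem_dom {i : A.ι} {W : Set M} {x : M} (hx : x ∈ (A.e i).source) (hW : x ∈ W) :
    A.e i x ∈ dom A i W := ⟨(A.e i).map_source hx, by rwa [(A.e i).left_inv hx]⟩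

section dbl

variable {ι : Type} [Fintype ι] {Y : Type} [TopologicalSpace Y] {N : Imm (2 * n) ι Y}
  {e : OpenPartialHomeomorph M Y} {I : Set ℝ} {K W : Set M}

/-- extension by zero -/
def ext0 (e : OpenPartialHomeomorph M Y) (f : ℝ → M → ℝ) (t : ℝ) : Y → ℝ :=
  e.target.indicator fun y => f t (e.symm y)

theorem ext0_apply (f : ℝ → M → ℝ) (t : ℝ) {x : M} (hx : x ∈ e.source) :
    ext0 e f t (e x) = f t x := by
  rw [ext0, indicator_of_mem (e.map_source hx), e.left_inv hx]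

theorem smY_ext0 [T2Space Y] (hK : IsCompact K) (hW : IsOpen W) (hKe : K ⊆ e.source)
    (heW : e.source ⊆ W) (hc : ∀ i, IsChart N.x (e.symm.trans (cR A i))) {f : ℝ → M → ℝ}
    (hf : Adm A I K W f) : SmY N I (ext0 e f) := by
  rintro x ⟨t, z⟩ ⟨ht, hz⟩
  suffices h : ContDiffWithinAt ℝ ∞ (fun q : ℝ × En (2 * n) => ext0 e f q.1 ((N.ch x).symm q.2))
      (I ×ˢ univ) (t, z) from h.mono (prod_mono le_rfl (subset_univ _))
  by_cases hy : (N.ch x).symm z ∈ e.target
  · set y := (N.ch x).symm z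
    obtain ⟨i, hi⟩ := A.cover (e.symm y)
    have hs : y ∈ (e.symm.trans (cR A i)).source := ⟨hy, (cR_source i).symm ▸ hi⟩
    refine cdw_change (hc i) (N.isChart x) hz hs ?_ ht
    have h1 := cdw_univ (isOpen_dom i hW) (hf.sm i) ht (mem_dom hi (heW (e.map_target hy)))
    have h2 : ContDiffAt ℝ ∞ (fun q : ℝ × En (2 * n) => (q.1, (eR n).symm q.2))
        (t, (e.symm.trans (cR A i)) y) := by fun_prop
    have h3 := ContDiffWithinAt.comp (g := fun q : ℝ × Cn n => f q.1 ((A.e i).symm q.2))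
      (t := I ×ˢ univ) (s := I ×ˢ univ) (f := fun q : ℝ × En (2 * n) => (q.1, (eR n).symm q.2))
      (t, (e.symm.trans (cR A i)) y) (by simpa using h1) h2.contDiffWithinAt
      fun q hq => ⟨hq.1, mem_univ _⟩
    refine h3.congr_of_eventuallyEq_of_mem (mem_nhdsWithin_of_mem_nhds ?_) ⟨ht, mem_univ _⟩
    filter_upwards [continuousAt_snd.eventually ((e.symm.trans (cR A i)).open_target.mem_nhds
      ((e.symm.trans (cR A i)).map_source hs))] with q hq
    exact ext0_apply f q.1 hq.2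
  · have h1 : IsClosed (e '' K) :=
      (hK.image_of_continuousOn (e.continuousOn.mono hKe)).isClosed
    have h2 : (N.ch x).symm z ∉ e '' K := by
      rintro ⟨p, hp, h⟩
      exact hy (h ▸ e.map_source (hKe hp))
    have h3 : ∀ᶠ q : ℝ × En (2 * n) in 𝓝 (t, z), (N.ch x).symm q.2 ∉ e '' K :=
      (ContinuousAt.comp (g := (N.ch x).symm) (f := Prod.snd) ((N.ch x).continuousAt_symm hz)
        continuousAt_snd).eventually (h1.isOpen_compl.mem_nhds h2)
    refine (contDiffWithinAt_const (c := (0 : ℝ))).congr_of_eventuallyEq_of_mem ?_ ⟨ht, mem_univ _⟩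
    filter_upwards [mem_nhdsWithin_of_mem_nhds h3, self_mem_nhdsWithin] with q h4 h5
    by_cases h6 : (N.ch x).symm q.2 ∈ e.target
    · rw [ext0, indicator_of_mem h6]
      exact hf.supp _ h5.1 _ fun h7 => h4 ⟨_, h7, e.right_inv h6⟩
    · exact indicator_of_notMem h6 _

theorem cdw_pull (hc : ∀ i, IsChart N.x (e.symm.trans (cR A i))) {w : ℝ → Y → ℝ}
    (hw : SmY N I w) {i : A.ι} {t : ℝ} (ht : t ∈ I) {z : Cn n} (hz : z ∈ dom A i e.source) :
    ContDiffWithinAt ℝ ∞ (fun q : ℝ × Cn n => w q.1 (e ((A.e i).symm q.2))) (I ×ˢ univ) (t, z) := by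
  have h1 : eR n z ∈ (e.symm.trans (cR A i)).target :=
    ⟨mem_cR_target.2 (by simpa using hz.1), by simpa using hz.2⟩
  have h2 : ContDiffAt ℝ ∞ (fun q : ℝ × Cn n => (q.1, eR n q.2)) (t, z) := by fun_prop
  have h3 := ContDiffWithinAt.comp
    (g := fun q : ℝ × En (2 * n) => w q.1 ((e.symm.trans (cR A i)).symm q.2))
    (t := I ×ˢ univ) (s := I ×ˢ univ) (f := fun q : ℝ × Cn n => (q.1, eR n q.2)) (t, z)
    (hw.chart (hc i) ht h1) h2.contDiffWithinAt fun q hq => ⟨hq.1, mem_univ _⟩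
  refine h3.congr (fun q _ => ?_) ?_ <;> simp

theorem cda_pull (hc : ∀ i, IsChart N.x (e.symm.trans (cR A i))) {w : Y → ℝ}
    (hw : N.Sm w) {i : A.ι} {x : M} (hx : x ∈ (A.e i).source) (hxe : x ∈ e.source) :
    ContDiffAt ℝ ∞ (fun z => w (e ((A.e i).symm z))) (A.e i x) := by
  have h1 : eR n (A.e i x) ∈ (e.symm.trans (cR A i)).target :=
    ⟨mem_cR_target.2 (by simpa using (A.e i).map_source hx), by
      simpa [(A.e i).left_inv hx] using hxe⟩
  have h2 := (((hw.chart (hc i)).contDiffAt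
    ((e.symm.trans (cR A i)).open_target.mem_nhds h1)).comp (A.e i x) (eR n).contDiff.contDiffAt)
  refine h2.congr_of_eventuallyEq (Eventually.of_forall fun z => ?_)
  simp

/-- the piece of the operator in a complex chart -/
def pcM (hW : IsOpen W) (heW : e.source ⊆ W) (hc : ∀ i, IsChart N.x (e.symm.trans (cR A i)))
    {g : A.ι → ℝ → Cn n → Matrix (Fin n) (Fin n) ℂ} (hg : HFam A I W g) (i : A.ι) {η : Y → ℝ}
    (h1 : N.Sm η) (h2 : ∀ p, 0 ≤ η p) (h3 : tsupport η ⊆ (e.symm.trans (cR A i)).source) :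
    Pc N I where
  c := e.symm.trans (cR A i)
  hc := hc i
  η := η
  sm := h1
  nn := h2
  supp := h3
  a q := rm (g i q.1 ((eR n).symm q.2))
  sa k l t ht p hp := by
    have h4 : A.e i (e.symm p) ∈ dom A i W :=
      mem_dom (cR_source i ▸ (h3 hp).2) (heW (e.map_target (h3 hp).1))
    have h5 : ContDiffAt ℝ ∞ (fun q : ℝ × En (2 * n) => (q.1, (eR n).symm q.2))
        (t, (e.symm.trans (cR A i)) p) := by fun_prop
    refine cd_rm (G := fun q : ℝ × En (2 * n) => g i q.1 ((eR n).symm q.2)) (fun a b => ?_) ?_ k l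
    · exact ContDiffWithinAt.comp (g := fun q : ℝ × Cn n => g i q.1 q.2 a b)
        (t := I ×ˢ univ) (s := I ×ˢ univ) (f := fun q : ℝ × En (2 * n) => (q.1, (eR n).symm q.2))
        (t, (e.symm.trans (cR A i)) p)
        (by simpa using cdw_univ (isOpen_dom i hW) (hg.sm i a b) ht h4) h5.contDiffWithinAt
        fun q hq => ⟨hq.1, mem_univ _⟩
    · simpa using (hg.pos i t ht _ h4).det_pos.ne'
  pos t ht p hp := by
    have h4 : A.e i (e.symm p) ∈ dom A i W :=
      mem_dom (cR_source i ▸ (h3 hp).2) (heW (e.map_target (h3 hp).1))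
    simpa using rm_pos (hg.pos i t ht _ h4)

theorem pcM_op (hW : IsOpen W) (heW : e.source ⊆ W) (hc : ∀ i, IsChart N.x (e.symm.trans (cR A i)))
    {g : A.ι → ℝ → Cn n → Matrix (Fin n) (Fin n) ℂ} (hg : HFam A I W g) (j : A.ι) {η : Y → ℝ}
    (h1 : N.Sm η) (h2 : ∀ p, 0 ≤ η p) (h3 : tsupport η ⊆ (e.symm.trans (cR A j)).source)
    {t : ℝ} (ht : t ∈ I) {w : Y → ℝ} (hw : N.Sm w) {i : A.ι} {x : M} (hx : x ∈ (A.e i).source)
    (hxe : x ∈ e.source) :
    (pcM hW heW hc hg j h1 h2 h3).op t w (e x) =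
      η (e x) * lap (g i t (A.e i x)) (fun z => w (e ((A.e i).symm z))) (A.e i x) := by
  by_cases h : η (e x) = 0
  · simp [Pc.op, pcM, h]
  have h4 := h3 (subset_tsupport _ h)
  have hj : x ∈ (A.e j).source := by
    have h5 : e.symm (e x) ∈ (cR A j).source := h4.2
    rwa [e.left_inv hxe, cR_source] at h5
  have h6 : (e.symm.trans (cR A j)) (e x) = eR n (A.e j x) := by simp [e.left_inv hxe]
  have h7 : ContDiffAt ℝ ∞ (w ∘ (e.symm.trans (cR A j)).symm) (eR n (A.e j x)) := by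
    rw [← h6]
    exact (hw.chart (hc j)).contDiffAt ((e.symm.trans (cR A j)).open_target.mem_nhds
      ((e.symm.trans (cR A j)).map_source h4))
  rw [lap_tr (u := fun p => w (e p)) hx hj (hg.tr i j t ht x (heW hxe) hx hj)
    (hg.pos i t ht _ (mem_dom hx (heW hxe))).det_pos.ne' (cda_pull hc hw hx hxe)
    (cda_pull hc hw hj hxe)]
  simp only [Pc.op, pcM, h6, ContinuousLinearEquiv.symm_apply_apply]
  rw [← lap_eR _ h7]
  simp

end dbl

/-- **LINEAR SOLVER** -/
theorem linSol (n : ℕ) : LinSolStmt n := by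
  intro M _ _ _ A K W hK hW hKW a b hab g hg
  classical
  rcases K.eq_empty_or_nonempty with rfl | hne
  · exact ⟨∅, isOpen_empty, Subset.rfl, empty_subset _, fun _ _ _ => 0,
      fun f _ => ⟨fun _ => contDiffOn_const, fun _ _ => rfl, fun _ _ _ _ hz => hz.2.elim⟩,
      fun _ _ _ _ _ _ _ _ hx => hx.elim, fun _ _ _ _ _ _ _ _ _ _ hx => hx.elim⟩
  obtain ⟨ι, _, Y, _, _, _, _, N, e, hKe, heW, hc⟩ := exists_dbl A hK hW hKW hne
  obtain ⟨n1, φ, i1, hφ, hφ1, hφK⟩ := N.exists_partition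
    (hK.image_of_continuousOn (e.continuousOn.mono hKe))
    (fun i => (e.symm.trans (cR A i)).source) (fun i => (e.symm.trans (cR A i)).open_source) (by
      rintro _ ⟨x, hx, rfl⟩
      obtain ⟨i, hi⟩ := A.cover x
      refine mem_iUnion.2 ⟨i, e.map_source (hKe hx), ?_⟩
      show e.symm (e x) ∈ (cR A i).source
      rwa [e.left_inv (hKe hx), cR_source])
  obtain ⟨n2, ψ, i2, hψ, -, hψ1⟩ := N.exists_partition isCompact_univ
    (fun y => (N.ch y).source) (fun y => (N.ch y).open_source)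
    fun y _ => mem_iUnion.2 ⟨y, N.mem y⟩
  have hψ2 : ∀ y, ∑ k, ψ k y = 1 := fun y => hψ1.self_of_nhdsSet y (mem_univ y)
  let P : Fin n1 ⊕ Fin n2 → Pc N (Icc a b) := Sum.elim
    (fun k => pcM hW heW hc hg (i1 k) (hφ k).1.sm (hφ k).2.2 (hφ k).2.1)
    fun k =>
      { c := N.ch (i2 k)
        hc := N.isChart _
        η := fun y => (1 - ∑ j, φ j y) * ψ k y
        sm := ((Imm.sm_const 1).sub (Imm.sm_sum _ fun j _ => (hφ j).1.sm)).mul (hψ k).1.sm
        nn := fun y => mul_nonneg (sub_nonneg.2 (hφ1 y)) ((hψ k).2.2 y)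
        supp := (tsupport_mul_subset_right (g := ψ k)).trans (hψ k).2.1
        a := fun _ => 1
        sa := fun _ _ _ _ _ _ => contDiffWithinAt_const
        pos := fun _ _ _ _ => Matrix.PosDef.one }
  have hP : ∀ y, ∃ α, 0 < (P α).η y := fun y => by
    by_contra h
    push Not at h
    have h1 : ∑ j, φ j y = 0 :=
      Finset.sum_eq_zero fun j _ => le_antisymm (h (Sum.inl j)) ((hφ j).2.2 y)
    have h2 : ∑ k, ψ k y ≤ 0 := Finset.sum_nonpos fun k _ => by
      have h3 : (1 - ∑ j, φ j y) * ψ k y ≤ 0 := h (Sum.inr k)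
      rwa [h1, sub_zero, one_mul] at h3
    linarith [hψ2 y]
  have hex : ∀ f : ℝ → M → ℝ, ∃ w, Adm A (Icc a b) K W f → Sol P (ext0 e f) w := fun f => by
    by_cases hf : Adm A (Icc a b) K W f
    · obtain ⟨w, hw⟩ := solve hab P hP (smY_ext0 hK hW hKe heW hc hf)
      exact ⟨w, fun _ => hw⟩
    · exact ⟨fun _ _ => 0, fun h => (hf h).elim⟩
  choose w hw using hex
  have hle : ∀ f f' : ℝ → M → ℝ, (∀ t ∈ Icc a b, ∀ x, x ∉ K → f t x = 0) →
      (∀ t ∈ Icc a b, ∀ x, x ∉ K → f' t x = 0) → ∀ C : ℝ, 0 ≤ C → ∀ t ∈ Icc a b,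
      (∀ s ∈ Icc a t, ∀ x ∈ K, f s x - f' s x ≤ C) →
      ∀ s ∈ Icc a t, ∀ y, ext0 e f s y - ext0 e f' s y ≤ C := by
    intro f f' hf hf' C hC t ht h s hs y
    have hs' : s ∈ Icc a b := ⟨hs.1, hs.2.trans ht.2⟩
    by_cases hy : y ∈ e.target
    · rw [ext0, ext0, indicator_of_mem hy, indicator_of_mem hy]
      by_cases hx : e.symm y ∈ K
      · exact h s hs _ hx
      · rwa [hf s hs' _ hx, hf' s hs' _ hx, sub_zero]
    · rwa [ext0, ext0, indicator_of_notMem hy, indicator_of_notMem hy, sub_zero]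
  have h00 : ext0 e (fun _ _ => 0) = fun _ _ => 0 := by
    funext t y; simp [ext0]
  refine ⟨e.source ∩ e ⁻¹' interior {y | ∑ k, φ k y = 1}, e.isOpen_inter_preimage isOpen_interior,
    fun x hx => ⟨hKe hx, mem_interior_iff_mem_nhds.2
      (hφK.filter_mono (nhds_le_nhdsSet (mem_image_of_mem e hx)))⟩,
    inter_subset_left.trans heW, fun f t x => w f t (e x), fun f hf => ⟨?_, ?_, ?_⟩,
    fun f hf C hC t ht h x _ => ?_, fun f f' hf hf' C hC t ht h x _ => ?_⟩
  · rintro i ⟨t, z⟩ ⟨ht, hz⟩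
    exact (cdw_pull hc (hw f hf).sm ht ⟨hz.1, hz.2.1⟩).mono (prod_mono le_rfl (subset_univ _))
  · exact fun x _ => (hw f hf).init _
  · intro i t ht z hz
    have h1 := (hw f hf).eqn t ht (e ((A.e i).symm z))
    have h2 : ∑ k, φ k (e ((A.e i).symm z)) = 1 :=
      interior_subset (s := {y | ∑ k, φ k y = 1}) hz.2.2
    rw [ext0_apply f t hz.2.1] at h1
    convert h1 using 2
    rw [op, Fintype.sum_sum_type]
    simp only [P, Sum.elim_inl, Sum.elim_inr, pcM_op hW heW hc hg _ _ _ _ ht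
      ((hw f hf).sm.slice ht) ((A.e i).map_target hz.1) hz.2.1, (A.e i).right_inv hz.1]
    simp only [Pc.op, h2, sub_self, zero_mul, Finset.sum_const_zero, add_zero, ← Finset.sum_mul,
      one_mul]
  · have h0 := sol_zero P
    rw [← h00] at h0
    have h1 := (hw f hf).le h0 ht (hle f _ hf.supp (fun _ _ _ _ => rfl) C hC t ht
      fun s hs x hx => by linarith [le_abs_self (f s x), h s hs x hx]) (e x)
    have h2 := h0.le (hw f hf) ht (hle _ f (fun _ _ _ _ => rfl) hf.supp C hC t ht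
      fun s hs x hx => by linarith [neg_abs_le (f s x), h s hs x hx]) (e x)
    rw [h00] at h1 h2
    rw [abs_le]
    constructor <;> linarith
  · exact (hw f hf).le (hw f' hf') ht (hle f f' hf.supp hf'.supp C hC t ht h) (e x)

end Crest.Agent.T223.Db
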