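import Crest.Agent.T223.LxHB3_25

/-!
# Row 223 (helper25): higher order bounds, fully nonlinear equations (`FnHB`)
-/

set_option autoImplicit false
set_option linter.unusedSectionVars false

open Set Metric Filter Topology
open scoped ContDiff

noncomputable section

namespace Crest.Agent.T223.Lx

open Crest.Agent.N207 Crest.Agent.N207.P

variable {n : ℕ}

theorem split_eH {P : Type} [NormedAddCommGroup P] [NormedSpace ℝ P]
    (x : P × (Fin n → Fin n → ℝ)) :
    x = ∑ k, ∑ l, x.2 k l • ((0 : P), eH k l) + (x.1, 0) := by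
  refine Prod.ext ?_ ?_
  · simp [Prod.fst_sum]
  · funext k l
    simp [Prod.snd_sum, Finset.sum_apply, eH, Pi.single_apply]

theorem Semi.fn {a0 : Matrix (Fin n) (Fin n) ℝ} {δ : ℝ} (hS : Semi ℝ a0 δ)
    {P : Type} [NormedAddCommGroup P] [NormedSpace ℝ P] {ι : Type}
    {O K0 : Set (P × (Fin n → Fin n → ℝ))} {F : P × (Fin n → Fin n → ℝ) → ℝ}
    {R : ℝ} {α β : ι → ℝ} {Z : ι → ℝ → En n → P} {v : ι → ℝ → En n → ℝ}
    (hO : IsOpen O) (hK : IsCompact K0) (hKO : K0 ⊆ O) (hF : ContDiffOn ℝ ∞ F O)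
    (cl : ∀ q ∈ K0, ∀ k l, |fderiv ℝ F q (0, eH k l) - a0 k l| ≤ δ)
    (lt : ∀ i, α i < β i) (len : ∀ i, β i - α i ≤ 1)
    (vy : ∀ i j, Yl (Icc (α i) (β i)) (ball 0 R) j (v i))
    (zy : ∀ i j, Yl (Icc (α i) (β i)) (ball 0 R) j (Z i))
    (init : ∀ i, ∀ y ∈ ball (0 : En n) R, v i (α i) y = 0)
    (ev : ∀ i, X.Ev (Icc (α i) (β i)) (ball 0 R) (v i) (fun t y => F (Z i t y, d2 (v i t) y)))
    (mem : ∀ i, ∀ t ∈ Icc (α i) (β i), ∀ y ∈ ball (0 : En n) R, (Z i t y, d2 (v i t) y) ∈ K0)
    (hv : UBt (fun i => Icc (α i) (β i)) R 2 v) : ∀ (m : ℕ) {r : ℝ}, r < R →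
    UBt (fun i => Icc (α i) (β i)) R m Z → UBt (fun i => Icc (α i) (β i)) r (m + 2) v := by
  have hU : IsOpen (ball (0 : En n) R) := isOpen_ball
  have hG : ContDiffOn ℝ ∞ (fderiv ℝ F) O := hF.fderiv_of_isOpen hO (by simp)
  have qy : ∀ i j, Yl (Icc (α i) (β i)) (ball 0 R) j (fun t y => (Z i t y, d2 (v i t) y)) :=
    fun i j => (zy i j).prod hU (yl_d2 hU (vy i (j + 2)))
  have gy : ∀ i j, Yl (Icc (α i) (β i)) (ball 0 R) j
      (fun t y => fderiv ℝ F (Z i t y, d2 (v i t) y)) := fun i j =>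
    yl_comp (lt i) hU hO hG (qy i j) fun t ht y hy => hKO (mem i t ht y hy)
  intro m
  induction m with
  | zero => exact fun hr _ => UB.mono hr.le hv
  | succ m ih =>
    intro r hr hZ
    have h1 := ih (r := (r + R) / 2) (by linarith) (UB.pred hZ)
    have hR1 : (r + R) / 2 ≤ R := by linarith
    have hb : ball (0 : En n) ((r + R) / 2) ⊆ ball 0 R := ball_subset_ball hR1
    have hb' : ball (0 : En n) r ⊆ ball 0 R := ball_subset_ball hr.le
    have gb : UBt (fun i => Icc (α i) (β i)) ((r + R) / 2) m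
        (fun i t y => fderiv ℝ F (Z i t y, d2 (v i t) y)) :=
      UB.comp hO hK hKO (fun p y hy => mem _ _ p.2 y (hb hy)) hG
        ((UB.mono hR1 (UB.pred hZ)).prod (UB.d2 h1))
    obtain ⟨K, hK'⟩ := UB.bdd hv
    refine ub_succ (fun p y hy => hK' p y (hb' hy)) (fun p y hy => (vy _ 1).diff p.2 (hb' hy))
      fun j => ?_
    have hL : LinF a0 δ ((r + R) / 2) m α β
        (fun i t y => Matrix.of fun k l => fderiv ℝ F (Z i t y, d2 (v i t) y) (0, eH k l))
        (fun i t y => fderiv ℝ F (Z i t y, d2 (v i t) y) (pd j (Z i t) y, 0))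
        (fun i t => pd j (v i t)) :=
      { lt := lt
        len := len
        uy := fun i => ((vy i _).pd j).mono subset_rfl hb
        ay := fun i k l => ((gy i m).clm hU
          (ContinuousLinearMap.apply ℝ ℝ ((0 : P), eH k l))).mono subset_rfl hb
        fy := fun i => (Yl.bilin isCompact_Icc hU (ContinuousLinearMap.id ℝ _) (gy i m)
          (((zy i (m + 1)).pd j).clm hU (ContinuousLinearMap.inl ℝ P _))).mono subset_rfl hb
        ev := fun i t ht y hy' => by
          have hy := hb hy'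
          have h2 := ev_pd hU (ev i) (vy i 1).2.1
            (yl_comp (lt i) hU hO hF (qy i 1) fun t ht y hy => hKO (mem i t ht y hy)) j t ht y hy
          refine h2.congr_deriv ?_
          have dq := (qy i 1).diff ht hy
          have h3 : pd j (fun y => F (Z i t y, d2 (v i t) y)) y =
              fderiv ℝ F (Z i t y, d2 (v i t) y) (pd j (fun y => (Z i t y, d2 (v i t) y)) y) := by
            have := (((hF.contDiffAt (hO.mem_nhds (hKO (mem i t ht y hy)))).differentiableAt
              (by simp)).hasFDerivAt.comp y dq.hasFDerivAt).fderiv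
            exact congrArg (fun L => L (EuclideanSpace.single j 1)) this
          have h4 : (pd j (fun y => (Z i t y, d2 (v i t) y)) y).1 = pd j (Z i t) y :=
            (pd_clm (ContinuousLinearMap.fst ℝ P _) dq j).symm
          have h5 : ∀ k l, (pd j (fun y => (Z i t y, d2 (v i t) y)) y).2 k l =
              pd k (pd l (pd j (v i t))) y := fun k l =>
            (pd_clm ((ContinuousLinearMap.proj l).comp ((ContinuousLinearMap.proj k).comp
              (ContinuousLinearMap.snd ℝ P (Fin n → Fin n → ℝ)))) dq j).symm.trans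
              (pd3_comm hU (vy i 3) ht hy (vy i 2) j k l)
          beta_reduce
          rw [h3, split_eH (pd j _ y), map_add, h4]
          simp only [map_sum, map_smul, h5, Lop, Matrix.of_apply, smul_eq_mul, mul_comm]
        cl := fun i t ht y hy => cl _ (mem i t ht y (hb hy))
        ab := fun k l => UB.clm (ContinuousLinearMap.apply ℝ ℝ ((0 : P), eH k l)) gb
        fb := UB.clm_apply gb ((UB.mono hR1 (UB.pd hZ j)).prod (ub_const' 0)) }
    refine hS.core0 m (by linarith) hL (fun i y hy => ?_) ?_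
    · rw [pd_congr (ev_of_ball (f := fun _ => 0) (init i) (hb hy)), pd_const']
    · obtain ⟨K1, hK1⟩ := (UB.pd h1 j).bdd
      exact ⟨K1, fun i t ht => hK1 ⟨(i, t), ht⟩⟩

theorem fnHB (h : ISStep n ℝ) (hI : IntStmt n ℝ) : FnHB n := by
  intro a0 ha0
  obtain ⟨δ, hδ, hS⟩ := semi h hI ha0
  exact ⟨δ, hδ, fun P _ _ ι O K0 F R r m α β Z v _ hr hO hK hKO hF cl lt len vy zy init ev mem
    hZ hv => hS.fn hO hK hKO hF cl lt len vy zy init ev mem hv m hr hZ⟩

end Crest.Agent.T223.Lx
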