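import Crest.Agent.T223.LxInt_83

/-!
# Row 223 (helper83): limits in the weighted norms
-/

set_option autoImplicit false
set_option linter.unusedSectionVars false

open Set Metric Filter Topology
open scoped ContDiff

noncomputable section

namespace Crest.Agent.T223.Lx

open Crest.Agent.N207 Crest.Agent.N207.P

variable {n : ℕ} {V : Type*} [NormedAddCommGroup V] [NormedSpace ℝ V]
  {I : Set ℝ} {S : Set (En n)} {M : ℝ}

/-- geometric convergence in the weighted sup norm -/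
def Cv (I : Set ℝ) (S : Set (En n)) (M : ℝ) (g : ℕ → ℝ → En n → V) (h : ℝ → En n → V) : Prop :=
  ∀ k, ∀ t ∈ I, WS S (M * (1 / 2) ^ k) (fun y => g k t y - h t y)

theorem WS.le {A s : ℝ} {g : En n → V} (h : WS S A g) {y : En n} (hy : Dp S s y) :
    ‖g y‖ ≤ A / (s ^ 2 * √s) := by
  have hs := hy.1
  have hq : 0 < √s := Real.sqrt_pos.2 hs
  rw [le_div_iff₀' (by positivity)]
  exact h s y hy

theorem WS.congr {A : ℝ} {g g' : En n → V} (h : WS S A g) (e : ∀ y ∈ S, g' y = g y) :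
    WS S A g' := fun s y hy => by rw [e y hy.mem]; exact h s y hy

theorem WH.congr {A : ℝ} {g g' : En n → V} (h : WH S A g) (e : ∀ y ∈ S, g' y = g y) :
    WH S A g' := fun s y y' hy hy' => by rw [e y hy.mem, e y' hy'.mem]; exact h s y y' hy hy'

theorem WS.of_le {W : Type*} [NormedAddCommGroup W] {A : ℝ} {g : En n → V} {g' : En n → W}
    (h : WS S A g) (e : ∀ y ∈ S, ‖g' y‖ ≤ ‖g y‖) : WS S A g' := fun s y hy =>
  le_trans (mul_le_mul_of_nonneg_left (e y hy.mem) (by positivity)) (h s y hy)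

theorem cv_lim [CompleteSpace V] {g : ℕ → ℝ → En n → V}
    (h : ∀ k, ∀ t ∈ I, WS S (M * (1 / 2) ^ k) (fun y => g (k + 1) t y - g k t y)) :
    Cv I S (2 * M) g (fun t y => limUnder atTop fun k => g k t y) := by
  intro k t ht s y hy
  have hs := hy.1
  have hq : 0 < √s := Real.sqrt_pos.2 hs
  have h1 : ∀ j, dist (g j t y) (g (j + 1) t y) ≤ 2 * M / (s ^ 2 * √s) / 2 / 2 ^ j := fun j => by
    rw [dist_comm, dist_eq_norm]
    refine ((h j t ht).le hy).trans (le_of_eq ?_)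
    rw [one_div, inv_pow]; field_simp
  have h2 := dist_le_of_le_geometric_two_of_tendsto h1
    (cauchySeq_of_le_geometric_two h1).tendsto_limUnder k
  rw [dist_eq_norm] at h2
  refine (mul_le_mul_of_nonneg_left h2 (by positivity)).trans (le_of_eq ?_)
  rw [one_div, inv_pow]; field_simp

theorem tend_geo (c : ℝ) : Tendsto (fun k : ℕ => c * (1 / 2 : ℝ) ^ k) atTop (𝓝 0) := by
  simpa using (tendsto_pow_atTop_nhds_zero_of_lt_one (r := (1 / 2 : ℝ)) (by norm_num)
    (by norm_num)).const_mul c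

theorem Cv.unif {g : ℕ → ℝ → En n → V} {h : ℝ → En n → V} (H : Cv I S M g h) {s : ℝ} {y : En n}
    (hy : Dp S s y) : TendstoUniformlyOn (fun k (q : ℝ × En n) => g k q.1 q.2)
      (fun q => h q.1 q.2) atTop (I ×ˢ ball y (s / 2)) := by
  refine Metric.tendstoUniformlyOn_iff.2 fun ε hε => ?_
  filter_upwards [(tend_geo (8 * M / (s ^ 2 * √s))).eventually (gt_mem_nhds hε)] with k hk q hq
  rw [dist_comm, dist_eq_norm]
  refine lt_of_le_of_lt (((H k q.1 hq.1).half hy hq.2).trans (le_of_eq ?_)) hk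
  ring

theorem Cv.unif' {g : ℕ → ℝ → En n → V} {h : ℝ → En n → V} (H : Cv I S M g h) {s t : ℝ}
    (ht : t ∈ I) {y : En n} (hy : Dp S s y) :
    TendstoUniformlyOn (fun k => g k t) (h t) atTop (ball y (s / 2)) :=
  ((H.unif hy).comp (fun z => (t, z))).mono fun _ hz => ⟨ht, hz⟩

theorem Cv.tendsto (hS : IsOpen S) {g : ℕ → ℝ → En n → V} {h : ℝ → En n → V} (H : Cv I S M g h)
    {t : ℝ} (ht : t ∈ I) {y : En n} (hy : y ∈ S) : Tendsto (fun k => g k t y) atTop (𝓝 (h t y)) := by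
  obtain ⟨s, hs⟩ := exists_dp hS hy
  exact (H.unif' ht hs).tendsto_at (mem_ball_self (half_pos hs.1))

theorem Cv.cont (hS : IsOpen S) {g : ℕ → ℝ → En n → V} {h : ℝ → En n → V} (H : Cv I S M g h)
    (hc : ∀ k, ContinuousOn (fun q : ℝ × En n => g k q.1 q.2) (I ×ˢ S)) :
    ContinuousOn (fun q : ℝ × En n => h q.1 q.2) (I ×ˢ S) := by
  rintro ⟨t, y⟩ hq
  obtain ⟨s, hs⟩ := exists_dp hS hq.2
  have sub : ball y (s / 2) ⊆ S := fun z hz => (hs.half hz).mem
  have := (H.unif hs).continuousOn (Frequently.of_forall fun k =>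
    (hc k).mono (prod_mono Subset.rfl sub))
  refine (this (t, y) ⟨hq.1, mem_ball_self (half_pos hs.1)⟩).mono_of_mem_nhdsWithin ?_
  rw [nhdsWithin_prod_eq]
  exact prod_mem_prod self_mem_nhdsWithin
    (mem_nhdsWithin_of_mem_nhds (ball_mem_nhds _ (half_pos hs.1)))

/-- the derivative from its partial derivatives -/
def asm (n : ℕ) (V : Type*) [NormedAddCommGroup V] [NormedSpace ℝ V] :
    (Fin n → V) →L[ℝ] En n →L[ℝ] V :=
  ∑ k, (ContinuousLinearMap.smulRightL ℝ (En n) V (EuclideanSpace.proj k)).comp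
    (ContinuousLinearMap.proj k)

theorem fderiv_asm (g : En n → V) (y : En n) : fderiv ℝ g y = asm n V (d1 g y) := by
  ext v; simp [fderiv_eq_sum_pd, asm, d1]

theorem asm_ee (p : Fin n → V) (k : Fin n) : asm n V p (ee k) = p k := by
  simp [asm, ee]

theorem Cv.deriv (hS : IsOpen S) {M' : ℝ} {g : ℕ → ℝ → En n → V} {h : ℝ → En n → V}
    {p : ℝ → En n → Fin n → V} (H : Cv I S M g h) (H' : Cv I S M' (fun k t => d1 (g k t)) p)
    (hd : ∀ k, ∀ t ∈ I, ∀ y ∈ S, DifferentiableAt ℝ (g k t) y) {t : ℝ} (ht : t ∈ I) {y : En n}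
    (hy : y ∈ S) : DifferentiableAt ℝ (h t) y ∧ d1 (h t) y = p t y := by
  obtain ⟨s, hs⟩ := exists_dp hS hy
  have sub : ball y (s / 2) ⊆ S := fun z hz => (hs.half hz).mem
  have h1 : HasFDerivAt (h t) (asm n V (p t y)) y :=
    hasFDerivAt_of_tendstoUniformlyOn (f := fun k => g k t) (f' := fun k z => asm n V (d1 (g k t) z))
      (g' := fun z => asm n V (p t z)) isOpen_ball
      ((asm n V).uniformContinuous.comp_tendstoUniformlyOn (H'.unif' ht hs))
      (fun k z hz => by rw [← fderiv_asm]; exact (hd k t ht z (sub hz)).hasFDerivAt)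
      (fun z hz => H.tendsto hS ht (sub hz)) (mem_ball_self (half_pos hs.1))
  refine ⟨h1.differentiableAt, funext fun k => ?_⟩
  simp only [d1, pd, h1.fderiv]
  exact asm_ee _ k

theorem wh_lim (hS : IsOpen S) {N t : ℝ} {g : ℕ → ℝ → En n → V} {h : ℝ → En n → V}
    (H : Cv I S M g h) (ht : t ∈ I) (hN : ∀ k, WH S N (g k t)) : WH S N (h t) :=
  fun s y y' hy hy' => le_of_tendsto' ((((H.tendsto hS ht hy.mem).sub
    (H.tendsto hS ht hy'.mem)).norm).const_mul (s ^ 3)) fun k => hN k s y y' hy hy'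

theorem ws_lim (hS : IsOpen S) {N t : ℝ} {g : ℕ → ℝ → En n → V} {h : ℝ → En n → V}
    (H : Cv I S M g h) (ht : t ∈ I) (hN : ∀ k, WS S N (g k t)) : WS S N (h t) :=
  fun s y hy => le_of_tendsto' ((H.tendsto hS ht hy.mem).norm.const_mul (s ^ 2 * √s))
    fun k => hN k s y hy

theorem yl_zero_of_wh (hS : IsOpen S) {N : ℝ} {h : ℝ → En n → V}
    (hc : ContinuousOn (fun q : ℝ × En n => h q.1 q.2) (I ×ˢ S)) (hN : ∀ t ∈ I, WH S N (h t)) :
    Yl I S 0 h := by
  refine ⟨hc, fun y hy => ?_⟩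
  obtain ⟨s, hs⟩ := exists_dp hS hy
  exact ⟨s / 2, half_pos hs.1, _, fun t ht z hz z' hz' => (hN t ht).half hs hz hz'⟩

theorem d1_sub {U : Set (En n)} {p q : ℝ → En n → V} (hp : Yl I U 2 p) (hq : Yl I U 2 q)
    {t : ℝ} (ht : t ∈ I) {y : En n} (hy : y ∈ U) :
    d1 (fun z => p t z - q t z) y = d1 (p t) y - d1 (q t) y :=
  funext fun k => pd_sub' (hp.diff ht hy) (hq.diff ht hy) k

theorem d2_sub {U : Set (En n)} (hU : IsOpen U) {p q : ℝ → En n → V} (hp : Yl I U 2 p)
    (hq : Yl I U 2 q) {t : ℝ} (ht : t ∈ I) {y : En n} (hy : y ∈ U) :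
    d2 (fun z => p t z - q t z) y = d2 (p t) y - d2 (q t) y :=
  funext fun k => funext fun l => pd_pd_sub hU hp hq ht hy k l

theorem yl_d1 {U : Set (En n)} (hU : IsOpen U) {m : ℕ} {w : ℝ → En n → V}
    (h : Yl I U (m + 1) w) : Yl I U m (fun t => d1 (w t)) :=
  Yl.pi hU (f := fun k t y => pd k (w t) y) fun k => h.pd k

/-- the limit of a geometrically converging sequence in the weighted `C²` norm -/
theorem c2_lim [CompleteSpace V] (hS : IsOpen S) {N : ℝ} {g : ℕ → ℝ → En n → V}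
    (hg : ∀ k, Yl I S 2 (g k))
    (h0 : ∀ k, ∀ t ∈ I, WS S (M * (1 / 2) ^ k) (fun y => g (k + 1) t y - g k t y))
    (h1 : ∀ k, ∀ t ∈ I, WS S (M * (1 / 2) ^ k) (d1 fun y => g (k + 1) t y - g k t y))
    (h2 : ∀ k, ∀ t ∈ I, WS S (M * (1 / 2) ^ k) (d2 fun y => g (k + 1) t y - g k t y))
    (hN : ∀ k, ∀ t ∈ I, WH S N (d2 (g k t))) {v : ℝ → En n → V}
    (hv : v = fun t y => limUnder atTop fun k => g k t y) :
    Yl I S 2 v ∧ Cv I S (2 * M) g v ∧ Cv I S (2 * M) (fun k t => d1 (g k t)) (fun t => d1 (v t)) ∧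
      Cv I S (2 * M) (fun k t => d2 (g k t)) (fun t => d2 (v t)) := by
  have c0 : Cv I S (2 * M) g v := hv ▸ cv_lim h0
  have c1 := cv_lim (g := fun k t => d1 (g k t)) fun k t ht =>
    (h1 k t ht).congr fun y hy => (d1_sub (hg _) (hg _) ht hy).symm
  have c2 := cv_lim (g := fun k t => d2 (g k t)) fun k t ht =>
    (h2 k t ht).congr fun y hy => (d2_sub hS (hg _) (hg _) ht hy).symm
  have e1 := fun t ht y hy => c0.deriv hS c1 (fun k t ht y hy => (hg k).diff ht hy) (t := t) ht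
    (y := y) hy
  have c1' : Cv I S (2 * M) (fun k t => d1 (g k t)) (fun t => d1 (v t)) := fun k t ht =>
    (c1 k t ht).congr fun y hy => by simp only [(e1 t ht y hy).2]
  have c1l : ∀ l, Cv I S (2 * M) (fun k t => pd l (g k t)) (fun t => pd l (v t)) := fun l k t ht =>
    (c1' k t ht).of_le fun y _ => norm_le_pi_norm (d1 (g k t) y - d1 (v t) y) l
  have e2 := fun l t ht y hy => (c1l l).deriv hS (M' := 2 * M)
    (p := fun t y j => (limUnder atTop fun k => d2 (g k t) y) j l)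
    (fun k t ht => (c2 k t ht).of_le fun y _ => (pi_norm_le_iff_of_nonneg (norm_nonneg _)).2
      fun j => app2_le (d2 (g k t) y - limUnder atTop fun k => d2 (g k t) y) j l)
    (fun k t ht y hy => ((hg k).pd l).diff ht hy) (t := t) ht (y := y) hy
  have c2' : Cv I S (2 * M) (fun k t => d2 (g k t)) (fun t => d2 (v t)) := fun k t ht =>
    (c2 k t ht).congr fun y hy => by
      congr 1
      exact funext fun j => funext fun l => congrFun (e2 l t ht y hy).2 j
  have y2 : Yl I S 0 (fun t => d2 (v t)) := yl_zero_of_wh hS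
    (c2'.cont hS fun k => (yl_d2 hS (hg k)).cont) fun t ht => wh_lim hS c2' ht fun k => hN k t ht
  refine ⟨⟨c0.cont hS fun k => (hg k).cont, fun t ht y hy => (e1 t ht y hy).1, fun l =>
    ⟨(c1l l).cont hS fun k => ((hg k).pd l).cont, fun t ht y hy => (e2 l t ht y hy).1, fun j =>
      y2.clm hS ((ContinuousLinearMap.proj l).comp
        (ContinuousLinearMap.proj (R := ℝ) (φ := fun _ : Fin n => Fin n → V) j))⟩⟩, c0, c1', c2'⟩

/-- limits of time derivatives -/
theorem deriv_lim [CompleteSpace V] {α β c : ℝ} {f r : ℕ → ℝ → V} {f0 r0 : ℝ → V}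
    (hd : ∀ k, ∀ t ∈ Icc α β, HasDerivWithinAt (f k) (r k t) (Icc α β) t)
    (hc : ∀ k, ContinuousOn (r k) (Icc α β))
    (hf : ∀ t ∈ Icc α β, Tendsto (fun k => f k t) atTop (𝓝 (f0 t)))
    (hr : ∀ k, ∀ t ∈ Icc α β, ‖r k t - r0 t‖ ≤ c * (1 / 2) ^ k) {t : ℝ} (ht : t ∈ Icc α β) :
    HasDerivWithinAt f0 (r0 t) (Icc α β) t := by
  have hu : TendstoUniformlyOn r r0 atTop (Icc α β) := by
    refine Metric.tendstoUniformlyOn_iff.2 fun ε hε => ?_
    filter_upwards [(tend_geo c).eventually (gt_mem_nhds hε)] with k hk s hs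
    rw [dist_comm, dist_eq_norm]
    exact lt_of_le_of_lt (hr k s hs) hk
  have h0 : ContinuousOn r0 (Icc α β) := hu.continuousOn (Frequently.of_forall hc)
  refine X.hasDerivWithinAt_of_int h0 (fun s hs => ?_) ht
  have sub : Icc α s ⊆ Icc α β := Icc_subset_Icc_right hs.2
  have h1 : ∀ k, f k s = f k α + ∫ x in α..s, r k x := fun k =>
    X.int_of_off_countable (fun x hx => (hd k x hx).continuousWithinAt) (hc k) countable_empty
      (fun x hx => (hd k x (Ioo_subset_Icc_self hx.1)).hasDerivAt (Icc_mem_nhds hx.1.1 hx.1.2)) hs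
  have h2 : Tendsto (fun k => ∫ x in α..s, r k x) atTop (𝓝 (∫ x in α..s, r0 x)) := by
    rw [tendsto_iff_norm_sub_tendsto_zero]
    refine squeeze_zero (fun _ => norm_nonneg _) (fun k => ?_) (tend_geo (c * |s - α|))
    rw [← intervalIntegral.integral_sub (((hc k).mono sub).intervalIntegrable_of_Icc hs.1)
      ((h0.mono sub).intervalIntegrable_of_Icc hs.1)]
    refine (intervalIntegral.norm_integral_le_of_norm_le_const (C := c * (1 / 2) ^ k)
      fun x hx => hr k x ?_).trans (le_of_eq (by ring))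
    rw [uIoc_of_le hs.1] at hx
    exact ⟨hx.1.le, hx.2.trans hs.2⟩
  refine tendsto_nhds_unique (hf s hs) ?_
  simp only [h1]
  exact (hf α ⟨le_rfl, hs.1.trans hs.2⟩).add h2

theorem lop_sub_le {a : Matrix (Fin n) (Fin n) ℝ} {c : ℝ} (ha : ∀ k l, |a k l| ≤ c)
    (w w' : En n → V) (y : En n) :
    ‖Lop a w y - Lop a w' y‖ ≤ n * (n * c) * ‖d2 w y - d2 w' y‖ := by
  simp only [Lop, ← Finset.sum_sub_distrib, ← smul_sub]
  calc _ ≤ ∑ _k : Fin n, ∑ _l : Fin n, c * ‖d2 w y - d2 w' y‖ :=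
        norm_sum_le_of_le _ fun k _ => norm_sum_le_of_le _ fun l _ => by
          rw [norm_smul]
          exact mul_le_mul (ha k l) (pd_sub_le_d2 w w' y y k l) (norm_nonneg _)
            ((abs_nonneg _).trans (ha k l))
    _ = _ := by simp; ring

end Crest.Agent.T223.Lx
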