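import Crest.Agent.T223.LxIS_83
import Crest.Agent.T223.LxLim_83

/-!
# Row 223 (helper83): the Picard iteration in quasi-charts
-/

set_option autoImplicit false
set_option linter.unusedSectionVars false

open Set Metric Filter Topology
open scoped ContDiff

noncomputable section

namespace Crest.Agent.T223.Lx

open Crest.Agent.N207 Crest.Agent.N207.P

variable {n : ℕ} {X Z : Type} [NormedAddCommGroup Z] [NormedSpace ℝ Z]
  {a0 : Matrix (Fin n) (Fin n) ℝ} {δ K ε ρ α β : ℝ} {W : Set X} {ψ : X → En n → X}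
  {P : (Fin n → Fin n → ℝ) →L[ℝ] Z} {Sm Ad : (ℝ → X → ℝ) → Prop}
  {S Nl : (ℝ → X → ℝ) → ℝ → X → ℝ} {a : X → ℝ → En n → Matrix (Fin n) (Fin n) ℝ}
  {ζ : X → En n → ℝ} {Φ : X → ℝ → En n → Z → ℝ}

/-- the bounds carried along the iteration -/
structure Bd (α β : ℝ) (W : Set X) (ψ : X → En n → X) (N σ B : ℝ) (u : ℝ → X → ℝ) : Prop where
  wh : ∀ x ∈ W, ∀ t ∈ Icc α β, WH (ball 0 1) N (d2 fun z => u t (ψ x z))
  s2 : ∀ x ∈ W, ∀ t ∈ Icc α β, WS (ball 0 1) σ (d2 fun z => u t (ψ x z))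
  s1 : ∀ x ∈ W, ∀ t ∈ Icc α β, WS (ball 0 1) σ (d1 fun z => u t (ψ x z))
  sup : ∀ x ∈ W, ∀ t ∈ Icc α β, ∀ y ∈ ball (0 : En n) 1, |u t (ψ x y)| ≤ B

theorem Bd.mono {N σ B N' σ' B' : ℝ} {u : ℝ → X → ℝ} (h : Bd α β W ψ N σ B u) (h1 : N ≤ N')
    (h2 : σ ≤ σ') (h3 : B ≤ B') : Bd α β W ψ N' σ' B' u :=
  ⟨fun x hx t ht => (h.wh x hx t ht).mono h1, fun x hx t ht => (h.s2 x hx t ht).mono h2,
    fun x hx t ht => (h.s1 x hx t ht).mono h2, fun x hx t ht y hy => (h.sup x hx t ht y hy).trans h3⟩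

theorem Bd.ctr {N σ B : ℝ} {u : ℝ → X → ℝ} (h : Bd α β W ψ N σ B u) {x : X} (hx : x ∈ W) {t : ℝ}
    (ht : t ∈ Icc α β) : ‖d2 (fun z => u t (ψ x z)) 0‖ ≤ σ := by
  simpa using h.s2 x hx t ht 1 0 ⟨one_pos, le_rfl, Subset.rfl⟩

theorem d1_zero (y : En n) : d1 (fun _ => (0 : ℝ)) y = 0 := funext fun k => pd_const' _ _ k

theorem d2_zero (y : En n) : d2 (fun _ => (0 : ℝ)) y = 0 := by
  funext k l
  have : pd l (fun _ : En n => (0 : ℝ)) = fun _ => 0 := funext fun z => pd_const' _ z l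
  simp [d2, this, pd_const']

theorem bd_zero : Bd α β W ψ 0 0 0 (0 : ℝ → X → ℝ) :=
  ⟨fun _ _ _ _ => wh_of_le fun _ _ _ _ => by simp [d2_zero],
    fun _ _ _ _ => ws_of_le fun _ _ => by simp [d2_zero],
    fun _ _ _ _ => ws_of_le fun _ _ => by simp [d1_zero], fun _ _ _ _ _ _ => by simp⟩

theorem b12 : ball (0 : En n) 1 ⊆ ball 0 2 := ball_subset_ball one_le_two

namespace PicD

variable (h : PicD a0 δ K ε ρ α β W ψ P Sm Ad S Nl a ζ Φ)
include h

theorem y1 {u : ℝ → X → ℝ} (hu : Sm u) {x : X} (hx : x ∈ W) :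
    Yl (Icc α β) (ball 0 1) 2 (fun t y => u t (ψ x y)) := (h.smY u hu x hx).mono Subset.rfl b12

theorem pb (hK : 1 ≤ K) {N σ B : ℝ} {u : ℝ → X → ℝ} (hu : Sm u) (hb : Bd α β W ψ N σ B u)
    (hσ : K * σ ≤ ρ) {x : X} (hx : x ∈ W) {t : ℝ} (ht : t ∈ Icc α β) {y : En n}
    (hy : y ∈ ball (0 : En n) 1) (hW : ψ x y ∈ W) : ‖P (d2 (fun z => u t (ψ x z)) y)‖ ≤ ρ := by
  have := h.cmp u 0 hu h.sm0 t ht x hx y hy hW
  simp only [Pi.zero_apply, sub_zero] at this
  exact this.trans ((mul_le_mul_of_nonneg_left (hb.ctr hW ht) (by linarith)).trans hσ)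

theorem adm (hK : 1 ≤ K) {N σ B : ℝ} {u : ℝ → X → ℝ} (hu : Sm u) (hb : Bd α β W ψ N σ B u)
    (hσ : K * σ ≤ ρ) : Ad (Nl u) :=
  h.nlA u hu fun _ ht _ hx => (hb.ctr hx ht).trans ((le_div_iff₀' (by linarith)).2 hσ)

/-- the Nemytskii estimate for differences -/
theorem nem (hK : 1 ≤ K) (hε : 0 ≤ ε) {N σ B D s' B' : ℝ} {u u' : ℝ → X → ℝ} (hu : Sm u)
    (hu' : Sm u') (hb : Bd α β W ψ N σ B u) (hb' : Bd α β W ψ N σ B u') (hσ : K * σ ≤ ρ)
    (hN : 0 ≤ N) (hD : 0 ≤ D) (hs' : 0 ≤ s') (hd : Bd α β W ψ D s' B' fun t p => u t p - u' t p)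
    {x : X} (hx : x ∈ W) {t : ℝ} (ht : t ∈ Icc α β) :
    (∀ y ∈ ball (0 : En n) 1, |Nl u t (ψ x y) - Nl u' t (ψ x y)| ≤ K ^ 2 * s') ∧
      WH (ball 0 1) (ε * K * D + (K ^ 3 + K ^ 2 * (1 + 2 * K * N)) * s')
        (fun y => Nl u t (ψ x y) - Nl u' t (ψ x y)) := by
  have K0 : 0 ≤ K := by linarith
  set z : En n → Z := fun y => P (d2 (fun z => u t (ψ x z)) y) with hz
  set e : En n → Z := fun y => P (d2 (fun z => u' t (ψ x z)) y) with he
  set Δ : En n → ℝ := fun y => Φ x t y (z y) - Φ x t y (e y) with hΔ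
  have E : ∀ y ∈ ball (0 : En n) 1, Nl u t (ψ x y) - Nl u' t (ψ x y) = ζ x y * Δ y := fun y hy => by
    rw [h.nlE u hu t ht x hx y hy, h.nlE u' hu' t ht x hx y hy, ← mul_sub]
  have ze : ∀ y ∈ ball (0 : En n) 1,
      z y - e y = P (d2 (fun z => u t (ψ x z) - u' t (ψ x z)) y) := fun y hy => by
    rw [d2_sub isOpen_ball (h.y1 hu hx) (h.y1 hu' hx) ht hy, map_sub]
  have zb := fun y hy hW => h.pb hK hu hb hσ hx ht (y := y) hy hW
  have eb := fun y hy hW => h.pb hK hu' hb' hσ hx ht (y := y) hy hW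
  have ze1 : ∀ y ∈ ball (0 : En n) 1, ψ x y ∈ W → ‖z y - e y‖ ≤ K * s' := fun y hy hW => by
    rw [ze y hy]
    exact (h.cmp u u' hu hu' t ht x hx y hy hW).trans
      (mul_le_mul_of_nonneg_left (hd.ctr hW ht) K0)
  have Δb : ∀ y ∈ ball (0 : En n) 1, ψ x y ∈ W → |Δ y| ≤ K ^ 2 * s' := fun y hy hW =>
    (h.lip x hx t ht y hy _ _ (zb y hy hW) (eb y hy hW)).trans
      ((mul_le_mul_of_nonneg_left (ze1 y hy hW) K0).trans (le_of_eq (by ring)))
  have Pl : ∀ {c s : ℝ} {g : En n → Fin n → Fin n → ℝ} {y y' : En n}, 0 < s →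
      s ^ 3 * ‖g y - g y'‖ ≤ c * √(dist y y') →
      s ^ 3 * ‖P (g y) - P (g y')‖ ≤ K * (c * √(dist y y')) := fun {c s g y y'} hs hg => by
    rw [← map_sub]
    calc _ ≤ s ^ 3 * (K * ‖g y - g y'‖) := by
          gcongr; exact (P.le_opNorm _).trans (by gcongr; exact h.nP)
      _ ≤ _ := by rw [mul_left_comm]; gcongr
  have off : ∀ y ∈ ball (0 : En n) 1, ∀ y' ∈ ball (0 : En n) 1, ψ x y ∉ W →
      |ζ x y * Δ y - ζ x y' * Δ y'| ≤ K ^ 3 * s' * √(dist y y') := by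
    intro y hy y' hy' hW
    by_cases hW' : ψ x y' ∈ W
    · have h1 := h.zL x hx y hy y' hy'
      rw [h.z0 x hx y hy hW] at h1 ⊢
      rw [zero_sub, abs_neg] at h1
      rw [zero_mul, zero_sub, abs_neg, abs_mul]
      exact (mul_le_mul h1 (Δb y' hy' hW') (abs_nonneg _) (by positivity)).trans
        (le_of_eq (by ring))
    · rw [h.z0 x hx y hy hW, h.z0 x hx y' hy' hW']
      simp only [zero_mul, sub_zero, abs_zero]; positivity
  refine ⟨fun y hy => ?_, fun s y y' hy hy' => ?_⟩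
  · rw [E y hy]
    by_cases hW : ψ x y ∈ W
    · rw [abs_mul]
      exact (mul_le_of_le_one_left (abs_nonneg _) (h.z1 x hx y hy)).trans (Δb y hy hW)
    · rw [h.z0 x hx y hy hW, zero_mul, abs_zero]; positivity
  · have hs := hy.1
    have s1 : s ^ 3 ≤ 1 := pow_le_one₀ hs.le hy.2.1
    have hq := Real.sqrt_nonneg (dist y y')
    beta_reduce
    rw [E y hy.mem, E y' hy'.mem, Real.norm_eq_abs]
    have fin : K ^ 3 * s' * √(dist y y') ≤
        (ε * K * D + (K ^ 3 + K ^ 2 * (1 + 2 * K * N)) * s') * √(dist y y') := by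
      gcongr
      have : 0 ≤ ε * K * D + K ^ 2 * (1 + 2 * K * N) * s' := by positivity
      linarith
    by_cases hW : ψ x y ∈ W
    · by_cases hW' : ψ x y' ∈ W
      · have h1 := h.sec x hx t ht y hy.mem y' hy'.mem _ _ _ _ (zb y hy.mem hW) (eb y hy.mem hW)
          (zb y' hy'.mem hW') (eb y' hy'.mem hW')
        have h2 := Pl hs (hd.wh x hx t ht s y y' hy hy')
        rw [← ze y hy.mem, ← ze y' hy'.mem] at h2
        have h3 := Pl hs (hb.wh x hx t ht s y y' hy hy')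
        have h4 := Pl hs (hb'.wh x hx t ht s y y' hy hy')
        have h5 := ze1 y' hy'.mem hW'
        have h6 : s ^ 3 * |Δ y - Δ y'| ≤
            (ε * K * D + K ^ 2 * (1 + 2 * K * N) * s') * √(dist y y') := by
          have h7 : s ^ 3 * (√(dist y y') + ‖z y - z y'‖ + ‖e y - e y'‖) ≤
              (1 + 2 * K * N) * √(dist y y') := by
            have := mul_le_of_le_one_left hq s1
            simp only [hz, he]
            linarith
          calc _ ≤ s ^ 3 * (ε * ‖z y - e y - (z y' - e y')‖ +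
                K * (√(dist y y') + ‖z y - z y'‖ + ‖e y - e y'‖) * ‖z y' - e y'‖) := by
                gcongr
            _ = ε * (s ^ 3 * ‖z y - e y - (z y' - e y')‖) +
                K * (s ^ 3 * (√(dist y y') + ‖z y - z y'‖ + ‖e y - e y'‖)) * ‖z y' - e y'‖ := by
                ring
            _ ≤ ε * (K * (D * √(dist y y'))) + K * ((1 + 2 * K * N) * √(dist y y')) * (K * s') := by
                gcongr
            _ = _ := by ring
        have h8 : |ζ x y * Δ y - ζ x y' * Δ y'| ≤ K ^ 3 * s' * √(dist y y') + |Δ y - Δ y'| := by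
          rw [show ζ x y * Δ y - ζ x y' * Δ y' = (ζ x y - ζ x y') * Δ y + ζ x y' * (Δ y - Δ y') by
            ring]
          refine (abs_add_le _ _).trans (add_le_add ?_ ?_)
          · rw [abs_mul]
            exact (mul_le_mul (h.zL x hx y hy.mem y' hy'.mem) (Δb y hy.mem hW) (abs_nonneg _)
              (by positivity)).trans (le_of_eq (by ring))
          · rw [abs_mul]
            exact mul_le_of_le_one_left (abs_nonneg _) (h.z1 x hx y' hy'.mem)
        have h9 := mul_le_mul_of_nonneg_left h8 (pow_pos hs 3).le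
        have h10 := mul_le_of_le_one_left (show 0 ≤ K ^ 3 * s' * √(dist y y') by positivity) s1
        linarith
      · rw [abs_sub_comm]
        refine ((mul_le_of_le_one_left (abs_nonneg _) s1).trans ?_).trans fin
        rw [dist_comm]
        exact off y' hy'.mem y hy.mem hW'
    · exact ((mul_le_of_le_one_left (abs_nonneg _) s1).trans (off y hy.mem y' hy'.mem hW)).trans fin

theorem nem0 (hK : 1 ≤ K) {x : X} (hx : x ∈ W) {t : ℝ} (ht : t ∈ Icc α β) :
    (∀ y ∈ ball (0 : En n) 1, |Nl 0 t (ψ x y)| ≤ K) ∧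
      WH (ball 0 1) (K ^ 2 + K) (fun y => Nl 0 t (ψ x y)) := by
  have E : ∀ y ∈ ball (0 : En n) 1, Nl 0 t (ψ x y) = ζ x y * Φ x t y 0 := fun y hy => by
    rw [h.nlE 0 h.sm0 t ht x hx y hy]
    simp [d2_zero]
  refine ⟨fun y hy => ?_, wh_of_le fun y hy y' hy' => ?_⟩
  · rw [E y hy, abs_mul]
    exact (mul_le_of_le_one_left (abs_nonneg _) (h.z1 x hx y hy)).trans (h.p0 x hx t ht y hy)
  · rw [E y hy, E y' hy', show ζ x y * Φ x t y 0 - ζ x y' * Φ x t y' 0 =
      (ζ x y - ζ x y') * Φ x t y 0 + ζ x y' * (Φ x t y 0 - Φ x t y' 0) by ring]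
    refine (abs_add_le _ _).trans ?_
    rw [abs_mul, abs_mul]
    have h1 := mul_le_mul (h.zL x hx y hy y' hy') (h.p0 x hx t ht y hy) (abs_nonneg _)
      (by positivity)
    have h2 := (mul_le_of_le_one_left (abs_nonneg _) (h.z1 x hx y' hy')).trans
      (h.p0h x hx t ht y hy y' hy')
    linarith

end PicD

/-- the linear estimate in all charts -/
def Est (a0 : Matrix (Fin n) (Fin n) ℝ) (δ K C : ℝ) : Prop :=
  ∀ (α β : ℝ) (a : ℝ → En n → Matrix (Fin n) (Fin n) ℝ) (f w : ℝ → En n → ℝ) (A c B η : ℝ),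
    LinD a0 δ K α β (ball 0 1) a f w A c B → Yl (Icc α β) (ball 0 2) 2 w → 0 < η → η ≤ 1 →
    ∀ t ∈ Icc α β, WH (ball 0 1) (C * (A + c + B)) (d2 (w t)) ∧
      WS (ball 0 1) (η * (C * (A + c + B)) + C * B / η ^ 4) (d2 (w t)) ∧
      WS (ball 0 1) (η * (C * (A + c + B)) + C * B / η ^ 4) (d1 (w t))

theorem exists_est (ha : a0.PosDef) :
    ∃ δ : ℝ, 0 < δ ∧ ∀ K : ℝ, ∃ C : ℝ, 1 ≤ C ∧ Est a0 δ K C := by
  obtain ⟨δ, δ0, hδ⟩ := isStmt n ℝ a0 ha
  obtain ⟨CI, hCI, hint⟩ := intStmt n ℝ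
  refine ⟨δ, δ0, fun K => ?_⟩
  obtain ⟨C, hC, hIS⟩ := hδ K
  refine ⟨C + CI, by linarith, fun α β a f w A c B η h hw η0 η1 t ht => ?_⟩
  have A0 := h.A0
  have c0 := h.c0
  have B0 := h.B0
  have h1 := (hIS α β _ a f w A c B h (wh_finite isCompact_Icc isOpen_ball hw
    (isCompact_closedBall 0 1) (closedBall_subset_ball one_lt_two) ball_subset_closedBall)
    t ht).1.mono (c' := (C + CI) * (A + c + B)) (by gcongr; linarith)
  have h2 := hint _ (w t) B _ η isOpen_ball (h.c2 ht) B0 (by positivity) η0 η1 (h.wB t ht) h1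
  exact ⟨h1, h2.1.mono (by gcongr; linarith), h2.2.1.mono (by gcongr; linarith)⟩

namespace PicD

variable (h : PicD a0 δ K ε ρ α β W ψ P Sm Ad S Nl a ζ Φ)
include h

theorem est1 {C : ℝ} (hE : Est a0 δ K C) (hlt : α < β) (hlen : β - α ≤ 1) {f : ℝ → X → ℝ}
    (hf : Ad f) {A c η : ℝ} (A0 : 0 ≤ A) (c0 : 0 ≤ c) (η0 : 0 < η) (η1 : η ≤ 1)
    (hA : ∀ x ∈ W, ∀ t ∈ Icc α β, (∀ y ∈ ball (0 : En n) 1, |f t (ψ x y)| ≤ A) ∧
      WH (ball 0 1) c (fun y => f t (ψ x y))) :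
    Bd α β W ψ (C * (A + c + (β - α) * A))
      (η * (C * (A + c + (β - α) * A)) + C * ((β - α) * A) / η ^ 4) ((β - α) * A) (S f) := by
  have mx := h.mx f hf A A0 fun t ht x hx => by
    simpa [h.ctr x hx] using (hA x hx t ht).1 0 (mem_ball_self one_pos)
  have τ0 : 0 ≤ β - α := by linarith
  have key := fun x hx => hE α β (a x) (fun t y => f t (ψ x y)) (fun t y => S f t (ψ x y)) A c
    ((β - α) * A) η ⟨hlt, hlen, isOpen_ball, h.y1 (h.smS f hf) hx, h.ac x hx, h.adC f hf x hx,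
      h.init f hf x hx, h.ev f hf x hx, h.cl x hx, h.ah x hx, A0, c0, by positivity,
      fun t ht => mx t ht x hx, fun t ht => ws_of_le (hA x hx t ht).1, fun t ht => (hA x hx t ht).2⟩
    (h.smY _ (h.smS f hf) x hx) η0 η1
  exact ⟨fun x hx t ht => (key x hx t ht).1, fun x hx t ht => (key x hx t ht).2.1,
    fun x hx t ht => (key x hx t ht).2.2, fun x hx t ht => mx t ht x hx⟩

theorem est2 {C : ℝ} (hE : Est a0 δ K C) (hlt : α < β) (hlen : β - α ≤ 1) {f f' : ℝ → X → ℝ}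
    (hf : Ad f) (hf' : Ad f') {A c η : ℝ} (A0 : 0 ≤ A) (c0 : 0 ≤ c) (η0 : 0 < η) (η1 : η ≤ 1)
    (hA : ∀ x ∈ W, ∀ t ∈ Icc α β, (∀ y ∈ ball (0 : En n) 1, |f t (ψ x y) - f' t (ψ x y)| ≤ A) ∧
      WH (ball 0 1) c (fun y => f t (ψ x y) - f' t (ψ x y))) :
    Bd α β W ψ (C * (A + c + (β - α) * A))
      (η * (C * (A + c + (β - α) * A)) + C * ((β - α) * A) / η ^ 4) ((β - α) * A)
      (fun t p => S f t p - S f' t p) := by
  have mx := h.mx2 f f' hf hf' A A0 fun t ht x hx => by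
    simpa [h.ctr x hx] using (hA x hx t ht).1 0 (mem_ball_self one_pos)
  have τ0 : 0 ≤ β - α := by linarith
  have key := fun x hx => hE α β (a x) (fun t y => f t (ψ x y) - f' t (ψ x y))
    (fun t y => S f t (ψ x y) - S f' t (ψ x y)) A c ((β - α) * A) η
    ⟨hlt, hlen, isOpen_ball, (h.y1 (h.smS f hf) hx).sub isOpen_ball (h.y1 (h.smS f' hf') hx),
      h.ac x hx, (h.adC f hf x hx).sub (h.adC f' hf' x hx),
      fun y hy => by rw [h.init f hf x hx y hy, h.init f' hf' x hx y hy, sub_zero],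
      fun t ht y hy => ((h.ev f hf x hx t ht y hy).sub (h.ev f' hf' x hx t ht y hy)).congr_deriv (by
        simp only [Lop, pd_pd_sub isOpen_ball (h.y1 (h.smS f hf) hx) (h.y1 (h.smS f' hf') hx) ht hy,
          smul_sub, Finset.sum_sub_distrib]
        ring),
      h.cl x hx, h.ah x hx, A0, c0, by positivity,
      fun t ht => mx t ht x hx, fun t ht => ws_of_le (hA x hx t ht).1, fun t ht => (hA x hx t ht).2⟩
    ((h.smY _ (h.smS f hf) x hx).sub isOpen_ball (h.smY _ (h.smS f' hf') x hx)) η0 η1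
  exact ⟨fun x hx t ht => (key x hx t ht).1, fun x hx t ht => (key x hx t ht).2.1,
    fun x hx t ht => (key x hx t ht).2.2, fun x hx t ht => mx t ht x hx⟩

/-- passage to the limit -/
theorem limit (hK : 1 ≤ K) {N σ M c : ℝ} (hσ : K * σ ≤ ρ) (σ0 : 0 ≤ σ) {u : ℕ → ℝ → X → ℝ}
    (hs : ∀ k, u (k + 1) = S (Nl (u k)))
    (hu : ∀ k, Sm (u k) ∧ Bd α β W ψ N σ ((β - α) * N) (u k))
    (hd : ∀ k, Bd α β W ψ (c * (1 / 2) ^ k) (M * (1 / 2) ^ k) (M * (1 / 2) ^ k)
      fun t p => u (k + 1) t p - u k t p) :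
    PicO N ρ α β W ψ P a ζ Φ (fun t p => limUnder atTop fun k => u k t p) := by
  have K0 : 0 ≤ K := by linarith
  have σρ : σ ≤ ρ := (le_mul_of_one_le_left σ0 hK).trans hσ
  have ad : ∀ k, Ad (Nl (u k)) := fun k => h.adm hK (hu k).1 (hu k).2 hσ
  have L := fun x hx => c2_lim (I := Icc α β) (M := M) (g := fun k t y => u k t (ψ x y)) isOpen_ball
    (fun k => h.y1 (hu k).1 hx) (fun k t ht => ws_of_le ((hd k).sup x hx t ht))
    (fun k => (hd k).s1 x hx) (fun k => (hd k).s2 x hx) (fun k => (hu k).2.wh x hx) rfl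
  have sP : ∀ x ∈ W, ∀ t ∈ Icc α β, ∀ y ∈ ball (0 : En n) 1, ψ x y ∈ W →
      ‖P (d2 (fun z => limUnder atTop fun k => u k t (ψ x z)) y)‖ ≤ ρ := fun x hx t ht y hy hW =>
    le_of_tendsto' ((P.continuous.tendsto _).comp ((L x hx).2.2.2.tendsto isOpen_ball ht hy)).norm
      fun k => h.pb hK (hu k).1 (hu k).2 hσ hx ht hy hW
  refine ⟨fun x hx => (L x hx).1, fun x hx y hy => ?_, fun x hx t ht y hy => ?_,
    fun x hx t ht y hy => ?_, fun x hx t ht => wh_lim isOpen_ball (L x hx).2.2.2 ht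
      fun k => (hu k).2.wh x hx t ht, fun x hx t ht => (ws_lim isOpen_ball (L x hx).2.2.2 ht
      fun k => (hu k).2.s2 x hx t ht).mono σρ, fun x hx t ht => (ws_lim isOpen_ball (L x hx).2.2.1
      ht fun k => (hu k).2.s1 x hx t ht).mono σρ, sP⟩
  · refine (tendsto_const_nhds.congr' (f₁ := fun _ => (0 : ℝ)) ?_).limUnder_eq
    filter_upwards [eventually_ge_atTop 1] with k hk
    obtain ⟨j, rfl⟩ := Nat.exists_eq_add_of_le' hk
    rw [hs, h.init _ (ad j) x hx y hy]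
  · obtain ⟨s, hsd⟩ := exists_dp isOpen_ball hy
    set c1 : ℝ := ∑ k, ∑ l, |a0 k l| + |δ| with hc1
    have ab : ∀ t ∈ Icc α β, ∀ k l, |a x t y k l| ≤ c1 := fun t ht k l => by
      have h1 : |a0 k l| ≤ ∑ k, ∑ l, |a0 k l| :=
        (Finset.single_le_sum (f := fun l => |a0 k l|) (fun _ _ => abs_nonneg _)
          (Finset.mem_univ l)).trans (Finset.single_le_sum (f := fun k => ∑ l, |a0 k l|)
          (fun _ _ => by positivity) (Finset.mem_univ k))
      have h2 := abs_sub_abs_le_abs_sub (a x t y k l) (a0 k l)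
      linarith [h.cl x hx t ht y hy k l, le_abs_self δ]
    have c10 : 0 ≤ c1 := by positivity
    have cv := fun k t ht => ((L x hx).2.2.2 k t ht).le hsd
    have M0 : 0 ≤ 2 * M / (s ^ 2 * √s) := by
      simpa using (norm_nonneg _).trans (cv 0 t ht)
    refine deriv_lim (c := (n * (n * c1) + K * K) * (2 * M / (s ^ 2 * √s)))
      (f := fun k t => u (k + 1) t (ψ x y))
      (r := fun k t => Lop (a x t y) (fun z => u (k + 1) t (ψ x z)) y + Nl (u k) t (ψ x y))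
      (r0 := fun t => Lop (a x t y) (fun z => limUnder atTop fun k => u k t (ψ x z)) y +
        ζ x y * Φ x t y (P (d2 (fun z => limUnder atTop fun k => u k t (ψ x z)) y)))
      (fun k t ht => by simp only [hs]; exact h.ev _ (ad k) x hx t ht y hy) (fun k => ?_)
      (fun t ht => (tendsto_add_atTop_iff_nat 1).2 ((L x hx).2.1.tendsto isOpen_ball ht hy))
      (fun k t ht => ?_) ht
    · refine ContinuousOn.add (continuousOn_finsetSum _ fun i _ => continuousOn_finsetSum _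
        fun j _ => ContinuousOn.fun_smul ?_ ?_) ?_
      · exact N207.X.cont_slice (w := fun t y => a x t y i j) (h.ac x hx i j) hy
      · exact N207.X.cont_slice (((h.y1 (hu (k + 1)).1 hx).pd j).pd i).cont hy
      · exact N207.X.cont_slice (w := fun t y => Nl (u k) t (ψ x y)) (h.adC _ (ad k) x hx) hy
    · have e : ∀ j : ℕ, 2 * M * (1 / 2) ^ j / (s ^ 2 * √s) = 2 * M / (s ^ 2 * √s) * (1 / 2) ^ j :=
        fun j => by ring
      have h1 := (lop_sub_le (ab t ht) (fun z => u (k + 1) t (ψ x z))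
        (fun z => limUnder atTop fun k => u k t (ψ x z)) y).trans
        (mul_le_mul_of_nonneg_left (cv (k + 1) t ht) (by positivity))
      have h2 : |Nl (u k) t (ψ x y) -
          ζ x y * Φ x t y (P (d2 (fun z => limUnder atTop fun k => u k t (ψ x z)) y))| ≤
          K * (K * (2 * M * (1 / 2) ^ k / (s ^ 2 * √s))) := by
        rw [h.nlE _ (hu k).1 t ht x hx y hy, ← mul_sub]
        by_cases hW : ψ x y ∈ W
        · rw [abs_mul]
          refine (mul_le_of_le_one_left (abs_nonneg _) (h.z1 x hx y hy)).trans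
            ((h.lip x hx t ht y hy _ _ (h.pb hK (hu k).1 (hu k).2 hσ hx ht hy hW)
              (sP x hx t ht y hy hW)).trans (mul_le_mul_of_nonneg_left ?_ K0))
          rw [← map_sub]
          exact (P.le_opNorm _).trans (mul_le_mul h.nP (cv k t ht) (norm_nonneg _) K0)
        · rw [h.z0 x hx y hy hW, zero_mul, abs_zero, e]; positivity
      rw [add_sub_add_comm]
      refine (norm_add_le _ _).trans ((add_le_add h1 h2).trans ?_)
      rw [e, e, pow_succ (1 / 2 : ℝ)]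
      have : 0 ≤ n * (n * c1) * (2 * M / (s ^ 2 * √s) * (1 / 2) ^ k) := by positivity
      linarith
  · exact le_of_tendsto' ((L x hx).2.1.tendsto isOpen_ball ht hy).abs
      fun k => (hu k).2.sup x hx t ht y hy

end PicD

set_option maxHeartbeats 600000 in
theorem picStmt (n : ℕ) : PicStmt n := by
  intro a0 ha
  obtain ⟨δ, δ0, hδ⟩ := exists_est ha
  refine ⟨δ, δ0, fun K hK => ?_⟩
  obtain ⟨C, hC, hE⟩ := hδ K
  have K0 : 0 < K := by linarith
  have C0 : 0 < C := by linarith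
  obtain ⟨ε, hε⟩ : ∃ ε : ℝ, ε = 1 / (4 * C * K) := ⟨_, rfl⟩
  have ε0 : 0 < ε := by rw [hε]; positivity
  have εC : ∀ D : ℝ, C * (ε * K * D) = D / 4 := fun D => by rw [hε]; field_simp
  obtain ⟨N, hN⟩ : ∃ N : ℝ, N = 2 * (C * (3 * K ^ 2 + 3 * K + 1 + 2 * K ^ 2)) := ⟨_, rfl⟩
  have N0 : 0 < N := by rw [hN]; positivity
  refine ⟨ε, ε0, N, N0, fun ρ ρ0 ρ1 => ?_⟩
  obtain ⟨c1, hc1⟩ : ∃ c1 : ℝ, c1 = K ^ 3 + K ^ 2 * (1 + 2 * K * N) := ⟨_, rfl⟩
  have c10 : 0 < c1 := by rw [hc1]; positivity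
  obtain ⟨c2, hc2⟩ : ∃ c2 : ℝ, c2 = C * (c1 + 2 * K ^ 2) := ⟨_, rfl⟩
  have K2 : 1 ≤ K ^ 2 := one_le_pow₀ hK
  have c21 : 2 * K ^ 2 ≤ c2 := by rw [hc2]; nlinarith
  have c20 : 0 < c2 := by linarith
  obtain ⟨σ, σ0, σ1, σ2, σ3⟩ : ∃ σ : ℝ, 0 < σ ∧ K * σ ≤ ρ ∧ c1 * σ ≤ 1 ∧ σ ≤ 1 :=
    ⟨min (ρ / K) (min (1 / c1) 1), by positivity, (le_div_iff₀' K0).1 (min_le_left _ _),
      (le_div_iff₀' c10).1 ((min_le_right _ _).trans (min_le_left _ _)),
      (min_le_right _ _).trans (min_le_right _ _)⟩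
  obtain ⟨η, η0, η1, η2⟩ : ∃ η : ℝ, 0 < η ∧ η ≤ 1 ∧ η * N ≤ σ / 2 :=
    ⟨min 1 (σ / 2 / N), by positivity, min_le_left _ _, (le_div_iff₀ N0).1 (min_le_right _ _)⟩
  obtain ⟨θ, hθ⟩ : ∃ θ : ℝ, θ = 1 / (8 * c2) := ⟨_, rfl⟩
  have θ0 : 0 < θ := by rw [hθ]; positivity
  have θ1 : θ ≤ 1 := by rw [hθ, div_le_one (by positivity)]; linarith
  refine ⟨min 1 (min (σ / 2 * η ^ 4 / (C * (K ^ 2 + K))) (θ ^ 4 / (4 * (C * K ^ 2)))),
    by positivity, fun X Z _ _ α β W ψ P Sm Ad S Nl a ζ Φ hlt hτ h => ?_⟩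
  have τ0 : 0 ≤ β - α := by linarith
  have τ1 : β - α ≤ 1 := hτ.trans (min_le_left _ _)
  have τ2 : C * ((β - α) * (K ^ 2 + K)) / η ^ 4 ≤ σ / 2 := by
    have := (le_div_iff₀ (by positivity)).1 (hτ.trans ((min_le_right _ _).trans (min_le_left _ _)))
    rw [div_le_iff₀ (by positivity)]
    linarith
  have τ3 : C * ((β - α) * K ^ 2) / θ ^ 4 ≤ 1 / 4 := by
    have := (le_div_iff₀ (by positivity)).1 (hτ.trans ((min_le_right _ _).trans (min_le_right _ _)))
    rw [div_le_iff₀ (by positivity)]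
    linarith
  have z0 : Bd α β W ψ N σ ((β - α) * N) (0 : ℝ → X → ℝ) :=
    bd_zero.mono N0.le σ0.le (by positivity)
  -- the invariant set
  have self : ∀ u, Sm u ∧ Bd α β W ψ N σ ((β - α) * N) u →
      Sm (S (Nl u)) ∧ Bd α β W ψ N σ ((β - α) * N) (S (Nl u)) := by
    rintro u ⟨hu, hb⟩
    have ad := h.adm hK hu hb σ1
    have e1 : C * (K ^ 2 + K + (ε * K * N + 1 + (K ^ 2 + K)) + (β - α) * (K ^ 2 + K)) ≤ N := by
      have h1 : (β - α) * (K ^ 2 + K) ≤ K ^ 2 + K := mul_le_of_le_one_left (by positivity) τ1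
      have h2 := mul_le_mul_of_nonneg_left h1 C0.le
      have h3 := εC N
      have h4 : 0 ≤ C * K ^ 2 := by positivity
      linarith
    refine ⟨h.smS _ ad, (h.est1 hE hlt τ1 ad (A := K ^ 2 + K) (c := ε * K * N + 1 + (K ^ 2 + K))
      (by positivity) (by positivity) η0 η1 fun x hx t ht => ?_).mono e1 ?_ ?_⟩
    · have h1 := h.nem hK ε0.le hu h.sm0 hb z0 σ1 N0.le N0.le σ0.le (by simpa using hb) hx ht
      have h2 := h.nem0 hK hx ht
      refine ⟨fun y hy => ?_, ((h1.2.add h2.2).mono ?_).congr fun y _ => by ring⟩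
      · have h3 := abs_add_le (Nl u t (ψ x y) - Nl 0 t (ψ x y)) (Nl 0 t (ψ x y))
        rw [sub_add_cancel] at h3
        have h4 : K ^ 2 * σ ≤ K ^ 2 := mul_le_of_le_one_right (by positivity) σ3
        linarith [h1.1 y hy, h2.1 y hy]
      · rw [← hc1]; linarith
    · linarith [mul_le_mul_of_nonneg_left e1 η0.le]
    · refine mul_le_mul_of_nonneg_left ?_ τ0
      linarith [mul_le_mul_of_nonneg_right hC (show 0 ≤ K ^ 2 + K by positivity),
        (by positivity : 0 ≤ C * K ^ 2), (by positivity : 0 ≤ C * K)]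
  -- the contraction
  have con : ∀ u u' (M : ℝ), 0 ≤ M → Sm u ∧ Bd α β W ψ N σ ((β - α) * N) u →
      Sm u' ∧ Bd α β W ψ N σ ((β - α) * N) u' →
      Bd α β W ψ (4 * c2 * M) M (N * M) (fun t p => u t p - u' t p) →
      Bd α β W ψ (4 * c2 * (M / 2)) (M / 2) (N * (M / 2))
        (fun t p => S (Nl u) t p - S (Nl u') t p) := by
    rintro u u' M M0 ⟨hu, hb⟩ ⟨hu', hb'⟩ hd
    have h0 : (β - α) * (K ^ 2 * M) ≤ K ^ 2 * M := mul_le_of_le_one_left (by positivity) τ1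
    have e1 : C * (K ^ 2 * M + (ε * K * (4 * c2 * M) + c1 * M) + (β - α) * (K ^ 2 * M)) ≤
        4 * c2 * (M / 2) := by
      have h2 := mul_le_mul_of_nonneg_left h0 C0.le
      have h3 := εC (4 * c2 * M)
      have h4 : c2 * M = C * (c1 + 2 * K ^ 2) * M := by rw [hc2]
      linarith
    refine (h.est2 hE hlt τ1 (h.adm hK hu hb σ1) (h.adm hK hu' hb' σ1) (A := K ^ 2 * M)
      (c := ε * K * (4 * c2 * M) + c1 * M) (by positivity) (by positivity) θ0 θ1
      fun x hx t ht => ?_).mono e1 ?_ ?_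
    · rw [hc1]
      exact h.nem hK ε0.le hu hu' hb hb' σ1 N0.le (by positivity) M0 hd hx ht
    · have h1 := mul_le_mul_of_nonneg_left e1 θ0.le
      have h2 : θ * (4 * c2 * (M / 2)) = M / 4 := by rw [hθ]; field_simp; ring
      have h3 := mul_le_mul_of_nonneg_right τ3 M0
      have h4 : C * ((β - α) * (K ^ 2 * M)) / θ ^ 4 = C * ((β - α) * K ^ 2) / θ ^ 4 * M := by ring
      linarith
    · refine h0.trans ?_
      have : 2 * K ^ 2 ≤ N := by
        linarith [mul_le_mul_of_nonneg_right hC (show 0 ≤ K ^ 2 by positivity),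
          (by positivity : 0 ≤ C * K ^ 2), (by positivity : 0 ≤ C * K)]
      linarith [mul_le_mul_of_nonneg_right this M0]
  let u : ℕ → ℝ → X → ℝ := fun k => (fun w => S (Nl w))^[k] 0
  have hs : ∀ k, u (k + 1) = S (Nl (u k)) := fun k => Function.iterate_succ_apply' _ _ _
  have hu : ∀ k, Sm (u k) ∧ Bd α β W ψ N σ ((β - α) * N) (u k) := fun k => by
    induction k with
    | zero => exact ⟨h.sm0, z0⟩
    | succ k ih => rw [hs]; exact self _ ih
  have hd : ∀ k, Bd α β W ψ (4 * c2 * ((N + 1) * (1 / 2) ^ k)) ((N + 1) * (1 / 2) ^ k)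
      (N * ((N + 1) * (1 / 2) ^ k)) fun t p => u (k + 1) t p - u k t p := fun k => by
    induction k with
    | zero =>
      have h1 : Bd α β W ψ N σ ((β - α) * N) fun t p => u (0 + 1) t p - u 0 t p := by
        simpa [show u 0 = 0 from rfl] using (hu 1).2
      refine h1.mono ?_ ?_ ?_
      · rw [pow_zero]
        linarith [mul_le_mul_of_nonneg_right (show 1 ≤ 4 * c2 by linarith) N0.le]
      · rw [pow_zero]; linarith
      · rw [pow_zero]
        linarith [mul_le_of_le_one_left N0.le τ1, mul_pos N0 N0]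
    | succ k ih =>
      have := con _ _ _ (by positivity) (hu (k + 1)) (hu k) ih
      rw [← hs, ← hs] at this
      exact this.mono (le_of_eq (by ring)) (le_of_eq (by ring)) (le_of_eq (by ring))
  refine ⟨_, h.limit hK (M := (N + 1) * (N + 1)) (c := 4 * c2 * (N + 1)) σ1 σ0.le hs hu
    fun k => (hd k).mono (le_of_eq (by ring)) ?_ ?_⟩
  · have : (0 : ℝ) ≤ N * (N + 1) * (1 / 2) ^ k := by positivity
    linarith
  · have : (0 : ℝ) ≤ (N + 1) * (1 / 2) ^ k := by positivity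
    linarith

end Crest.Agent.T223.Lx
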