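import Crest.Agent.T223.LxRegA_54

/-!
# Row 223 (helper54): regularity for fully nonlinear parabolic equations
-/

set_option autoImplicit false
set_option linter.unusedSectionVars false

open Set Metric Filter Topology
open scoped ContDiff

noncomputable section

namespace Crest.Agent.T223.Lx

open Crest.Agent.N207 Crest.Agent.N207.P

namespace R54

variable {n : ℕ}

section

variable {V : Type*} [NormedAddCommGroup V] [NormedSpace ℝ V] {I : Set ℝ} {S S' : Set (En n)}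
  {L : ℝ} {g : ℝ → En n → V}

theorem Hb.dv0 (h : Hb I S' L g) {v : En n} (h0 : S ⊆ S') (hS : ∀ y ∈ S, y + v ∈ S') :
    Hb I S (L + 1 * L) (dv v g) :=
  ((h.shift hS).add ((h.mono Subset.rfl h0 le_rfl).tsmul (θ := fun _ => -1) zero_le_one
    (by simp))).congr fun t _ y _ => by simp [dv, sub_eq_add_neg]

theorem Hb.app {W : Type*} [NormedAddCommGroup W] [NormedSpace ℝ W] {L' : ℝ}
    {A : ℝ → En n → V →L[ℝ] W} (h : Hb I S L' A) (h' : Hb I S L g) :
    Hb I S (2 * L' * L) fun t y => A t y (g t y) :=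
  h.bilin (ContinuousLinearMap.id ℝ (V →L[ℝ] W)) ContinuousLinearMap.norm_id_le h'

theorem Hb.ws (h : Hb I S L g) {t : ℝ} (ht : t ∈ I) : WS S L (g t) := fun s y hs => by
  have h1 : √s ≤ 1 := Real.sqrt_le_one.2 hs.2.1
  have h2 : s ^ 2 ≤ 1 := pow_le_one₀ hs.1.le hs.2.1
  exact (mul_le_of_le_one_left (norm_nonneg _) (mul_le_one₀ h2 (Real.sqrt_nonneg _) h1)).trans
    ((h t ht).1 y (hs.2.2 (mem_ball_self hs.1)))

theorem Hb.wh (h : Hb I S L g) {t : ℝ} (ht : t ∈ I) : WH S L (g t) := fun _ y y' hs hs' =>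
  (mul_le_of_le_one_left (norm_nonneg _) (pow_le_one₀ hs.1.le hs.2.1)).trans
    ((h t ht).2 y (hs.2.2 (mem_ball_self hs.1)) y' (hs'.2.2 (mem_ball_self hs.1)))

theorem hb_of_w {y0 : En n} {s : ℝ} (h0 : 0 < s) (h1 : s ≤ 1)
    (h : ∀ t ∈ I, WH (ball y0 (2 * s)) L (g t) ∧ WS (ball y0 (2 * s)) L (g t)) :
    Hb I (ball y0 s) (L / s ^ 3) g := by
  have hd : ∀ y ∈ ball y0 s, Dp (ball y0 (2 * s)) s y := fun y hy =>
    ⟨h0, h1, ball_subset_ball' (by rw [mem_ball] at hy; linarith)⟩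
  refine fun t ht => ⟨fun y hy => ?_, fun y hy y' hy' => ?_⟩
  · rw [le_div_iff₀ (by positivity), mul_comm]
    refine le_trans (mul_le_mul_of_nonneg_right ?_ (norm_nonneg _)) ((h t ht).2 s y (hd y hy))
    rw [pow_succ]
    exact mul_le_mul_of_nonneg_left (Real.le_sqrt_of_sq_le (by nlinarith)) (by positivity)
  · rw [div_mul_eq_mul_div, le_div_iff₀ (by positivity), mul_comm]
    exact (h t ht).1 s y y' (hd y hy) (hd y' hy')

end

/-- points and Hessians -/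
abbrev HW (n : ℕ) : Type := En n × (Fin n → Fin n → ℝ)

theorem clm_eH (L : HW n →L[ℝ] ℝ) (M : Fin n → Fin n → ℝ) :
    L (0, M) = ∑ k, ∑ l, L (0, eH k l) • M k l := by
  have e : ((0 : En n), M) = ∑ k, ∑ l, M k l • ((0 : En n), eH k l) := by
    refine Prod.ext (by simp [Prod.fst_sum]) ?_
    funext k l
    simp [Prod.snd_sum, Finset.sum_apply, eH, Pi.single_apply, ite_apply]
  conv_lhs => rw [e]
  simp only [map_sum, map_smul, smul_eq_mul, mul_comm]

theorem norm_eH (k l : Fin n) : ‖((0 : En n), eH k l)‖ ≤ 1 := by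
  simp [Prod.norm_def, eH, Pi.norm_single]

theorem abs_eH (L : HW n →L[ℝ] ℝ) (k l : Fin n) : |L (0, eH k l)| ≤ ‖L‖ :=
  (L.le_opNorm _).trans (mul_le_of_le_one_right (norm_nonneg _) (norm_eH k l))

variable {α β : ℝ} {U : Set (En n)} {O : Set (HW n)} {F : ℝ × HW n → ℝ} {v : ℝ → En n → ℝ}

theorem yl_jet {I : Set ℝ} (hI : IsCompact I) (hU : IsOpen U) {m : ℕ} (h : Yl I U (m + 2) v) :
    Yl I U m fun t y => ((y, d2 (v t) y) : HW n) :=
  (yl_id hI hU).prod hU (Yl.pi hU fun k => Yl.pi hU fun l => (h.pd l).pd k)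

/-- the freezing radius -/
theorem exists_rad (hab : α < β) (hO : IsOpen O) (hF : ContDiffOn ℝ ∞ F (Icc α β ×ˢ O)) {t0 : ℝ}
    (ht0 : t0 ∈ Icc α β) {z0 : HW n} (hz : z0 ∈ O) {δ : ℝ} (hδ : 0 < δ) :
    ∃ ρ Λ : ℝ, 0 < ρ ∧ 0 ≤ Λ ∧ ball z0 ρ ⊆ O ∧ ∀ t ∈ Icc α β, |t - t0| < ρ →
      (∀ x ∈ ball z0 ρ, ‖D2 F (t, x) - D2 F (t0, z0)‖ ≤ δ) ∧
      ∀ x ∈ ball z0 ρ, ∀ x' ∈ ball z0 ρ, ‖D2 F (t, x) - D2 F (t, x')‖ ≤ Λ * ‖x - x'‖ := by
  have hI' := uniqueDiffOn_Icc hab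
  obtain ⟨-, hD⟩ := d2_spec hI' hO hF
  obtain ⟨hd2, hD2⟩ := d2_spec hI' hO hD
  have h1 : ∀ᶠ q in 𝓝[Icc α β ×ˢ O] (t0, z0), dist (D2 F q) (D2 F (t0, z0)) < δ ∧
      dist (D2 (D2 F) q) (D2 (D2 F) (t0, z0)) < 1 :=
    ((hD.continuousOn _ ⟨ht0, hz⟩).eventually (ball_mem_nhds _ hδ)).and
      ((hD2.continuousOn _ ⟨ht0, hz⟩).eventually (ball_mem_nhds _ one_pos))
  obtain ⟨ρ, hρ, h2⟩ := Metric.mem_nhdsWithin_iff.1 h1
  obtain ⟨ρ', hρ', h3⟩ := Metric.isOpen_iff.1 hO _ hz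
  have h4 : ball z0 (min ρ ρ') ⊆ O := (ball_subset_ball (min_le_right _ _)).trans h3
  refine ⟨min ρ ρ', ‖D2 (D2 F) (t0, z0)‖ + 1, lt_min hρ hρ', by positivity, h4, fun t ht h5 => ?_⟩
  have h6 := fun x (hx : x ∈ ball z0 (min ρ ρ')) => h2 (a := (t, x)) ⟨by
    rw [mem_ball, Prod.dist_eq, max_lt_iff]
    exact ⟨h5.trans_le (min_le_left _ _), ball_subset_ball (min_le_left _ _) hx⟩, ht, h4 hx⟩
  refine ⟨fun x hx => by rw [← dist_eq_norm]; exact (h6 x hx).1.le, fun x hx x' hx' => ?_⟩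
  refine (convex_ball z0 (min ρ ρ')).norm_image_sub_le_of_norm_hasFDerivWithin_le (𝕜 := ℝ)
    (f := fun x => D2 F (t, x)) (f' := fun x => D2 (D2 F) (t, x))
    (fun x hx => (hd2 t ht x (h4 hx)).hasFDerivWithinAt) (fun x hx => ?_) hx' hx
  have := (h6 x hx).2
  rw [dist_eq_norm] at this
  linarith [norm_le_insert' (D2 (D2 F) (t, x)) (D2 (D2 F) (t0, z0))]

/-- the first step: one more derivative -/
theorem yl3 (hS : ISStmt n ℝ) (hab : α < β) (hU : IsOpen U) (hO : IsOpen O)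
    (hF : ContDiffOn ℝ ∞ F (Icc α β ×ˢ O)) (hm : ∀ t ∈ Icc α β, ∀ y ∈ U, (y, d2 (v t) y) ∈ O)
    (hpos : ∀ t ∈ Icc α β, ∀ y ∈ U,
      (Matrix.of fun k l => D2 F (t, y, d2 (v t) y) (0, eH k l)).PosDef)
    (hv : Yl (Icc α β) U 2 v) (h0 : ContDiffOn ℝ ∞ (v α) U)
    (he : X.Ev (Icc α β) U v fun t y => F (t, y, d2 (v t) y)) : Yl (Icc α β) U 3 v := by
  have hI : IsCompact (Icc α β) := isCompact_Icc
  obtain ⟨hd, hD⟩ := d2_spec (uniqueDiffOn_Icc hab) hO hF
  set Z : ℝ → En n → HW n := fun t y => (y, d2 (v t) y) with hZd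
  have hZ : Yl (Icc α β) U 0 Z := yl_jet hI hU hv
  have hua : ∀ {m : ℕ}, Yl (Icc α β) U m fun _ => v α := yl_static hI hU h0
  set p : ℝ → En n → ℝ := fun t y => v t y - v α y with hpd
  have hp : Yl (Icc α β) U 2 p := hv.sub hU hua
  set E : ℝ → En n → HW n := fun _ y => (y, d2 (v α) y) with hEd
  have hE : Yl (Icc α β) U 1 E := yl_jet hI hU hua
  set g : ℝ → En n → Fin n → Fin n → ℝ := fun t => d2 (p t) with hgd
  have hg : Yl (Icc α β) U 0 g := Yl.pi hU fun k => Yl.pi hU fun l => (hp.pd l).pd k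
  have hgZ : ∀ t ∈ Icc α β, ∀ y ∈ U, Z t y = (0, g t y) + E t y := fun t ht y hy => by
    refine Prod.ext (zero_add y).symm ?_
    funext k l
    have := pd_pd_sub hU hv hua ht hy k l
    simp only [hZd, hEd, hgd, hpd, d2, Prod.snd_add, Pi.add_apply, this]
    ring
  refine Yl.of_loc hI fun t0 ht0 y0 hy0 => ?_
  obtain ⟨δ', hδ', hS⟩ := hS _ (hpos t0 ht0 y0 hy0)
  obtain ⟨ρ, Λ, hρ, hΛ, hB, hr⟩ := exists_rad hab hO hF ht0 (hm t0 ht0 y0 hy0) hδ'
  obtain ⟨ρ2, hρ2, hZm⟩ := Metric.mem_nhdsWithin_iff.1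
    ((hZ.cont (t0, y0) ⟨ht0, hy0⟩).eventually (ball_mem_nhds (Z t0 y0) hρ))
  obtain ⟨L1, hL1, e1⟩ := exists_hb hI hU hZ hy0
  obtain ⟨L2, hL2, e2⟩ := exists_hb_pd hI hU (hp.pred hI hU) hy0
  obtain ⟨L3, hL3, e3⟩ := exists_hb_pd hI hU hE hy0
  obtain ⟨L4, hL4, e4⟩ := exists_hb hI hU hg hy0
  obtain ⟨R, ⟨⟨⟨⟨b1, b2⟩, b3⟩, b4⟩, hRU⟩, hR0, hR1⟩ := (((((e1.and e2).and e3).and e4).and
    (ev_ball hU hy0)).and (Ioo_mem_nhdsGT (lt_min (lt_min hρ hρ2) one_pos))).exists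
  replace hRU := ball_subset_closedBall.trans hRU
  simp only [lt_min_iff] at hR1
  obtain ⟨⟨hRρ, hRρ2⟩, hR1⟩ := hR1
  obtain ⟨C, hC1, hC⟩ := hS (Λ * (L1 + L1))
  obtain ⟨r, rfl⟩ : ∃ r, R = 4 * r := ⟨R / 4, by ring⟩
  have hr0 : 0 < r := by linarith
  set s : ℝ := max α (t0 - r) with hs
  set s' : ℝ := min β (t0 + r) with hs'
  have s1 : α ≤ s := le_max_left _ _
  have s2 : t0 - r ≤ s := le_max_right _ _
  have s3 : s' ≤ β := min_le_left _ _
  have s4 : s' ≤ t0 + r := min_le_right _ _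
  have s5 : s < s' := by
    rw [hs, hs', max_lt_iff, lt_min_iff, lt_min_iff]
    exact ⟨⟨hab, by linarith [ht0.1]⟩, by linarith [ht0.2], by linarith⟩
  have hJ : Icc s s' ⊆ Icc α β := Icc_subset_Icc s1 s3
  have hJc : IsCompact (Icc s s') := isCompact_Icc
  have hJt : ∀ t ∈ Icc s s', |t - t0| ≤ r := fun t ht =>
    abs_le.2 ⟨by linarith [ht.1], by linarith [ht.2]⟩
  have hθ : ∀ t ∈ Icc s s', |t - (t0 - r)| ≤ 1 := fun t ht =>
    abs_le.2 ⟨by linarith [ht.1], by linarith [ht.2]⟩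
  have hr' := fun t (ht : t ∈ Icc s s') => hr t (hJ ht) ((hJt t ht).trans_lt (by linarith))
  have hZB : ∀ t ∈ Icc s s', ∀ y ∈ ball y0 (4 * r), Z t y ∈ ball (Z t0 y0) ρ := fun t ht y hy =>
    hZm (a := (t, y)) ⟨by
      rw [mem_ball, Prod.dist_eq, max_lt_iff]
      exact ⟨(hJt t ht).trans_lt (by linarith), hy.trans hRρ2⟩, hJ ht, hRU hy⟩
  have hDc : ContinuousOn (D2 F) (Icc s s' ×ˢ ball (Z t0 y0) ρ) :=
    hD.continuousOn.mono (prod_mono hJ hB)
  have hDs : ∀ t ∈ Icc s s', ContinuousOn (fun x => D2 F (t, x)) (ball (Z t0 y0) ρ) :=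
    fun t ht => hDc.comp (f := fun x => (t, x)) (by fun_prop) fun x hx => ⟨ht, hx⟩
  have hS2 : ball y0 (2 * r) ⊆ ball y0 (4 * r) := ball_subset_ball (by linarith)
  have hSU := hS2.trans hRU
  set L5 : ℝ := ‖D2 F (t0, Z t0 y0)‖ + δ' + Λ * (L1 + L1) with hL5
  have hL50 : 0 ≤ L5 := by positivity
  set Q : ℝ := 2 * L5 * (n * L3) + n * L2 with hQ
  have hQ0 : 0 ≤ Q := by positivity
  have key : ∀ h : En n, ‖h‖ ≤ 2 * r → Hb (Icc s s') (ball y0 r) (C * (3 * Q) * ‖h‖ / r ^ 3)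
      fun t y => (t - (t0 - r)) • dv h g t y := by
    intro h hh
    have hh0 := norm_nonneg h
    have m1 : ∀ y ∈ ball y0 (2 * r), ∀ z, ‖z‖ ≤ ‖h‖ → y + z ∈ ball y0 (4 * r) := fun y hy z hz => by
      have := dist_triangle (y + z) y y0
      rw [dist_self_add_left] at this
      rw [mem_ball] at hy ⊢
      linarith
    have m2 : ∀ y ∈ ball y0 (2 * r), y + h ∈ ball y0 (4 * r) := fun y hy => m1 y hy h le_rfl
    have m3 : ∀ y ∈ ball y0 (2 * r), y + h ∈ U := fun y hy => hRU (m2 y hy)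
    set Lh : ℝ → En n → HW n →L[ℝ] ℝ := fun t y => mv (D2 F) t (Z t y) (Z t (y + h)) with hLh
    have c1 : ContinuousOn (fun q : ℝ × En n => Lh q.1 q.2) (Icc s s' ×ˢ ball y0 (2 * r)) :=
      mv_cont (convex_ball _ _) hDc (C := ‖D2 F (t0, Z t0 y0)‖ + δ')
        (fun t ht x hx => by
          linarith [norm_le_insert' (D2 F (t, x)) (D2 F (t0, Z t0 y0)), (hr' t ht).1 x hx])
        (hZ.mono hJ hSU).cont ((yl_shift m3 hZ).mono hJ Subset.rfl).cont
        fun q hq => ⟨hq.1, hZB _ hq.1 _ (hS2 hq.2), hZB _ hq.1 _ (m2 _ hq.2)⟩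
    have c2 : ∀ t ∈ Icc s s', ∀ y ∈ ball y0 (2 * r), ‖Lh t y - D2 F (t0, Z t0 y0)‖ ≤ δ' :=
      fun t ht y hy => mv_cl (convex_ball _ _) (hDs t ht) (hZB t ht _ (hS2 hy))
        (hZB t ht _ (m2 y hy)) (hr' t ht).1
    have c3 : ∀ t ∈ Icc s s', ∀ y ∈ ball y0 (2 * r), ∀ y' ∈ ball y0 (2 * r),
        ‖Lh t y - Lh t y'‖ ≤ Λ * (L1 + L1) * √(dist y y') := fun t ht y hy y' hy' => by
      refine (mv_lip (convex_ball _ _) (hDs t ht) (hZB t ht _ (hS2 hy)) (hZB t ht _ (m2 y hy))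
        (hZB t ht _ (hS2 hy')) (hZB t ht _ (m2 y' hy')) hΛ (hr' t ht).2).trans ?_
      rw [mul_assoc, add_mul]
      refine mul_le_mul_of_nonneg_left (add_le_add ((b1 t (hJ ht)).2 _ (hS2 hy) _ (hS2 hy')) ?_) hΛ
      simpa using (b1 t (hJ ht)).2 _ (m2 y hy) _ (m2 y' hy')
    have c4 : Hb (Icc s s') (ball y0 (2 * r)) L5 Lh := fun t ht => ⟨fun y hy => by
        have : 0 ≤ Λ * (L1 + L1) := by positivity
        linarith [norm_le_insert' (Lh t y) (D2 F (t0, Z t0 y0)), c2 t ht y hy],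
      fun y hy y' hy' => (c3 t ht y hy y' hy').trans (mul_le_mul_of_nonneg_right
        (le_add_of_nonneg_left (by positivity)) (Real.sqrt_nonneg _))⟩
    have c5 : Hb (Icc s s') (ball y0 (2 * r)) (n * L2 * ‖h‖) (dv h p) :=
      (hb_dv m1 (fun t ht y hy => hp.diff ht (hRU hy)) b2).mono hJ Subset.rfl le_rfl
    have c6 : Hb (Icc s s') (ball y0 (2 * r)) (n * L3 * ‖h‖) (dv h E) :=
      (hb_dv m1 (fun t ht y hy => hE.diff ht (hRU hy)) b3).mono hJ Subset.rfl le_rfl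
    have c7 : Hb (Icc s s') (ball y0 (2 * r)) (Q * ‖h‖)
        fun t y => (t - (t0 - r)) • Lh t y (dv h E t y) + dv h p t y :=
      (((c4.app c6).tsmul zero_le_one hθ).add c5).mono Subset.rfl Subset.rfl
        (le_of_eq (by rw [hQ]; ring))
    have y1 : ∀ {m : ℕ} {V : Type} [NormedAddCommGroup V] [NormedSpace ℝ V] {u : ℝ → En n → V},
        Yl (Icc α β) U m u → Yl (Icc s s') (ball y0 (2 * r)) m (dv h u) := fun hu =>
      ((yl_shift m3 hu).mono hJ Subset.rfl).sub isOpen_ball (hu.mono hJ hSU)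
    have y2 : ∀ {m : ℕ}, Yl (Icc s s') (ball y0 (2 * r)) m fun t _ => t - (t0 - r) :=
      yl_time (by fun_prop)
    have c8 : ∀ t ∈ Icc s s', ∀ y ∈ ball y0 (2 * r),
        d2 (fun y => (t - (t0 - r)) • dv h p t y) y = (t - (t0 - r)) • dv h g t y :=
      fun t ht y hy => by
        funext k l
        have := pd_pd_sub isOpen_ball ((yl_shift m3 hp).mono hJ Subset.rfl) (hp.mono hJ hSU)
          ht hy k l
        simp only [pd_shift] at this
        simp only [d2, pd_csmul, dv, this, hgd, Pi.smul_apply, Pi.sub_apply]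
    have c9 := ((b4.dv0 hS2 m2).mono hJ Subset.rfl le_rfl).tsmul zero_le_one hθ
    have hB' : n * L2 * ‖h‖ ≤ Q * ‖h‖ := mul_le_mul_of_nonneg_right
      (le_add_of_nonneg_left (by positivity)) hh0
    have out := hC s s' (ball y0 (2 * r)) (fun t y => Matrix.of fun k l => Lh t y (0, eH k l))
      (fun t y => (t - (t0 - r)) • Lh t y (dv h E t y) + dv h p t y)
      (fun t y => (t - (t0 - r)) • dv h p t y) (Q * ‖h‖) (Q * ‖h‖) (Q * ‖h‖)
      ⟨s5, by linarith, isOpen_ball, y2.smul hJc isOpen_ball (y1 hp),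
        fun k l => c1.clm_apply continuousOn_const,
        ((y2 (m := 0)).cont.smul (c1.clm_apply (y1 hE).cont)).add (y1 hp).cont,
        fun y _ => ?_, fun t ht y hy => ?_,
        fun t ht y hy k l => (abs_eH (Lh t y - D2 F (t0, Z t0 y0)) k l).trans (c2 t ht y hy),
        fun t ht y hy y' hy' k l => (abs_eH (Lh t y - Lh t y') k l).trans (c3 t ht y hy y' hy'),
        by positivity, by positivity, by positivity,
        fun t ht y hy => (((c5.tsmul zero_le_one hθ) t ht).1 y hy).trans (by linarith),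
        fun t ht => c7.ws ht, fun t ht => c7.wh ht⟩
      ⟨_, fun t ht => (c9.congr (g := fun t => d2 fun y => (t - (t0 - r)) • dv h p t y) c8).wh ht⟩
    · refine ((hb_of_w (g := fun t => d2 fun y => (t - (t0 - r)) • dv h p t y) hr0 (by linarith)
        fun t ht => ⟨(out t ht).1, (out t ht).2.1⟩).mono Subset.rfl Subset.rfl
          (le_of_eq (by ring))).congr fun t ht y hy =>
        (c8 t ht y (ball_subset_ball (by linarith) hy)).symm
    · rcases le_total α (t0 - r) with h1 | h1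
      · simp [hs, max_eq_right h1]
      · simp [hs, max_eq_left h1, dv, hpd]
    · have h1 := (((he t (hJ ht) _ (m3 y hy)).sub_const (v α (y + h))).sub
        ((he t (hJ ht) y (hSU hy)).sub_const (v α y))).mono hJ
      refine (((hasDerivWithinAt_id t _).sub_const (t0 - r)).smul h1).congr_deriv ?_
      have h2 := mv_eq (F := F) (convex_ball _ _) (hDs t ht) (hZB t ht _ (hS2 hy))
        (hZB t ht _ (m2 y hy)) fun x hx => hd t (hJ ht) x (hB hx)
      have h3 : Z t (y + h) - Z t y = (0, dv h g t y) + dv h E t y := by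
        rw [hgZ t (hJ ht) _ (m3 y hy), hgZ t (hJ ht) _ (hSU hy), add_sub_add_comm]
        simp [dv]
      have h4 : Lop (Matrix.of fun k l => Lh t y (0, eH k l))
          (fun y => (t - (t0 - r)) • dv h p t y) y = (t - (t0 - r)) • Lh t y (0, dv h g t y) := by
        rw [← map_smul, Prod.smul_mk, smul_zero, ← c8 t ht y hy, clm_eH]
        rfl
      change (t - (t0 - r)) • (F (t, Z t (y + h)) - F (t, Z t y)) + (1 : ℝ) • dv h p t y = _
      beta_reduce
      rw [h2, h3, h4, map_add, smul_add, one_smul, add_assoc]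
  have hJ' : Icc α β ∩ Icc (t0 - r / 2) (t0 + r) ⊆ Icc s s' := fun t ht =>
    ⟨max_le ht.1.1 (by linarith [ht.2.1]), le_min ht.1.2 ht.2.2⟩
  have hJc' : IsCompact (Icc α β ∩ Icc (t0 - r / 2) (t0 + r)) := hI.inter_right isClosed_Icc
  have hS1 : ball y0 r ⊆ ball y0 (4 * r) := ball_subset_ball (by linarith)
  have h1 := dq_loc hJc' hr0 (ρ := 2 * r) (K := 2 / r * (C * (3 * Q) / r ^ 3)) (by positivity)
    (by positivity) hL4 (hg.mono inter_subset_left (hS1.trans hRU))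
    (b4.mono inter_subset_left hS1 le_rfl) fun h hh =>
      ((((key h hh).mono hJ' Subset.rfl le_rfl).tsmul (θ := fun t => (t - (t0 - r))⁻¹)
        (c := 2 / r) (by positivity) fun t ht => by
          have : r / 2 ≤ t - (t0 - r) := by linarith [ht.2.1]
          rw [abs_of_pos (inv_pos.2 (by linarith)), ← inv_div]
          exact inv_anti₀ (by positivity) this).mono Subset.rfl Subset.rfl
        (le_of_eq (by ring))).congr fun t ht y _ => by
          rw [inv_smul_smul₀ (by linarith [ht.2.1])]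
  have hS0 : ball y0 (r / 4) ⊆ U := (ball_subset_ball (by linarith)).trans hRU
  have h2 := hp.mono (inter_subset_left (t := Icc (t0 - r / 2) (t0 + r))) hS0
  have h3 : Yl (Icc α β ∩ Icc (t0 - r / 2) (t0 + r)) (ball y0 (r / 4)) 3 p :=
    ⟨h2.1, h2.2.1, fun l => ⟨(h2.pd l).1, (h2.pd l).2.1, fun k =>
      (h1.clm isOpen_ball (ContinuousLinearMap.proj k)).clm isOpen_ball
        (ContinuousLinearMap.proj l)⟩⟩
  exact ⟨_, inter_mem_nhdsWithin _ (Icc_mem_nhds (by linarith) (by linarith)), _,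
    ball_mem_nhds _ (by positivity), (h3.add isOpen_ball (hua.mono inter_subset_left hS0)).congr
      isOpen_ball fun t _ y _ => by simp [hpd]⟩

end R54

open R54 in
/-- (FNREG) -/
theorem fnReg {n : ℕ} (hS : ISStmt n ℝ) : FnReg n := by
  intro α β U O F v hab hU hO hF hm hpos hv h0 he
  have hI : IsCompact (Icc α β) := isCompact_Icc
  have hI' := uniqueDiffOn_Icc hab
  obtain ⟨hd, hD⟩ := d2_spec hI' hO hF
  replace hpos : ∀ t ∈ Icc α β, ∀ y ∈ U,
      (Matrix.of fun k l => D2 F (t, y, d2 (v t) y) (0, eH k l)).PosDef := fun t ht y hy => by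
    have h1 := ((hd t ht _ (hm t ht y hy)).comp _ (hasFDerivAt_prodMk_right y (d2 (v t) y))).fderiv
    have h2 := hpos t ht y hy
    rw [show fderiv ℝ (fun H => F (t, y, H)) (d2 (v t) y) = _ from h1] at h2
    exact h2
  have all : ∀ m, Yl (Icc α β) U (m + 3) v := by
    intro m
    induction m with
    | zero => exact yl3 hS hab hU hO hF hm hpos hv h0 he
    | succ m ih =>
      have hZ := yl_jet hI hU (m := m + 1) ih
      have hL := Yl.comp hI hI' hU hO hD hZ hm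
      have h3 : Yl (Icc α β) U 3 v := ih.of_le hI hU (by omega)
      refine ⟨ih.1, ih.2.1, fun i => lreg_all (lreg_of_apr (apr n ℝ)) hab hU hpos m
        (f := fun t y => D2 F (t, y, d2 (v t) y) (EuclideanSpace.single i 1, 0))
        (fun k l => hL.clm hU (ContinuousLinearMap.apply ℝ ℝ _))
        (hL.clm hU (ContinuousLinearMap.apply ℝ ℝ _)) (h3.pd i) (contDiffOn_pd_top hU h0 i)
        fun t ht y hy => ?_⟩
      refine (ev_pd hU he ih.2.1 (Yl.comp hI hI' hU hO hF (yl_jet hI hU (m := 1) h3) hm) i t ht y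
        hy).congr_deriv ?_
      have h4 : HasFDerivAt (d2 (v t))
          (ContinuousLinearMap.pi fun k => ContinuousLinearMap.pi fun l =>
            fderiv ℝ (pd k (pd l (v t))) y) y :=
        hasFDerivAt_pi.2 fun k => hasFDerivAt_pi.2 fun l =>
          (((h3.pd l).pd k).diff ht hy).hasFDerivAt
      have h5 := ((hd t ht _ (hm t ht y hy)).comp y ((hasFDerivAt_id y).prodMk h4)).fderiv
      have h6 : pd i (fun y => F (t, y, d2 (v t) y)) y = D2 F (t, y, d2 (v t) y)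
          ((0, d2 (pd i (v t)) y) + (EuclideanSpace.single i 1, 0)) := by
        refine (congrArg (fun D : En n →L[ℝ] ℝ => D (EuclideanSpace.single i 1)) h5).trans ?_
        refine congrArg (D2 F (t, y, d2 (v t) y)) (Prod.ext (zero_add _).symm ?_)
        funext k l
        exact (pd3_comm hU h3 ht hy hv i k l).trans (add_zero _).symm
      beta_reduce
      rw [h6, map_add, clm_eH]
      rfl
  exact (X.js_of_closure hab hU (Φ := fun t y => F (t, y, d2 (v t) y))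
    (sj_of_yl hI hU fun m => (all m).of_le hI hU (by omega))
    (fun j hj => X.SJ.comp hI' hU hO hF (X.SJ.id.prod hU (X.SJ.pi hI' hU fun k =>
      X.SJ.pi hI' hU fun l => (hj.dv _).dv _)) hm) countable_empty fun t ht y hy =>
      (he t (Ioo_subset_Icc_self ht.1) y hy).hasDerivAt (Icc_mem_nhds ht.1.1 ht.1.2)).1

end Crest.Agent.T223.Lx
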