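import Crest.Agent.T223.StMAa_88

/-!
# Row 223, STEP (helper88): crude bounds for the heat equation in a chart
-/

set_option autoImplicit false
set_option linter.unusedVariables false

open Set Filter Topology Metric
open scoped ContDiff ComplexConjugate Matrix ComplexOrder

namespace Crest.Agent.T223.St.H88

open Crest.Agent.R275.Geo Crest.Agent.R275.EDR890 Crest.Agent.R273.Hess_333
open Crest.Agent.T223.Tr Crest.Agent.T223.Os
open Crest.Agent.T223.Db (eR zm rm)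
open Crest.Agent.N207.P (En d1 pd Lop Yl yl_of_contDiffOn)
open Crest.Agent.T223.Lx

variable {n : ℕ}

theorem wd_sub_const (u : Cn n → ℝ) (c : ℝ) (s : WI n) :
    wd s (cu fun w => u w - c) = wd s (cu u) := by
  funext z
  have h : (cu fun w => u w - c) = fun w => cu u w - (c : ℂ) := by
    funext w; simp [cu]
  rw [h, wd, fderiv_sub_const, wd]

theorem near_rm {δ : ℝ} (hδ : 0 < δ) :
    ∀ᶠ G in 𝓝 (1 : Mat n), ∀ k l, |rm G k l - rm (1 : Mat n) k l| ≤ δ := by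
  refine eventually_all.2 fun k => eventually_all.2 fun l => ?_
  have h := (Db.cd_rm (G := fun q : ZZ n => Matrix.of q) (X := ZZ n) (s := univ) (x := (1 : Mat n))
    (fun a b => ((contDiff_apply ℝ ℂ b).comp (contDiff_apply ℝ (Fin n → ℂ) a)).contDiffWithinAt)
    (by change (1 : Mat n).det ≠ 0; simp) k l).continuousWithinAt
  exact ((h.continuousAt univ_mem).eventually (closedBall_mem_nhds _ hδ)).mono fun G hG => hG

/-- the hypotheses -/
structure Hy (η C β : ℝ) (g : ℝ → Cn n → Mat n) (u : ℝ → Cn n → ℝ) : Prop where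
  pos : 0 < β
  le : β ≤ 1
  sg : ∀ a b, ContDiffOn ℝ ∞ (fun q : ℝ × Cn n => g q.1 q.2 a b) (Icc 0 β ×ˢ ball 0 (RR n))
  cl : ∀ s ∈ Icc 0 β, ∀ w ∈ ball (0 : Cn n) (RR n), ∀ a b, ‖g s w a b - (1 : Mat n) a b‖ ≤ η
  cb : ∀ s ∈ Icc 0 β, ∀ a b, CB (1 / 4) 5 C (rr fun w => g s w a b)
  su : ContDiffOn ℝ ∞ (fun q : ℝ × Cn n => u q.1 q.2) (Icc 0 β ×ˢ ball 0 (RR n))
  ev : ∀ s ∈ Icc 0 β, ∀ w ∈ ball (0 : Cn n) (RR n),
    HasDerivWithinAt (fun s => u s w) (lap (g s) (u s) w) (Icc 0 β) s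
  du : ∀ j, 1 ≤ j → j ≤ 4 → ∀ w ∈ ball (0 : Cn n) (RR n), ‖iteratedFDeriv ℝ j (u 0) w‖ ≤ C
  os : ∀ s ∈ Icc 0 β, ∀ w ∈ ball (0 : Cn n) (RR n), |u s w - u 0 w| ≤ C

theorem slice {V : Type*} [NormedAddCommGroup V] [NormedSpace ℝ V] {I : Set ℝ} {D : Set (Cn n)}
    {f : ℝ → Cn n → V} (h : ContDiffOn ℝ ∞ (fun q : ℝ × Cn n => f q.1 q.2) (I ×ˢ D)) {s : ℝ}
    (hs : s ∈ I) : ContDiffOn ℝ ∞ (f s) D :=
  h.comp (f := fun w : Cn n => (s, w)) (contDiffOn_const.prodMk contDiffOn_id) fun w hw => ⟨hs, hw⟩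

theorem chH (h1 : LinHB (2 * n) ℝ) : ChHStmt n := by
  obtain ⟨δ, hδ, h1⟩ := h1 (rm (1 : Mat n)) (Db.rm_pos Matrix.PosDef.one)
  obtain ⟨η, hη, hE⟩ := exists_near ((near_rm (n := n) hδ).and near_det)
  refine ⟨η, hη, fun C => ?_⟩
  let ι : Type := {p : ℝ × (ℝ → Cn n → Mat n) × (ℝ → Cn n → ℝ) // Hy η C p.1 p.2.1 p.2.2}
  let κ : Type := {p : ι × ℝ // p.2 ∈ Icc 0 p.1.1.1}
  have h42 : ball (0 : En (2 * n)) (1 / 4) ⊆ ball 0 2 := ball_subset_ball (by norm_num)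
  have z0 : ∀ i : ι, (0 : ℝ) ∈ Icc 0 i.1.1 := fun i => ⟨le_rfl, i.2.pos.le⟩
  have yl : ∀ (i : ι) (j : ℕ) {f : ℝ → En (2 * n) → ℝ}, ContDiffOn ℝ ∞
      (fun q : ℝ × En (2 * n) => f q.1 q.2) (Icc 0 i.1.1 ×ˢ ball 0 2) →
      Yl (Icc 0 i.1.1) (ball 0 (1 / 4)) j f := fun i j f h =>
    yl_of_contDiffOn isCompact_Icc (uniqueDiffOn_Icc i.2.pos) isOpen_ball
      (h.mono (prod_mono Subset.rfl h42))
  have hg : UM (1 / 4) 4 fun p : κ => p.1.1.1.2.1 p.1.2 := fun a b =>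
    (ubCb (2 * n) ℂ κ (1 / 4) 4 _ fun p => (cdo_rr (slice (f := fun s w => p.1.1.1.2.1 s w a b)
      (p.1.1.2.sg a b) p.2)).mono h42).2 ⟨C, fun p => p.1.1.2.cb _ p.2 a b⟩
  have hi := UE.inv hg (c := 1 / 2) (by norm_num) fun p y hy =>
    (hE _ (p.1.1.2.cl _ p.2 _ (symm_mem (h42 hy)))).2
  have h7 := h1 ι (1 / 4) (1 / 8) 0 (fun _ => 0) (fun i => i.1.1)
    (fun i t y => rm (rr (i.1.2.1 t) y)) (fun _ _ _ => 0)
    (fun i t => rr fun w => i.1.2.2 t w - i.1.2.2 0 0) (by norm_num) (by norm_num)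
    { lt := fun i => i.2.pos
      len := fun i => by rw [sub_zero]; exact i.2.le
      uy := fun i => yl i _ (cdo_rr2 (F := fun t w => i.1.2.2 t w - i.1.2.2 0 0)
        (i.2.su.sub contDiffOn_const))
      ay := fun i k l => yl i _ fun q hq => Db.cd_rm
        (G := fun q : ℝ × En (2 * n) => rr (i.1.2.1 q.1) q.2)
        (fun a b => cdo_rr2 (F := fun t w => i.1.2.1 t w a b) (i.2.sg a b) q hq) (fun h => by
          have h2 := (hE _ (i.2.cl _ hq.1 _ (symm_mem hq.2))).2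
          rw [rr] at h
          rw [h] at h2
          norm_num at h2) k l
      fy := fun i => yl i _ contDiffOn_const
      ev := fun i t ht y hy => by
        have hw := symm_mem (h42 hy)
        refine ((i.2.ev t ht _ hw).sub_const _).congr_deriv ?_
        beta_reduce
        rw [add_zero, lop_rm, of_Pm_d2 (((slice i.2.su ht).contDiffAt
          (isOpen_ball.mem_nhds hw)).sub contDiffAt_const), lap]
        congr 1
        ext a b
        rw [hess_apply, hess_apply, wd_sub_const]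
      cl := fun i t ht y hy => (hE _ (i.2.cl _ ht _ (symm_mem (h42 hy)))).1
      ab := fun k l => by
        refine UB.of_le (Nat.zero_le 4) ?_
        simp only [rm, Matrix.of_apply, Matrix.mul_apply]
        exact ub_re (UB.sum _ fun b _ => ub_cmul (UB.sum _ fun a _ =>
          ub_cmul (ub_const' _) (hi a b)) (ub_const' _))
      fb := ub_const' (0 : ℝ) }
    (UB.mono (by norm_num) (uc_sub_zero (F := fun i : ι => i.1.2.2 0) (fun i => slice i.2.su (z0 i))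
      fun i j a1 a2 => i.2.du j a1 (by omega)))
    ⟨C + C * RR n, fun i t ht y hy => by
      have hw := symm_mem (h42 hy)
      have a1 := i.2.os t ht _ hw
      have a2 := norm_sub_zero_le (F := i.1.2.2 0) (fun w hw => ((slice i.2.su (z0 i)).contDiffAt
        (isOpen_ball.mem_nhds hw)).differentiableAt (by simp))
        (fun w hw => by rw [← norm_iteratedFDeriv_one]; exact i.2.du 1 le_rfl (by norm_num) w hw) hw
      exact (abs_sub_le _ _ _).trans (add_le_add a1 a2)⟩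
  have h8 : UC (1 / 8) 2 fun (p : κ) w => p.1.1.1.2.2 p.1.2 w - p.1.1.1.2.2 0 0 := h7
  obtain ⟨K, -, hK⟩ := UE.bdd (UC.hess (m := 0) h8)
  obtain ⟨K', hK'⟩ := (UB.clm ((PiLp.continuousLinearEquiv 2 ℝ fun _ : Fin n => ℂ).symm :
    (Fin n → ℂ) →L[ℝ] Cn n) (UB.pi fun a => UC.dz (m := 1) h8 a)).bdd
  refine ⟨max K K', fun β g u b1 b2 b3 b4 b5 b6 b7 b8 b9 s hs => ?_⟩
  have hz : (0 : En (2 * n)) ∈ ball (0 : En (2 * n)) (1 / 8) := mem_ball_self (by norm_num)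
  refine ⟨fun a b => le_max_of_le_left ?_, le_max_of_le_right ?_⟩
  · have h := hK ⟨(⟨(β, g, u), ⟨b1, b2, b3, b4, b5, b6, b7, b8, b9⟩⟩, s), hs⟩ 0 hz a b
    simp only [rr_zero, hess_apply, wd_sub_const] at h
    exact h
  · have h := hK' ⟨(⟨(β, g, u), ⟨b1, b2, b3, b4, b5, b6, b7, b8, b9⟩⟩, s), hs⟩ 0 hz
    simp only [rr_zero, dz, wd_sub_const] at h
    exact h

end Crest.Agent.T223.St.H88
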