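import Crest.Agent.N207.P.All
import Crest.Agent.N222.F.Bump

/-!
# Row 223 (helper88): linear parabolic equations on a closed manifold, operators given by pieces

`Pc N I` : a chart, a cut-off and a coefficient matrix; `op P t u = ∑ η • Lop a (u ∘ c⁻¹)`.
`solve` : existence on `[a,b]`; `Sol.le` : the comparison principle.
-/

set_option autoImplicit false
set_option linter.unusedSectionVars false

open Set Filter Function
open scoped ContDiff Topology Manifold Matrix

noncomputable section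

namespace Crest.Agent.T223.Db

open Crest.Agent.N207.P Crest.Agent.N222

variable {m : ℕ} {ι : Type} [Fintype ι] {Y : Type} [TopologicalSpace Y]

theorem lop_comp (a : Matrix (Fin m) (Fin m) ℝ) {θ : En m → En m} {w : En m → ℝ} {z : En m}
    (hθ : ContDiffAt ℝ 2 θ z) (hw : ContDiffAt ℝ 2 w (θ z)) :
    Lop a (fun y => w (θ y)) z =
      Lop (Matrix.of (fun i k => pd k (cp θ i) z) * a * (Matrix.of fun i k => pd k (cp θ i) z)ᵀ) w
        (θ z) + ∑ i, (∑ k, ∑ l, a k l * pd k (pd l (cp θ i)) z) * pd i w (θ z) := by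
  have e : (fun y => w (θ y)) = z0 (fun _ => 1) θ w := by funext y; simp [z0]
  have h2 : ∀ k : Fin m, (pd k fun _ : En m => (1 : ℝ)) = fun _ => 0 := fun k =>
    funext fun z => pd_const' _ z k
  simp only [e, Lop, pd_pd_z0 contDiffAt_const hθ hw, z2, z3, h2, pd_const', Matrix.mul_apply,
    Matrix.transpose_apply, Matrix.of_apply, smul_eq_mul, one_mul, zero_mul, zero_add, mul_add,
    Finset.sum_add_distrib, Finset.mul_sum, Finset.sum_mul]
  rw [add_comm]
  congr 1
  · calc ∑ k, ∑ l, ∑ j, ∑ i, a k l * (pd l (cp θ j) z * pd k (cp θ i) z * pd i (pd j w) (θ z))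
        = ∑ k, ∑ j, ∑ i, ∑ l, a k l * (pd l (cp θ j) z * pd k (cp θ i) z * pd i (pd j w) (θ z)) :=
          Finset.sum_congr rfl fun k _ => by
            rw [Finset.sum_comm]
            exact Finset.sum_congr rfl fun j _ => Finset.sum_comm
      _ = ∑ j, ∑ i, ∑ l, ∑ k, a k l * (pd l (cp θ j) z * pd k (cp θ i) z * pd i (pd j w) (θ z)) := by
          rw [Finset.sum_comm]
          refine Finset.sum_congr rfl fun j _ => ?_
          rw [Finset.sum_comm]
          exact Finset.sum_congr rfl fun i _ => Finset.sum_comm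
      _ = _ := by
          rw [Finset.sum_comm]
          exact Finset.sum_congr rfl fun i _ => Finset.sum_congr rfl fun j _ =>
            Finset.sum_congr rfl fun l _ => Finset.sum_congr rfl fun k _ => by ring
  · calc ∑ k, ∑ l, ∑ i, a k l * (pd k (pd l (cp θ i)) z * pd i w (θ z))
        = ∑ k, ∑ i, ∑ l, a k l * (pd k (pd l (cp θ i)) z * pd i w (θ z)) :=
          Finset.sum_congr rfl fun k _ => Finset.sum_comm
      _ = _ := by
          rw [Finset.sum_comm]
          exact Finset.sum_congr rfl fun i _ => Finset.sum_congr rfl fun k _ =>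
            Finset.sum_congr rfl fun l _ => by ring

theorem lop_smul (c : ℝ) (a : Matrix (Fin m) (Fin m) ℝ) (w : En m → ℝ) (z : En m) :
    Lop (c • a) w z = c * Lop a w z := by
  simp only [Lop, Matrix.smul_apply, smul_eq_mul, Finset.mul_sum, mul_assoc]

theorem lop_sum {κ : Type} [Fintype κ] (a : κ → Matrix (Fin m) (Fin m) ℝ) (w : En m → ℝ)
    (z : En m) : Lop (∑ α, a α) w z = ∑ α, Lop (a α) w z := by
  simp only [Lop, Matrix.sum_apply, smul_eq_mul, Finset.sum_mul]
  rw [Finset.sum_comm]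
  refine (Finset.sum_congr rfl fun k _ => Finset.sum_comm).trans ?_
  rw [Finset.sum_comm]
  exact Finset.sum_congr rfl fun k _ => Finset.sum_comm

theorem lop_sub' (a : Matrix (Fin m) (Fin m) ℝ) {u v : En m → ℝ} {z : En m}
    (hu : ContDiffAt ℝ 2 u z) (hv : ContDiffAt ℝ 2 v z) :
    Lop a (fun y => u y - v y) z = Lop a u z - Lop a v z := by
  have e : (fun y => u y - v y) = fun y => u y + (-1 : ℝ) • v y := by funext y; simp; ring
  rw [e]
  simp only [Lop, ← Finset.sum_sub_distrib]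
  refine Finset.sum_congr rfl fun k _ => Finset.sum_congr rfl fun l _ => ?_
  rw [lop_add hu (hv.const_smul (-1 : ℝ)), pd_pd_smul_c (-1 : ℝ) hv]
  simp only [smul_eq_mul]
  ring

/-- jointly smooth on `I × Y` -/
def SmY (N : Imm m ι Y) (I : Set ℝ) (u : ℝ → Y → ℝ) : Prop :=
  ∀ x, ContDiffOn ℝ ∞ (fun q : ℝ × En m => u q.1 ((N.ch x).symm q.2)) (I ×ˢ (N.ch x).target)

/-- a piece of an operator -/
structure Pc (N : Imm m ι Y) (I : Set ℝ) where
  c : OpenPartialHomeomorph Y (En m)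
  hc : IsChart N.x c
  η : Y → ℝ
  sm : N.Sm η
  nn : ∀ p, 0 ≤ η p
  supp : tsupport η ⊆ c.source
  a : ℝ × En m → Matrix (Fin m) (Fin m) ℝ
  sa : ∀ k l, ∀ t ∈ I, ∀ p ∈ tsupport η,
    ContDiffWithinAt ℝ ∞ (fun q => a q k l) (I ×ˢ univ) (t, c p)
  pos : ∀ t ∈ I, ∀ p ∈ tsupport η, (a (t, c p)).PosDef

variable {N : Imm m ι Y} {I : Set ℝ}

namespace Pc

variable (P : Pc N I)

/-- the operator of the piece -/
def op (t : ℝ) (u : Y → ℝ) (p : Y) : ℝ := P.η p * Lop (P.a (t, P.c p)) (u ∘ P.c.symm) (P.c p)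

/-- the Jacobian of the change of charts -/
def jm (x : Y) (z : En m) : Matrix (Fin m) (Fin m) ℝ :=
  Matrix.of fun i k => pd k (cp (N.ch x ∘ P.c.symm) i) z

/-- principal part in the chart at `x` -/
def ca (x : Y) (q : ℝ × En m) : Matrix (Fin m) (Fin m) ℝ :=
  P.η ((N.ch x).symm q.2) • (P.jm x (P.c ((N.ch x).symm q.2)) *
    P.a (q.1, P.c ((N.ch x).symm q.2)) * (P.jm x (P.c ((N.ch x).symm q.2)))ᵀ)

/-- first order part in the chart at `x` -/
def cb (x : Y) (q : ℝ × En m) (i : Fin m) : ℝ :=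
  P.η ((N.ch x).symm q.2) * ∑ k, ∑ l, P.a (q.1, P.c ((N.ch x).symm q.2)) k l *
    pd k (pd l (cp (N.ch x ∘ P.c.symm) i)) (P.c ((N.ch x).symm q.2))

theorem mem_src {p : Y} (h : P.η p ≠ 0) : p ∈ P.c.source := P.supp (subset_tsupport _ h)

theorem sm_cut (x : Y) {F : ℝ × En m → ℝ}
    (hF : ∀ t ∈ I, ∀ y ∈ (N.ch x).target, (N.ch x).symm y ∈ tsupport P.η →
      ContDiffWithinAt ℝ ∞ F (I ×ˢ (N.ch x).target) (t, y)) :
    ContDiffOn ℝ ∞ (fun q : ℝ × En m => P.η ((N.ch x).symm q.2) * F q)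
      (I ×ˢ (N.ch x).target) := by
  rintro ⟨t, y⟩ hq
  by_cases h : (N.ch x).symm y ∈ tsupport P.η
  · refine ContDiffWithinAt.mul ?_ (hF t hq.1 y hq.2 h)
    exact ((P.sm x).comp contDiffOn_snd fun _ hq => hq.2) _ hq
  · have h1 : ContinuousAt (fun q : ℝ × En m => (N.ch x).symm q.2) (t, y) :=
      ((N.ch x).continuousAt_symm hq.2).comp (f := Prod.snd) continuousAt_snd
    have h2 := h1.eventually (notMem_tsupport_iff_eventuallyEq.1 h)
    refine (contDiffAt_const (c := (0 : ℝ))).contDiffWithinAt.congr_of_eventuallyEq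
      (mem_nhdsWithin_of_mem_nhds ?_) ?_
    · filter_upwards [h2] with q hq
      simp only [Pi.zero_apply] at hq
      simp [hq]
    · have := h2.self_of_nhds
      simp only [Pi.zero_apply] at this
      simp [this]

theorem sm_τ {x : Y} {y : En m} (hy : y ∈ (N.ch x).target) (h : (N.ch x).symm y ∈ P.c.source) :
    ContDiffAt ℝ ∞ (fun z => P.c ((N.ch x).symm z)) y := by
  have h1 := P.hc.trans_smooth (N.isChart x) h ((N.ch x).map_target hy)
  rwa [(N.ch x).right_inv hy] at h1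

theorem sm_θ {x p : Y} (hp : p ∈ (N.ch x).source) (h : p ∈ P.c.source) :
    ContDiffAt ℝ ∞ (N.ch x ∘ P.c.symm) (P.c p) := (N.isChart x).trans_smooth P.hc hp h

theorem sm_a {x : Y} {t : ℝ} (ht : t ∈ I) {y : En m} (hy : y ∈ (N.ch x).target)
    (h : (N.ch x).symm y ∈ tsupport P.η) (k l : Fin m) :
    ContDiffWithinAt ℝ ∞ (fun q : ℝ × En m => P.a (q.1, P.c ((N.ch x).symm q.2)) k l)
      (I ×ˢ (N.ch x).target) (t, y) := by
  have h1 : ContDiffAt ℝ ∞ (fun q : ℝ × En m => (q.1, P.c ((N.ch x).symm q.2))) (t, y) :=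
    contDiffAt_fst.prodMk (ContDiffAt.comp (g := fun z => P.c ((N.ch x).symm z)) (f := Prod.snd)
      (t, y) (P.sm_τ hy (P.supp h)) contDiffAt_snd)
  exact ContDiffWithinAt.comp (g := fun q => P.a q k l) (t := I ×ˢ univ)
    (f := fun q : ℝ × En m => (q.1, P.c ((N.ch x).symm q.2))) (t, y) (P.sa k l t ht _ h)
    h1.contDiffWithinAt fun q hq => ⟨hq.1, mem_univ _⟩

theorem sm_g {x : Y} {t : ℝ} {y : En m} (hy : y ∈ (N.ch x).target)
    (h : (N.ch x).symm y ∈ tsupport P.η) {g : En m → ℝ}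
    (hg : ContDiffAt ℝ ∞ g (P.c ((N.ch x).symm y))) :
    ContDiffWithinAt ℝ ∞ (fun q : ℝ × En m => g (P.c ((N.ch x).symm q.2)))
      (I ×ˢ (N.ch x).target) (t, y) :=
  (hg.comp (t, y) ((P.sm_τ hy (P.supp h)).comp (t, y) contDiffAt_snd)).contDiffWithinAt

theorem sm_ca (x : Y) (i j : Fin m) :
    ContDiffOn ℝ ∞ (fun q => P.ca x q i j) (I ×ˢ (N.ch x).target) := by
  simp only [ca, Matrix.smul_apply, smul_eq_mul, Matrix.mul_apply, Matrix.transpose_apply, jm,
    Matrix.of_apply]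
  refine P.sm_cut x fun t ht y hy h => ?_
  have hθ := P.sm_θ ((N.ch x).map_target hy) (P.supp h)
  have hj : ∀ i k, ContDiffAt ℝ ∞ (pd k (cp (N.ch x ∘ P.c.symm) i)) (P.c ((N.ch x).symm y)) :=
    fun i k => contDiffAt_pd (contDiffAt_cp hθ i) (by simp) k
  exact ContDiffWithinAt.sum fun l _ => (ContDiffWithinAt.sum fun k _ =>
    (P.sm_g hy h (hj i k)).mul (P.sm_a ht hy h k l)).mul (P.sm_g hy h (hj j l))

theorem sm_cb (x : Y) (i : Fin m) :
    ContDiffOn ℝ ∞ (fun q => P.cb x q i) (I ×ˢ (N.ch x).target) := by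
  simp only [cb]
  refine P.sm_cut x fun t ht y hy h => ?_
  have hθ := P.sm_θ ((N.ch x).map_target hy) (P.supp h)
  exact ContDiffWithinAt.sum fun k _ => ContDiffWithinAt.sum fun l _ => (P.sm_a ht hy h k l).mul
    (P.sm_g hy h (contDiffAt_pd (contDiffAt_pd (m := ∞) (contDiffAt_cp hθ i) (by simp) l)
      (by simp) k))

theorem ca_pos {x : Y} {t : ℝ} (ht : t ∈ I) {y : En m} (hy : y ∈ (N.ch x).target)
    (h : 0 < P.η ((N.ch x).symm y)) : (P.ca x (t, y)).PosDef := by
  refine Matrix.PosDef.smul ?_ h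
  set p := (N.ch x).symm y
  have hp : p ∈ P.c.source := P.mem_src h.ne'
  have hx : p ∈ (N.ch x).source := (N.ch x).map_target hy
  have h1 := P.pos t ht p (subset_tsupport _ h.ne')
  have hd := (P.sm_θ hx hp).differentiableAt (by simp)
  have hs := ((N.isChart x).trans_bijective P.hc hx hp).2
  have h2 : Injective (P.jm x (P.c p)).vecMul := by
    refine (injective_iff_map_eq_zero (Matrix.vecMulLinear (P.jm x (P.c p)))).2 fun v hv => ?_
    obtain ⟨w, hw⟩ := hs (WithLp.toLp 2 v)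
    have h3 : ∀ k, ∑ i, v i * fderiv ℝ (N.ch x ∘ P.c.symm) (P.c p) (EuclideanSpace.single k 1) i
        = 0 := fun k => by
      have := congrFun hv k
      simpa [Matrix.vecMul, dotProduct, jm, pd_cp hd] using this
    have h4 : ∑ i, v i * v i = 0 := by
      have h5 : ∀ i, v i = ∑ k, w k *
          fderiv ℝ (N.ch x ∘ P.c.symm) (P.c p) (EuclideanSpace.single k 1) i := fun i => by
        have := congrArg (fun u : En m => u i) hw
        simp only at this
        rw [← this, clm_eq_sum]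
        simp
      calc ∑ i, v i * v i = ∑ i, ∑ k, w k * (v i *
            fderiv ℝ (N.ch x ∘ P.c.symm) (P.c p) (EuclideanSpace.single k 1) i) := by
            refine Finset.sum_congr rfl fun i _ => ?_
            conv_lhs => rw [h5 i]
            rw [← h5 i, h5 i, Finset.mul_sum, ← h5 i]
            exact Finset.sum_congr rfl fun k _ => by ring
        _ = 0 := by
            rw [Finset.sum_comm]
            simp only [← Finset.mul_sum, h3, mul_zero, Finset.sum_const_zero]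
    funext i
    have := (Finset.sum_eq_zero_iff_of_nonneg fun i _ => mul_self_nonneg (v i)).1 h4 i
      (Finset.mem_univ i)
    exact mul_self_eq_zero.1 this
  simpa using h1.mul_mul_conjTranspose_same h2

theorem ca_nn {x : Y} {t : ℝ} (ht : t ∈ I) {y : En m} (hy : y ∈ (N.ch x).target) :
    (P.ca x (t, y)).PosSemidef := by
  rcases (P.nn ((N.ch x).symm y)).eq_or_lt with h | h
  · simp only [ca, ← h, zero_smul]; exact Matrix.PosSemidef.zero
  · exact (P.ca_pos ht hy h).posSemidef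

theorem op_rep {x : Y} (t : ℝ) {y : En m} (hy : y ∈ (N.ch x).target) {u : Y → ℝ}
    (hu : ContDiffAt ℝ 2 (u ∘ (N.ch x).symm) y) :
    P.op t u ((N.ch x).symm y) = Lop (P.ca x (t, y)) (u ∘ (N.ch x).symm) y +
      ∑ i, P.cb x (t, y) i * pd i (u ∘ (N.ch x).symm) y := by
  by_cases h : P.η ((N.ch x).symm y) = 0
  · simp [op, ca, cb, h, Lop]
  set p := (N.ch x).symm y with hp0
  have hp : p ∈ P.c.source := P.mem_src h
  have hx : p ∈ (N.ch x).source := (N.ch x).map_target hy
  have hθ := (P.sm_θ hx hp).of_le two_le_inf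
  have hy' : (N.ch x ∘ P.c.symm) (P.c p) = y := by
    rw [comp_apply, P.c.left_inv hp, hp0, (N.ch x).right_inv hy]
  have h1 : u ∘ P.c.symm =ᶠ[𝓝 (P.c p)] fun z => (u ∘ (N.ch x).symm) ((N.ch x ∘ P.c.symm) z) :=
    chart_eventuallyEq u hx hp
  rw [op, (Jet2.of_ev h1).lop, lop_comp _ hθ (hy' ▸ hu), hy', ca, lop_smul, mul_add, Finset.mul_sum]
  simp only [cb, ← hp0, mul_assoc]
  rfl

theorem c2 {u : Y → ℝ} (hu : N.Sm u) {p : Y} (h : P.η p ≠ 0) :
    ContDiffAt ℝ 2 (u ∘ P.c.symm) (P.c p) :=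
  ((hu.chart P.hc).contDiffAt (P.c.open_target.mem_nhds (P.c.map_source (P.mem_src h)))).of_le
    two_le_inf

theorem op_sub (t : ℝ) {u v : Y → ℝ} (hu : N.Sm u) (hv : N.Sm v) (p : Y) :
    P.op t (fun q => u q - v q) p = P.op t u p - P.op t v p := by
  by_cases h : P.η p = 0
  · simp [op, h]
  · rw [op, op, op, ← mul_sub, ← lop_sub' _ (P.c2 hu h) (P.c2 hv h)]; rfl

theorem op_nonpos {t : ℝ} (ht : t ∈ I) {u : Y → ℝ} (hu : N.Sm u) {p : Y} (hm : ∀ q, u q ≤ u p) :
    P.op t u p ≤ 0 := by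
  by_cases h : P.η p = 0
  · simp [op, h]
  · refine mul_nonpos_of_nonneg_of_nonpos (P.nn p) (lop_nonpos
      (P.pos t ht p (subset_tsupport _ h)).posSemidef (P.c2 hu h) (Eventually.of_forall fun z => ?_))
    simp only [comp_apply, P.c.left_inv (P.mem_src h)]
    exact hm _

end Pc

variable {κ : Type} [Fintype κ]

/-- the operator -/
def op (P : κ → Pc N I) (t : ℝ) (u : Y → ℝ) (p : Y) : ℝ := ∑ α, (P α).op t u p

/-- solutions on `[a,b] × Y` with zero initial value -/
structure Sol {a b : ℝ} (P : κ → Pc N (Icc a b)) (H w : ℝ → Y → ℝ) : Prop where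
  sm : SmY N (Icc a b) w
  init : ∀ p, w a p = 0
  eqn : ∀ t ∈ Icc a b, ∀ p, HasDerivWithinAt (fun s => w s p) (op P t (w t) p + H t p) (Icc a b) t

theorem SmY.slice {u : ℝ → Y → ℝ} (h : SmY N I u) {t : ℝ} (ht : t ∈ I) : N.Sm (u t) := fun x =>
  (h x).comp (f := fun y : En m => (t, y)) (by fun_prop) fun _ hy => ⟨ht, hy⟩

theorem SmY.cont {u : ℝ → Y → ℝ} (h : SmY N I u) :
    ContinuousOn (fun q : ℝ × Y => u q.1 q.2) (I ×ˢ univ) := by
  rintro ⟨t, p⟩ hq
  have h1 : ContinuousAt (fun q : ℝ × Y => (q.1, N.ch p q.2)) (t, p) :=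
    continuousAt_fst.prodMk (ContinuousAt.comp (g := N.ch p) (f := Prod.snd)
      ((N.ch p).continuousAt (N.mem p)) continuousAt_snd)
  have h0 : ∀ᶠ q : ℝ × Y in 𝓝 (t, p), q.2 ∈ (N.ch p).source :=
    continuousAt_snd.eventually ((N.ch p).open_source.mem_nhds (N.mem p))
  have h2 := ((h p).continuousOn (t, N.ch p p) ⟨hq.1, (N.ch p).map_source (N.mem p)⟩).comp
    (f := fun q : ℝ × Y => (q.1, N.ch p q.2)) (x := (t, p)) (s := I ×ˢ (N.ch p).source)
    h1.continuousWithinAt fun q hq => ⟨hq.1, (N.ch p).map_source hq.2⟩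
  have h3 : ContinuousWithinAt (fun q : ℝ × Y => u q.1 q.2) (I ×ˢ (N.ch p).source) (t, p) :=
    h2.congr (fun q hq => by simp [(N.ch p).left_inv hq.2]) (by simp [(N.ch p).left_inv (N.mem p)])
  refine h3.mono_of_mem_nhdsWithin ?_
  filter_upwards [mem_nhdsWithin_of_mem_nhds h0, self_mem_nhdsWithin] with q h4 h5
  exact ⟨h5.1, h4⟩

theorem sol_zero {a b : ℝ} (P : κ → Pc N (Icc a b)) : Sol P (fun _ _ => 0) fun _ _ => 0 := by
  refine ⟨fun _ => contDiffOn_const, fun _ => rfl, fun t _ p => ?_⟩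
  have h : ∀ α, (P α).op t (fun _ => 0) p = 0 := fun α => by
    have := (P α).op_sub t (Imm.sm_const (M := N) (0 : ℝ)) (Imm.sm_const (M := N) (0 : ℝ)) p
    simpa using this
  simpa [op, h] using hasDerivWithinAt_const t (Icc a b) (0 : ℝ)

/-- **comparison principle** -/
theorem Sol.le [CompactSpace Y] {a b : ℝ} {P : κ → Pc N (Icc a b)} {H w H' w' : ℝ → Y → ℝ}
    (h : Sol P H w) (h' : Sol P H' w') {C t : ℝ} (ht : t ∈ Icc a b)
    (hC : ∀ s ∈ Icc a t, ∀ p, H s p - H' s p ≤ C) (p : Y) : w t p - w' t p ≤ (t - a) * C := by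
  have hI : Icc a t ⊆ Icc a b := Icc_subset_Icc le_rfl ht.2
  have key : ∀ ε : ℝ, 0 < ε → w t p - w' t p ≤ (t - a) * (C + ε) := by
    intro ε hε
    have hc : ContinuousOn (fun q : ℝ × Y => w q.1 q.2 - w' q.1 q.2 - (q.1 - a) * (C + ε))
        (Icc a t ×ˢ univ) :=
      ((h.sm.cont.sub h'.sm.cont).mono (prod_mono hI le_rfl)).sub (by fun_prop)
    obtain ⟨⟨s, x⟩, hq, hm⟩ := (isCompact_Icc.prod isCompact_univ).exists_isMaxOn
      ⟨(t, p), ⟨ht.1, le_rfl⟩, mem_univ _⟩ hc
    have hm' : ∀ r ∈ Icc a t, ∀ y, w r y - w' r y - (r - a) * (C + ε) ≤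
        w s x - w' s x - (s - a) * (C + ε) := fun r hr y => hm (a := (r, y)) ⟨hr, mem_univ _⟩
    rcases hq.1.1.eq_or_lt with h1 | h1
    · have := hm' t ⟨ht.1, le_rfl⟩ p
      simp only at h1
      rw [← h1, h.init, h'.init] at this
      linarith
    · exfalso
      have hs := hI hq.1
      have hd : HasDerivWithinAt (fun r => w r x - w' r x - (r - a) * (C + ε))
          (op P s (w s) x + H s x - (op P s (w' s) x + H' s x) - 1 * (C + ε)) (Icc a s) s :=
        (((h.eqn s hs x).sub (h'.eqn s hs x)).mono (Icc_subset_Icc le_rfl hs.2)).sub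
          (((hasDerivWithinAt_id s _).sub_const a).mul_const _)
      have h2 : IsLocalMaxOn (fun r => w r x - w' r x - (r - a) * (C + ε)) (Icc a s) s :=
        IsMaxOn.localize fun r hr => hm' r ⟨hr.1, hr.2.trans hq.1.2⟩ x
      have h3 := h2.hasFDerivWithinAt_nonpos hd.hasFDerivWithinAt
        (sub_mem_posTangentConeAt_of_segment_subset (y := a) (by
          rw [segment_symm, segment_eq_Icc h1.le]))
      have h4 : op P s (w s) x - op P s (w' s) x ≤ 0 := by
        simp only [op, ← Finset.sum_sub_distrib]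
        refine Finset.sum_nonpos fun α _ => ?_
        rw [← (P α).op_sub s (h.sm.slice hs) (h'.sm.slice hs)]
        exact (P α).op_nonpos hs ((h.sm.slice hs).sub (h'.sm.slice hs)) fun y => by
          linarith [hm' s hq.1 y]
      have h5 := hC s hq.1 x
      simp only [ContinuousLinearMap.toSpanSingleton_apply, smul_eq_mul] at h3
      simp only at h1
      nlinarith
  refine le_of_forall_pos_le_add fun ε hε => ?_
  have h1 := key (ε / (t - a + 1)) (div_pos hε (by linarith [ht.1]))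
  have h2 : (t - a) * (ε / (t - a + 1)) ≤ ε := by
    rw [← mul_div_assoc, div_le_iff₀ (by linarith [ht.1])]; nlinarith
  nlinarith

/-- **existence** -/
theorem solve [T2Space Y] [CompactSpace Y] {a b : ℝ} (hab : a < b) (P : κ → Pc N (Icc a b))
    (hP : ∀ p, ∃ α, 0 < (P α).η p) {H : ℝ → Y → ℝ} (hH : SmY N (Icc a b) H) :
    ∃ w, Sol P H w := by
  classical
  let := N.chartedSpace
  have : IsManifold 𝓘(ℝ, En m) ∞ Y := N.isManifold
  let Q : QLOp m (Icc a b) univ (op P) :=
    { a := fun x q => ∑ α, (P α).ca x (q.1, q.2.1)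
      b := fun x q => ∑ α, ∑ i, (P α).cb x (q.1, q.2.1.1) i * q.2.2 i
      sa := fun x k l => by
        simp only [Matrix.sum_apply]
        exact ContDiffOn.sum fun α _ => ((P α).sm_ca x k l).comp
          (f := fun q : ℝ × En m × ℝ => (q.1, q.2.1)) (by fun_prop) fun q hq => ⟨hq.1, hq.2.1⟩
      sb := fun x => ContDiffOn.sum fun α _ => ContDiffOn.sum fun i _ =>
        (((P α).sm_cb x i).comp (f := fun q : ℝ × (En m × ℝ) × (Fin m → ℝ) => (q.1, q.2.1.1))
          (by fun_prop) fun q hq => ⟨hq.1, hq.2.1.1⟩).mul (by fun_prop)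
      pos := fun x t ht q hq => by
        obtain ⟨α, hα⟩ := hP ((N.ch x).symm q.1)
        rw [← Finset.add_sum_erase _ _ (Finset.mem_univ α)]
        exact ((P α).ca_pos ht hq.1 hα).add_posSemidef
          (Matrix.posSemidef_sum _ fun β _ => (P β).ca_nn ht hq.1)
      rep := fun x t _ y hy u W hW hyW hu _ => by
        have h1 : ContDiffAt ℝ 2 (u ∘ (N.ch x).symm) y := by
          have h2 : ContMDiffAt 𝓘(ℝ, En m) 𝓘(ℝ, En m) ∞ (chartAt (En m) x).symm y :=
            (contMDiffOn_chart_symm (x := x)).contMDiffAt ((N.ch x).open_target.mem_nhds hy)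
          exact (((hu.contMDiffAt (hW.mem_nhds hyW)).comp y h2).contDiffAt).of_le two_le_inf
        rw [lop_sum, ← Finset.sum_add_distrib]
        exact Finset.sum_congr rfl fun α _ => (P α).op_rep t hy h1 }
  have hL : Q.Lin := ⟨fun _ _ _ _ => rfl, fun x t y c v v' p p' => by
    simp only [Q, Pi.add_apply, Pi.smul_apply, smul_eq_mul, mul_add, Finset.sum_add_distrib,
      Finset.mul_sum, mul_left_comm]⟩
  obtain ⟨w, h0, hw⟩ := linS m Y ℝ a b (op P) Q (fun _ => 0) H hab hL contMDiff_const hH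
  exact ⟨w, hw.sm, fun p => congrFun h0 p, hw.eqn⟩

end Crest.Agent.T223.Db
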