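import Crest.Agent.T223.DbDbl_88
import Crest.Agent.T223.DbOp_88

/-!
# Row 223 (helper88): the complex Laplacian in real coordinates, chart independence
-/

set_option autoImplicit false
set_option linter.unusedSectionVars false

open Set Filter Function Complex
open scoped ContDiff Topology Matrix ComplexConjugate ComplexOrder

noncomputable section

namespace Crest.Agent.T223.Db

open Crest.Agent.R275.Geo Crest.Agent.R275.Core144 Crest.Agent.R275.EDR890
open Crest.Agent.R273.Hess_333 Crest.Agent.R273.HessB_333 Crest.Agent.R273.Kah_333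
open Crest.Agent.N207.P

variable {n : ℕ}

/-- `∂_a` in real coordinates -/
def zm (n : ℕ) : Matrix (Fin n) (Fin (2 * n)) ℂ := Matrix.of fun a k =>
  (1 / 2 : ℂ) * ((eR n (EuclideanSpace.single a 1) k : ℝ) -
    I * (eR n (EuclideanSpace.single a I) k : ℝ))

/-- the real coefficient matrix of `tr (G⁻¹ ∂∂̄ ·)` -/
def rm (G : Matrix (Fin n) (Fin n) ℂ) : Matrix (Fin (2 * n)) (Fin (2 * n)) ℝ :=
  Matrix.of fun k l => (((zm n)ᴴ * G⁻¹ * zm n) l k).re

theorem fderiv2_eR {u : En (2 * n) → ℝ} {z : Cn n} (hu : ContDiffAt ℝ ∞ u (eR n z)) (v w : Cn n) :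
    fderiv ℝ (fderiv ℝ fun y => u (eR n y)) z v w =
      ∑ k, ∑ l, eR n v k * eR n w l * pd k (pd l u) (eR n z) := by
  have h1 : fderiv ℝ (fun y => u (eR n y)) =
      fun y => (fderiv ℝ u (eR n y)).comp (eR n : Cn n →L[ℝ] En (2 * n)) :=
    funext fun y => (eR n).comp_right_fderiv
  have h2 : HasFDerivAt (fderiv ℝ u) (fderiv ℝ (fderiv ℝ u) (eR n z)) (eR n z) :=
    ((hu.fderiv_right (m := ∞) (by simp)).differentiableAt (by simp)).hasFDerivAt
  have h3 := ((h2.comp z (eR n).hasFDerivAt).clm_comp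
    (hasFDerivAt_const (eR n : Cn n →L[ℝ] En (2 * n)) z)).fderiv
  simp only [comp_apply] at h3
  rw [h1, h3]
  simp only [pd_pd_eq (hu.of_le two_le_inf), ContinuousLinearMap.add_apply,
    ContinuousLinearMap.comp_apply, ContinuousLinearMap.flip_apply,
    ContinuousLinearMap.compL_apply, ContinuousLinearMap.zero_apply,
    ContinuousLinearMap.comp_zero, zero_add, ContinuousLinearEquiv.coe_coe]
  rw [clm_eq_sum (fderiv ℝ (fderiv ℝ u) (eR n z)) (eR n v)]
  simp only [ContinuousLinearMap.sum_apply, ContinuousLinearMap.smul_apply, smul_eq_mul]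
  refine Finset.sum_congr rfl fun k _ => ?_
  rw [clm_eq_sum, Finset.mul_sum]
  simp only [smul_eq_mul, mul_assoc]

theorem hess_eR {u : En (2 * n) → ℝ} {z : Cn n} (hu : ContDiffAt ℝ ∞ u (eR n z)) :
    hess (fun y => u (eR n y)) z =
      zm n * (Matrix.of fun k l => ((pd k (pd l u) (eR n z) : ℝ) : ℂ)) * (zm n)ᴴ := by
  have h1 : ContDiffAt ℝ ∞ (fun y => u (eR n y)) z := hu.comp z (eR n).contDiff.contDiffAt
  ext a b
  rw [hess_apply, wd, fderiv_wd (contDiffAt_cu h1)]
  simp only [wdL, ContinuousLinearMap.comp_apply, wdLc_apply, fderiv2_cu h1, fderiv2_eR hu,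
    Matrix.mul_apply, Matrix.conjTranspose_apply, zm, Matrix.of_apply, cI_true, cI_false,
    smul_eq_mul, ofReal_sum, ofReal_mul, Finset.sum_mul, Finset.mul_sum, mul_add,
    ← Finset.sum_add_distrib]
  rw [Finset.sum_comm]
  refine Finset.sum_congr rfl fun l _ => Finset.sum_congr rfl fun k _ => ?_
  simp only [star_mul', star_sub, star_div₀, star_one, star_ofNat, star_def, conj_ofReal, conj_I]
  ring

theorem lap_eR (G : Matrix (Fin n) (Fin n) ℂ) {u : En (2 * n) → ℝ} {z : Cn n}
    (hu : ContDiffAt ℝ ∞ u (eR n z)) : lap G (fun y => u (eR n y)) z = Lop (rm G) u (eR n z) := by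
  rw [lap, hess_eR hu, ← Matrix.mul_assoc, Matrix.trace_mul_comm, ← Matrix.mul_assoc,
    ← Matrix.mul_assoc]
  simp only [Matrix.trace, Matrix.diag_apply, Matrix.mul_apply (M := (zm n)ᴴ * G⁻¹ * zm n), re_sum,
    Matrix.of_apply, re_mul_ofReal, Lop, rm, smul_eq_mul]
  exact Finset.sum_comm

theorem rm_pos {G : Matrix (Fin n) (Fin n) ℂ} (hG : G.PosDef) : (rm G).PosDef := by
  have hB : ((zm n)ᴴ * G⁻¹ * zm n).IsHermitian :=
    Matrix.isHermitian_conjTranspose_mul_mul _ hG.inv.1
  refine Matrix.PosDef.of_dotProduct_mulVec_pos ?_ fun x hx => ?_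
  · ext k l
    simp only [rm, Matrix.conjTranspose_apply, Matrix.of_apply, star_trivial]
    rw [← hB.apply l k]
    simp
  · have h1 : zm n *ᵥ (fun k => (x k : ℂ)) ≠ 0 := by
      intro h
      have h2 : ∀ a, (∑ k, eR n (EuclideanSpace.single a 1) k * x k) = 0 ∧
          (∑ k, eR n (EuclideanSpace.single a I) k * x k) = 0 := fun a => by
        have h3 := congrFun h a
        simp only [Matrix.mulVec, dotProduct, zm, Matrix.of_apply, Pi.zero_apply] at h3
        have h4 : ((∑ k, eR n (EuclideanSpace.single a 1) k * x k : ℝ) : ℂ) -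
            I * ((∑ k, eR n (EuclideanSpace.single a I) k * x k : ℝ) : ℂ) = 0 := by
          rw [← mul_zero (2 : ℂ), ← h3]
          simp only [ofReal_sum, ofReal_mul, Finset.mul_sum, ← Finset.sum_sub_distrib]
          exact Finset.sum_congr rfl fun k _ => by ring
        have h5 := congrArg re h4
        have h6 := congrArg im h4
        simp only [sub_re, ofReal_re, mul_re, I_re, zero_mul, I_im, ofReal_im, mul_zero, sub_self,
          sub_zero, zero_re, sub_im, mul_im, one_mul, zero_add, zero_sub, zero_im,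
          neg_eq_zero] at h5 h6
        exact ⟨h5, h6⟩
      have h7 : ∀ v : Cn n, ∑ k, eR n v k * x k = 0 := fun v => by
        conv_lhs => rw [vec_eq_sum v]
        simp only [map_sum, map_add, map_smul, WithLp.ofLp_sum, WithLp.ofLp_add, WithLp.ofLp_smul,
          Finset.sum_apply, Pi.add_apply, Pi.smul_apply, smul_eq_mul, Finset.sum_mul]
        rw [Finset.sum_comm]
        refine Finset.sum_eq_zero fun a _ => ?_
        simp only [add_mul, mul_assoc, Finset.sum_add_distrib, ← Finset.mul_sum, (h2 a).1,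
          (h2 a).2, mul_zero, add_zero]
      have h8 := h7 ((eR n).symm (WithLp.toLp 2 x))
      rw [ContinuousLinearEquiv.apply_symm_apply] at h8
      refine hx (funext fun k => mul_self_eq_zero.1 ?_)
      exact (Finset.sum_eq_zero_iff_of_nonneg fun i _ => mul_self_nonneg (x i)).1 h8 k
        (Finset.mem_univ k)
    have h2 := hG.inv.re_dotProduct_pos h1
    rw [Matrix.star_mulVec, Matrix.dotProduct_mulVec, Matrix.vecMul_vecMul,
      ← Matrix.dotProduct_mulVec, Matrix.mulVec_mulVec] at h2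
    refine h2.trans_eq ?_
    simp only [dotProduct, Matrix.mulVec, rm, Matrix.of_apply, Pi.star_apply, star_trivial,
      star_def, conj_ofReal, Finset.mul_sum, RCLike.re_to_complex, re_sum, re_ofReal_mul,
      re_mul_ofReal]
    rw [Finset.sum_comm]
    exact Finset.sum_congr rfl fun k _ => Finset.sum_congr rfl fun l _ => by ring

section smooth

variable {X : Type*} [NormedAddCommGroup X] [NormedSpace ℝ X] {s : Set X} {x : X}
  {G : X → Matrix (Fin n) (Fin n) ℂ}

theorem cd_det (h : ∀ a b, ContDiffWithinAt ℝ ∞ (fun q => G q a b) s x) :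
    ContDiffWithinAt ℝ ∞ (fun q => (G q).det) s x := by
  simp only [Matrix.det_apply']
  exact ContDiffWithinAt.sum fun σ _ => contDiffWithinAt_const.mul
    (contDiffWithinAt_prod fun i _ => h _ _)

theorem cd_inv (h : ∀ a b, ContDiffWithinAt ℝ ∞ (fun q => G q a b) s x) (h0 : (G x).det ≠ 0)
    (a b : Fin n) : ContDiffWithinAt ℝ ∞ (fun q => (G q)⁻¹ a b) s x := by
  simp only [Matrix.inv_def, Ring.inverse_eq_inv', Matrix.smul_apply, smul_eq_mul,
    Matrix.adjugate_apply]
  refine ((cd_det h).inv h0).mul (cd_det fun c d => ?_)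
  by_cases hc : c = b
  · subst hc; simp only [Matrix.updateRow_self]; exact contDiffWithinAt_const
  · simp only [Matrix.updateRow_ne hc]; exact h c d

theorem cd_rm (h : ∀ a b, ContDiffWithinAt ℝ ∞ (fun q => G q a b) s x) (h0 : (G x).det ≠ 0)
    (k l : Fin (2 * n)) : ContDiffWithinAt ℝ ∞ (fun q => rm (G q) k l) s x := by
  simp only [rm, Matrix.of_apply, Matrix.mul_apply]
  refine reCLM.contDiff.comp_contDiffWithinAt ?_
  exact ContDiffWithinAt.sum fun b _ => (ContDiffWithinAt.sum fun a _ =>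
    contDiffWithinAt_const.mul (cd_inv h h0 a b)).mul contDiffWithinAt_const

end smooth

variable {M : Type} [TopologicalSpace M] {A : Atl n M}

theorem trace_tr {J G H : Matrix (Fin n) (Fin n) ℂ} (hJ : J.det ≠ 0) :
    Matrix.trace ((Jᵀ * G * J.map conj)⁻¹ * (Jᵀ * H * J.map conj)) = Matrix.trace (G⁻¹ * H) := by
  have h1 : IsUnit Jᵀ.det := by rw [Matrix.det_transpose]; exact hJ.isUnit
  have h2 : IsUnit (J.map conj).det := by
    rw [← RingHom.mapMatrix_apply, ← RingHom.map_det]
    exact ((map_ne_zero _).2 hJ).isUnit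
  rw [Matrix.mul_inv_rev, Matrix.mul_inv_rev]
  simp only [Matrix.mul_assoc]
  rw [Matrix.nonsing_inv_mul_cancel_left _ _ h1, Matrix.trace_mul_comm]
  simp only [Matrix.mul_assoc]
  rw [Matrix.mul_nonsing_inv _ h2, Matrix.mul_one]

/-- the Laplacian does not depend on the chart -/
theorem lap_tr {G G' : Matrix (Fin n) (Fin n) ℂ} {i j : A.ι} {x : M} (hi : x ∈ (A.e i).source)
    (hj : x ∈ (A.e j).source) (hG : G = (Jm A i j x)ᵀ * G' * (Jm A i j x).map conj)
    (h0 : G.det ≠ 0) {u : M → ℝ}
    (hu : ContDiffAt ℝ ∞ (fun z => u ((A.e i).symm z)) (A.e i x))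
    (hu' : ContDiffAt ℝ ∞ (fun z => u ((A.e j).symm z)) (A.e j x)) :
    lap G (fun z => u ((A.e i).symm z)) (A.e i x) =
      lap G' (fun z => u ((A.e j).symm z)) (A.e j x) := by
  have h1 := hess_tr (f := fun _ => (1 : ℂ)) ⟨hi, hj⟩ hu hu'
    (Eventually.of_forall fun w => differentiableAt_const _) one_ne_zero (by
      filter_upwards [(isOpen_ov i j).mem_nhds (mem_ov ⟨hi, hj⟩)] with w hw
      rw [(A.e j).left_inv hw.2]
      simp)
  have h2 : (Jm A i j x).det ≠ 0 := fun h => h0 (by
    rw [hG, Matrix.det_mul, Matrix.det_mul, Matrix.det_transpose, h, zero_mul, zero_mul])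
  rw [lap, lap, h1, hG, trace_tr h2]

end Crest.Agent.T223.Db
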