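import Crest.Agent.T223.StUC_88
import Crest.Agent.T223.DbAlg_88
import Crest.Agent.T223.FrA_38

/-!
# Row 223, STEP (helper51): `St.ChKStmt`, higher bounds for the Monge-Ampere flow in a chart
-/

set_option autoImplicit false
set_option linter.unusedVariables false
set_option linter.unusedSectionVars false

open Set Filter Topology Metric
open scoped ContDiff ComplexConjugate Matrix ComplexOrder

namespace Crest.Agent.T223.St

open Crest.Agent.R275.Geo Crest.Agent.R275.EDR890 Crest.Agent.R273.Hess_333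
open Crest.Agent.T223.Tr Crest.Agent.T223.Br
open Crest.Agent.T223.Db (eR zm rm hess_eR rm_pos)
open Crest.Agent.N207.P (En d1 pd Yl yl_of_contDiffOn)
open Crest.Agent.T223.Lx

noncomputable section

namespace K51

variable {n : ℕ}

/-- matrices as a normed space -/
abbrev MM (n : ℕ) : Type := Fin n → Fin n → ℂ

/-- real Hessians -/
abbrev HH (n : ℕ) : Type := Fin (2 * n) → Fin (2 * n) → ℝ

/-- the complex Hessian as a function of the real one -/
def PmL (n : ℕ) : HH n →ₗ[ℝ] MM n where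
  toFun H := fun a b => ∑ l, (∑ k, zm n a k * (H k l : ℂ)) * conj (zm n b l)
  map_add' H H' := by
    funext a b
    simp only [Pi.add_apply, Complex.ofReal_add, mul_add, add_mul, Finset.sum_add_distrib]
  map_smul' c H := by
    funext a b
    simp only [Pi.smul_apply, smul_eq_mul, Complex.ofReal_mul, RingHom.id_apply,
      Complex.real_smul, Finset.mul_sum, Finset.sum_mul]
    exact Finset.sum_congr rfl fun l _ => Finset.sum_congr rfl fun k _ => by ring

/-- the same, continuous -/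
def Pm (n : ℕ) : HH n →L[ℝ] MM n := LinearMap.toContinuousLinearMap (PmL n)

theorem Pm_apply (H : HH n) (a b : Fin n) :
    Pm n H a b = ∑ l, (∑ k, zm n a k * (H k l : ℂ)) * conj (zm n b l) := rfl

theorem hess_eq {φ : Cn n → ℝ} {y : En (2 * n)} (h : ContDiffAt ℝ ∞ φ ((eR n).symm y))
    (a b : Fin n) : hess φ ((eR n).symm y) a b = Pm n (d2 (rr φ) y) a b := by
  have h1 := hess_eR (u := rr φ) (z := (eR n).symm y)
    (by rw [ContinuousLinearEquiv.apply_symm_apply]; exact cda_rr h)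
  simp only [rr_eR, ContinuousLinearEquiv.apply_symm_apply] at h1
  rw [h1, Pm_apply]
  simp only [Matrix.mul_apply, Matrix.of_apply, Matrix.conjTranspose_apply, d2]
  rfl

theorem tr_Pm (k l : Fin (2 * n)) :
    (Matrix.trace (Matrix.of (Pm n (eH k l)))).re = rm (1 : Mat n) k l := by
  simp only [rm, Matrix.of_apply, inv_one, Matrix.mul_one, Matrix.trace, Matrix.diag_apply,
    Matrix.mul_apply, Matrix.conjTranspose_apply, Pm_apply]
  congr 1
  refine Finset.sum_congr rfl fun a _ => ?_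
  rw [Finset.sum_eq_single l, Finset.sum_eq_single k]
  · simp [eH, mul_comm]
  · intro k' _ hk
    simp [eH, hk]
  · simp
  · intro l' _ hl
    rw [Finset.sum_eq_zero, zero_mul]
    intro k' _
    by_cases hk : k' = k
    · subst hk; simp [eH, hl]
    · simp [eH, hk]
  · simp

/-- `log det` -/
def LD (M : MM n) : ℝ := Real.log (Matrix.det (Matrix.of M)).re

theorem cd_det (M : MM n) : ContDiffAt ℝ ∞ (fun M : MM n => (Matrix.det (Matrix.of M)).re) M := by
  refine Complex.reCLM.contDiff.contDiffAt.comp M ?_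
  rw [← contDiffWithinAt_univ]
  refine Db.cd_det (G := fun M : MM n => Matrix.of M) fun a b => ?_
  exact (((ContinuousLinearMap.proj (R := ℝ) (φ := fun _ : Fin n => ℂ) b).comp
    (ContinuousLinearMap.proj (R := ℝ) (φ := fun _ : Fin n => Fin n → ℂ)
      a)).contDiff.contDiffAt).contDiffWithinAt

theorem cd_LD {M : MM n} (h : 0 < (Matrix.det (Matrix.of M)).re) : ContDiffAt ℝ ∞ LD M :=
  (cd_det M).log h.ne'

/-- the unit matrix -/
def oneM (n : ℕ) : MM n := fun a b => (1 : Mat n) a b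

theorem cd_LD_one : ContDiffAt ℝ ∞ LD (oneM n) :=
  cd_LD (by
    have : Matrix.of (oneM n) = (1 : Mat n) := rfl
    rw [this, Matrix.det_one]; simp)

theorem fderiv_LD_one (X : MM n) :
    fderiv ℝ LD (oneM n) X = (Matrix.trace (Matrix.of X)).re := by
  have h1 : HasDerivAt (fun t : ℝ => oneM n + t • X) X 0 := by
    simpa using ((hasDerivAt_id (0 : ℝ)).smul_const X).const_add (oneM n)
  have h2 : HasFDerivAt LD (fderiv ℝ LD (oneM n)) (oneM n + (0 : ℝ) • X) := by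
    rw [zero_smul, add_zero]
    exact ((cd_LD_one (n := n)).differentiableAt (by simp)).hasFDerivAt
  have h3 := h2.comp_hasDerivAt (0 : ℝ) h1
  set p := (Matrix.det (1 + (Polynomial.X : Polynomial ℂ) •
    (Matrix.of X).map Polynomial.C)).divX.divX with hp
  have h4 : HasDerivAt (fun r : ℂ => 1 + Matrix.trace (Matrix.of X) * r + p.eval r * r ^ 2)
      (Matrix.trace (Matrix.of X)) ((0 : ℝ) : ℂ) := by
    have := (((hasDerivAt_id ((0 : ℝ) : ℂ)).const_mul (Matrix.trace (Matrix.of X))).const_add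
      1).add ((p.hasDerivAt ((0 : ℝ) : ℂ)).mul (hasDerivAt_pow 2 ((0 : ℝ) : ℂ)))
    exact this.congr_deriv (by simp)
  have h5 := (Complex.reCLM.hasFDerivAt.comp_hasDerivAt (0 : ℝ) h4.comp_ofReal).log (by simp)
  have h6 : (LD ∘ fun t : ℝ => oneM n + t • X) = fun t : ℝ => Real.log ((Complex.reCLM ∘
      fun y : ℝ => 1 + Matrix.trace (Matrix.of X) * (y : ℂ) + p.eval (y : ℂ) * (y : ℂ) ^ 2) t) := by
    funext t
    have e : Matrix.of (oneM n + t • X) = 1 + (t : ℂ) • Matrix.of X := by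
      ext a b
      simp [oneM]
    rw [Function.comp, LD, e, Matrix.det_one_add_smul]
    rfl
  rw [h6] at h3
  rw [h3.unique h5]
  simp

theorem exists_e1 {δ : ℝ} (hδ : 0 < δ) : ∃ e : ℝ, 0 < e ∧ ∀ M : MM n,
    (∀ a b, ‖M a b - (1 : Mat n) a b‖ ≤ e) → 0 < (Matrix.det (Matrix.of M)).re ∧
      ∀ k l, |fderiv ℝ LD M (Pm n (eH k l)) - rm (1 : Mat n) k l| ≤ δ := by
  refine exists_near (P := fun M : Mat n => 0 < (Matrix.det (Matrix.of M)).re ∧
      ∀ k l, |fderiv ℝ LD M (Pm n (eH k l)) - rm (1 : Mat n) k l| ≤ δ) ?_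
  refine (near_det.mono fun G hG => lt_of_lt_of_le (by norm_num) hG).and ?_
  refine eventually_all.2 fun k => eventually_all.2 fun l => ?_
  have h1 : ContinuousAt (fderiv ℝ (LD (n := n))) (oneM n) :=
    ((cd_LD_one (n := n)).fderiv_right (m := ∞) (by simp)).continuousAt
  have h2 : ContinuousAt (fun M : MM n => |fderiv ℝ LD M (Pm n (eH k l)) - rm (1 : Mat n) k l|)
      (oneM n) := ((h1.clm_apply continuousAt_const).sub continuousAt_const).abs
  refine h2.eventually_le_const ?_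
  show |fderiv ℝ LD (oneM n) (Pm n (eH k l)) - rm (1 : Mat n) k l| < δ
  rw [fderiv_LD_one, tr_Pm, sub_self, abs_zero]
  exact hδ

/-- the matrix of the metric -/
def Aff (n : ℕ) : (MM n × ℝ) × HH n →L[ℝ] MM n :=
  (ContinuousLinearMap.fst ℝ (MM n) ℝ).comp (ContinuousLinearMap.fst ℝ (MM n × ℝ) (HH n)) +
    (Pm n).comp (ContinuousLinearMap.snd ℝ (MM n × ℝ) (HH n))

theorem Aff_apply (q : (MM n × ℝ) × HH n) : Aff n q = q.1.1 + Pm n q.2 := rfl

/-- the nonlinearity -/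
def FF (q : (MM n × ℝ) × HH n) : ℝ := LD (Aff n q) - q.1.2

theorem cd_FF {q : (MM n × ℝ) × HH n} (h : 0 < (Matrix.det (Matrix.of (Aff n q))).re) :
    ContDiffAt ℝ ∞ FF q :=
  ((cd_LD h).comp q (Aff n).contDiff.contDiffAt).sub (contDiffAt_fst.snd)

theorem fderiv_FF {q : (MM n × ℝ) × HH n} (h : 0 < (Matrix.det (Matrix.of (Aff n q))).re)
    (H : HH n) : fderiv ℝ FF q (0, H) = fderiv ℝ LD (Aff n q) (Pm n H) := by
  have h1 := (((cd_LD h).differentiableAt (by simp)).hasFDerivAt.comp q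
    (Aff n).hasFDerivAt).sub (hasFDerivAt_fst (𝕜 := ℝ) (p := q)).snd
  have h2 : fderiv ℝ FF q = _ := h1.fderiv
  rw [h2]
  simp [Aff_apply]

/-- the hypotheses -/
structure Hy (η N β : ℝ) (G : Cn n → Mat n) (φ : ℝ → Cn n → ℝ) : Prop where
  pos : 0 < β
  le : β ≤ η
  fl : FlG η G
  sm : ContDiffOn ℝ ∞ (fun q : ℝ × Cn n => φ q.1 q.2) (Icc 0 β ×ˢ ball 0 (RR n))
  init : ∀ w ∈ ball (0 : Cn n) (RR n), φ 0 w = 0
  ev : ∀ s ∈ Icc 0 β, ∀ w ∈ ball (0 : Cn n) (RR n),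
    HasDerivWithinAt (fun s => φ s w) (ldet (gs G φ s) w - ldet G w) (Icc 0 β) s
  hs : ∀ s ∈ Icc 0 β, ∀ w ∈ ball (0 : Cn n) (RR n), ∀ a b, ‖hess (φ s) w a b‖ ≤ η
  wb : ∀ s ∈ Icc 0 β, (∀ y ∈ ball (0 : En (2 * n)) 1, |rr (φ s) y| ≤ N) ∧
    WH (ball 0 1) N (d2 (rr (φ s))) ∧ WS (ball 0 1) N (d2 (rr (φ s))) ∧
    WS (ball 0 1) N (d1 (rr (φ s)))

/-- the data of the equation -/
def ZZ (G : Cn n → Mat n) (s : ℝ) (w : Cn n) : MM n × ℝ :=
  (fun a b => (G w - (s : ℂ) • ric G w) a b, ldet G w)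

variable {η N β : ℝ} {G : Cn n → Mat n} {φ : ℝ → Cn n → ℝ}

theorem Hy.cda (h : Hy η N β G φ) {s : ℝ} (hs : s ∈ Icc 0 β) {w : Cn n}
    (hw : w ∈ ball (0 : Cn n) (RR n)) : ContDiffAt ℝ ∞ (φ s) w :=
  (h.sm.comp (f := fun w : Cn n => (s, w)) (contDiffOn_const.prodMk contDiffOn_id)
    fun w hw => ⟨hs, hw⟩).contDiffAt (isOpen_ball.mem_nhds hw)

theorem yl_rr {V : Type} [NormedAddCommGroup V] [NormedSpace ℝ V] {f : ℝ → Cn n → V}
    (hβ : 0 < β)
    (h : ContDiffOn ℝ ∞ (fun q : ℝ × Cn n => f q.1 q.2) (Icc 0 β ×ˢ ball 0 (RR n))) (j : ℕ)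
    {r : ℝ} (hr : r ≤ 2) : Yl (Icc 0 β) (ball 0 r) j fun t => rr (f t) :=
  yl_of_contDiffOn isCompact_Icc (uniqueDiffOn_Icc hβ) isOpen_ball
    (h.comp (f := fun q : ℝ × En (2 * n) => (q.1, (eR n).symm q.2))
      (contDiff_fst.prodMk ((eR n).symm.contDiff.comp contDiff_snd)).contDiffOn
      fun q hq => ⟨hq.1, symm_mem (ball_subset_ball hr hq.2)⟩)

theorem cd_ZZ (h : FlG η G) :
    ContDiffOn ℝ ∞ (fun q : ℝ × Cn n => ZZ G q.1 q.2) (Icc 0 β ×ˢ ball 0 (RR n)) := by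
  intro q hq
  have hk := h.kah q.2 hq.2
  refine ContDiffAt.contDiffWithinAt (ContDiffAt.prodMk ?_ (hk.cd_ldet.comp q contDiffAt_snd))
  refine contDiffAt_pi.2 fun a => contDiffAt_pi.2 fun b => ?_
  exact ((hk.sm a b).comp q contDiffAt_snd).sub
    ((Complex.ofRealCLM.contDiff.contDiffAt.comp q contDiffAt_fst).mul
      ((hk.smM_ric a b).comp q contDiffAt_snd))

theorem Hy.aff (h : Hy η N β G φ) {s : ℝ} (hs : s ∈ Icc 0 β) {y : En (2 * n)}
    (hy : y ∈ ball (0 : En (2 * n)) 2) :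
    Aff n (rr (ZZ G s) y, d2 (rr (φ s)) y) = fun a b => gs G φ s ((eR n).symm y) a b := by
  funext a b
  rw [Aff_apply, Pi.add_apply, Pi.add_apply, ← hess_eq (h.cda hs (symm_mem hy))]
  rfl

end K51

open K51

/-- higher bounds for the Monge-Ampere flow in a chart -/
theorem chKStmt {n : ℕ} (h1 : FnHB (2 * n)) : ChKStmt n := by
  obtain ⟨δ, hδ, h1⟩ := h1 (rm (1 : Mat n)) (rm_pos Matrix.PosDef.one)
  obtain ⟨e, he, hE⟩ := exists_e1 (n := n) hδ
  obtain ⟨η0, hη0, h0⟩ := exists_η0 n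
  have hR : 0 < RR n := one_pos.trans_le (one_le_RR n)
  have hdet : ∀ {G : Cn n → Mat n}, FlG (η0 / RR n) G → ∀ y ∈ ball (0 : En (2 * n)) 2,
      1 / 2 ≤ (rr G y).det.re := fun h y hy => (h0 _ fun a b =>
    (h.near (symm_mem hy) a b).trans_eq (div_mul_cancel₀ _ hR.ne')).1
  have hG0 : UM 2 7 fun i : {G : Cn n → Mat n // FlG (η0 / RR n) G} => i.1 := um_flG fun i => i.2
  have hr0 := UM.ric (m := 5) hG0 (by norm_num : (0 : ℝ) < 1 / 2) fun i => hdet i.2
  have hl0 := UM.ldet hG0 (by norm_num : (0 : ℝ) < 1 / 2) fun i => hdet i.2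
  obtain ⟨K0, hK0, hK⟩ := UE.bdd hr0
  have hD : 0 < RR n + K0 + 1 := by positivity
  obtain ⟨η, hη, hη1, hη2, hη3⟩ : ∃ η : ℝ, 0 < η ∧ η ≤ 1 ∧ η ≤ η0 / RR n ∧
      η * (RR n + K0 + 1) ≤ e :=
    ⟨min 1 (min (η0 / RR n) (e / (RR n + K0 + 1))), by positivity, min_le_left _ _,
      (min_le_right _ _).trans (min_le_left _ _),
      (le_div_iff₀ hD).1 ((min_le_right _ _).trans (min_le_right _ _))⟩
  refine ⟨η, hη, fun N => ?_⟩
  let ι : Type := {p : ℝ × (Cn n → Mat n) × (ℝ → Cn n → ℝ) // Hy η N p.1 p.2.1 p.2.2}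
  let κ : Type := {p : ι × ℝ // p.2 ∈ Icc 0 p.1.1.1}
  let σ : κ → {G : Cn n → Mat n // FlG (η0 / RR n) G} := fun p => ⟨p.1.1.1.2.1, p.1.1.2.fl.mono hη2⟩
  have hs : UB (n := 2 * n) 2 5 fun (p : κ) (_ : En (2 * n)) => (p.1.2 : ℂ) :=
    ub_const ⟨1, fun p => by
      rw [Complex.norm_real, Real.norm_of_nonneg p.2.1]
      exact p.2.2.trans (p.1.1.2.le.trans hη1)⟩
  have hA : UM 2 5 fun (p : κ) w => p.1.1.1.2.1 w - (p.1.2 : ℂ) • ric p.1.1.1.2.1 w :=
    UE.sub (UE.of_le (by norm_num) (UE.reindex σ hG0)) (UE.smul hs (UE.reindex σ hr0))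
  have hZ : UB (1 / 2) 5 fun p : κ => rr (ZZ p.1.1.1.2.1 p.1.2) :=
    (UB.prod (UB.of_pi fun a => UB.of_pi fun b => hA a b)
      (UB.of_le (by norm_num) (UB.reindex σ hl0))).mono (by norm_num)
  have h12 : ball (0 : En (2 * n)) (1 / 2) ⊆ ball 0 2 := ball_subset_ball (by norm_num)
  have hcd : ∀ p : κ, ∀ y ∈ ball (0 : En (2 * n)) (1 / 2),
      ContDiffAt ℝ ∞ (rr (p.1.1.1.2.2 p.1.2)) y := fun p y hy =>
    cda_rr (p.1.1.2.cda p.2 (symm_mem (h12 hy)))
  have hv : UB (1 / 2) 2 fun p : κ => rr (p.1.1.1.2.2 p.1.2) := by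
    refine ub_of_d2 (m := 0) ⟨N, fun p y hy => (p.1.1.2.wb _ p.2).1 y
      (ball_subset_ball (by norm_num) hy)⟩
      ⟨_, fun p y hy => WS.bdd (by norm_num) (p.1.1.2.wb _ p.2).2.2.2 hy⟩
      (fun p y hy => (hcd p y hy).differentiableAt (by simp)) (fun l p y hy => ?_)
      (ub_of_wh (R := 1) (by norm_num) (fun p => (p.1.1.2.wb _ p.2).2.2.1)
        fun p => (p.1.1.2.wb _ p.2).2.1)
    exact ((((hcd p y hy).fderiv_right (m := ∞) (by simp)).clm_apply
      contDiffAt_const).differentiableAt (by simp))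
  obtain ⟨B, hB⟩ := (UB.prod (hZ.of_le (Nat.zero_le _)) (UB.d2 (m := 0) hv)).bdd
  have hnear : ∀ p : κ, ∀ y ∈ ball (0 : En (2 * n)) 2, ∀ a b,
      ‖gs p.1.1.1.2.1 p.1.1.1.2.2 p.1.2 ((eR n).symm y) a b - (1 : Mat n) a b‖ ≤ e := by
    intro p y hy a b
    have a1 := p.1.1.2.fl.near (symm_mem hy) a b
    have a2 : ‖(p.1.2 : ℂ) * ric p.1.1.1.2.1 ((eR n).symm y) a b‖ ≤ η * K0 := by
      rw [norm_mul, Complex.norm_real, Real.norm_of_nonneg p.2.1]
      exact mul_le_mul (p.2.2.trans p.1.1.2.le) (hK (σ p) y hy a b) (norm_nonneg _) hη.le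
    have a3 := p.1.1.2.hs _ p.2 _ (symm_mem hy) a b
    have a4 : gs p.1.1.1.2.1 p.1.1.1.2.2 p.1.2 ((eR n).symm y) a b - (1 : Mat n) a b =
        (p.1.1.1.2.1 ((eR n).symm y) a b - (1 : Mat n) a b) -
          (p.1.2 : ℂ) * ric p.1.1.1.2.1 ((eR n).symm y) a b +
          hess (p.1.1.1.2.2 p.1.2) ((eR n).symm y) a b := by
      simp only [gs, Matrix.add_apply, Matrix.sub_apply, Matrix.smul_apply, smul_eq_mul]
      ring
    rw [a4]
    have a5 := (norm_add_le _ _).trans (add_le_add ((norm_sub_le _ _).trans (add_le_add a1 a2)) a3)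
    linarith
  have hcl : IsClosed {q : (MM n × ℝ) × HH n | ∀ a b, ‖Aff n q a b - (1 : Mat n) a b‖ ≤ e} := by
    simp only [ofPred_forall]
    refine isClosed_iInter fun a => isClosed_iInter fun b => isClosed_le ?_ continuous_const
    exact (((continuous_apply b).comp ((continuous_apply a).comp (Aff n).continuous)).sub
      continuous_const).norm
  have hop : IsOpen {q : (MM n × ℝ) × HH n | 0 < (Matrix.det (Matrix.of (Aff n q))).re} :=
    isOpen_lt continuous_const ((continuous_iff_continuousAt.2 fun M =>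
      (cd_det M).continuousAt).comp (Aff n).continuous)
  have h7 := h1 (MM n × ℝ) ι _ (closedBall 0 B ∩ _) FF (1 / 2) (1 / 4) 5 (fun _ => 0)
    (fun i => i.1.1) (fun i t => rr (ZZ i.1.2.1 t)) (fun i t => rr (i.1.2.2 t)) (by norm_num)
    (by norm_num) hop ((isCompact_closedBall _ _).inter_right hcl) (fun q hq => (hE _ hq.2).1)
    (fun q hq => (cd_FF hq).contDiffWithinAt)
    (fun q hq k l => by rw [fderiv_FF (hE _ hq.2).1]; exact (hE _ hq.2).2 k l)
    (fun i => i.2.pos) (fun i => by rw [sub_zero]; exact i.2.le.trans hη1)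
    (fun i j => yl_rr i.2.pos i.2.sm j (by norm_num))
    (fun i j => yl_rr i.2.pos (cd_ZZ i.2.fl) j (by norm_num))
    (fun i y hy => i.2.init _ (symm_mem (h12 hy)))
    (fun i t ht y hy => by
      have := i.2.ev t ht _ (symm_mem (h12 hy))
      simp only [FF]
      rw [i.2.aff ht (h12 hy)]
      exact this)
    (fun i t ht y hy => ⟨mem_closedBall_zero_iff.2 (hB ⟨(i, t), ht⟩ y hy), fun a b => by
      rw [i.2.aff ht (h12 hy)]
      exact hnear ⟨(i, t), ht⟩ y (h12 hy) a b⟩) hZ hv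
  have h8 : UM (1 / 4) 5 fun p : κ => gs p.1.1.1.2.1 p.1.1.1.2.2 p.1.2 :=
    UE.add (UE.mono (by norm_num) hA) (UC.hess (u := fun p : κ => p.1.1.1.2.2 p.1.2) h7)
  have h9 : ∀ a b, ∃ K, ∀ p : κ,
      CB (1 / 4) 5 K (rr fun w => gs p.1.1.1.2.1 p.1.1.1.2.2 p.1.2 w a b) := fun a b => by
    refine (ubCb (2 * n) ℂ κ (1 / 4) 5 _ fun p y hy => ?_).1 (h8 a b)
    have hw := symm_mem (ball_subset_ball (by norm_num) hy)
    have hk := p.1.1.2.fl.kah _ hw
    exact (cda_rr (((SmM.sub hk.sm (SmM.smul contDiffAt_const hk.smM_ric)).add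
      (smM_hess (p.1.1.2.cda p.2 hw))) a b)).contDiffWithinAt
  choose K hKK using h9
  refine ⟨∑ a, ∑ b, |K a b|, fun β G φ b1 b2 b3 b4 b5 b6 b7 b8 s hs a b => ?_⟩
  refine (hKK a b ⟨(⟨(β, G, φ), ⟨b1, b2, b3, b4, b5, b6, b7, b8⟩⟩, s), hs⟩).mono le_rfl le_rfl ?_
  exact (le_abs_self _).trans ((Finset.single_le_sum (f := fun b => |K a b|)
    (fun _ _ => abs_nonneg _) (Finset.mem_univ b)).trans
    (Finset.single_le_sum (f := fun a => ∑ b, |K a b|)
      (fun _ _ => Finset.sum_nonneg fun _ _ => abs_nonneg _) (Finset.mem_univ a)))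

end

end Crest.Agent.T223.St
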