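import Crest.Agent.T223.StUC_88

/-!
# Row 223, STEP (helper66): from `C^5` bounds to curvature bounds, `St.cruStmt`
-/

set_option autoImplicit false
set_option linter.unusedVariables false

open Set Filter Topology Metric
open scoped ContDiff ComplexConjugate Matrix ComplexOrder

namespace Crest.Agent.T223.St

open Crest.Agent.R275.Geo Crest.Agent.R275.EDR890 Crest.Agent.R273.Hess_333
open Crest.Agent.T223.Tr Crest.Agent.T223.Br Crest.Agent.T223.Os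
open Crest.Agent.T223.Db (eR)
open Crest.Agent.N207.P (En d1 pd)
open Crest.Agent.T223.Lx

namespace Cru66

variable {n : ℕ}

theorem nsum {f : Fin n → ℂ} {B : ℝ} (h : ∀ a, ‖f a‖ ≤ B) : ‖∑ a, f a‖ ≤ n * B :=
  (norm_sum_le_of_le _ fun a _ => h a).trans_eq (by simp)

theorem norm_hC {H : Mat n} {B : ℝ} (hB : 0 ≤ B) (h : ∀ a b, ‖H a b‖ ≤ B) (v : Cn n) :
    ‖hC H v‖ ≤ n * (n * (B * ‖v‖ * ‖v‖)) := by
  refine nsum fun a => nsum fun b => ?_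
  rw [norm_mul, norm_mul, Complex.norm_conj]
  have ha := PiLp.norm_apply_le v a
  have hb := PiLp.norm_apply_le v b
  have := h a b
  gcongr

theorem abs_bis {g : Cn n → Mat n} {z : Cn n} {B : ℝ} (hB : 0 ≤ B)
    (h : ∀ c d a b, ‖Rm g z c d a b‖ ≤ B) (v w : Cn n) :
    |bis g z v w| ≤ (n : ℝ) ^ 4 * B * (‖v‖ ^ 2 * ‖w‖ ^ 2) := by
  refine (Complex.abs_re_le_norm _).trans ((nsum (B := n * (n * (n * (B * ‖v‖ * ‖v‖ * ‖w‖ * ‖w‖))))
    fun a => nsum fun b => nsum fun c => nsum fun d => ?_).trans_eq (by ring))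
  simp only [norm_mul, Complex.norm_conj]
  have ha := PiLp.norm_apply_le v a
  have hb := PiLp.norm_apply_le v b
  have hc := PiLp.norm_apply_le w c
  have hd := PiLp.norm_apply_le w d
  have := h c d a b
  gcongr

theorem abs_mid {N : Fin n → Mat n} {B : ℝ} (hB : 0 ≤ B) (h : ∀ k a b, ‖N k a b‖ ≤ B) (c : ℂ)
    (a v : Cn n) : |2 * (conj c * ∑ k, a k * hC (N k) v).re| ≤
      (n : ℝ) ^ 3 * B * ((‖a‖ ^ 2 + ‖c‖ ^ 2) * ‖v‖ ^ 2) := by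
  have h1 : ‖∑ k, a k * hC (N k) v‖ ≤ n * (‖a‖ * (n * (n * (B * ‖v‖ * ‖v‖)))) := nsum fun k => by
    rw [norm_mul]
    exact mul_le_mul (PiLp.norm_apply_le a k) (norm_hC hB (h k) v) (norm_nonneg _) (norm_nonneg _)
  have h2 := Complex.abs_re_le_norm (conj c * ∑ k, a k * hC (N k) v)
  rw [norm_mul, Complex.norm_conj] at h2
  have h3 : 2 * (‖c‖ * ‖a‖) ≤ ‖a‖ ^ 2 + ‖c‖ ^ 2 := by nlinarith [sq_nonneg (‖a‖ - ‖c‖)]
  rw [abs_mul, abs_two]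
  calc _ ≤ 2 * (‖c‖ * (n * (‖a‖ * (n * (n * (B * ‖v‖ * ‖v‖)))))) :=
        mul_le_mul_of_nonneg_left (h2.trans (mul_le_mul_of_nonneg_left h1 (norm_nonneg _))) zero_le_two
    _ = (n : ℝ) ^ 3 * B * (2 * (‖c‖ * ‖a‖) * ‖v‖ ^ 2) := by ring
    _ ≤ _ := by gcongr

theorem nqi_eq (G : Mat n) (ξ : Cn n) : nqi G ξ = nq (G⁻¹)ᵀ ξ := rfl

/-- the pointwise algebra -/
theorem alg {g : Cn n → Mat n} {z : Cn n} {B C : ℝ} (hB : 0 ≤ B) (hC : 0 ≤ C)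
    (hlo : ∀ v, ‖v‖ ^ 2 / 2 ≤ nq (g z) v)
    (h1 : ∀ a b, ‖(hess (scal g) z + ric g z * (g z)⁻¹ * ric g z) a b‖ ≤ B)
    (h2 : ∀ a b, ‖ric g z a b‖ ≤ B) (h3 : ∀ k a b, ‖nabRic g z k a b‖ ≤ B)
    (h4 : ∀ c d a b, ‖Rm g z c d a b‖ ≤ B) (h5 : ∀ a b, ‖(g z)⁻¹ a b‖ ≤ B) {K : ℝ}
    (hK : 4 * ((n : ℝ) ^ 2 * B) + 4 * (n ^ 3 * B) + 4 * (n ^ 4 * B) + 2 * (n ^ 2 * C) +
      n ^ 2 * B * C ^ 2 ≤ K) :
    (∀ τ : ℝ, 1 ≤ τ → ∀ (c : ℂ) (a v : Cn n),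
      |lyhS g τ z c a v| ≤ K * (nq (g z) a + 1 * ‖c‖ ^ 2) * nq (g z) v) ∧
    BKge g z K ∧ BKle g z K ∧
    (∀ H : Mat n, (∀ a b, ‖H a b‖ ≤ C) → ∀ v, |nq H v| ≤ K * nq (g z) v) ∧
    ∀ ξ : Cn n, ‖ξ‖ ≤ C → nqi (g z) ξ ≤ K := by
  have p2 : 0 ≤ (n : ℝ) ^ 2 * B := by positivity
  have p3 : 0 ≤ (n : ℝ) ^ 3 * B := by positivity
  have p4 : 0 ≤ (n : ℝ) ^ 4 * B := by positivity
  have p5 : 0 ≤ (n : ℝ) ^ 2 * C := by positivity
  have p6 : 0 ≤ (n : ℝ) ^ 2 * B * C ^ 2 := by positivity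
  have hq : ∀ v, ‖v‖ ^ 2 ≤ 2 * nq (g z) v := fun v => by linarith [hlo v]
  have hq0 : ∀ v, 0 ≤ nq (g z) v := fun v => by linarith [hq v, sq_nonneg ‖v‖]
  have hb : ∀ v w, |bis g z v w| ≤ 4 * ((n : ℝ) ^ 4 * B) * (nq (g z) v * nq (g z) w) := by
    intro v w
    calc _ ≤ _ := abs_bis hB h4 v w
      _ ≤ (n : ℝ) ^ 4 * B * (2 * nq (g z) v * (2 * nq (g z) w)) :=
        mul_le_mul_of_nonneg_left (mul_le_mul (hq v) (hq w) (sq_nonneg _) (by linarith [hq0 v])) p4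
      _ = _ := by ring
  have hb' : ∀ v w, |bis g z v w| ≤ K * nq (g z) v * nq (g z) w := fun v w => by
    rw [mul_assoc]
    exact (hb v w).trans (mul_le_mul_of_nonneg_right (by linarith) (mul_nonneg (hq0 v) (hq0 w)))
  refine ⟨fun τ hτ c a v => ?_, fun v w => (abs_le.1 (hb' v w)).1, fun v w => (abs_le.1 (hb' v w)).2,
    fun H hH v => ?_, fun ξ hξ => ?_⟩
  · have e1 := abs_nq_le (hess (scal g) z + ric g z * (g z)⁻¹ * ric g z +
      ((τ⁻¹ : ℝ) : ℂ) • ric g z) v (ε := B + B) fun a b => by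
        rw [Matrix.add_apply, Matrix.smul_apply, smul_eq_mul]
        refine (norm_add_le _ _).trans (add_le_add (h1 a b) ?_)
        rw [norm_mul, Complex.norm_real, Real.norm_of_nonneg (by positivity)]
        exact (mul_le_of_le_one_left (norm_nonneg _) (inv_le_one_of_one_le₀ hτ)).trans (h2 a b)
    have e2 := abs_mid hB h3 c a v
    have e3 := hb v a
    set S := nq (g z) a + 1 * ‖c‖ ^ 2 with hS
    have c0 := sq_nonneg ‖c‖
    have s1 : ‖c‖ ^ 2 ≤ S := by linarith [hq0 a]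
    have s2 : nq (g z) a ≤ S := by linarith
    have s3 : ‖a‖ ^ 2 + ‖c‖ ^ 2 ≤ 2 * S := by linarith [hq a]
    have s0 : 0 ≤ S := c0.trans s1
    have q0 := hq0 v
    have f1 : |‖c‖ ^ 2 * nq (hess (scal g) z + ric g z * (g z)⁻¹ * ric g z +
        ((τ⁻¹ : ℝ) : ℂ) • ric g z) v| ≤ 4 * ((n : ℝ) ^ 2 * B) * (S * nq (g z) v) := by
      rw [abs_mul, abs_of_nonneg c0]
      calc _ ≤ S * ((n : ℝ) ^ 2 * (B + B) * (2 * nq (g z) v)) :=
            mul_le_mul s1 (e1.trans (mul_le_mul_of_nonneg_left (hq v) (by positivity)))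
              (abs_nonneg _) s0
        _ = _ := by ring
    have f2 := e2.trans (mul_le_mul_of_nonneg_left
      (mul_le_mul s3 (hq v) (sq_nonneg _) (by linarith)) p3)
    have f3 := e3.trans (mul_le_mul_of_nonneg_left (mul_le_mul_of_nonneg_left s2 q0) (by linarith))
    have f4 : (4 * ((n : ℝ) ^ 2 * B) + 4 * (n ^ 3 * B) + 4 * (n ^ 4 * B)) * (S * nq (g z) v) ≤
        K * (S * nq (g z) v) := mul_le_mul_of_nonneg_right (by linarith) (mul_nonneg s0 q0)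
    unfold lyhS
    refine ((abs_add_le _ _).trans (add_le_add ((abs_add_le _ _).trans (add_le_add f1 f2)) f3)).trans ?_
    linarith
  · calc _ ≤ _ := abs_nq_le H v hH
      _ ≤ (n : ℝ) ^ 2 * C * (2 * nq (g z) v) := mul_le_mul_of_nonneg_left (hq v) p5
      _ = 2 * (n ^ 2 * C) * nq (g z) v := by ring
      _ ≤ _ := mul_le_mul_of_nonneg_right (by linarith) (hq0 v)
  · rw [nqi_eq]
    calc _ ≤ _ := le_abs_self _
      _ ≤ _ := abs_nq_le _ ξ (ε := B) fun a b => h5 b a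
      _ ≤ (n : ℝ) ^ 2 * B * C ^ 2 := by gcongr
      _ ≤ _ := by linarith

/-- a bound at the centre for a finite collection of uniform families -/
theorem bdd0 {ι κ : Type*} [Finite κ] {r : ℝ} (hr : 0 < r) {m : ℕ} {G : κ → ι → Cn n → Mat n}
    (h : ∀ k, UM r m (G k)) : ∃ B : ℝ, 0 ≤ B ∧ ∀ i k a b, ‖G k i 0 a b‖ ≤ B := by
  choose K K0 hK using fun k => UE.bdd (h k)
  obtain ⟨B, hB⟩ := (Set.finite_range K).bddAbove
  refine ⟨max B 0, le_max_right _ _, fun i k a b => ?_⟩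
  have := hK k i 0 (mem_ball_self hr) a b
  rw [rr_zero] at this
  exact this.trans ((hB ⟨k, rfl⟩).trans (le_max_left _ _))

end Cru66

open Cru66 in
/-- **CRU** -/
theorem cruStmt (n : ℕ) : CruStmt n := by
  intro C
  let ι := {g : Cn n → Mat n // (∀ w ∈ ball (0 : Cn n) (RR n), KahAt g w) ∧
    (∀ w ∈ ball (0 : Cn n) (RR n), ∀ v, ‖v‖ ^ 2 / 2 ≤ nq (g w) v) ∧
    ∀ a b, CB (1 / 4) 5 C (rr fun w => g w a b)}
  have hs : ball (0 : En (2 * n)) (1 / 4) ⊆ ball 0 2 := ball_subset_ball (by norm_num)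
  have hU : UM (1 / 4) 4 fun i : ι => i.1 := fun a b =>
    (ubCb (2 * n) ℂ ι (1 / 4) 4 (fun i => rr fun w => i.1 w a b) fun i y hy =>
      (cda_rr ((i.2.1 _ (symm_mem (hs hy))).sm a b)).contDiffWithinAt).2 ⟨C, fun i => i.2.2.2 a b⟩
  have hc : (0 : ℝ) < (1 / 2) ^ n := by positivity
  have hd : ∀ i : ι, ∀ y ∈ ball (0 : En (2 * n)) (1 / 4), (1 / 2 : ℝ) ^ n ≤ (rr i.1 y).det.re :=
    fun i y hy => det_ge_of_nq (i.2.1 _ (symm_mem (hs hy))).posDef.isHermitian (by norm_num)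
      fun v => by linarith [i.2.2.1 _ (symm_mem (hs hy)) v]
  have hr : (0 : ℝ) < 1 / 4 := by norm_num
  have uR : UM (1 / 4) 0 fun i : ι => ric i.1 := UM.ric (UE.of_le (by norm_num) hU) hc hd
  have uI : UM (1 / 4) 0 fun (i : ι) w => (i.1 w)⁻¹ := UE.inv (UE.of_le (by norm_num) hU) hc hd
  have uH : UM (1 / 4) 0 fun (i : ι) w => hess (scal i.1) w + ric i.1 w * (i.1 w)⁻¹ * ric i.1 w :=
    UE.add (UC.hess (UM.scal (m := 2) hU hc hd)) (UE.mul (UE.mul uR uI) uR)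
  obtain ⟨B1, p1, h1⟩ := bdd0 (κ := Unit) hr fun _ => uH
  obtain ⟨B2, p2, h2⟩ := bdd0 (κ := Unit) hr fun _ => uR
  obtain ⟨B3, p3, h3⟩ := bdd0 hr fun k => UM.nabRic (m := 1) hU hc hd k
  obtain ⟨B4, p4, h4⟩ := bdd0 (κ := Fin n × Fin n) hr fun k => UM.Rm (m := 2) hU hc hd k.1 k.2
  obtain ⟨B5, p5, h5⟩ := bdd0 (κ := Unit) hr fun _ => uI
  obtain ⟨B, hB⟩ : ∃ B, B = B1 + B2 + B3 + B4 + B5 := ⟨_, rfl⟩
  refine ⟨max 1 (4 * ((n : ℝ) ^ 2 * B) + 4 * (n ^ 3 * B) + 4 * (n ^ 4 * B) + 2 * (n ^ 2 * |C|) +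
    n ^ 2 * B * |C| ^ 2), le_max_left _ _, fun g g1 g2 g3 => ?_⟩
  · have h := alg (g := g) (z := 0) (B := B) (C := |C|) (by linarith)
      (abs_nonneg C) (g2 0 (mem_ball_self (one_pos.trans_le (one_le_RR n))))
      (fun a b => (h1 ⟨g, g1, g2, g3⟩ () a b).trans (by linarith))
      (fun a b => (h2 ⟨g, g1, g2, g3⟩ () a b).trans (by linarith))
      (fun k a b => (h3 ⟨g, g1, g2, g3⟩ k a b).trans (by linarith))
      (fun c d a b => (h4 ⟨g, g1, g2, g3⟩ (c, d) a b).trans (by linarith))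
      (fun a b => (h5 ⟨g, g1, g2, g3⟩ () a b).trans (by linarith)) (le_max_right 1 _)
    exact ⟨h.1, h.2.1, h.2.2.1, fun H hH => h.2.2.2.1 H fun a b => (hH a b).trans (le_abs_self C),
      fun ξ hξ => h.2.2.2.2 ξ (hξ.trans (le_abs_self C))⟩

end Crest.Agent.T223.St
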