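import Crest.Agent.T223.StDefB_88
import Crest.Agent.T223.OsKitB_61

/-!
# Row 223, STEP, leaf HEAT (helper25): the heat equation along a flow

`u = u0 + S f`, `f = ζ (c - ρ0) Δ u0` on `V`, where `S` is the solution operator of `Db.LinSolStmt`.
-/

set_option autoImplicit false

open Set Filter Topology Metric
open scoped ContDiff ComplexConjugate Matrix ComplexOrder

namespace Crest.Agent.T223.St

open Crest.Agent.R275.Geo Crest.Agent.R273.Hess_333 Crest.Agent.T223.Tr Crest.Agent.T223.Os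
open Crest.Agent.T223.Db (dom SmST)

namespace H25

variable {n : ℕ} {M : Type} [TopologicalSpace M] {A : Atl n M}

theorem hfam {a b : ℝ} {V : Set M} {g : ℝ → MF A} (hg : FlowOn a b V g) :
    Db.HFam A (Icc a b) V fun i t z => g t i z :=
  ⟨hg.sm, fun _ t ht _ hz => (kahAt_dom (hg.kah t ht) hz).posDef,
    fun i j t ht x hx hi hj => (hg.kah t ht).tr i j x ⟨hi, hj⟩ hx⟩

theorem lap_read {V : Set M} {G : MF A} (hG : KahOn G V) (hV : IsOpen V) {f : M → ℝ}
    (hf : SmOn A V f) {i : A.ι} {z : Cn n} (hz : z ∈ dom A i V) :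
    lap (G (ch A ((A.e i).symm z))) (inC A (ch A ((A.e i).symm z)) f)
      (A.e (ch A ((A.e i).symm z)) ((A.e i).symm z)) = lap (G i) (inC A i f) z := by
  have h := hG.tr.lap_indep (ch_mem A _) (dom_src hz) hz.2 (hf.contDiffAt hV (dom_src hz) hz.2)
  rwa [dom_inv hz] at h

theorem smST_lap {a b : ℝ} {V : Set M} {g : ℝ → MF A} (hg : FlowOn a b V g) (hV : IsOpen V)
    {f : M → ℝ} (hf : SmOn A V f) :
    SmST A (Icc a b) V fun s x => lap (g s (ch A x)) (inC A (ch A x) f) (A.e (ch A x) x) :=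
  fun i => ((hg.fam hV i).lap (φ := fun _ => inC A i f) (hf.smST _ i)).congr fun q hq =>
    lap_read (hg.kah q.1 hq.1) hV hf hq.2

theorem lap_add' (G : Cn n → Mat n) {u v : Cn n → ℝ} {z : Cn n} (hu : ContDiffAt ℝ ∞ u z)
    (hv : ContDiffAt ℝ ∞ v z) : lap G (fun w => u w + v w) z = lap G u z + lap G v z := by
  simp only [lap, trg, R273.HessB_333.hess_add hu hv, mul_add, Matrix.trace_add, Complex.add_re]

end H25

open H25

theorem heatStmt {n : ℕ} (h : Db.LinSolStmt n) : HeatStmt n := by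
  intro M _ _ _ A g V u0 ρ0 β c C hβ hC hV hg hu0 hρ0 hK hb
  classical
  obtain ⟨W', hW'o, hKW', hW'V, S, hS, hSb, -⟩ :=
    h M A {x | x ∈ V ∧ ρ0 x ≤ c} V hK hV (fun _ hx => hx.1) 0 β hβ _ (hfam hg)
  set L : ℝ → M → ℝ := fun s x => lap (g s (ch A x)) (inC A (ch A x) u0) (A.e (ch A x) x) with hL
  set f : ℝ → M → ℝ := fun s => V.indicator fun x => Real.smoothTransition (c - ρ0 x) * L s x
    with hf
  have hfV : ∀ s, ∀ x ∈ V, f s x = Real.smoothTransition (c - ρ0 x) * L s x := fun s x hx =>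
    indicator_of_mem hx _
  have hA : Db.Adm A (Icc 0 β) {x | x ∈ V ∧ ρ0 x ≤ c} V f := by
    refine ⟨smST_congr (smST_mul (smST_comp Real.smoothTransition.contDiff
      (smST_sub (smST_const c) (hρ0.smST _))) (smST_lap hg hV hu0)) fun s _ x hx => hfV s x hx,
      fun t _ x hx => ?_⟩
    by_cases hxV : x ∈ V
    · have h1 : c - ρ0 x ≤ 0 := by
        by_contra h2
        exact hx ⟨hxV, by linarith⟩
      rw [hfV t x hxV, Real.smoothTransition.zero_of_nonpos h1, zero_mul]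
    · exact indicator_of_notMem hxV _
  have hsol := hS f hA
  set U : Set M := {x | x ∈ V ∧ ρ0 x < c - 1} with hU
  have hUW : U ⊆ W' := fun x hx => hKW' ⟨hx.1, by linarith [hx.2]⟩
  have hUV : U ⊆ V := fun x hx => hx.1
  have hfU : ∀ s, ∀ x ∈ U, f s x = L s x := fun s x hx => by
    rw [hfV s x hx.1, Real.smoothTransition.one_of_one_le (by linarith [hx.2]), one_mul]
  have key : ∀ s ∈ Icc 0 β, ∀ i, ∀ x ∈ (A.e i).source, x ∈ U →
      HasDerivWithinAt (fun s => u0 x + S f s x)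
        (lap (g s i) (inC A i fun y => u0 y + S f s y) (A.e i x)) (Icc 0 β) s := by
    intro s hs i x hi hx
    have h1 := (hsol.eqn i s hs _ (mem_dom hi (hUW hx))).const_add (u0 x)
    simp only [(A.e i).left_inv hi] at h1
    have h2 := lap_add' (g s i) (hu0.contDiffAt hV hi hx.1)
      ((smOn_of_SmST hsol.sm hs).contDiffAt hW'o hi (hUW hx))
    have h3 : L s x = lap (g s i) (inC A i u0) (A.e i x) :=
      (hg.kah s hs).tr.lap_indep (ch_mem A x) hi hx.1 (hu0.contDiffAt hV hi hx.1)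
    rw [hfU s x hx, h3, add_comm] at h1
    exact h2 ▸ h1
  refine ⟨fun s x => u0 x + S f s x, ⟨smST_add ((hu0.mono hUV).smST _)
    (smST_mono hsol.sm Subset.rfl hUW), fun s hs i x hi hx => ?_⟩, fun x hx hρ => ⟨?_, fun s hs =>
      ⟨?_, key s hs _ x (ch_mem A x) ⟨hx, hρ⟩⟩⟩⟩
  · rw [box_inC g (fun s x => u0 x + S f s x) s hi, ((key s (Ioo_subset_Icc_self hs) i x hi
      hx).hasDerivAt (Icc_mem_nhds hs.1 hs.2)).deriv, sub_self]
  · simp only [hsol.init x (hUW ⟨hx, hρ⟩), add_zero]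
  · have h1 := hSb f hA C hC s hs (fun t ht y hy => ?_) x (hUW ⟨hx, hρ⟩)
    · simp only [add_sub_cancel_left]
      exact h1.trans (mul_le_mul_of_nonneg_right (by linarith [hs.2]) hC)
    · rw [hfV t y hy.1, abs_mul, abs_of_nonneg (Real.smoothTransition.nonneg _)]
      exact (mul_le_of_le_one_left (abs_nonneg _) (Real.smoothTransition.le_one _)).trans
        (hb t ⟨ht.1, ht.2.trans hs.2⟩ y hy.1 hy.2)

end Crest.Agent.T223.St
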