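import Crest.Agent.T223.StDefB_88
import Crest.Agent.T223.LoCal_18

/-!
# Row 223, STEP (helper54): `St.regStmt`, a `C^{2,1/2}` solution of the Monge-Ampere flow is smooth
-/

set_option autoImplicit false
set_option linter.unusedVariables false

open Set Filter Topology Metric
open scoped ContDiff ComplexConjugate Matrix ComplexOrder

namespace Crest.Agent.T223.St

open Crest.Agent.R275.Geo Crest.Agent.R273.Hess_333 Crest.Agent.T223.Tr
open Crest.Agent.T223.Db (eR zm rm rm_pos)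
open Crest.Agent.N207.P (En pd Lop Yl)
open Crest.Agent.T223.Lx (d2 eH FnReg)

noncomputable section

namespace Rg54

variable {n : ℕ}

theorem trg_Pm (G : Mat n) (H : Fin (2 * n) → Fin (2 * n) → ℝ) :
    trg G (Matrix.of (Pm n H)) = ∑ k, ∑ l, rm G k l * H k l := by
  rw [trg, of_Pm, ← Matrix.mul_assoc, Matrix.trace_mul_comm, ← Matrix.mul_assoc,
    ← Matrix.mul_assoc]
  simp only [Matrix.trace, Matrix.diag_apply, Matrix.mul_apply (M := (zm n)ᴴ * G⁻¹ * zm n),
    Complex.re_sum, Matrix.of_apply, Complex.re_mul_ofReal, rm]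
  exact Finset.sum_comm

theorem trg_Pm_eH (G : Mat n) (k l : Fin (2 * n)) :
    trg G (Matrix.of (Pm n (eH k l))) = rm G k l := by
  rw [trg_Pm, Finset.sum_eq_single k, Finset.sum_eq_single l]
  · simp [eH]
  · intro l' _ hl
    simp [eH, hl]
  · simp
  · intro k' _ hk
    simp [eH, hk]
  · simp

theorem herm_Pm {H : Fin (2 * n) → Fin (2 * n) → ℝ} (h : ∀ k l, H k l = H l k) :
    (Matrix.of (Pm n H)).IsHermitian := by
  rw [of_Pm]
  refine Matrix.isHermitian_mul_mul_conjTranspose _ ?_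
  ext k l
  simp [Matrix.conjTranspose_apply, h k l]

/-- second derivatives commute under mere differentiability of the first ones -/
theorem pd_comm {m : ℕ} {f : En m → ℝ} {y : En m} (h1 : ∀ᶠ w in 𝓝 y, DifferentiableAt ℝ f w)
    (h2 : ∀ k, DifferentiableAt ℝ (pd k f) y) (k l : Fin m) :
    pd k (pd l f) y = pd l (pd k f) y := by
  have e : fderiv ℝ f = fun w => ∑ j,
      ContinuousLinearMap.smulRightL ℝ (En m) ℝ (EuclideanSpace.proj j) (pd j f w) := by
    funext w
    ext v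
    simp [N207.P.fderiv_eq_sum_pd]
  have hd : DifferentiableAt ℝ (fderiv ℝ f) y := by
    rw [e]
    exact DifferentiableAt.fun_sum fun j _ =>
      (ContinuousLinearMap.smulRightL ℝ (En m) ℝ (EuclideanSpace.proj j)).differentiableAt.comp y
        (h2 j)
  have key : ∀ i j : Fin m, pd i (pd j f) y = fderiv ℝ (fderiv ℝ f) y
      (EuclideanSpace.single i 1) (EuclideanSpace.single j 1) := by
    intro i j
    unfold pd
    rw [fderiv_clm_apply hd (differentiableAt_const _)]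
    simp
  rw [key, key]
  exact second_derivative_symmetric_of_eventually_of_real (h1.mono fun w hw => hw.hasFDerivAt)
    hd.hasFDerivAt _ _

/-- the matrix of the metric -/
def XM (G : Cn n → Mat n) (q : ℝ × En (2 * n) × (Fin (2 * n) → Fin (2 * n) → ℝ)) : Mat n :=
  rr G q.2.1 - (q.1 : ℂ) • rr (ric G) q.2.1 + Matrix.of (Pm n q.2.2)

/-- the nonlinearity -/
def FF (G : Cn n → Mat n) (q : ℝ × En (2 * n) × (Fin (2 * n) → Fin (2 * n) → ℝ)) : ℝ :=
  Real.log (XM G q).det.re - Real.log (rr G q.2.1).det.re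

theorem cd_FF {G : Cn n → Mat n} {q : ℝ × En (2 * n) × (Fin (2 * n) → Fin (2 * n) → ℝ)}
    (hk : KahAt G ((eR n).symm q.2.1)) (h : 0 < (XM G q).det.re) : ContDiffAt ℝ ∞ (FF G) q := by
  have hy : ContDiffAt ℝ ∞
      (fun q : ℝ × En (2 * n) × (Fin (2 * n) → Fin (2 * n) → ℝ) => (eR n).symm q.2.1) q :=
    (eR n).symm.contDiff.contDiffAt.comp q contDiffAt_snd.fst
  have hG : ∀ a b, ContDiffAt ℝ ∞
      (fun q : ℝ × En (2 * n) × (Fin (2 * n) → Fin (2 * n) → ℝ) => rr G q.2.1 a b) q :=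
    fun a b => by
      have h1 := (hk.sm a b).comp q hy
      exact h1
  have hX : ∀ a b, ContDiffAt ℝ ∞ (fun q => XM G q a b) q := fun a b => by
    have h1 := (hk.smM_ric a b).comp q hy
    have h2 : ContDiffAt ℝ ∞
        (fun q : ℝ × En (2 * n) × (Fin (2 * n) → Fin (2 * n) → ℝ) => Pm n q.2.2 a b) q :=
      contDiffAt_pi.1 (contDiffAt_pi.1 ((Pm n).contDiff.contDiffAt.comp q contDiffAt_snd.snd) a) b
    exact ((hG a b).sub ((Complex.ofRealCLM.contDiff.contDiffAt.comp q contDiffAt_fst).mul h1)).add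
      h2
  exact ((Complex.reCLM.contDiff.contDiffAt.comp q (cdM_det hX)).log h.ne').sub
    ((Complex.reCLM.contDiff.contDiffAt.comp q (cdM_det hG)).log (det_re_pos hk.posDef).ne')

theorem fderiv_FF {G : Cn n → Mat n} {t : ℝ} {y : En (2 * n)} {H : Fin (2 * n) → Fin (2 * n) → ℝ}
    (hk : KahAt G ((eR n).symm y)) (h : (XM G (t, y, H)).PosDef) (k l : Fin (2 * n)) :
    fderiv ℝ (fun H => FF G (t, y, H)) H (eH k l) = rm (XM G (t, y, H)) k l := by
  have h1 : HasDerivAt (fun s : ℝ => H + s • eH k l) (eH k l) 0 := by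
    simpa using ((hasDerivAt_id (0 : ℝ)).smul_const (eH k l)).const_add H
  have h2 : DifferentiableAt ℝ (fun H => FF G (t, y, H)) H :=
    DifferentiableAt.comp (g := FF G) (f := fun H => (t, y, H)) H
      ((cd_FF (q := (t, y, H)) hk (det_re_pos h)).differentiableAt (by simp))
      ((differentiableAt_const t).prodMk ((differentiableAt_const y).prodMk differentiableAt_id))
  have h3 : HasFDerivAt (fun H => FF G (t, y, H)) (fderiv ℝ (fun H => FF G (t, y, H)) H)
      (H + (0 : ℝ) • eH k l) := by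
    rw [zero_smul, add_zero]
    exact h2.hasFDerivAt
  have h4 := h3.comp_hasDerivAt (0 : ℝ) h1
  have h5 := (Lo.hasDerivAt_logdet (A := fun s : ℝ => XM G (t, y, H + s • eH k l))
    (A' := Matrix.of (Pm n (eH k l))) (t := 0) (by simpa using h) fun a b => by
      have h6 := ((ContinuousLinearMap.proj (R := ℝ) (φ := fun _ : Fin n => ℂ) b).comp
        ((ContinuousLinearMap.proj (R := ℝ) (φ := fun _ : Fin n => Fin n → ℂ) a).comp
          (Pm n))).hasFDerivAt.comp_hasDerivAt (0 : ℝ) h1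
      exact h6.const_add ((rr G y - (t : ℂ) • rr (ric G) y) a b)).sub_const
        (Real.log (rr G y).det.re)
  rw [h4.unique h5, trg_Pm_eH, zero_smul, add_zero]

end Rg54

open Rg54

/-- REG -/
theorem regStmt {n : ℕ} (h : FnReg (2 * n)) : RegStmt n := by
  obtain ⟨η0, hη0, h0⟩ := exists_η0 n
  have hR : 0 < RR n := one_pos.trans_le (one_le_RR n)
  have hdet : ∀ {G : Cn n → Mat n}, FlG (η0 / RR n) G → ∀ y ∈ ball (0 : En (2 * n)) 2,
      1 / 2 ≤ (rr G y).det.re := fun h y hy => (h0 _ fun a b =>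
    (h.near (symm_mem hy) a b).trans_eq (div_mul_cancel₀ _ hR.ne')).1
  have hG0 : UM 2 7 fun i : {G : Cn n → Mat n // FlG (η0 / RR n) G} => i.1 := um_flG fun i => i.2
  obtain ⟨K0, hK0, hK⟩ :=
    UE.bdd (UM.ric (m := 5) hG0 (by norm_num : (0 : ℝ) < 1 / 2) fun i => hdet i.2)
  have hD : 0 < RR n + K0 + 2 := by positivity
  obtain ⟨η, hη, hη2, hη3⟩ : ∃ η : ℝ, 0 < η ∧ η ≤ η0 / RR n ∧ η * (RR n + K0 + 2) ≤ η0 :=
    ⟨min (η0 / RR n) (η0 / (RR n + K0 + 2)), by positivity, min_le_left _ _,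
      (le_div_iff₀ hD).1 (min_le_right _ _)⟩
  refine ⟨η, hη, fun β G U v hβ hβη hG hU hU1 hv hv0 hP hE => ?_⟩
  have h12 : ball (0 : En (2 * n)) 1 ⊆ ball 0 2 := ball_subset_ball (by norm_num)
  have hnear : ∀ t ∈ Icc 0 β, ∀ y ∈ ball (0 : En (2 * n)) 1, ∀ H, ‖Pm n H‖ < 2 * η → ∀ a b,
      ‖XM G (t, y, H) a b - (1 : Mat n) a b‖ ≤ η0 := by
    intro t ht y hy H hH a b
    have a1 := hG.near (symm_mem (h12 hy)) a b
    have a2 : ‖(t : ℂ) * ric G ((eR n).symm y) a b‖ ≤ η * K0 := by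
      rw [norm_mul, Complex.norm_real, Real.norm_of_nonneg ht.1]
      exact mul_le_mul (ht.2.trans hβη) (hK ⟨G, hG.mono hη2⟩ y (h12 hy) a b) (norm_nonneg _) hη.le
    have a3 : ‖Pm n H a b‖ ≤ 2 * η :=
      ((norm_le_pi_norm (Pm n H a) b).trans (norm_le_pi_norm (Pm n H) a)).trans hH.le
    have a4 : XM G (t, y, H) a b - (1 : Mat n) a b = (G ((eR n).symm y) a b - (1 : Mat n) a b) -
        (t : ℂ) * ric G ((eR n).symm y) a b + Pm n H a b := by
      simp only [XM, rr, Matrix.add_apply, Matrix.sub_apply, Matrix.smul_apply, smul_eq_mul,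
        Matrix.of_apply]
      ring
    rw [a4]
    have a5 := (norm_add_le _ _).trans (add_le_add ((norm_sub_le _ _).trans (add_le_add a1 a2)) a3)
    linarith
  have hk : ∀ y ∈ ball (0 : En (2 * n)) 1, KahAt G ((eR n).symm y) := fun y hy =>
    hG.kah _ (symm_mem (h12 hy))
  have hlt : ∀ t ∈ Icc 0 β, ∀ y ∈ U, ‖Pm n (d2 (v t) y)‖ < 2 * η := fun t ht y hy =>
    (hP t ht y hy).trans_lt (by linarith)
  have hpos : ∀ t ∈ Icc 0 β, ∀ y ∈ U, (XM G (t, y, d2 (v t) y)).PosDef := by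
    intro t ht y hy
    refine (h0 _ (hnear t ht y (hU1 hy) _ (hlt t ht y hy))).2.2 ?_
    refine (Matrix.IsHermitian.sub (hk y (hU1 hy)).posDef.1 ?_).add (herm_Pm fun k l => ?_)
    · exact (hk y (hU1 hy)).ric_herm.smul (by simp [IsSelfAdjoint])
    · exact pd_comm (Eventually.mono (hU.mem_nhds hy) fun w hw => hv.diff ht hw)
        (fun k => (hv.pd k).diff ht hy) k l
  refine h 0 β U {p | p.1 ∈ ball (0 : En (2 * n)) 1 ∧ ‖Pm n p.2‖ < 2 * η} (FF G) v hβ hU
    ((isOpen_ball.preimage continuous_fst).inter (isOpen_lt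
      ((Pm n).continuous.comp continuous_snd).norm continuous_const))
    (fun q hq => (cd_FF (hk _ hq.2.1) (lt_of_lt_of_le (by norm_num)
      (h0 _ (hnear _ hq.1 _ hq.2.1 _ hq.2.2)).1)).contDiffWithinAt)
    (fun t ht y hy => ⟨hU1 hy, hlt t ht y hy⟩) (fun t ht y hy => ?_) hv
    (contDiffOn_const.congr hv0) fun t ht y hy => ?_
  · have e : (Matrix.of fun k l => fderiv ℝ (fun H => FF G (t, y, H)) (d2 (v t) y) (eH k l)) =
        rm (XM G (t, y, d2 (v t) y)) := by
      ext k l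
      exact fderiv_FF (hk y (hU1 hy)) (hpos t ht y hy) k l
    rw [e]
    exact rm_pos (hpos t ht y hy)
  · refine (hE t ht y hy).congr_deriv ?_
    simp only [lop_rm, Ph, Ph0, FF]
    rw [add_sub_cancel]
    exact Real.log_div (det_re_pos (hpos t ht y hy)).ne' (det_re_pos (hk y (hU1 hy)).posDef).ne'

end

end Crest.Agent.T223.St
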