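import Crest.Agent.T223.StDef_88
import Crest.Agent.T223.FrA_38

/-!
# Row 223, STEP (helper54): parabolic rescaling, `St.scaleStmt : ScaleStmt n`

* §1 homogeneity of the chart calculus under `g ↦ c • g`
* §2 rescaled flows `c • g ((s - t) / c)`
* §3 good charts become very flat charts at unit scale
* §4 the theorem
-/

set_option autoImplicit false
set_option linter.unusedVariables false

open Set Filter Topology Metric
open scoped ContDiff ComplexConjugate Matrix ComplexOrder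

namespace Crest.Agent.T223.St.Sc54

open Crest.Agent.R275.Geo Crest.Agent.R275.EDR890 Crest.Agent.R273.Hess_333
open Crest.Agent.R273.HessB_333
open Crest.Agent.T223.Br Crest.Agent.T223.Tr Crest.Agent.T223.Os
open Crest.Agent.T223.Db (dom SmST)

noncomputable section

variable {n : ℕ}

/-! ## §1 homogeneity -/

theorem wd_cmul (s : WI n) (c : ℂ) (f : Cn n → ℂ) (z : Cn n) :
    wd s (fun w => c * f w) z = c * wd s f z := by
  have h : fderiv ℝ (fun w => c * f w) z = c • fderiv ℝ f z :=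
    congrFun (fderiv_const_smul_field (𝕜 := ℝ) (f := f) c) z
  rw [wd, h, wdL_smul, wd, smul_eq_mul]

theorem wd_cadd (s : WI n) (c : ℂ) (f : Cn n → ℂ) (z : Cn n) :
    wd s (fun w => c + f w) z = wd s f z := by
  rw [wd, fderiv_const_add, wd]

theorem hess_cmul (c : ℝ) (u : Cn n → ℝ) (z : Cn n) :
    hess (fun w => c * u w) z = (c : ℂ) • hess u z := by
  ext a b
  have h1 : cu (fun w => c * u w) = fun w => (c : ℂ) * cu u w := by
    funext w; simp [cu]
  have h2 : wd (true, b) (fun w => (c : ℂ) * cu u w) = fun w => (c : ℂ) * wd (true, b) (cu u) w :=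
    funext fun w => wd_cmul _ _ _ _
  rw [hess_apply, h1, h2, wd_cmul, Matrix.smul_apply, hess_apply, smul_eq_mul]

theorem hess_cadd (c : ℝ) (u : Cn n → ℝ) (z : Cn n) :
    hess (fun w => c + u w) z = hess u z := by
  ext a b
  have h1 : cu (fun w => c + u w) = fun w => (c : ℂ) + cu u w := by
    funext w; simp [cu]
  have h2 : wd (true, b) (fun w => (c : ℂ) + cu u w) = wd (true, b) (cu u) :=
    funext fun w => wd_cadd _ _ _ _
  rw [hess_apply, h1, h2, hess_apply]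

/-- the field `c • g` -/
def sg (c : ℝ) (g : Cn n → Mat n) : Cn n → Mat n := fun z => (c : ℂ) • g z

theorem sg_apply (c : ℝ) (g : Cn n → Mat n) (z : Cn n) : sg c g z = (c : ℂ) • g z := rfl

theorem wdM_csmul (s : WI n) (c : ℂ) (g : Cn n → Mat n) :
    wdM s (fun w => c • g w) = fun z => c • wdM s g z := by
  funext z
  ext a b
  exact wd_cmul s c (fun w => g w a b) z

theorem wdM_sg (s : WI n) (c : ℝ) (g : Cn n → Mat n) : wdM s (sg c g) = sg c (wdM s g) :=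
  wdM_csmul s c g

theorem inv_csmul {c : ℂ} (hc : c ≠ 0) (G : Mat n) : (c • G)⁻¹ = c⁻¹ • G⁻¹ := by
  by_cases h : IsUnit G.det
  · refine Matrix.inv_eq_left_inv ?_
    rw [Matrix.smul_mul, Matrix.mul_smul, smul_smul, inv_mul_cancel₀ hc, one_smul,
      Matrix.nonsing_inv_mul _ h]
  · have h' : ¬ IsUnit (c • G).det := by
      rw [Matrix.det_smul]
      exact fun h2 => h (isUnit_of_mul_isUnit_right h2)
    rw [Matrix.nonsing_inv_apply_not_isUnit _ h, Matrix.nonsing_inv_apply_not_isUnit _ h',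
      smul_zero]

theorem inv_rsmul {c : ℝ} (hc : c ≠ 0) (G : Mat n) :
    ((c : ℂ) • G)⁻¹ = ((c⁻¹ : ℝ) : ℂ) • G⁻¹ := by
  rw [inv_csmul (by exact_mod_cast hc), Complex.ofReal_inv]

theorem posDef_smul {c : ℝ} (hc : 0 < c) {G : Mat n} (h : G.PosDef) : ((c : ℂ) • G).PosDef :=
  h.smul (by exact_mod_cast hc)

theorem ldet_sg {c : ℝ} (hc : 0 < c) {g : Cn n → Mat n} {z : Cn n} (h : (g z).PosDef) :
    ldet (sg c g) z = n * Real.log c + ldet g z := by
  unfold ldet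
  rw [sg_apply, Matrix.det_smul, Fintype.card_fin, ← Complex.ofReal_pow, Complex.re_ofReal_mul,
    Real.log_mul (by positivity) (Tr.det_re_pos h).ne', Real.log_pow]

theorem hess_ldet_sg {c : ℝ} (hc : 0 < c) {g : Cn n → Mat n} {z : Cn n}
    (h : ∀ᶠ w in 𝓝 z, (g w).PosDef) : hess (ldet (sg c g)) z = hess (ldet g) z := by
  have e : ldet (sg c g) =ᶠ[𝓝 z] fun w => n * Real.log c + ldet g w :=
    h.mono fun w hw => ldet_sg hc hw
  rw [hess_congr e, hess_cadd]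

theorem ric_sg {c : ℝ} (hc : 0 < c) {g : Cn n → Mat n} {z : Cn n}
    (h : ∀ᶠ w in 𝓝 z, (g w).PosDef) : ric (sg c g) z = ric g z := by
  unfold ric
  rw [hess_ldet_sg hc h]

theorem ric_sgE {c : ℝ} (hc : 0 < c) {g : Cn n → Mat n} {z : Cn n}
    (h : ∀ᶠ w in 𝓝 z, (g w).PosDef) : ric (sg c g) =ᶠ[𝓝 z] ric g :=
  h.eventually_nhds.mono fun _ hw => ric_sg hc hw

theorem trg_sm {c : ℝ} (hc : c ≠ 0) (k : ℝ) (G H : Mat n) :
    trg ((c : ℂ) • G) ((k : ℂ) • H) = k * c⁻¹ * trg G H := by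
  unfold trg
  rw [inv_rsmul hc, Matrix.smul_mul, Matrix.mul_smul, smul_smul, Matrix.trace_smul, smul_eq_mul,
    ← Complex.ofReal_mul, Complex.re_ofReal_mul, mul_comm k]

theorem scal_sg {c : ℝ} (hc : 0 < c) {g : Cn n → Mat n} {z : Cn n}
    (h : ∀ᶠ w in 𝓝 z, (g w).PosDef) : scal (sg c g) z = c⁻¹ * scal g z := by
  unfold scal
  have h1 := trg_sm hc.ne' 1 (g z) (ric g z)
  rw [Complex.ofReal_one, one_smul, one_mul] at h1
  rw [ric_sg hc h, sg_apply, h1]

theorem hess_scal_sg {c : ℝ} (hc : 0 < c) {g : Cn n → Mat n} {z : Cn n}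
    (h : ∀ᶠ w in 𝓝 z, (g w).PosDef) :
    hess (scal (sg c g)) z = ((c⁻¹ : ℝ) : ℂ) • hess (scal g) z := by
  have e : scal (sg c g) =ᶠ[𝓝 z] fun w => c⁻¹ * scal g w :=
    h.eventually_nhds.mono fun w hw => scal_sg hc hw
  rw [hess_congr e, hess_cmul]

theorem nabRic_sg {c : ℝ} (hc : 0 < c) {g : Cn n → Mat n} {z : Cn n}
    (h : ∀ᶠ w in 𝓝 z, (g w).PosDef) (k : Fin n) : nabRic (sg c g) z k = nabRic g z k := by
  have hc' : (c : ℂ) ≠ 0 := by exact_mod_cast hc.ne'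
  unfold nabRic
  rw [wdM_congr (ric_sgE hc h), ric_sg hc h, wdM_sg, sg_apply, sg_apply, inv_csmul hc',
    Matrix.smul_mul, Matrix.mul_smul, smul_smul, mul_inv_cancel₀ hc', one_smul]

theorem Rm_sg {c : ℝ} (hc : c ≠ 0) (g : Cn n → Mat n) (z : Cn n) (a b : Fin n) :
    Rm (sg c g) z a b = (c : ℂ) • Rm g z a b := by
  have hc' : (c : ℂ) ≠ 0 := by exact_mod_cast hc
  unfold Rm
  have e : (c : ℂ) • wdM (false, a) g z * (c : ℂ)⁻¹ • (g z)⁻¹ = wdM (false, a) g z * (g z)⁻¹ := by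
    rw [Matrix.smul_mul, Matrix.mul_smul, smul_smul, mul_inv_cancel₀ hc', one_smul]
  rw [wdM_sg, wdM_sg, wdM_sg, sg_apply, sg_apply, sg_apply, sg_apply, inv_csmul hc', e,
    Matrix.mul_smul, smul_add, smul_neg]

theorem bis_sg {c : ℝ} (hc : c ≠ 0) (g : Cn n → Mat n) (z v w : Cn n) :
    bis (sg c g) z v w = c * bis g z v w := by
  rw [bis_eq, bis_eq, ← Complex.re_ofReal_mul]
  simp only [Rm_sg hc, hC_smul, Finset.mul_sum, mul_assoc]

theorem nq_sg (c : ℝ) (g : Cn n → Mat n) (z v : Cn n) : nq (sg c g z) v = c * nq (g z) v :=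
  Tr.nq_smul _ _ _

theorem lyhS_sg {c : ℝ} (hc : 0 < c) {g : Cn n → Mat n} {z : Cn n}
    (h : ∀ᶠ w in 𝓝 z, (g w).PosDef) (τ : ℝ) (c0 : ℂ) (a v : Cn n) :
    lyhS (sg c g) τ z c0 a v = c * lyhS g (τ / c) z (c0 / c) a v := by
  have hc' : (c : ℂ) ≠ 0 := by exact_mod_cast hc.ne'
  have e1 : hess (scal (sg c g)) z + ric (sg c g) z * (sg c g z)⁻¹ * ric (sg c g) z
      + ((τ⁻¹ : ℝ) : ℂ) • ric (sg c g) z = ((c⁻¹ : ℝ) : ℂ) • (hess (scal g) z
        + ric g z * (g z)⁻¹ * ric g z + (((τ / c)⁻¹ : ℝ) : ℂ) • ric g z) := by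
    rw [hess_scal_sg hc h, ric_sg hc h, sg_apply, inv_rsmul hc.ne', Matrix.mul_smul,
      Matrix.smul_mul, smul_add, smul_add, smul_smul]
    congr 2
    push_cast
    field_simp
  have e2 : conj (c0 / c) = ((c⁻¹ : ℝ) : ℂ) * conj c0 := by
    rw [map_div₀, Complex.conj_ofReal, Complex.ofReal_inv, div_eq_inv_mul]
  unfold lyhS
  simp only [nabRic_sg hc h]
  rw [e1, Tr.nq_smul, bis_sg hc.ne', e2, mul_assoc ((c⁻¹ : ℝ) : ℂ), Complex.re_ofReal_mul,
    norm_div, Complex.norm_real, Real.norm_of_nonneg hc.le]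
  field_simp

theorem dz_cmul (k : ℝ) (u : Cn n → ℝ) (z : Cn n) (a : Fin n) :
    dz (fun w => k * u w) z a = k * dz u z a := by
  have h1 : cu (fun w => k * u w) = fun w => (k : ℂ) * cu u w := by
    funext w; simp [cu]
  show wd (false, a) (cu fun w => k * u w) z = k * wd (false, a) (cu u) z
  rw [h1, wd_cmul]

theorem gsq_sg {c : ℝ} (hc : c ≠ 0) (k : ℝ) (g : Cn n → Mat n) (u : Cn n → ℝ) (z : Cn n) :
    gsq (sg c g) (fun w => k * u w) z = k ^ 2 * c⁻¹ * gsq g u z := by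
  unfold gsq nqi
  rw [sg_apply, inv_rsmul hc, ← Complex.re_ofReal_mul]
  congr 1
  simp only [dz_cmul, Matrix.smul_apply, smul_eq_mul, map_mul, Complex.conj_ofReal,
    Finset.mul_sum]
  refine Finset.sum_congr rfl fun a _ => Finset.sum_congr rfl fun b _ => ?_
  push_cast
  ring

theorem lap_sg {c : ℝ} (hc : c ≠ 0) (k : ℝ) (g : Cn n → Mat n) (u : Cn n → ℝ) (z : Cn n) :
    lap (sg c g) (fun w => k * u w) z = k * c⁻¹ * lap g u z := by
  unfold lap
  rw [hess_cmul, sg_apply, trg_sm hc]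

theorem kahAt_sg {c : ℝ} (hc : 0 < c) {g : Cn n → Mat n} {z : Cn n} (h : KahAt g z) :
    KahAt (sg c g) z := by
  refine ⟨h.smE.mono fun w hw a b => contDiffAt_const.mul (hw a b),
    h.pos.mono fun w hw => posDef_smul hc hw, h.closed.mono fun w hw a b d => ?_,
    h.closed'.mono fun w hw a b d => ?_⟩
  · exact (wd_cmul _ c _ w).trans ((congrArg _ (hw a b d)).trans (wd_cmul _ c _ w).symm)
  · exact (wd_cmul _ c _ w).trans ((congrArg _ (hw a b d)).trans (wd_cmul _ c _ w).symm)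

/-! ## §2 rescaled flows -/

/-- the time change -/
def tc (c t s : ℝ) : ℝ := (s - t) / c

theorem hasDerivAt_tc (c t s : ℝ) : HasDerivAt (tc c t) c⁻¹ s := by
  have h := ((hasDerivAt_id s).sub_const t).div_const c
  rw [one_div] at h
  exact h

theorem contDiff_tc (c t : ℝ) : ContDiff ℝ ∞ (tc c t) := (contDiff_id.sub contDiff_const).div_const c

theorem contDiff_tq {E : Type*} [NormedAddCommGroup E] [NormedSpace ℝ E] (c t : ℝ) :
    ContDiff ℝ ∞ (fun q : ℝ × E => ((tc c t q.1, q.2) : ℝ × E)) :=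
  ((contDiff_tc c t).comp contDiff_fst).prodMk contDiff_snd

theorem tc_self (c t : ℝ) : tc c t t = 0 := by simp [tc]

theorem tc_Icc {c : ℝ} (hc : 0 < c) {t δ s : ℝ} (hs : s ∈ Icc t (t + δ * c)) :
    tc c t s ∈ Icc 0 δ :=
  ⟨div_nonneg (sub_nonneg.2 hs.1) hc.le, (div_le_iff₀ hc).2 (by linarith [hs.2])⟩

theorem tc_Ioo {c : ℝ} (hc : 0 < c) {t δ s : ℝ} (hs : s ∈ Ioo t (t + δ * c)) :
    tc c t s ∈ Ioo 0 δ :=
  ⟨div_pos (sub_pos.2 hs.1) hc, (div_lt_iff₀ hc).2 (by linarith [hs.2])⟩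

theorem deriv_tc (c t k : ℝ) (f : ℝ → ℝ) (s : ℝ) :
    deriv (fun s => k * f (tc c t s)) s = k * c⁻¹ * deriv f (tc c t s) := by
  have h1 : (fun s => f (tc c t s)) = fun s => (fun y => f (c⁻¹ * y)) (s - t) := by
    funext s; simp only [tc, div_eq_inv_mul]
  rw [deriv_const_mul_field, h1, deriv_comp_sub_const (f := fun y => f (c⁻¹ * y)),
    deriv_comp_mul_left, smul_eq_mul, tc, div_eq_inv_mul, mul_assoc]

theorem krfAt_sg {c : ℝ} (hc : 0 < c) {g : ℝ → Cn n → Mat n} {t s : ℝ} {z : Cn n}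
    (h : KRFat g (tc c t s) z) : KRFat (fun s => sg c (g (tc c t s))) s z := by
  have hT : Tendsto (fun q : ℝ × Cn n => ((tc c t q.1, q.2) : ℝ × Cn n)) (𝓝 (s, z))
      (𝓝 (tc c t s, z)) := (contDiff_tq c t).continuous.continuousAt
  have hE := hT.eventually h.eventually
  refine ⟨hE.mono fun q hq a b => ?_, hE.mono fun q hq => (kahAt_sg hc hq.kahAt).posDef,
    hE.mono fun q hq => (kahAt_sg hc hq.kahAt).closed.self_of_nhds,
    hE.mono fun q hq => (kahAt_sg hc hq.kahAt).closed'.self_of_nhds,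
    hE.mono fun q hq a b => ?_⟩
  · have h1 := (hq.sm a b).comp q (contDiff_tq c t).contDiffAt
    exact contDiffAt_const.mul h1
  · have h1 := (hq.flow.self_of_nhds a b).scomp q.1 (hasDerivAt_tc c t q.1)
    have h2 := h1.const_mul (c : ℂ)
    have hc' : (c : ℂ) ≠ 0 := by exact_mod_cast hc.ne'
    rw [Complex.real_smul, Complex.ofReal_inv, ← mul_assoc, mul_inv_cancel₀ hc', one_mul] at h2
    rw [hess_ldet_sg hc hq.kahAt.pos]
    exact h2

variable {M : Type} [TopologicalSpace M] {A : Atl n M}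

/-- the field `c • G` on the manifold -/
def sG (c : ℝ) (G : MF A) : MF A := fun i => sg c (G i)

theorem kahOn_sG {c : ℝ} (hc : 0 < c) {G : MF A} {U : Set M} (h : KahOn G U) :
    KahOn (sG c G) U := by
  refine ⟨fun i x hx hU => kahAt_sg hc (h.kah i x hx hU), fun i j x hx hU => ?_⟩
  show (c : ℂ) • G i _ = _ * ((c : ℂ) • G j _) * _
  rw [h.tr i j x hx hU, Matrix.mul_smul, Matrix.smul_mul]

theorem smST_tc {c : ℝ} (hc : 0 < c) {t δ : ℝ} {U : Set M} {f : ℝ → M → ℝ} (k : ℝ)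
    (h : SmST A (Icc 0 δ) U f) :
    SmST A (Icc t (t + δ * c)) U fun s x => k * f (tc c t s) x := fun i =>
  contDiffOn_const.mul ((h i).comp (contDiff_tq c t).contDiffOn
    fun q hq => ⟨tc_Icc hc hq.1, hq.2⟩)

theorem flowOn_sc {c : ℝ} (hc : 0 < c) {t δ : ℝ} {U : Set M} {g : ℝ → MF A}
    (h : FlowOn 0 δ U g) : FlowOn t (t + δ * c) U fun s => sG c (g (tc c t s)) := by
  refine ⟨fun i k l => ?_, fun s hs => kahOn_sG hc (h.kah _ (tc_Icc hc hs)),
    fun s hs i x hx hU => krfAt_sg hc (h.krf _ (tc_Ioo hc hs) i x hx hU)⟩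
  exact contDiffOn_const.mul ((h.sm i k l).comp (contDiff_tq c t).contDiffOn
    fun q hq => ⟨tc_Icc hc hq.1, hq.2⟩)

theorem heatOn_sc {c : ℝ} (hc : 0 < c) {t δ : ℝ} {U : Set M} {g : ℝ → MF A} {f : ℝ → M → ℝ}
    (k : ℝ) (h : HeatOn 0 δ U g f) :
    HeatOn t (t + δ * c) U (fun s => sG c (g (tc c t s))) fun s x => k * f (tc c t s) x := by
  refine ⟨smST_tc hc k h.sm, fun s hs i x hx hU => ?_⟩
  have h1 := h.eq _ (tc_Ioo hc hs) i x hx hU
  unfold box at h1 ⊢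
  have h2 := deriv_tc c t k (fun s => inC A i (f s) (A.e i x)) s
  have h3 := lap_sg hc.ne' k (g (tc c t s) i) (inC A i (f (tc c t s))) (A.e i x)
  have h4 : deriv (fun s => inC A i (fun x => k * f (tc c t s) x) (A.e i x)) s - lap
      (sG c (g (tc c t s)) i) (inC A i fun x => k * f (tc c t s) x) (A.e i x) =
      k * c⁻¹ * deriv (fun s => inC A i (f s) (A.e i x)) (tc c t s) -
      k * c⁻¹ * lap (g (tc c t s) i) (inC A i (f (tc c t s))) (A.e i x) := by
    rw [← h2, ← h3]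
    rfl
  refine h4.trans ?_
  rw [← mul_sub, h1, mul_zero]

theorem phiOn_sc {c : ℝ} (hc : 0 < c) {t δ : ℝ} (hδ : 0 ≤ δ) {U : Set M} {g : ℝ → MF A}
    {φ : ℝ → M → ℝ} (hg : FlowOn 0 δ U g) (h : PhiOn 0 δ U g φ) :
    PhiOn t (t + δ * c) U (fun s => sG c (g (tc c t s))) fun s x => c * φ (tc c t s) x := by
  have hc' : (c : ℂ) ≠ 0 := by exact_mod_cast hc.ne'
  have h0 : (0 : ℝ) ∈ Icc 0 δ := ⟨le_rfl, hδ⟩
  refine ⟨smST_tc hc c h.sm, fun x hx => by simp only [tc_self, h.zero x hx, mul_zero],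
    fun s hs i x hx hU => ?_, fun s hs i x hx hU => ?_⟩
  · have h1 := h.pot _ (tc_Icc hc hs) i x hx hU
    have h2 := hess_cmul c (inC A i (φ (tc c t s))) (A.e i x)
    have h3 := ric_sg hc ((hg.kah 0 h0).kah i x hx hU).pos
    show (c : ℂ) • g (tc c t s) i _ = (c : ℂ) • g (tc c t t) i _ -
      _ • ric (sg c (g (tc c t t) i)) _ + hess (fun w => c * inC A i (φ (tc c t s)) w) _
    rw [tc_self, h3, h2, h1, smul_add, smul_sub, smul_smul]
    congr 3
    unfold tc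
    push_cast
    field_simp
    ring
  · have hs' := tc_Ioo hc hs
    have h1 := ((h.dt _ hs' i x hx hU).scomp s (hasDerivAt_tc c t s)).const_mul c
    have h2 := ldet_sg hc ((hg.kah _ (Ioo_subset_Icc_self hs')).kah i x hx hU).posDef
    have h3 := ldet_sg hc ((hg.kah 0 h0).kah i x hx hU).posDef
    show HasDerivAt _ (ldet (sg c (g (tc c t s) i)) _ - ldet (sg c (g (tc c t t) i)) _) s
    rw [smul_eq_mul, ← mul_assoc, mul_inv_cancel₀ hc.ne', one_mul] at h1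
    rw [tc_self, h2, h3, add_sub_add_left_eq_sub]
    exact h1

theorem crude_sc {l r K K' t s : ℝ} (hl : 0 < l) (hl1 : l ≤ 1) (hr : 0 < r) (hK : 0 ≤ K)
    (hK' : K' = K / l ^ 4) {g : ℝ → MF A} {u ρ : ℝ → M → ℝ} {x : M}
    (hk : ∀ i, x ∈ (A.e i).source → KahAt (g (tc ((l * r) ^ 2) t s) i) (A.e i x))
    (h : Crude K 1 0 g u ρ (tc ((l * r) ^ 2) t s) x) :
    Crude K' r t (fun s => sG ((l * r) ^ 2) (g (tc ((l * r) ^ 2) t s)))
      (fun s x => 1 * u (tc ((l * r) ^ 2) t s) x)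
      (fun s x => l * r * ρ (tc ((l * r) ^ 2) t s) x) s x := by
  set c := (l * r) ^ 2 with hcd
  have hc : 0 < c := by positivity
  have hl2 : l ^ 2 ≤ 1 := pow_le_one₀ hl.le hl1
  have hl4 : l ^ 4 ≤ l ^ 2 := pow_le_pow_of_le_one hl.le hl1 (by norm_num)
  have hKK : K ≤ K' := by
    rw [hK', le_div_iff₀ (by positivity)]
    exact mul_le_of_le_one_right hK (hl4.trans hl2)
  have hA : K ≤ K' / r ^ 2 * c := by
    have : K' / r ^ 2 * c = K * (l ^ 2 / l ^ 4) := by rw [hK', hcd]; field_simp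
    rw [this]
    exact le_mul_of_one_le_right hK ((one_le_div (by positivity)).2 hl4)
  have hB : K / c = K' / r ^ 2 * (1 / r ^ 2) * c := by rw [hK', hcd]; field_simp
  have hcr : c ≤ r ^ 2 := by rw [hcd, mul_pow]; exact mul_le_of_le_one_left (by positivity) hl2
  have hA' : c⁻¹ * K ≤ K' / r ^ 2 := by
    rw [inv_mul_le_iff₀ hc, mul_comm]; exact hA
  refine ⟨fun τ hτ i hi c0 a v => ?_, fun i hi => ⟨fun v w => ?_, fun v w => ?_⟩,
    fun i hi v => ?_, ?_, ?_, ?_, ?_⟩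
  · have hp := hk i hi
    have h1 := h.lyh (τ / c) (by rw [one_pow, one_le_div hc]; exact hcr.trans hτ) i hi (c0 / c) a v
    have ha := Tr.nq_nonneg hp.posDef.posSemidef a
    have hv := Tr.nq_nonneg hp.posDef.posSemidef v
    show |lyhS (sg c _) τ _ c0 a v| ≤ _ * (nq (sg c _ _) a + _) * nq (sg c _ _) v
    rw [lyhS_sg hc hp.pos, nq_sg, nq_sg, abs_mul, abs_of_pos hc]
    rw [norm_div, Complex.norm_real, Real.norm_of_nonneg hc.le] at h1
    refine (mul_le_mul_of_nonneg_left h1 hc.le).trans ?_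
    generalize nq (g (tc c t s) i (A.e i x)) a = X at ha ⊢
    generalize nq (g (tc c t s) i (A.e i x)) v = Y at hv ⊢
    have e1 : c * (K / 1 ^ 2 * (X + 1 / 1 ^ 2 * (‖c0‖ / c) ^ 2) * Y) =
        (K * (c * X) + K / c * ‖c0‖ ^ 2) * Y := by field_simp
    have e2 : K' / r ^ 2 * (c * X + 1 / r ^ 2 * ‖c0‖ ^ 2) * (c * Y) =
        (K' / r ^ 2 * c * (c * X) + K' / r ^ 2 * (1 / r ^ 2) * c * ‖c0‖ ^ 2) * Y := by ring
    rw [e1, e2, ← hB]
    gcongr
  · have hp := hk i hi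
    have h1 := (h.bk i hi).1 v w
    have ha := Tr.nq_nonneg hp.posDef.posSemidef v
    have hv := Tr.nq_nonneg hp.posDef.posSemidef w
    show -(_ * nq (sg c _ _) v * nq (sg c _ _) w) ≤ bis (sg c _) _ v w
    rw [bis_sg hc.ne', nq_sg, nq_sg]
    rw [one_pow, div_one] at h1
    have h2 := mul_le_mul_of_nonneg_left h1 hc.le
    have h3 := mul_le_mul_of_nonneg_right hA (mul_nonneg hc.le (mul_nonneg ha hv))
    nlinarith
  · have hp := hk i hi
    have h1 := (h.bk i hi).2 v w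
    have ha := Tr.nq_nonneg hp.posDef.posSemidef v
    have hv := Tr.nq_nonneg hp.posDef.posSemidef w
    show bis (sg c _) _ v w ≤ _ * nq (sg c _ _) v * nq (sg c _ _) w
    rw [bis_sg hc.ne', nq_sg, nq_sg]
    rw [one_pow, div_one] at h1
    have h2 := mul_le_mul_of_nonneg_left h1 hc.le
    have h3 := mul_le_mul_of_nonneg_right hA (mul_nonneg hc.le (mul_nonneg ha hv))
    nlinarith
  · have hp := hk i hi
    have h1 := h.hes i hi v
    have ha := Tr.nq_nonneg hp.posDef.posSemidef v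
    show |nq (hess (fun w => 1 * inC A i (u (tc c t s)) w) _) v| ≤ _ * nq (sg c _ _) v
    rw [hess_cmul, Complex.ofReal_one, one_smul, nq_sg, ← mul_assoc]
    rw [one_pow, div_one] at h1
    exact h1.trans (mul_le_mul_of_nonneg_right hA ha)
  · have h1 := h.gu
    rw [one_pow, div_one] at h1
    show gsq (sg c _) (fun w => 1 * inC A _ (u (tc c t s)) w) _ ≤ _
    rw [gsq_sg hc.ne', one_pow, one_mul]
    exact (mul_le_mul_of_nonneg_left h1 (inv_nonneg.2 hc.le)).trans hA'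
  · have h1 := h.gρ
    show gsq (sg c _) (fun w => l * r * inC A _ (ρ (tc c t s)) w) _ ≤ _
    rw [gsq_sg hc.ne', ← hcd, mul_inv_cancel₀ hc.ne', one_mul]
    exact h1.trans hKK
  · have h1 := h.oρ
    rw [mul_one] at h1
    rw [tc_self, ← mul_sub, abs_mul, abs_of_pos (by positivity : 0 < l * r)]
    have h2 : l * r ≤ r := mul_le_of_le_one_left hr.le hl1
    calc l * r * |ρ (tc c t s) x - ρ 0 x| ≤ r * K := by gcongr
      _ ≤ K' * r := by rw [mul_comm]; gcongr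
  · rw [tc_self, one_mul, one_mul]
    exact h.ou.trans hKK

/-! ## §3 charts -/

theorem iFD_scale {E F : Type*} [NormedAddCommGroup E] [NormedSpace ℝ E] [NormedAddCommGroup F]
    [NormedSpace ℝ F] (k l : ℝ) (f : E → F) (j : ℕ) :
    iteratedFDeriv ℝ j (fun y => k • f (l • y)) =
      fun w => (k * l ^ j) • iteratedFDeriv ℝ j f (l • w) := by
  induction j with
  | zero =>
    funext w
    ext m
    simp
  | succ j ih =>
    funext w
    ext m
    have h1 : fderiv ℝ (fun w => (k * l ^ j) • iteratedFDeriv ℝ j f (l • w)) w =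
        (k * l ^ j) • l • fderiv ℝ (iteratedFDeriv ℝ j f) (l • w) := by
      rw [← fderiv_comp_smul]
      exact congrFun (fderiv_const_smul_field (𝕜 := ℝ)
        (f := fun w => iteratedFDeriv ℝ j f (l • w)) (k * l ^ j)) w
    rw [iteratedFDeriv_succ_apply_left, ih, h1, smul_smul, pow_succ, mul_assoc]
    rfl

theorem norm_iFD_scale {E F : Type*} [NormedAddCommGroup E] [NormedSpace ℝ E]
    [NormedAddCommGroup F] [NormedSpace ℝ F] {k l : ℝ} (hk : 0 ≤ k) (hl : 0 ≤ l) (f : E → F)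
    (j : ℕ) (w : E) : ‖iteratedFDeriv ℝ j (fun y => k • f (l • y)) w‖ =
      k * l ^ j * ‖iteratedFDeriv ℝ j f (l • w)‖ := by
  rw [iFD_scale, norm_smul, Real.norm_of_nonneg (by positivity)]

theorem fderiv_rd_scale (l : ℝ) (ψ : Cn n → M) (i : A.ι) (w : Cn n) :
    fderiv ℂ (rd A i fun y => ψ (l • y)) w = (l : ℂ) • fderiv ℂ (rd A i ψ) (l • w) :=
  fderiv_comp_smul (𝕜 := ℂ) (f := rd A i ψ) (x := w) (l : ℂ)

theorem pull_scale (k l : ℝ) (G : MF A) (ψ : Cn n → M) (w : Cn n) :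
    pull (sG k G) (fun y => ψ (l • y)) w = ((k * l ^ 2 : ℝ) : ℂ) • pull G ψ (l • w) := by
  have h : ∀ i, jac (rd A i fun y => ψ (l • y)) w = (l : ℂ) • jac (rd A i ψ) (l • w) := by
    intro i
    ext a b
    simp only [jac, Matrix.of_apply, Matrix.smul_apply, fderiv_rd_scale]
    rfl
  have h2 : ∀ J : Mat n, ((l : ℂ) • J).map conj = (l : ℂ) • J.map conj := by
    intro J
    ext a b
    simp
  unfold pull pbF
  show _ * ((k : ℂ) • G _ _) * _ = _
  rw [h, h2, Matrix.transpose_smul, Matrix.smul_mul, Matrix.smul_mul, Matrix.mul_smul,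
    Matrix.mul_smul, Matrix.smul_mul, smul_smul, smul_smul]
  congr 1
  push_cast
  ring

theorem fl_of_good {G : MF A} {u ρ : M → ℝ} {W : Set M} {r Kρ l ε : ℝ} {x : M} {ψ : Cn n → M}
    (hr : 0 < r) (hl : 0 < l) (hl1 : l ≤ 1) (hlε : l ≤ ε) (hlR : l * RR n ≤ 1)
    (h : Good G u ρ W r Kρ x ψ) :
    Fl (sG ((l * r) ^ 2)⁻¹ G) u (fun y => (l * r)⁻¹ * ρ y) W ε Kρ x fun y => ψ (l • y) := by
  have hm : ∀ w ∈ ball (0 : Cn n) (RR n), l • w ∈ ball (0 : Cn n) 1 := by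
    intro w hw
    rw [mem_ball_zero_iff] at *
    rw [norm_smul, Real.norm_of_nonneg hl.le]
    exact (mul_lt_mul_of_pos_left hw hl).trans_le hlR
  have hlc : (l : ℂ) ≠ 0 := by exact_mod_cast hl.ne'
  have hk : ((l * r) ^ 2)⁻¹ * l ^ 2 = (r ^ 2)⁻¹ := by field_simp
  have hpw : ∀ j, 1 ≤ j → l ^ j ≤ l := fun j hj => pow_le_of_le_one hl.le hl1 (by omega)
  have hK : 0 ≤ Kρ := by
    have h1 := (norm_nonneg _).trans (h.dρ 1 le_rfl (by norm_num) 0 (mem_ball_self one_pos))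
    exact nonneg_of_mul_nonneg_left h1 hr
  have hs : Continuous fun y : Cn n => l • y := continuous_const_smul l
  refine ⟨⟨fun z hz => ⟨(h.qc.imm.1 _ (hm z hz)).1.comp hs.continuousAt, fun i hi => ?_⟩,
    fun z hz i hi => ?_⟩, fun w hw => h.qc.maps (hm w hw), by simpa using h.qc.zero, ?_,
    fun j h1 h8 w hw a b => ?_, fun j h1 h4 w hw => ?_, fun w hw => ?_, fun j h1 h4 w hw => ?_⟩
  · exact ((h.qc.imm.1 _ (hm z hz)).2 i hi).comp z
      (differentiableAt_id.const_smul (l : ℂ))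
  · rw [fderiv_rd_scale]
    intro v v' hv
    exact h.qc.imm.2 _ (hm z hz) i hi (smul_right_injective _ hlc hv)
  · rw [pull_scale, smul_zero, h.qc.ctr, hk, smul_smul, ← Complex.ofReal_mul,
      inv_mul_cancel₀ (by positivity), Complex.ofReal_one, one_smul]
  · have e : (fun y => pull (sG ((l * r) ^ 2)⁻¹ G) (fun y => ψ (l • y)) y a b) =
        fun y => (r ^ 2)⁻¹ • (fun y => pull G ψ y a b) (l • y) := by
      funext y
      rw [pull_scale, hk]
      rfl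
    rw [e]
    refine (norm_iFD_scale (k := (r ^ 2)⁻¹) (by positivity) hl.le (fun y => pull G ψ y a b)
      j w).le.trans ?_
    calc (r ^ 2)⁻¹ * l ^ j * _ ≤ (r ^ 2)⁻¹ * l * r ^ 2 := by
          gcongr
          · exact hpw j h1
          · exact h.dG j h1 h8 _ (hm w hw) a b
      _ = l := by field_simp
      _ ≤ ε := hlε
  · have e : (fun y => u (ψ (l • y))) = fun y => (1 : ℝ) • (fun y => u (ψ y)) (l • y) := by
      funext y; simp
    rw [e]
    refine (norm_iFD_scale zero_le_one hl.le (fun y => u (ψ y)) j w).le.trans ?_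
    rw [one_mul]
    exact mul_le_one₀ ((hpw j h1).trans hl1) (norm_nonneg _) (h.du j h1 h4 _ (hm w hw))
  · have h1 := norm_iFD_scale (k := (l * r)⁻¹) (by positivity) hl.le (fun y => ρ (ψ y)) 1 w
    rw [norm_iteratedFDeriv_one, norm_iteratedFDeriv_one] at h1
    refine h1.le.trans ?_
    calc (l * r)⁻¹ * l ^ 1 * _ ≤ (l * r)⁻¹ * l ^ 1 * (4 * r) := by
          gcongr
          exact h.dρ1 _ (hm w hw)
      _ = 4 := by field_simp
  · refine (norm_iFD_scale (k := (l * r)⁻¹) (by positivity) hl.le (fun y => ρ (ψ y)) j w).le.trans ?_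
    calc (l * r)⁻¹ * l ^ j * _ ≤ (l * r)⁻¹ * l * (Kρ * r) := by
          gcongr
          · exact hpw j h1
          · exact h.dρ j h1 h4 _ (hm w hw)
      _ = Kρ := by field_simp

end

end Crest.Agent.T223.St.Sc54

namespace Crest.Agent.T223.St

open Crest.Agent.R275.Geo Crest.Agent.T223.Os Crest.Agent.T223.St.Sc54

/-! ## §4 the theorem -/

theorem scaleStmt (n : ℕ) : ScaleStmt n := by
  rintro ⟨ε, δ0, C0, hε, hδ, hδ1, hC, H⟩
  have hR := one_le_RR n
  obtain ⟨l, hl, hl1, hlε, hlR⟩ : ∃ l : ℝ, 0 < l ∧ l ≤ 1 ∧ l ≤ ε ∧ l * RR n ≤ 1 := by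
    refine ⟨min ε (RR n)⁻¹, lt_min hε (by positivity),
      (min_le_right _ _).trans (inv_le_one_of_one_le₀ hR), min_le_left _ _, ?_⟩
    calc min ε (RR n)⁻¹ * RR n ≤ (RR n)⁻¹ * RR n := by gcongr; exact min_le_right _ _
      _ = 1 := inv_mul_cancel₀ (by positivity)
  have hl2 : l ^ 2 ≤ 1 := pow_le_one₀ hl.le hl1
  refine ⟨δ0 * l ^ 2, C0 * l, by positivity, mul_le_one₀ hδ1 (by positivity) hl2, by positivity,
    fun Kρ => ?_⟩
  obtain ⟨K, hK, H⟩ := H Kρ
  refine ⟨K / l ^ 4, (one_le_div (by positivity)).2 ((pow_le_one₀ hl.le hl1).trans hK), ?_⟩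
  intro M _ _ _ A G u0 ρ0 W r c t hW hG hu hρ hr hc hψ
  have hlr : 0 < l * r := by positivity
  have hq : 0 < (l * r) ^ 2 := by positivity
  have e1 : ∀ x, (l * r)⁻¹ * ρ0 x ≤ (l * r)⁻¹ * c ↔ ρ0 x ≤ c := fun x =>
    mul_le_mul_iff_right₀ (inv_pos.2 hlr)
  have e2 : ∀ x, (l * r)⁻¹ * ρ0 x < (l * r)⁻¹ * c - C0 ↔ ρ0 x < c - C0 * l * r := by
    intro x
    have : (l * r)⁻¹ * c - C0 = (l * r)⁻¹ * (c - C0 * l * r) := by field_simp
    rw [this]
    exact mul_lt_mul_iff_right₀ (inv_pos.2 hlr)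
  obtain ⟨g, u, ρ, φ, h1, h2, h3, h4, h5, h6⟩ := H M A (sG ((l * r) ^ 2)⁻¹ G) u0
    (fun y => (l * r)⁻¹ * ρ0 y) W ((l * r)⁻¹ * c) hW (kahOn_sG (inv_pos.2 hq) hG) hu
    (fun i => contDiffOn_const.mul (hρ i)) (by simpa only [e1] using hc)
    (fun x hx hx' => by
      obtain ⟨ψ, hψ⟩ := hψ x hx ((e1 x).1 hx')
      exact ⟨_, fl_of_good hr hl hl1 hlε hlR hψ⟩)
  simp only [e2] at h1 h2 h3 h4 h5 h6
  have e3 : t + δ0 * l ^ 2 * r ^ 2 = t + δ0 * (l * r) ^ 2 := by ring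
  rw [e3]
  refine ⟨_, _, _, _, flowOn_sc hq h1, heatOn_sc hq 1 h2, heatOn_sc hq (l * r) h3,
    phiOn_sc hq hδ.le h1 h4, fun i x hx hU => ?_, fun x hx hx' => ⟨?_, ?_, fun s hs => ?_⟩⟩
  · show (((l * r) ^ 2 : ℝ) : ℂ) • g (tc _ t t) i _ = _
    rw [tc_self, h5 i x hx hU]
    show _ • (((((l * r) ^ 2)⁻¹ : ℝ) : ℂ) • G i _) = _
    rw [smul_smul, ← Complex.ofReal_mul, mul_inv_cancel₀ hq.ne', Complex.ofReal_one, one_smul]
  · rw [tc_self, one_mul, (h6 x hx hx').1]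
  · rw [tc_self, (h6 x hx hx').2.1, ← mul_assoc, mul_inv_cancel₀ hlr.ne', one_mul]
  · have hs' := tc_Icc hq hs
    exact crude_sc hl hl1 hr (zero_le_one.trans hK) rfl
      (fun i hi => (h1.kah _ hs').kah i x hi ⟨hx, hx'⟩) ((h6 x hx hx').2.2 _ hs')

end Crest.Agent.T223.St
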