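import Crest.Agent.T223.StFlow_33

/-!
# Row 223, STEP (helper33): joint smoothness through immersions and charts (`TrfStmt`)
-/

set_option autoImplicit false

open Set Filter Topology
open scoped ContDiff

namespace Crest.Agent.T223.St

open Crest.Agent.R275.Geo Crest.Agent.T223.Tr

theorem trfStmt (n : ℕ) : TrfStmt n := by
  intro M _ A I f
  refine ⟨fun V ψ D _ hD hψ hm hf => F33.cdOn_comp hD hψ.1 hm hf, fun V h i q hq => ?_⟩
  obtain ⟨ψ, D, hD, hψ, ⟨w, hw, e⟩, hs⟩ := h _ hq.2.2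
  have hi : ψ w ∈ (A.e i).source := e ▸ (A.e i).map_target hq.2.1
  have e1 : rd A i ψ w = q.2 := by rw [rd, e, (A.e i).right_inv hq.2.1]
  have h1 := hψ.1.contDiffAt hD hw hi
  have h2 : HasFDerivAt (rd A i ψ)
      ((eqvOf _ (hψ.2 w hw i hi) : Cn n ≃L[ℂ] Cn n) : Cn n →L[ℂ] Cn n) w := by
    rw [eqvOf_coe]
    exact (h1.differentiableAt (by simp)).hasFDerivAt
  have h3 := h1.to_localInverse h2 (by simp)
  have h4 := h1.localInverse_apply_image h2 (by simp)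
  have h5 : ∀ᶠ y in 𝓝 (rd A i ψ w), rd A i ψ (h1.localInverse h2 (by simp) y) = y :=
    (h1.hasStrictFDerivAt' h2 (by simp)).eventually_right_inverse
  generalize h1.localInverse h2 (by simp) = σ at h3 h4 h5
  rw [e1] at h3 h4 h5
  have h6 : ∀ᶠ y in 𝓝 q.2, σ y ∈ D ∧ ψ (σ y) = (A.e i).symm y := by
    have h7 : Tendsto σ (𝓝 q.2) (𝓝 w) := h4 ▸ h3.continuousAt
    filter_upwards [h5, h7.eventually (hψ.1.eventually hD hw hi)] with y a1 a2
    exact ⟨a2.1, by rw [← (A.e i).left_inv a2.2.1]; exact congrArg _ a1⟩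
  have h8 : {r : ℝ × Cn n | σ r.2 ∈ D ∧ ψ (σ r.2) = (A.e i).symm r.2} ∈ 𝓝 q :=
    (continuousAt_snd (p := q)).eventually h6
  refine (contDiffWithinAt_inter h8).1 ?_
  have h9 : ContDiffAt ℝ ∞ (fun r : ℝ × Cn n => ((r.1, σ r.2) : ℝ × Cn n)) q :=
    contDiffAt_fst.prodMk (cd_static q.1 ((h3.restrict_scalars ℝ).of_le le_top))
  have h10 : MapsTo (fun r : ℝ × Cn n => ((r.1, σ r.2) : ℝ × Cn n))
      ((I ×ˢ Db.dom A i V) ∩ {r : ℝ × Cn n | σ r.2 ∈ D ∧ ψ (σ r.2) = (A.e i).symm r.2})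
      (I ×ˢ D) := fun r hr => ⟨hr.1.1, hr.2.1⟩
  refine ((hs (q.1, σ q.2) ⟨hq.1, h6.self_of_nhds.1⟩).comp q h9.contDiffWithinAt h10).congr
    (fun r hr => ?_) ?_
  · exact congrArg (f r.1) hr.2.2.symm
  · exact congrArg (f q.1) h6.self_of_nhds.2.symm

end Crest.Agent.T223.St
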