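import Crest.Agent.T223.StMA_88
import Crest.Agent.T223.StChK_51
import Crest.Agent.T223.StChH_88
import Crest.Agent.T223.LxPic_83
import Crest.Agent.T223.StCru_66
import Crest.Agent.T223.StTrf_33
import Crest.Agent.T223.StHeat_25
import Crest.Agent.T223.StReg_54
import Crest.Agent.T223.StSc_54
import Crest.Agent.T223.DbSol_88
import Crest.Agent.T223.LxIS_83
import Crest.Agent.T223.LxHB4_25
import Crest.Agent.T223.LxReg_54

/-!
# Row 223, STEP (helper88): integration
-/

set_option autoImplicit false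

namespace Crest.Agent.T223.St

theorem stepStmt_of {n : ℕ} (hP : Lx.PicStmt (2 * n)) (hN : NemStmt n) (hH : ChHStmt n)
    (hA : AsmStmt n) : Os.StepStmt n :=
  scaleStmt n (hA (trfStmt n) (flowStmt n) (heatStmt (Db.linSol n))
    (maStmt hP (Db.linSol n) hN (regStmt (Lx.fnReg (Lx.isStmt _ ℝ))) (trfStmt n))
    (chKStmt (Lx.fnHB (Lx.isStep _ ℝ) (Lx.intStmt _ ℝ))) hH (cruStmt n))

theorem stepStmt_of2 {n : ℕ} (hN : NemStmt n) (hA : AsmStmt n) : Os.StepStmt n :=
  stepStmt_of (Lx.picStmt _) hN (H88.chH (Lx.linHB (Lx.isStep _ ℝ) (Lx.intStmt _ ℝ))) hA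

end Crest.Agent.T223.St
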