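import Crest.Agent.T223.StDefB_88

/-!
# Row 223, STEP (helper16): the pointwise estimates `NemStmt` of the Monge-Ampere nonlinearity
-/

set_option autoImplicit false
set_option linter.unusedVariables false

open Set Filter Topology Metric
open scoped ContDiff ComplexConjugate Matrix ComplexOrder

namespace Crest.Agent.T223.St

open Crest.Agent.R275.Geo Crest.Agent.R273.Hess_333 Crest.Agent.T223.Tr Crest.Agent.T223.Os
open Crest.Agent.T223.Db (eR zm rm)
open Crest.Agent.N207.P (En)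
open Crest.Agent.T223.Lx

namespace Nem16

/-- Taylor type estimates near a point where the partial derivative in `z` vanishes -/
theorem abs_nem {E Z : Type*} [NormedAddCommGroup E] [NormedSpace ℝ E] [NormedAddCommGroup Z]
    [NormedSpace ℝ Z] {F : E × Z → ℝ} {p0 : E} (hF : ContDiffAt ℝ ∞ F (p0, 0))
    (h0 : ∀ z, fderiv ℝ F (p0, 0) (0, z) = 0) :
    ∃ K : ℝ, 0 ≤ K ∧ ∀ ε : ℝ, 0 < ε → ∃ η : ℝ, 0 < η ∧ ∀ p p' : E, ‖p - p0‖ ≤ η → ‖p' - p0‖ ≤ η →
      |F (p, 0)| ≤ K ∧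
      (∀ z z' : Z, ‖z‖ ≤ η → ‖z'‖ ≤ η → |F (p, z) - F (p', z')| ≤ K * (‖p - p'‖ + ‖z - z'‖)) ∧
      ∀ z z' e e' : Z, ‖z‖ ≤ η → ‖z'‖ ≤ η → ‖e‖ ≤ η → ‖e'‖ ≤ η →
        |(F (p, z) - F (p, z')) - (F (p', e) - F (p', e'))| ≤ ε * ‖(z - z') - (e - e')‖ +
          K * (‖p - p'‖ + ‖z - e‖ + ‖z' - e'‖) * ‖e - e'‖ := by
  obtain ⟨K1, t1, ht1, hL1⟩ := (hF.of_le (by simp : (1 : WithTop ℕ∞) ≤ ∞)).exists_lipschitzOnWith
  obtain ⟨K2, t2, ht2, hL2⟩ :=
    (hF.fderiv_right (m := 1) (by norm_cast)).exists_lipschitzOnWith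
  have ht3 : ∀ᶠ q in 𝓝 (p0, (0 : Z)), DifferentiableAt ℝ F q :=
    ((hF.of_le (by simp : (1 : WithTop ℕ∞) ≤ ∞)).eventually (by simp)).mono fun q hq =>
      hq.differentiableAt (by simp)
  obtain ⟨r, hr, hrs⟩ := Metric.nhds_basis_closedBall.mem_iff.1 (inter_mem ht1 (inter_mem ht2 ht3))
  refine ⟨|F (p0, 0)| + K1 + K2, by positivity, fun ε hε => ?_⟩
  have hK2 : (0 : ℝ) < K2 + 1 := by positivity
  refine ⟨min (min r 1) (ε / (K2 + 1)), by positivity, fun p p' hp hp' => ?_⟩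
  set η := min (min r 1) (ε / (K2 + 1)) with hη
  have hηr : η ≤ r := (min_le_left _ _).trans (min_le_left _ _)
  have hη1 : η ≤ 1 := (min_le_left _ _).trans (min_le_right _ _)
  have hηε : K2 * η ≤ ε := by
    have h := min_le_right (min r 1) (ε / (K2 + 1))
    rw [← hη, le_div_iff₀ hK2] at h
    have : 0 ≤ η := (norm_nonneg _).trans hp
    nlinarith
  have hd : ∀ (p : E) (z : Z), ‖p - p0‖ ≤ η → ‖z‖ ≤ η → dist (p, z) (p0, (0 : Z)) ≤ η :=
    fun p z h1 h2 => by
      rw [Prod.dist_eq, dist_eq_norm, dist_zero_right]; exact max_le h1 h2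
  have hm : ∀ (p : E) (z : Z), ‖p - p0‖ ≤ η → ‖z‖ ≤ η →
      (p, z) ∈ t1 ∩ (t2 ∩ {q | DifferentiableAt ℝ F q}) :=
    fun p z h1 h2 => hrs (mem_closedBall.2 ((hd p z h1 h2).trans hηr))
  have hη0 : 0 ≤ η := (norm_nonneg _).trans hp
  have hc : (p0, (0 : Z)) ∈ t1 ∩ (t2 ∩ {q | DifferentiableAt ℝ F q}) :=
    hm _ _ (by simpa using hη0) (by simpa using hη0)
  have hds : ∀ (p p' : E) (z z' : Z), dist (p, z) (p', z') ≤ ‖p - p'‖ + ‖z - z'‖ :=
    fun p p' z z' => by
      rw [Prod.dist_eq, dist_eq_norm, dist_eq_norm]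
      exact max_le (le_add_of_nonneg_right (norm_nonneg _)) (le_add_of_nonneg_left (norm_nonneg _))
  have hA := abs_nonneg (F (p0, 0))
  refine ⟨?_, fun z z' hz hz' => ?_, fun z z' e e' hz hz' he he' => ?_⟩
  · have h := hL1.dist_le_mul _ (hm p 0 hp (by simpa using hη0)).1 _ hc.1
    rw [Real.dist_eq] at h
    have h2 := (hd p 0 hp (by simpa using hη0)).trans hη1
    have h3 := abs_sub_abs_le_abs_sub (F (p, 0)) (F (p0, 0))
    nlinarith [K1.2, K2.2, NNReal.coe_nonneg K1, NNReal.coe_nonneg K2]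
  · have h := hL1.dist_le_mul _ (hm p z hp hz).1 _ (hm p' z' hp' hz').1
    rw [Real.dist_eq] at h
    refine h.trans (mul_le_mul (by linarith [NNReal.coe_nonneg K2]) (hds _ _ _ _) dist_nonneg
      (by positivity))
  · have hseg : ∀ (a b : Z), ‖a‖ ≤ η → ‖b‖ ≤ η → ∀ s ∈ Icc (0 : ℝ) 1, ‖b + s • (a - b)‖ ≤ η :=
      fun a b ha hb s hs => by
        have h : b + s • (a - b) = (1 - s) • b + s • a := by module
        rw [h]
        refine (norm_add_le _ _).trans ?_
        rw [norm_smul, norm_smul, Real.norm_of_nonneg hs.1, Real.norm_of_nonneg (by linarith [hs.2])]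
        nlinarith [hs.1, hs.2]
    have hder : ∀ (p : E) (a b : Z), ‖p - p0‖ ≤ η → ‖a‖ ≤ η → ‖b‖ ≤ η → ∀ s ∈ Icc (0 : ℝ) 1,
        HasDerivAt (fun s : ℝ => F (p, b + s • (a - b)))
          (fderiv ℝ F (p, b + s • (a - b)) (0, a - b)) s := fun p a b hp ha hb s hs => by
      have h1 : HasDerivAt (fun s : ℝ => ((p, b + s • (a - b)) : E × Z)) (0, a - b) s :=
        (hasDerivAt_const s p).prodMk
          (by simpa using ((hasDerivAt_id s).smul_const (a - b)).const_add b)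
      exact (hm p _ hp (hseg a b ha hb s hs)).2.2.hasFDerivAt.comp_hasDerivAt s h1
    have key := norm_image_sub_le_of_norm_deriv_le_segment_01'
      (f := fun s : ℝ => F (p, z' + s • (z - z')) - F (p', e' + s • (e - e')))
      (f' := fun s : ℝ => fderiv ℝ F (p, z' + s • (z - z')) (0, z - z') -
        fderiv ℝ F (p', e' + s • (e - e')) (0, e - e'))
      (C := ε * ‖(z - z') - (e - e')‖ +
          (|F (p0, 0)| + K1 + K2) * (‖p - p'‖ + ‖z - e‖ + ‖z' - e'‖) * ‖e - e'‖)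
      (fun s hs => ((hder p z z' hp hz hz' s hs).sub (hder p' e e' hp' he he' s hs)).hasDerivWithinAt)
      (fun s hs => ?_)
    · simp only [one_smul, zero_smul, add_zero, add_sub_cancel, Real.norm_eq_abs] at key
      rwa [show F (p, z) - F (p, z') - (F (p', e) - F (p', e')) =
        F (p, z) - F (p', e) - (F (p, z') - F (p', e')) by ring]
    have hs' : s ∈ Icc (0 : ℝ) 1 := Ico_subset_Icc_self hs
    set a := z' + s • (z - z') with ha
    set b := e' + s • (e - e') with hb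
    have ha' : ‖a‖ ≤ η := hseg z z' hz hz' s hs'
    have hb' : ‖b‖ ≤ η := hseg e e' he he' s hs'
    have e1 : fderiv ℝ F (p, a) (0, z - z') - fderiv ℝ F (p', b) (0, e - e') =
        (fderiv ℝ F (p, a) - fderiv ℝ F (p0, 0)) (0, (z - z') - (e - e')) +
          (fderiv ℝ F (p, a) - fderiv ℝ F (p', b)) (0, e - e') := by
      have h : ((0 : E), z - z') = (0, (z - z') - (e - e')) + (0, e - e') := by simp
      rw [h, map_add, sub_apply, sub_apply, h0]
      ring
    have n1 : ∀ v : Z, ‖((0 : E), v)‖ = ‖v‖ := fun v => by simp [Prod.norm_def]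
    have b1 := hL2.dist_le_mul _ (hm p a hp ha').2.1 _ hc.2.1
    have b2 := hL2.dist_le_mul _ (hm p a hp ha').2.1 _ (hm p' b hp' hb').2.1
    rw [dist_eq_norm] at b1 b2
    have b3 : ‖a - b‖ ≤ ‖z - e‖ + ‖z' - e'‖ := by
      have h : a - b = s • (z - e) + (1 - s) • (z' - e') := by rw [ha, hb]; module
      rw [h]
      refine (norm_add_le _ _).trans ?_
      rw [norm_smul, norm_smul, Real.norm_of_nonneg hs'.1,
        Real.norm_of_nonneg (by linarith [hs'.2])]
      nlinarith [hs'.1, hs'.2, norm_nonneg (z - e), norm_nonneg (z' - e')]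
    rw [e1]
    refine (norm_add_le _ _).trans (add_le_add ?_ ?_)
    · refine (ContinuousLinearMap.le_opNorm _ _).trans ?_
      rw [n1]
      exact mul_le_mul_of_nonneg_right (b1.trans ((mul_le_mul_of_nonneg_left (hd p a hp ha')
        (NNReal.coe_nonneg K2)).trans hηε)) (norm_nonneg _)
    · refine (ContinuousLinearMap.le_opNorm _ _).trans ?_
      rw [n1]
      refine mul_le_mul_of_nonneg_right (b2.trans (mul_le_mul
        (by linarith [NNReal.coe_nonneg K1]) ((hds _ _ _ _).trans (by linarith)) dist_nonneg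
        (by positivity))) (norm_nonneg _)

/-- `log (det (1 + s z)).re - s re tr z` has derivative `0` at `0` -/
theorem der_logdet {n : ℕ} (z : Matrix (Fin n) (Fin n) ℂ) :
    HasDerivAt (fun s : ℝ => Real.log (1 + (s : ℂ) • z).det.re) z.trace.re 0 := by
  obtain ⟨P, hP⟩ : ∃ P : Polynomial ℂ, ∀ r : ℂ, (1 + r • z).det = 1 + z.trace * r + P.eval r * r ^ 2 :=
    ⟨_, fun r => Matrix.det_one_add_smul r z⟩
  have h1 : HasDerivAt (fun r : ℂ => 1 + z.trace * r + P.eval r * r ^ 2) z.trace ((0 : ℝ) : ℂ) :=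
    ((((hasDerivAt_id ((0 : ℝ) : ℂ)).const_mul z.trace).const_add 1).add
      ((P.hasDerivAt _).mul ((hasDerivAt_id ((0 : ℝ) : ℂ)).pow 2))).congr_deriv (by simp)
  have h2 := h1.real_of_complex.log (by simp)
  simp only [hP]
  simpa using h2


/-- the nonlinearity as a function of `(G, t Ric, H)` -/
noncomputable def FF (n : ℕ) (q : (ZZ n × ZZ n) × ZZ n) : ℝ :=
  Real.log ((Matrix.of q.1.1 - Matrix.of q.1.2 + Matrix.of q.2).det.re /
    (Matrix.of q.1.1).det.re) - trg (Matrix.of q.1.1) (Matrix.of q.2)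

/-- the base point -/
noncomputable def p0 (n : ℕ) : ZZ n × ZZ n := (fun a b => (1 : Mat n) a b, 0)

variable {n : ℕ}

theorem of_p1 : Matrix.of (p0 n).1 = (1 : Mat n) := rfl

theorem of_p2 : Matrix.of (p0 n).2 = (0 : Mat n) := rfl

theorem cd_FF : ContDiffAt ℝ ∞ (FF n) (p0 n, 0) := by
  have h1 : ∀ a b, ContDiffAt ℝ ∞ (fun q : (ZZ n × ZZ n) × ZZ n => (Matrix.of q.1.1 : Mat n) a b)
      (p0 n, 0) := fun a b => by simp only [Matrix.of_apply]; fun_prop
  have h2 : ∀ a b, ContDiffAt ℝ ∞ (fun q : (ZZ n × ZZ n) × ZZ n => (Matrix.of q.1.2 : Mat n) a b)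
      (p0 n, 0) := fun a b => by simp only [Matrix.of_apply]; fun_prop
  have h3 : ∀ a b, ContDiffAt ℝ ∞ (fun q : (ZZ n × ZZ n) × ZZ n => (Matrix.of q.2 : Mat n) a b)
      (p0 n, 0) := fun a b => by simp only [Matrix.of_apply]; fun_prop
  have h0 : (Matrix.of (0 : ZZ n) : Mat n) = 0 := rfl
  have d1 := Complex.reCLM.contDiff.contDiffAt.comp (n := ∞) _ (cdM_det h1)
  have d2 := Complex.reCLM.contDiff.contDiffAt.comp (n := ∞) _ (cdM_det
    (g := fun q : (ZZ n × ZZ n) × ZZ n => Matrix.of q.1.1 - Matrix.of q.1.2 + Matrix.of q.2)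
    fun a b => ((h1 a b).sub (h2 a b)).add (h3 a b))
  refine ContDiffAt.sub (ContDiffAt.log (ContDiffAt.div d2 d1 ?_) ?_) (cdM_trg h1 ?_ h3)
  · simp [of_p1]
  · simp [of_p1, of_p2, h0]
  · simp [of_p1]

theorem d_FF (z : ZZ n) : fderiv ℝ (FF n) (p0 n, 0) (0, z) = 0 := by
  have h1 : HasDerivAt (fun s : ℝ => ((p0 n, s • z) : (ZZ n × ZZ n) × ZZ n)) (0, z) 0 :=
    (hasDerivAt_const _ _).prodMk (by simpa using (hasDerivAt_id (0 : ℝ)).smul_const z)
  have h2 : HasFDerivAt (FF n) (fderiv ℝ (FF n) (p0 n, 0)) (p0 n, (0 : ℝ) • z) := by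
    rw [zero_smul]; exact (cd_FF.differentiableAt (by simp)).hasFDerivAt
  have h3 := h2.comp_hasDerivAt (0 : ℝ) h1
  have h4 := (der_logdet (Matrix.of z)).sub
    ((hasDerivAt_id (0 : ℝ)).mul_const (Matrix.of z).trace.re)
  rw [one_mul, sub_self] at h4
  refine h3.unique (h4.congr_of_eventuallyEq (Eventually.of_forall fun s => ?_))
  have h5 : (Matrix.of (s • z) : Mat n) = (s : ℂ) • Matrix.of z := by
    ext a b; simp
  simp only [Function.comp_apply, FF, of_p1, of_p2, trg, Pi.sub_apply, id]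
  rw [h5]
  generalize (Matrix.of z : Mat n) = Z
  simp

theorem ub_rm {ι : Type*} {k m : ℕ} {r c : ℝ} {G : ι → En k → Mat n} (h : UE r m G) (hc : 0 < c)
    (h0 : ∀ i, ∀ y ∈ ball (0 : En k) r, c ≤ (G i y).det.re) (a b : Fin (2 * n)) :
    UB r m fun i y => rm (G i y) a b := by
  simp only [rm, Matrix.of_apply, Matrix.mul_apply]
  exact ub_re (UB.sum _ fun d _ => ub_cmul (UB.sum _ fun e _ =>
    ub_cmul (ub_const' _) (h.inv hc h0 e d)) (ub_const' _))

theorem near_rm {δ : ℝ} (hδ : 0 < δ) :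
    ∀ᶠ G in 𝓝 (1 : Mat n), ∀ k l, |rm G k l - rm (1 : Mat n) k l| ≤ δ := by
  refine eventually_all.2 fun k => eventually_all.2 fun l => ?_
  have h : ContDiffWithinAt ℝ ∞ (fun q : ZZ n => rm (Matrix.of q) k l) univ (p0 n).1 :=
    Db.cd_rm (G := fun q : ZZ n => Matrix.of q)
      (fun a b => by
        simp only [Matrix.of_apply]
        exact ContDiff.contDiffWithinAt (by fun_prop)) (by simp [of_p1]) k l
  have h2 : ContinuousAt (fun q : Mat n => rm q k l) 1 :=
    (contDiffWithinAt_univ.1 h).continuousAt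
  filter_upwards [Metric.tendsto_nhds.1 h2 δ hδ] with G hG
  exact (Real.dist_eq _ _ ▸ hG).le

end Nem16

open Nem16 in
theorem nemStmt (n : ℕ) : NemStmt n := by
  intro δ hδ
  obtain ⟨η0, hη0, h0⟩ := exists_η0 n
  obtain ⟨η1, hη1, h1⟩ := exists_near (near_rm (n := n) hδ)
  obtain ⟨K0, hK0, hF⟩ := abs_nem (cd_FF (n := n)) d_FF
  have hR := one_le_RR n
  have hR0 : 0 < RR n := by linarith
  set ε0 := min η0 η1 / RR n with hε0
  have hε0p : 0 < ε0 := by positivity
  have hε0R : ε0 * RR n = min η0 η1 := div_mul_cancel₀ _ hR0.ne'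
  have hG : UM 2 7 fun i : {G : Cn n → Mat n // FlG ε0 G} => i.1 := um_flG fun i => i.2
  have hdet : ∀ i : {G : Cn n → Mat n // FlG ε0 G}, ∀ y ∈ ball (0 : En (2 * n)) 2,
      1 / 2 ≤ (rr i.1 y).det.re := fun i y hy =>
    (h0 _ fun a b => (i.2.near (symm_mem hy) a b).trans (hε0R.trans_le (min_le_left _ _))).1
  have hG0 : UM 2 0 fun i : {G : Cn n → Mat n // FlG ε0 G} => i.1 := UE.of_le (by norm_num) hG
  have hRic : UM 2 0 fun i : {G : Cn n → Mat n // FlG ε0 G} => ric i.1 :=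
    UM.ric (UE.of_le (by norm_num) hG) (by norm_num) hdet
  obtain ⟨K1, hK1, b1⟩ := (UB.of_pi (f := fun (i : {G : Cn n → Mat n // FlG ε0 G}) y a b =>
    rr i.1 y a b) fun a => UB.of_pi (hG0 a)).hol
  obtain ⟨K2, hK2, b2⟩ := (UB.of_pi (f := fun (i : {G : Cn n → Mat n // FlG ε0 G}) y a b =>
    rr (ric i.1) y a b) fun a => UB.of_pi (hRic a)).hol
  obtain ⟨K3, hK3, b3⟩ := UE.bdd hRic
  obtain ⟨K4, hK4, b4⟩ := (UB.of_pi (f := fun (i : {G : Cn n → Mat n // FlG ε0 G}) y k l =>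
    rm (rr i.1 y) k l) fun k => UB.of_pi (ub_rm hG0 (by norm_num) hdet k)).hol
  refine ⟨K0 * (1 + K1 + K2) + K3 + K4 + 1, by nlinarith [mul_nonneg hK0 hK1, mul_nonneg hK0 hK2],
    fun ε hε => ?_⟩
  set K := K0 * (1 + K1 + K2) + K3 + K4 + 1 with hK
  have hA : K0 * (1 + K1 + K2) ≤ K := by linarith
  have hA0 : K0 ≤ K0 * (1 + K1 + K2) := le_mul_of_one_le_right hK0 (by linarith)
  obtain ⟨η2, hη2, hF⟩ := hF ε hε
  set η := min (min ε0 1) (η2 / (RR n + K3)) with hη
  have hηa : η ≤ ε0 := (min_le_left _ _).trans (min_le_left _ _)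
  have hηb : η ≤ 1 := (min_le_left _ _).trans (min_le_right _ _)
  have hηp : 0 < η := by positivity
  have hηc : η * (RR n + K3) ≤ η2 := (le_div_iff₀ (by positivity)).1 (min_le_right _ _)
  have hηd : η ≤ η2 := by nlinarith
  refine ⟨η, hηp, fun G hG => ?_⟩
  have s2 : ∀ {y : En (2 * n)}, y ∈ ball (0 : En (2 * n)) 1 → y ∈ ball (0 : En (2 * n)) 2 :=
    fun hy => ball_subset_ball (by norm_num) hy
  let i : {G : Cn n → Mat n // FlG ε0 G} := ⟨G, hG.mono hηa⟩
  refine ⟨fun y hy => h1 _ fun a b => (i.2.near (symm_mem (s2 hy)) a b).trans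
      (hε0R.trans_le (min_le_right _ _)), fun y hy y' hy' k l => ?_,
    fun y hy a b => (b3 i y (s2 hy) a b).trans (by linarith), fun t ht => ?_⟩
  · refine le_trans ?_ ((b4 i y (s2 hy) y' (s2 hy')).trans
      (mul_le_mul_of_nonneg_right (by linarith) (Real.sqrt_nonneg _)))
    exact (norm_le_pi_norm _ l).trans (norm_le_pi_norm
      ((fun k l => rm (rr i.1 y) k l) - fun k l => rm (rr i.1 y') k l) k)
  let p : En (2 * n) → ZZ n × ZZ n := fun y =>
    (fun a b => rr G y a b, t • fun a b => rr (ric G) y a b)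
  have hP : ∀ y z, Ph G t y z = FF n (p y, z) := fun y z => by
    have h : (Matrix.of (p y).2 : Mat n) = (t : ℂ) • rr (ric G) y := by ext a b; simp [p]
    rw [FF, h]; rfl
  have hp : ∀ y ∈ ball (0 : En (2 * n)) 1, ‖p y - p0 n‖ ≤ η2 := fun y hy => by
    refine max_le ((pi_norm_le_iff_of_nonneg hη2.le).2 fun a =>
      (pi_norm_le_iff_of_nonneg hη2.le).2 fun b => (hG.near (symm_mem (s2 hy)) a b).trans
        (by nlinarith)) ((pi_norm_le_iff_of_nonneg hη2.le).2 fun a =>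
      (pi_norm_le_iff_of_nonneg hη2.le).2 fun b => ?_)
    have h : (p y - p0 n).2 a b = t • rr (ric G) y a b := by simp [p, p0]
    rw [h, norm_smul, Real.norm_of_nonneg ht.1]
    exact (mul_le_mul ht.2 (b3 i y (s2 hy) a b) (norm_nonneg _) hηp.le).trans (by nlinarith)
  have hpp : ∀ y ∈ ball (0 : En (2 * n)) 1, ∀ y' ∈ ball (0 : En (2 * n)) 1,
      ‖p y - p y'‖ ≤ (K1 + K2) * √(dist y y') := fun y hy y' hy' => by
    have hs := Real.sqrt_nonneg (dist y y')
    refine max_le ((b1 i y (s2 hy) y' (s2 hy')).trans (by nlinarith)) ?_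
    have h : (p y - p y').2 = t • ((fun a b => rr (ric G) y a b) - fun a b => rr (ric G) y' a b) :=
      (smul_sub _ _ _).symm
    rw [h, norm_smul, Real.norm_of_nonneg ht.1]
    exact (mul_le_mul (ht.2.trans hηb) (b2 i y (s2 hy) y' (s2 hy')) (norm_nonneg _)
      zero_le_one).trans (by nlinarith)
  intro y hy
  simp only [hP]
  refine ⟨(hF _ _ (hp y hy) (hp y hy)).1.trans (by linarith), fun y' hy' => ?_,
    fun z z' hz hz' => ?_, fun y' hy' z z' e e' hz hz' he he' => ?_⟩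
  · refine ((hF _ _ (hp y hy) (hp y' hy')).2.1 0 0 (by simpa using hη2.le)
      (by simpa using hη2.le)).trans ?_
    rw [sub_self, norm_zero, add_zero]
    have hs := Real.sqrt_nonneg (dist y y')
    refine (mul_le_mul_of_nonneg_left (hpp y hy y' hy') hK0).trans ?_
    rw [← mul_assoc]
    exact mul_le_mul_of_nonneg_right (by nlinarith) hs
  · refine ((hF _ _ (hp y hy) (hp y hy)).2.1 z z' (hz.trans hηd) (hz'.trans hηd)).trans ?_
    rw [sub_self, norm_zero, zero_add]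
    exact mul_le_mul_of_nonneg_right (by linarith) (norm_nonneg _)
  · refine ((hF _ _ (hp y hy) (hp y' hy')).2.2 z z' e e' (hz.trans hηd) (hz'.trans hηd)
      (he.trans hηd) (he'.trans hηd)).trans (add_le_add le_rfl
        (mul_le_mul_of_nonneg_right ?_ (norm_nonneg _)))
    have hs := Real.sqrt_nonneg (dist y y')
    have n1 := norm_nonneg (z - e)
    have n2 := norm_nonneg (z' - e')
    calc K0 * (‖p y - p y'‖ + ‖z - e‖ + ‖z' - e'‖)
        ≤ K0 * ((1 + K1 + K2) * (√(dist y y') + ‖z - e‖ + ‖z' - e'‖)) :=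
          mul_le_mul_of_nonneg_left (by nlinarith [hpp y hy y' hy']) hK0
      _ ≤ K * (√(dist y y') + ‖z - e‖ + ‖z' - e'‖) := by
          rw [← mul_assoc]; exact mul_le_mul_of_nonneg_right hA (by positivity)

end Crest.Agent.T223.St
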