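import Crest.Agent.T223.U0A_15
import Crest.Agent.T223.EvLA_41

/-!
# Row 223 (S0345), module U0 (helper15): smoothing of Lipschitz functions

`smooth_lip` : `LipOn (gc K) univ c f`, `η > 0` give a smooth `g` with `|g - f| ≤ η` and
`|dg|_K ≤ c + η`.
-/

set_option autoImplicit false
set_option linter.unusedSectionVars false

open Set Filter Topology Metric MeasureTheory
open scoped ContDiff Matrix ComplexConjugate ComplexOrder Convolution Manifold

namespace Crest.Agent.T223.U0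

open Crest.Agent.R275.Geo Crest.Agent.R275.Core144 Crest.Agent.R275.EDR890
open Crest.Agent.R273 Crest.Agent.R273.Hess_333
open Crest.Agent.R273.HessB_333 Crest.Agent.R273.Kah_333
open Crest.Agent.R273.RMan_798 Crest.Agent.R273.RMan4_798
open Crest.Agent.T223.Br Crest.Agent.T223.Tr

noncomputable section

/-! ### flat lemmas -/

section Flat

variable {E : Type*} [NormedAddCommGroup E] [NormedSpace ℝ E]

/-- mollification on a ball keeps a translation invariant modulus of continuity -/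
theorem moll [FiniteDimensional ℝ E] {φ N : E → ℝ} {z0 : E} {r L δ : ℝ} (hr : 0 < r) (hδ : 0 < δ)
    (hL : 0 ≤ L)
    (hφ : ∀ w ∈ closedBall z0 r, ∀ w' ∈ closedBall z0 r, |φ w - φ w'| ≤ N (w - w'))
    (hN : ∀ v, N v ≤ L * ‖v‖) :
    ∃ Ψ : E → ℝ, ContDiff ℝ ∞ Ψ ∧
      (∀ w ∈ ball z0 (r / 2), ∀ w' ∈ ball z0 (r / 2), |Ψ w - Ψ w'| ≤ N (w - w')) ∧
      ∀ w ∈ ball z0 (r / 2), |Ψ w - φ w| ≤ δ := by
  borelize E
  set μ : Measure E := Measure.addHaar with hμ
  set s : ℝ := min (r / 2) (δ / (L + 1)) with hs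
  have hs0 : 0 < s := lt_min (half_pos hr) (by positivity)
  set B : ContDiffBump (0 : E) := ⟨s / 2, s, half_pos hs0, half_lt_self hs0⟩ with hB
  set ψ : E → ℝ := (closedBall z0 r).indicator φ with hψ
  have hc : ContinuousOn φ (closedBall z0 r) := by
    refine (LipschitzOnWith.of_dist_le_mul (K := ⟨L, hL⟩) fun w hw w' hw' => ?_).continuousOn
    rw [Real.dist_eq, dist_eq_norm]
    exact (hφ w hw w' hw').trans (hN _)
  have hi : Integrable ψ μ := (integrable_indicator_iff measurableSet_closedBall).2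
    (hc.integrableOn_compact (isCompact_closedBall z0 r))
  have hin : ∀ w ∈ ball z0 (r / 2), ∀ y, dist y w < s → y ∈ closedBall z0 r := by
    intro w hw y hy
    have h1 := dist_triangle y w z0
    have h2 : s ≤ r / 2 := min_le_left _ _
    rw [mem_ball] at hw
    rw [mem_closedBall]
    linarith
  have hint : ∀ x, Integrable (fun t => B.normed μ t * ψ (x - t)) μ := fun x =>
    B.hasCompactSupport_normed.convolutionExists_left (ContinuousLinearMap.lsmul ℝ ℝ)
      B.continuous_normed hi.locallyIntegrable x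
  refine ⟨B.normed μ ⋆[ContinuousLinearMap.lsmul ℝ ℝ, μ] ψ,
    B.hasCompactSupport_normed.contDiff_convolution_left _ B.contDiff_normed
      hi.locallyIntegrable, fun x hx y hy => ?_, fun w hw => ?_⟩
  · simp only [convolution_def, ContinuousLinearMap.lsmul_apply, smul_eq_mul]
    rw [← integral_sub (hint x) (hint y), ← one_mul (N (x - y)), ← B.integral_normed
      (μ := μ), ← integral_mul_const]
    refine abs_integral_le_integral_abs.trans (integral_mono ((hint x).sub (hint y)).abs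
      (B.integrable_normed.mul_const _) fun t => ?_)
    simp only
    rw [← mul_sub, abs_mul, abs_of_nonneg (B.nonneg_normed t)]
    by_cases ht : B.normed μ t = 0
    · rw [ht, zero_mul, zero_mul]
    · have h1 : t ∈ ball (0 : E) s := by
        have := B.support_normed_eq (μ := μ)
        exact (Set.ext_iff.1 this t).1 ht
      rw [mem_ball_zero_iff] at h1
      have h2 : x - t ∈ closedBall z0 r := hin x hx _ (by simpa [dist_eq_norm] using h1)
      have h3 : y - t ∈ closedBall z0 r := hin y hy _ (by simpa [dist_eq_norm] using h1)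
      have h4 := hφ _ h2 _ h3
      rw [sub_sub_sub_cancel_right] at h4
      rw [hψ, indicator_of_mem h2, indicator_of_mem h3]
      exact mul_le_mul_of_nonneg_left h4 (B.nonneg_normed t)
  · have h0 : w ∈ closedBall z0 r := hin w hw w (by simpa using hs0)
    have h1 := B.dist_normed_convolution_le (μ := μ) (g := ψ) (x₀ := w) (ε := δ)
      hi.aestronglyMeasurable fun x hx => by
        have hx' : dist x w < s := hx
        have h2 := hin w hw x hx'
        rw [hψ, indicator_of_mem h2, indicator_of_mem h0, Real.dist_eq]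
        refine ((hφ _ h2 _ h0).trans (hN _)).trans ?_
        rw [← dist_eq_norm]
        have h3 : dist x w * (L + 1) < δ :=
          (lt_div_iff₀ (by positivity)).1 (hx'.trans_le (min_le_right _ _))
        nlinarith [dist_nonneg (x := x) (y := w)]
    rwa [Real.dist_eq, hψ, indicator_of_mem h0] at h1

/-- an infinitesimal Lipschitz bound on a convex set integrates -/
theorem lip_of_inf {h N : E → ℝ} {S : Set E} (hS : Convex ℝ S)
    (hN : ∀ (t : ℝ) v, N (t • v) = |t| * N v)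
    (H : ∀ y ∈ S, ∀ᶠ w in 𝓝 y, |h w - h y| ≤ N (w - y)) {w w' : E} (hw : w ∈ S) (hw' : w' ∈ S) :
    |h w - h w'| ≤ N (w - w') := by
  have key : ∀ w ∈ S, ∀ w' ∈ S, h w - h w' ≤ N (w - w') := by
    intro w hw w' hw'
    set γ : ℝ → E := fun t => w' + t • (w - w') with hγ
    have hγc : Continuous γ := by fun_prop
    have hγS : ∀ t ∈ Icc (0 : ℝ) 1, γ t ∈ S := fun t ht => hS.add_smul_sub_mem hw' hw ht
    have hev : ∀ t ∈ Icc (0 : ℝ) 1, ∀ᶠ s in 𝓝 t, |h (γ s) - h (γ t)| ≤ |s - t| * N (w - w') := by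
      intro t ht
      filter_upwards [hγc.continuousAt.eventually (H _ (hγS t ht))] with s hs
      have e : γ s - γ t = (s - t) • (w - w') := by simp only [hγ]; module
      rwa [e, hN] at hs
    have h1 := image_le_of_liminf_slope_right_le_deriv_boundary (f := fun t => h (γ t))
      (a := 0) (b := 1) ?_ (B := fun t => h w' + t * N (w - w')) (B' := fun _ => N (w - w'))
      (by simp [hγ]) (by fun_prop) ?_ ?_ (x := 1) ⟨zero_le_one, le_rfl⟩
    · simp only [hγ, one_smul, add_sub_cancel, one_mul] at h1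
      linarith
    · intro t ht
      refine ContinuousAt.continuousWithinAt ?_
      rw [ContinuousAt, tendsto_iff_dist_tendsto_zero]
      have h2 : Tendsto (fun s => |s - t| * N (w - w')) (𝓝 t) (𝓝 0) := by
        have : Continuous fun s : ℝ => |s - t| * N (w - w') := by fun_prop
        simpa using this.tendsto t
      exact squeeze_zero' (Eventually.of_forall fun _ => dist_nonneg) (hev t ht) h2
    · intro t _
      simpa using (((hasDerivAt_id t).mul_const (N (w - w'))).const_add (h w')).hasDerivWithinAt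
    · intro t ht r hr
      refine Eventually.frequently ?_
      filter_upwards [nhdsWithin_le_nhds (hev t ⟨ht.1, ht.2.le⟩), self_mem_nhdsWithin] with s hs hst
      have hst' : 0 < s - t := sub_pos.2 hst
      rw [slope_def_field, div_lt_iff₀ hst']
      rw [abs_of_pos hst'] at hs
      have := (abs_le.1 hs).2
      nlinarith
  refine abs_le.2 ⟨?_, key w hw w' hw'⟩
  have h1 := key w' hw' w hw
  have h2 : N (w' - w) = N (w - w') := by
    have := hN (-1) (w - w')
    simpa using this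
  linarith

/-- the derivative of a function with modulus `N` -/
theorem fderiv_le_of_lip {Ψ N : E → ℝ} {z : E} (hd : DifferentiableAt ℝ Ψ z)
    (hN : ∀ (t : ℝ) v, N (t • v) = |t| * N v) (H : ∀ᶠ w in 𝓝 z, |Ψ w - Ψ z| ≤ N (w - z))
    (v : E) : |fderiv ℝ Ψ z v| ≤ N v := by
  have h1 : HasDerivAt (fun t : ℝ => Ψ (z + t • v)) (fderiv ℝ Ψ z v) 0 := by
    have h2 : HasDerivAt (fun t : ℝ => z + t • v) v 0 := by
      simpa using ((hasDerivAt_id (0 : ℝ)).smul_const v).const_add z
    have h3 : HasFDerivAt Ψ (fderiv ℝ Ψ z) (z + (0 : ℝ) • v) := by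
      simpa using hd.hasFDerivAt
    exact h3.comp_hasDerivAt (0 : ℝ) h2
  have hc : Continuous fun t : ℝ => z + t • v := by fun_prop
  have h4 : ∀ᶠ t : ℝ in 𝓝 0, |Ψ (z + t • v) - Ψ z| ≤ |t| * N v := by
    have h5 : Tendsto (fun t : ℝ => z + t • v) (𝓝 0) (𝓝 z) := by simpa using hc.tendsto 0
    filter_upwards [h5.eventually H] with t ht
    rwa [add_sub_cancel_left, hN] at ht
  have h6 := (hasDerivAt_iff_tendsto_slope.1 h1).abs
  refine le_of_tendsto h6 ?_
  filter_upwards [nhdsWithin_le_nhds h4, self_mem_nhdsWithin] with t ht ht0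
  have h7 : 0 < |t| := abs_pos.2 ht0
  rw [slope_def_field, abs_div, sub_zero, div_le_iff₀ h7]
  simpa [mul_comm] using ht

end Flat

variable {n : ℕ} {M : Type} [TopologicalSpace M] {A : Atl n M}

/-! ### Hermitian forms -/

theorem nq_real_smul (g : Mat n) (t : ℝ) (v : Cn n) : nq g (t • v) = t ^ 2 * nq g v := by
  unfold nq
  rw [← Complex.re_ofReal_mul]
  congr 1
  simp only [Finset.mul_sum, PiLp.smul_apply, Complex.real_smul, map_mul, Complex.conj_ofReal]
  refine Finset.sum_congr rfl fun a _ => Finset.sum_congr rfl fun b _ => ?_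
  push_cast
  ring

theorem sqrt_nq_smul (g : Mat n) (t : ℝ) (v : Cn n) :
    √(nq g (t • v)) = |t| * √(nq g v) := by
  rw [nq_real_smul, Real.sqrt_mul (sq_nonneg _), Real.sqrt_sq_eq_abs]

theorem abs_nq_le (g : Mat n) (v : Cn n) : |nq g v| ≤ (∑ a, ∑ b, ‖g a b‖) * ‖v‖ ^ 2 := by
  unfold nq
  refine (Complex.abs_re_le_norm _).trans ((norm_sum_le _ _).trans ?_)
  rw [Finset.sum_mul]
  refine Finset.sum_le_sum fun a _ => (norm_sum_le _ _).trans ?_
  rw [Finset.sum_mul]
  refine Finset.sum_le_sum fun b _ => ?_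
  rw [norm_mul, norm_mul, RCLike.norm_conj, mul_assoc, sq]
  gcongr <;> exact PiLp.norm_apply_le v _

theorem nq_lower {g : Mat n} (hg : g.PosDef) : ∃ T > 0, ∀ v : Cn n, ‖v‖ ^ 2 ≤ T * nq g v := by
  refine ⟨|trg g 1| + 1, by positivity, fun v => ?_⟩
  have h1 := Ev.nq_le_trg hg Matrix.isHermitian_one (b := 0)
    (fun v => by rw [nq_one, zero_mul, add_zero]; positivity) v
  rw [nq_one] at h1
  have h2 := nq_nonneg hg.posSemidef v
  have h3 := le_abs_self (trg g 1)
  nlinarith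

theorem ev_cmp {X : Type*} [TopologicalSpace X] {g : X → Mat n} {z : X}
    (hc : ∀ a b, ContinuousAt (fun w => g w a b) z) (hg : (g z).PosDef) {ε : ℝ} (hε : 0 < ε) :
    ∀ᶠ w in 𝓝 z, ∀ v, |nq (g w) v - nq (g z) v| ≤ ε * nq (g z) v := by
  obtain ⟨T, hT, h⟩ := nq_lower hg
  have h1 : ContinuousAt (fun w => ∑ a, ∑ b, ‖(g w - g z) a b‖) z :=
    tendsto_finsetSum _ fun a _ => tendsto_finsetSum _ fun b _ =>
      ((hc a b).sub continuousAt_const).norm
  have h2 : (∑ a, ∑ b, ‖(g z - g z) a b‖) < ε / T := by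
    simpa using div_pos hε hT
  filter_upwards [h1.eventually (gt_mem_nhds h2)] with w hw v
  rw [← nq_sub]
  refine (abs_nq_le _ _).trans ?_
  calc (∑ a, ∑ b, ‖(g w - g z) a b‖) * ‖v‖ ^ 2 ≤ ε / T * (T * nq (g z) v) := by
        gcongr
        exact h v
    _ = ε * nq (g z) v := by field_simp

theorem gc_continuousAt (K : Kah A) {i : A.ι} {z : Cn n} (hz : z ∈ (A.e i).target) (a b : Fin n) :
    ContinuousAt (fun w => gc K i w a b) z :=
  ((K.sm i a b).contDiffAt ((A.e i).open_target.mem_nhds hz)).continuousAt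

theorem gc_posDef (K : Kah A) {i : A.ι} {z : Cn n} (hz : z ∈ (A.e i).target) :
    (gc K i z).PosDef := K.pos i _ ((A.e i).map_target hz)

theorem gc_apply (K : Kah A) {i : A.ι} {x : M} (hx : x ∈ (A.e i).source) :
    gc K i (A.e i x) = K.g i x := by
  unfold gc
  rw [(A.e i).left_inv hx]

/-! ### gradient bounds -/

/-- `|dh|_K ≤ b` at `x`, in every chart -/
def Gr (K : Kah A) (h : M → ℝ) (x : M) (b : ℝ) : Prop :=
  ∀ i, x ∈ (A.e i).source → ∀ v, |fderiv ℝ (inC A i h) (A.e i x) v| ≤ b * √(nq (K.g i x) v)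

theorem Gr.mono {K : Kah A} {h : M → ℝ} {x : M} {b b' : ℝ} (H : Gr K h x b) (hb : b ≤ b') :
    Gr K h x b' := fun i hi v =>
  (H i hi v).trans (mul_le_mul_of_nonneg_right hb (Real.sqrt_nonneg _))

theorem inC_tr {W : Type*} (h : M → W) {i j : A.ι} {x : M} (hi : x ∈ (A.e i).source)
    (hj : x ∈ (A.e j).source) :
    inC A j h =ᶠ[𝓝 (A.e j x)] fun w => inC A i h (A.e i ((A.e j).symm w)) := by
  filter_upwards [(isOpen_ov (A := A) j i).mem_nhds (mem_ov ⟨hj, hi⟩)] with w hw
  simp only [inC, (A.e i).left_inv hw.2]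

theorem Gr.of_chart {K : Kah A} {h : M → ℝ} {x : M} {b : ℝ} {i : A.ι} (hi : x ∈ (A.e i).source)
    (hd : DifferentiableAt ℝ (inC A i h) (A.e i x))
    (hb : ∀ v, |fderiv ℝ (inC A i h) (A.e i x) v| ≤ b * √(nq (K.g i x) v)) : Gr K h x b := by
  intro j hj v
  set T : Cn n → Cn n := fun w => A.e i ((A.e j).symm w) with hT
  have hTx : T (A.e j x) = A.e i x := by simp only [hT, (A.e j).left_inv hj]
  have hTd : DifferentiableAt ℂ T (A.e j x) :=
    (A.holo j i).differentiableAt ((isOpen_ov (A := A) j i).mem_nhds (mem_ov ⟨hj, hi⟩))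
  have h1 : HasFDerivAt (inC A i h) (fderiv ℝ (inC A i h) (A.e i x)) (T (A.e j x)) := by
    rw [hTx]; exact hd.hasFDerivAt
  have h2 := (h1.comp (A.e j x) (hTd.hasFDerivAt.restrictScalars ℝ)).congr_of_eventuallyEq
    (inC_tr h hi hj)
  have h3 : nq (K.g j x) v = nq (K.g i x) (fderiv ℂ T (A.e j x) v) := by
    rw [K.tr j i x ⟨hj, hi⟩, ← nq_pull]
    rfl
  rw [h2.fderiv, h3]
  exact hb _

/-- `dφ(v) = 2 re ∑ φ_a v_a` -/
theorem fderiv_eq_dz {φ : Cn n → ℝ} {z : Cn n} (hd : DifferentiableAt ℝ φ z) (v : Cn n) :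
    fderiv ℝ φ z v = 2 * (∑ a, dz φ z a * v a).re := by
  have h1 : fderiv ℝ (cu φ) z = Complex.ofRealCLM.comp (fderiv ℝ φ z) :=
    (Complex.ofRealCLM.hasFDerivAt.comp z hd.hasFDerivAt).fderiv
  have h2 := wdL_vec false (fderiv ℝ (cu φ) z) v
  have h3 : ∑ a, dz φ z a * v a = ∑ a, cj false (v a) • wdL (false, a) (fderiv ℝ (cu φ) z) :=
    Finset.sum_congr rfl fun a _ => by
      simp only [cj_false, smul_eq_mul, dz, wd]
      ring
  rw [h3, ← h2, h1]
  simp

theorem gsq_le_of_fderiv {g : Cn n → Mat n} {φ : Cn n → ℝ} {z : Cn n} {b : ℝ}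
    (hg : (g z).PosDef) (hd : DifferentiableAt ℝ φ z)
    (hb : ∀ v, |fderiv ℝ φ z v| ≤ b * √(nq (g z) v)) : gsq g φ z ≤ b ^ 2 / 4 := by
  set G := g z with hG
  set ξ := dz φ z with hξ
  set v : Cn n := WithLp.toLp 2 fun a => ∑ c, G⁻¹ c a * conj (ξ c) with hv
  have hu : IsUnit G.det := (Matrix.isUnit_iff_isUnit_det G).1 hg.isUnit
  have h1 : (∑ a, ξ a * v a).re = nqi G ξ := by
    unfold nqi
    congr 1
    refine Finset.sum_congr rfl fun a _ => ?_
    simp only [hv, Finset.mul_sum]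
    exact Finset.sum_congr rfl fun c _ => by ring
  have h2 : ∀ c, ∑ a, G a c * v a = conj (ξ c) := by
    intro c
    have h3 : ∑ a, G a c * v a = ∑ d, (G⁻¹ * G) d c * conj (ξ d) := by
      simp only [hv, Finset.mul_sum, Matrix.mul_apply, Finset.sum_mul]
      rw [Finset.sum_comm]
      exact Finset.sum_congr rfl fun d _ => Finset.sum_congr rfl fun a _ => by ring
    rw [h3, Matrix.nonsing_inv_mul _ hu]
    simp [Matrix.one_apply]
  have h4 : nq G v = nqi G ξ := by
    rw [← h1, ← Complex.conj_re (∑ a, ξ a * v a)]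
    unfold nq
    congr 1
    rw [Finset.sum_comm, map_sum]
    refine Finset.sum_congr rfl fun c _ => ?_
    rw [← Finset.sum_mul, h2, map_mul]
  have h5 := hb v
  rw [fderiv_eq_dz hd, h1, h4] at h5
  change nqi G ξ ≤ _
  set q := nqi G ξ
  rcases le_or_gt q 0 with hq | hq
  · exact hq.trans (by positivity)
  · have h6 := Real.sq_sqrt hq.le
    have h7 := Real.sqrt_pos.2 hq
    have h8 := (abs_le.1 h5).2
    have h9 : 2 * √q ≤ b := by
      refine le_of_mul_le_mul_right ?_ h7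
      nlinarith
    nlinarith

theorem Gr.gsq_le {K : Kah A} {h : M → ℝ} (hs : A.Sm h) {b : ℝ} {i : A.ι} {z : Cn n}
    (hz : z ∈ (A.e i).target) (H : Gr K h ((A.e i).symm z) b) :
    gsq (gc K i) (inC A i h) z ≤ b ^ 2 / 4 := by
  refine gsq_le_of_fderiv (gc_posDef K hz)
    ((sm_contDiffAt hs i hz).differentiableAt (by simp)) fun v => ?_
  have := H i ((A.e i).map_target hz) v
  rwa [(A.e i).right_inv hz] at this

theorem gr_local (K : Kah A) {h : M → ℝ} (hs : A.Sm h) (x : M) :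
    ∃ B, ∀ᶠ y in 𝓝 x, Gr K h y B := by
  obtain ⟨i, hi⟩ := A.cover x
  have hz := (A.e i).map_source hi
  obtain ⟨T, hT, hT'⟩ := nq_lower (gc_posDef K hz)
  have h1 := ev_cmp (gc_continuousAt K hz) (gc_posDef K hz) (ε := 1 / 2) (by norm_num)
  have h2 : ContinuousAt (fun w => ‖fderiv ℝ (inC A i h) w‖) (A.e i x) :=
    ((sm_contDiffAt hs i hz).fderiv_right (m := 0) (by simp)).continuousAt.norm
  have h3 := h2.eventually (gt_mem_nhds (lt_add_one ‖fderiv ℝ (inC A i h) (A.e i x)‖))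
  set D := ‖fderiv ℝ (inC A i h) (A.e i x)‖ + 1 with hD
  have hD0 : 0 ≤ D := by positivity
  refine ⟨D * √(2 * T), ?_⟩
  filter_upwards [((A.e i).continuousAt hi).eventually (h1.and h3),
    (A.e i).open_source.mem_nhds hi] with y hy hyi
  refine Gr.of_chart hyi ((sm_contDiffAt hs i ((A.e i).map_source hyi)).differentiableAt
    (by simp)) fun v => ?_
  have h4 := (abs_le.1 (hy.1 v)).1
  rw [gc_apply K hyi] at h4
  have h5 : ‖v‖ ≤ √(2 * T) * √(nq (K.g i y) v) := by
    rw [← Real.sqrt_mul (by positivity)]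
    refine Real.le_sqrt_of_sq_le ((hT' v).trans ?_)
    nlinarith
  calc |fderiv ℝ (inC A i h) (A.e i y) v| ≤ ‖fderiv ℝ (inC A i h) (A.e i y)‖ * ‖v‖ :=
        (fderiv ℝ (inC A i h) (A.e i y)).le_opNorm v
    _ ≤ D * (√(2 * T) * √(nq (K.g i y) v)) := by gcongr; exact hy.2.le
    _ = _ := by ring

theorem gr_compact (K : Kah A) {h : M → ℝ} (hs : A.Sm h) {C : Set M} (hC : IsCompact C) :
    ∃ B, 0 ≤ B ∧ ∀ y ∈ C, Gr K h y B := by
  refine hC.induction_on (p := fun S => ∃ B, 0 ≤ B ∧ ∀ y ∈ S, Gr K h y B)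
    ⟨0, le_rfl, fun y hy => hy.elim⟩ (fun S T hST ⟨B, h0, hB⟩ => ⟨B, h0, fun y hy => hB y (hST hy)⟩)
    (fun S T ⟨B, h0, hB⟩ ⟨B', _, hB'⟩ => ⟨max B B', h0.trans (le_max_left _ _), fun y hy =>
      hy.elim (fun hy => (hB y hy).mono (le_max_left _ _))
        fun hy => (hB' y hy).mono (le_max_right _ _)⟩) fun x _ => ?_
  obtain ⟨B, hB⟩ := gr_local K hs x
  exact ⟨_, mem_nhdsWithin_of_mem_nhds hB, max B 0, le_max_right _ _,
    fun y hy => Gr.mono hy (le_max_left _ _)⟩

/-! ### partitions of unity -/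

theorem sm_of_contMDiff (K : Kah A) {f : M → ℝ}
    (hf : ContMDiff (𝓡 (2 * n)) 𝓘(ℝ, ℝ) ∞ (fun x : (ofKah K).M => f x)) : A.Sm f := by
  intro i
  have h1 : ContMDiffOn (𝓡 (2 * n)) (𝓡 (2 * n)) ∞ ((ofKah K).ch i).symm ((ofKah K).ch i).target :=
    contMDiffOn_symm_of_mem_maximalAtlas (IsManifold.subset_maximalAtlas ⟨i, rfl⟩)
  have h2 : ContDiffOn ℝ ∞ (fun y => f ((cR A i).symm y)) (cR A i).target :=
    contMDiffOn_iff_contDiffOn.1 (hf.comp_contMDiffOn h1)
  have h3 := h2.comp (eR n).contDiff.contDiffOn (s := (A.e i).target) fun z hz => by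
    rw [cR_target]; simpa using hz
  refine h3.congr fun z _ => ?_
  simp [Function.comp]

theorem exists_pou [T2Space M] [SecondCountableTopology M] (K : Kah A) {U : M → Set M}
    (hU : ∀ p, U p ∈ 𝓝 p) :
    ∃ ρ : M → M → ℝ, (∀ p, A.Sm (ρ p)) ∧ (∀ p x, 0 ≤ ρ p x) ∧
      LocallyFinite (fun p => tsupport (ρ p)) ∧ (∀ p, tsupport (ρ p) ⊆ U p) ∧
      ∀ x, ∑ᶠ p, ρ p x = 1 := by
  have : SecondCountableTopology (ofKah K).M := inferInstanceAs (SecondCountableTopology M)
  obtain ⟨ρ, hρ⟩ := SmoothPartitionOfUnity.exists_isSubordinate (M := (ofKah K).M) (𝓡 (2 * n))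
    isClosed_univ (fun p : M => interior (U p)) (fun _ => isOpen_interior)
    fun p _ => mem_iUnion.2 ⟨p, mem_interior_iff_mem_nhds.2 (hU p)⟩
  exact ⟨fun p x => ρ p x, fun p => sm_of_contMDiff K (ρ p).contMDiff, fun p x => ρ.nonneg p x,
    ρ.locallyFinite.closure, fun p => (hρ p).trans interior_subset,
    fun x => ρ.sum_eq_one (mem_univ _)⟩

/-! ### local approximation and gluing -/

theorem ev_cmp' {X : Type*} [TopologicalSpace X] {g : X → Mat n} {z : X}
    (hc : ∀ a b, ContinuousAt (fun w => g w a b) z) (hg : (g z).PosDef) {l : ℝ} (hl : 1 < l) :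
    ∀ᶠ w in 𝓝 z, ∀ v, nq (g w) v ≤ l * nq (g z) v ∧ nq (g z) v ≤ l * nq (g w) v := by
  have hl0 : 0 < l := by linarith
  have h1 : 0 < 1 - 1 / l := by rw [sub_pos, div_lt_one hl0]; exact hl
  filter_upwards [ev_cmp hc hg h1] with w hw v
  have h2 := abs_le.1 (hw v)
  have h3 := nq_nonneg hg.posSemidef v
  have h4 : 1 / l * l = 1 := by field_simp
  have h5 : 2 - 1 / l ≤ l := by
    have : 0 ≤ (l - 1) ^ 2 / l := by positivity
    have e : (l - 1) ^ 2 / l = l - (2 - 1 / l) := by field_simp; ring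
    linarith
  constructor
  · nlinarith [h2.2]
  · have h6 : 1 / l * nq (g z) v ≤ nq (g w) v := by linarith [h2.1]
    have h7 := mul_le_mul_of_nonneg_left h6 hl0.le
    rwa [← mul_assoc, mul_comm l, h4, one_mul] at h7

theorem loc_app (K : Kah A) {f : M → ℝ} {c η : ℝ} (hc : 0 ≤ c) (hη : 0 < η)
    (hf : LipOn (gc K) univ c f) (p : M) :
    ∃ N ∈ 𝓝 p, ∃ i, N ⊆ (A.e i).source ∧ ∀ δ : ℝ, 0 < δ → ∃ Ψ : Cn n → ℝ, ContDiff ℝ ∞ Ψ ∧
      ∀ q ∈ N, |Ψ (A.e i q) - f q| ≤ δ ∧ Gr K (fun x => Ψ (A.e i x)) q (c + η) := by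
  obtain ⟨i, hi⟩ := A.cover p
  have hz := (A.e i).map_source hi
  set z0 := A.e i p with hz0
  set l : ℝ := (c + η) / (c + η / 2) with hl
  have hc2 : 0 < c + η / 2 := by linarith
  have hl1 : 1 < l := by rw [hl, one_lt_div hc2]; linarith
  have hl0 : 0 ≤ l := by linarith
  obtain ⟨r, hr, hball⟩ := Metric.nhds_basis_closedBall.mem_iff.1
    ((ev_cmp' (gc_continuousAt K hz) (gc_posDef K hz) hl1).and ((A.e i).open_target.mem_nhds hz))
  set N : Cn n → ℝ := fun v => (c + η / 2) * (√l * √(nq (gc K i z0) v)) with hN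
  have hNs : ∀ (t : ℝ) v, N (t • v) = |t| * N v := by
    intro t v
    simp only [hN, sqrt_nq_smul]
    ring
  have hlip : ∀ w ∈ closedBall z0 r, ∀ w' ∈ closedBall z0 r,
      |inC A i f w - inC A i f w'| ≤ N (w - w') := by
    intro w hw w' hw'
    refine lip_of_inf (convex_closedBall z0 r) hNs (fun y hy => ?_) hw hw'
    have hyt : y ∈ (A.e i).target := (hball hy).2
    have h1 := hf i _ ((A.e i).map_target hyt) (mem_univ _) (η / 2) (half_pos hη)
    rw [(A.e i).right_inv hyt] at h1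
    filter_upwards [h1] with u hu
    refine hu.trans (mul_le_mul_of_nonneg_left ?_ hc2.le)
    rw [← Real.sqrt_mul hl0]
    exact Real.sqrt_le_sqrt ((hball hy).1 _).1
  set S : ℝ := ∑ a, ∑ b, ‖gc K i z0 a b‖ with hS
  have hS0 : 0 ≤ S := by positivity
  have hNL : ∀ v, N v ≤ (c + η / 2) * (√l * √S) * ‖v‖ := by
    intro v
    have h1 : √(nq (gc K i z0) v) ≤ √S * ‖v‖ := by
      rw [← Real.sqrt_sq (norm_nonneg v), ← Real.sqrt_mul hS0]
      exact Real.sqrt_le_sqrt ((le_abs_self _).trans (abs_nq_le _ _))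
    calc N v ≤ (c + η / 2) * (√l * (√S * ‖v‖)) := by simp only [hN]; gcongr
      _ = _ := by ring
  refine ⟨(A.e i).source ∩ A.e i ⁻¹' ball z0 (r / 2), inter_mem ((A.e i).open_source.mem_nhds hi)
    (((A.e i).continuousAt hi).preimage_mem_nhds (ball_mem_nhds _ (half_pos hr))), i,
    inter_subset_left, fun δ hδ => ?_⟩
  obtain ⟨Ψ, h1, h2, h3⟩ := moll hr hδ (by positivity) hlip hNL
  refine ⟨Ψ, h1, fun q hq => ⟨?_, ?_⟩⟩
  · have := h3 _ hq.2
    rwa [inC, (A.e i).left_inv hq.1] at this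
  · have he : inC A i (fun x => Ψ (A.e i x)) =ᶠ[𝓝 (A.e i q)] Ψ := by
      filter_upwards [(A.e i).open_target.mem_nhds ((A.e i).map_source hq.1)] with w hw
      simp only [inC, (A.e i).right_inv hw]
    have hd : DifferentiableAt ℝ Ψ (A.e i q) := h1.differentiable (by simp) _
    refine Gr.of_chart hq.1 (hd.congr_of_eventuallyEq he) fun v => ?_
    rw [he.fderiv_eq]
    refine (fderiv_le_of_lip hd hNs ?_ v).trans ?_
    · filter_upwards [isOpen_ball.mem_nhds hq.2] with w hw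
      exact h2 w hw _ hq.2
    · have h4 : A.e i q ∈ closedBall z0 r :=
        ball_subset_closedBall (ball_subset_ball (by linarith) hq.2)
      have h5 : √(nq (gc K i z0) v) ≤ √l * √(nq (K.g i q) v) := by
        rw [← Real.sqrt_mul hl0, ← gc_apply K hq.1]
        exact Real.sqrt_le_sqrt ((hball h4).1 _).2
      calc N v ≤ (c + η / 2) * (√l * (√l * √(nq (K.g i q) v))) := by simp only [hN]; gcongr
        _ = (c + η / 2) * l * √(nq (K.g i q) v) := by
          rw [← mul_assoc √l, Real.mul_self_sqrt hl0]; ring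
        _ = _ := by rw [hl]; field_simp

theorem contDiffAt_comp_chart {Ψ : Cn n → ℝ} (h : ContDiff ℝ ∞ Ψ) {i j : A.ι} {z : Cn n}
    (hz : z ∈ (A.e j).target) (hi : (A.e j).symm z ∈ (A.e i).source) :
    ContDiffAt ℝ ∞ (inC A j fun x => Ψ (A.e i x)) z := by
  have h1 : ContDiffOn ℝ ∞ (fun w => A.e i ((A.e j).symm w)) (A.ov j i) :=
    ((Crest.Agent.R266.SCV.contDiffOn_omega_of_differentiableOn (isOpen_ov j i)
      (A.holo j i)).restrict_scalars ℝ).of_le le_top
  exact h.contDiffAt.comp z (h1.contDiffAt ((isOpen_ov (A := A) j i).mem_nhds ⟨hz, hi⟩))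

/-- **smoothing of Lipschitz functions** -/
theorem smooth_lip [T2Space M] [SecondCountableTopology M] (K : Kah A) {f : M → ℝ} {c η : ℝ}
    (hc : 0 ≤ c) (hη : 0 < η) (hf : LipOn (gc K) univ c f) :
    ∃ g : M → ℝ, A.Sm g ∧ ∀ x, |g x - f x| ≤ η ∧ Gr K g x (c + η) := by
  classical
  have : LocallyCompactSpace M := inferInstanceAs (LocallyCompactSpace (ofKah K).M)
  choose N hN i hNi H using loc_app K hc (half_pos hη) hf
  choose C hC1 hC2 hC3 using fun p => local_compact_nhds (hN p)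
  obtain ⟨ρ, hρs, hρ0, hlf, hsub, hone⟩ := exists_pou K hC1
  choose B hB0 hB using fun p => gr_compact K (hρs p) (hC3 p)
  set m : M → ℕ := fun p => (hlf.finite_nonempty_inter_compact (hC3 p)).toFinset.card with hm
  set δ : M → ℝ := fun p => η / 2 / ((m p + 1) * (B p + 1)) with hδ
  have hδ0 : ∀ p, 0 < δ p := fun p => by have := hB0 p; positivity
  choose Ψ hΨ hΨ' using fun p => H p (δ p) (hδ0 p)
  set G : M → M → ℝ := fun p x => Ψ p (A.e (i p) x) with hG
  set I : M → Finset M := fun x => (hlf.point_finite x).toFinset with hI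
  have hmem : ∀ x p, p ∈ I x ↔ x ∈ tsupport (ρ p) := fun x p => by simp [hI]
  have hev : ∀ x, ∀ᶠ y in 𝓝 x, ∀ p, p ∉ I x → ρ p y = 0 := by
    intro x
    filter_upwards [hlf.iInter_compl_mem_nhds (fun p => isClosed_tsupport _) x] with y hy p hp
    rw [hmem] at hp
    exact image_eq_zero_of_notMem_tsupport (mem_iInter₂.1 hy p hp)
  have key : ∀ x, (fun y => ∑ᶠ p, ρ p y * G p y) =ᶠ[𝓝 x] fun y => ∑ p ∈ I x, ρ p y * G p y :=
    fun x => (hev x).mono fun y hy => finsum_eq_sum_of_support_subset _ fun p hp =>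
      by_contra fun h => hp (by simp only [hy p h, zero_mul])
  have key1 : ∀ x, (fun y => ∑ p ∈ I x, ρ p y) =ᶠ[𝓝 x] fun _ => (1 : ℝ) :=
    fun x => (hev x).mono fun y hy => by
      rw [← hone y]
      exact (finsum_eq_sum_of_support_subset _ fun p hp => by_contra fun h => hp (hy p h)).symm
  have hIN : ∀ x, ∀ p ∈ I x, x ∈ N p := fun x p hp => hC2 p (hsub p ((hmem x p).1 hp))
  have htr : ∀ {f1 f2 : M → ℝ} {j : A.ι} {z : Cn n}, z ∈ (A.e j).target →
      f1 =ᶠ[𝓝 ((A.e j).symm z)] f2 → inC A j f1 =ᶠ[𝓝 z] inC A j f2 :=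
    fun {f1 f2 j z} hz h => ((A.e j).continuousAt_symm hz).eventually h
  have hGs : ∀ j, ∀ z ∈ (A.e j).target, ∀ p ∈ I ((A.e j).symm z),
      ContDiffAt ℝ ∞ (inC A j (G p)) z := fun j z hz p hp =>
    contDiffAt_comp_chart (hΨ p) hz (hNi p (hIN _ p hp))
  refine ⟨fun y => ∑ᶠ p, ρ p y * G p y, fun j z hz => ?_, fun x => ⟨?_, fun j hj v => ?_⟩⟩
  · have h1 : ContDiffAt ℝ ∞ (fun w => ∑ p ∈ I ((A.e j).symm z),
        inC A j (ρ p) w * inC A j (G p) w) z :=
      ContDiffAt.sum fun p hp => (sm_contDiffAt (hρs p) j hz).mul (hGs j z hz p hp)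
    exact (h1.congr_of_eventuallyEq (htr hz (key _))).contDiffWithinAt
  · have a1 : ∑ p ∈ I x, ρ p x = 1 := (key1 x).self_of_nhds
    rw [(key x).self_of_nhds, ← one_mul (f x), ← one_mul η, ← a1, Finset.sum_mul,
      Finset.sum_mul, ← Finset.sum_sub_distrib]
    refine (Finset.abs_sum_le_sum_abs _ _).trans (Finset.sum_le_sum fun p hp => ?_)
    rw [← mul_sub, abs_mul, abs_of_nonneg (hρ0 p x)]
    refine mul_le_mul_of_nonneg_left ((hΨ' p x (hIN x p hp)).1.trans ?_) (hρ0 p x)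
    have h1 : (1 : ℝ) ≤ (m p + 1) * (B p + 1) := by
      have := hB0 p
      have h2 : (0 : ℝ) ≤ m p := Nat.cast_nonneg _
      nlinarith
    exact (div_le_self (half_pos hη).le h1).trans (by linarith)
  · have hz := (A.e j).map_source hj
    have hx : (A.e j).symm (A.e j x) = x := (A.e j).left_inv hj
    have hdρ : ∀ p, HasFDerivAt (inC A j (ρ p)) (fderiv ℝ (inC A j (ρ p)) (A.e j x)) (A.e j x) :=
      fun p => ((sm_contDiffAt (hρs p) j hz).differentiableAt (by simp)).hasFDerivAt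
    have hdG : ∀ p ∈ I x,
        HasFDerivAt (inC A j (G p)) (fderiv ℝ (inC A j (G p)) (A.e j x)) (A.e j x) :=
      fun p hp => ((hGs j _ hz p (by rwa [hx])).differentiableAt (by simp)).hasFDerivAt
    have h1 := (HasFDerivAt.fun_sum (u := I x) fun p hp =>
      (hdρ p).mul (hdG p hp)).congr_of_eventuallyEq
        (htr (f1 := fun y => ∑ᶠ p, ρ p y * G p y) (f2 := fun y => ∑ p ∈ I x, ρ p y * G p y) hz
          (by rw [hx]; exact key x))
    have h2 : ∑ p ∈ I x, fderiv ℝ (inC A j (ρ p)) (A.e j x) v = 0 := by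
      have b1 := (HasFDerivAt.fun_sum (u := I x) fun p _ => hdρ p).fderiv
      have b2 : (fun w => ∑ p ∈ I x, inC A j (ρ p) w) =ᶠ[𝓝 (A.e j x)] fun _ => (1 : ℝ) :=
        htr (f1 := fun y => ∑ p ∈ I x, ρ p y) (f2 := fun _ => (1 : ℝ)) hz
          (by rw [hx]; exact key1 x)
      rw [b2.fderiv_eq, fderiv_fun_const] at b1
      have b3 := congrArg (fun L : Cn n →L[ℝ] ℝ => L v) b1
      simpa using b3.symm
    have a1 : ∑ p ∈ I x, ρ p x = 1 := (key1 x).self_of_nhds
    have h3 : fderiv ℝ (inC A j fun y => ∑ᶠ p, ρ p y * G p y) (A.e j x) v =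
        ∑ p ∈ I x, (ρ p x * fderiv ℝ (inC A j (G p)) (A.e j x) v +
          (G p x - f x) * fderiv ℝ (inC A j (ρ p)) (A.e j x) v) := by
      rw [h1.fderiv]
      simp only [FunLike.coe_sum, Finset.sum_apply, _root_.add_apply,
        _root_.smul_apply, smul_eq_mul, inC, hx, sub_mul, Finset.sum_add_distrib,
        Finset.sum_sub_distrib, ← Finset.mul_sum]
      rw [h2]
      ring
    set s := √(nq (K.g j x) v) with hs
    have hs0 : 0 ≤ s := Real.sqrt_nonneg _
    have h4 : ∀ p ∈ I x, |ρ p x * fderiv ℝ (inC A j (G p)) (A.e j x) v +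
          (G p x - f x) * fderiv ℝ (inC A j (ρ p)) (A.e j x) v| ≤
        ρ p x * ((c + η / 2) * s) + η / 2 / ((I x).card + 1) * s := by
      intro p hp
      have hxs : x ∈ tsupport (ρ p) := (hmem x p).1 hp
      have b1 := (hΨ' p x (hIN x p hp)).2 j hj v
      have b2 := (hΨ' p x (hIN x p hp)).1
      have b3 := hB p x (hsub p hxs) j hj v
      have b4 : ((I x).card : ℝ) ≤ m p := by
        have : (I x).card ≤ m p := Finset.card_le_card fun q hq => by
          simp only [Finite.mem_toFinset, mem_ofPred_eq]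
          exact ⟨x, (hmem x q).1 hq, hsub p hxs⟩
        exact_mod_cast this
      have b5 : δ p * B p ≤ η / 2 / ((I x).card + 1) := by
        have := hB0 p
        calc δ p * B p ≤ δ p * (B p + 1) := by nlinarith [hδ0 p]
          _ = η / 2 / (m p + 1) := by simp only [hδ]; field_simp
          _ ≤ _ := by gcongr
      refine (abs_add_le _ _).trans (add_le_add ?_ ?_)
      · rw [abs_mul, abs_of_nonneg (hρ0 p x)]
        exact mul_le_mul_of_nonneg_left b1 (hρ0 p x)
      · rw [abs_mul]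
        calc _ ≤ δ p * (B p * s) := mul_le_mul b2 b3 (abs_nonneg _) (hδ0 p).le
          _ = δ p * B p * s := by ring
          _ ≤ _ := by gcongr
    rw [h3]
    refine (Finset.abs_sum_le_sum_abs _ _).trans ((Finset.sum_le_sum h4).trans ?_)
    rw [Finset.sum_add_distrib, ← Finset.sum_mul, a1, Finset.sum_const, nsmul_eq_mul]
    have h5 : ((I x).card : ℝ) * (η / 2 / ((I x).card + 1) * s) ≤ η / 2 * s := by
      rw [← mul_assoc]
      refine mul_le_mul_of_nonneg_right ?_ hs0
      rw [← mul_div_assoc, div_le_iff₀ (by positivity)]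
      nlinarith
    linarith

/-! ### the distance function is infinitesimally `1`-Lipschitz -/

open Bundle in
theorem ratl_seg {d : ℕ} {X : Type} [TopologicalSpace X] [T2Space X] [ConnectedSpace X]
    (R : RAtl d X) {i : R.ι} {y u : EE d} {L : ℝ} (hL : 0 ≤ L)
    (hs : ∀ t ∈ Icc (0 : ℝ) 1, y + t • u ∈ (R.c i).target)
    (hb : ∀ t ∈ Icc (0 : ℝ) 1, R.bil i (y + t • u) u u ≤ L ^ 2) :
    dist ((R.ch i).symm y) ((R.ch i).symm (y + u)) ≤ L := by
  set l : ℝ → EE d := fun t => y + t • u with hl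
  set γ : ℝ → R.M := fun t => (R.ch i).symm (l t) with hγ
  have hlc : ContDiff ℝ ∞ l := by fun_prop
  have h1 : ContMDiffOn (𝓡 d) (𝓡 d) ∞ (R.ch i).symm (R.ch i).target :=
    contMDiffOn_symm_of_mem_maximalAtlas (IsManifold.subset_maximalAtlas ⟨i, rfl⟩)
  have h2 : ContMDiffOn 𝓘(ℝ, ℝ) (𝓡 d) 1 γ (Icc 0 1) :=
    (h1.comp hlc.contMDiff.contMDiffOn hs).of_le (by simp)
  have h3 : Manifold.riemannianEDist (𝓡 d) ((R.ch i).symm y) ((R.ch i).symm (y + u)) ≤
      Manifold.pathELength (𝓡 d) γ 0 1 :=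
    Manifold.riemannianEDist_le_pathELength h2 (by simp [hγ, hl]) (by simp [hγ, hl]) zero_le_one
  have h4 : Manifold.pathELength (𝓡 d) γ 0 1 ≤ ENNReal.ofReal L := by
    rw [Manifold.pathELength_eq_lintegral_mfderiv_Icc]
    refine (setLIntegral_mono' (g := fun _ => ENNReal.ofReal L) measurableSet_Icc
      fun t ht => ?_).trans (by simp)
    set q : R.M := (R.ch i).symm (l t) with hq
    have hy : l t ∈ (R.ch i).target := hs t ht
    have a1 : MDifferentiableAt (𝓡 d) (𝓡 d) (R.ch i).symm (l t) :=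
      mdifferentiableAt_atlas_symm (I := 𝓡 d) (show R.ch i ∈ atlas (EE d) R.M from ⟨i, rfl⟩) hy
    have a2 : R.c i q = l t := (R.ch i).right_inv hy
    have a3 : mfderiv (𝓡 d) (𝓡 d) (R.ch i).symm (l t) = R.T i (R.idx q) q := by
      rw [a1.mfderiv]
      simp only [writtenInExtChartAt, extChartAt_model_space_eq_id, modelWithCornersSelf_coe,
        range_id, fderivWithin_univ]
      unfold RAtl.T
      rw [a2]
      rfl
    have a4 : HasDerivAt l u t := by
      have := ((hasDerivAt_id t).smul_const u).const_add y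
      rwa [one_smul] at this
    have a5 := a1.hasMFDerivAt.comp t a4.hasFDerivAt.hasMFDerivAt
    have a6 : mfderiv 𝓘(ℝ, ℝ) (𝓡 d) γ t 1 = R.T i (R.idx q) q u := by
      have : mfderiv 𝓘(ℝ, ℝ) (𝓡 d) γ t = _ := a5.mfderiv
      rw [this, a3]
      change R.T i (R.idx q) q ((ContinuousLinearMap.toSpanSingleton ℝ u) 1) = _
      simp
    have a7 : ‖mfderiv 𝓘(ℝ, ℝ) (𝓡 d) γ t 1‖ ≤ L := by
      rw [← sq_le_sq₀ (norm_nonneg _) hL, ← real_inner_self_eq_norm_sq, a6]
      have b1 := R.bil_tr i (R.idx q) ((R.ch i).map_target hy) (R.idx_mem q) u u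
      rw [a2] at b1
      exact b1.symm.trans_le (hb t ht)
    rw [← ofReal_norm]
    exact ENNReal.ofReal_le_ofReal a7
  have h5 := h3.trans h4
  rw [← IsRiemannianManifold.out (I := 𝓡 d), edist_dist] at h5
  exact (ENNReal.ofReal_le_ofReal_iff hL).1 h5

theorem G_eq_nq (K : Kah A) (i : A.ι) (z v : Cn n) :
    Ric_798.G (KK K i) z v v = nq (gc K i z) v := by
  unfold Ric_798.G nq KK gc
  congr 1
  simp only [dotProduct, Matrix.mulVec, Matrix.transpose_apply, Pi.star_apply, RCLike.star_def,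
    Finset.mul_sum]
  rw [Finset.sum_comm]
  exact Finset.sum_congr rfl fun a _ => Finset.sum_congr rfl fun b _ => by ring

/-- the distance is at most the length of a segment in a chart -/
theorem dK_seg [T2Space M] [ConnectedSpace M] (K : Kah A) {i : A.ι} {w u : Cn n} {L : ℝ}
    (hL : 0 ≤ L) (hs : ∀ t ∈ Icc (0 : ℝ) 1, w + t • u ∈ (A.e i).target)
    (hb : ∀ t ∈ Icc (0 : ℝ) 1, nq (gc K i (w + t • u)) u ≤ L ^ 2) :
    dK K ((A.e i).symm w) ((A.e i).symm (w + u)) ≤ L := by
  have e : ∀ t : ℝ, (eR n).symm (eR n w + t • eR n u) = w + t • u := fun t => by simp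
  have h := ratl_seg (ofKah K) (i := i) (y := eR n w) (u := eR n u) hL (fun t ht => by
    refine (Set.ext_iff.1 (cR_target (A := A) i) _).2 ?_
    change (eR n).symm (eR n w + t • eR n u) ∈ (A.e i).target
    rw [e]; exact hs t ht) fun t ht => by
      refine ((RAtl.bil_apply (ofKah K) i _ _ _).trans ?_).trans_le (hb t ht)
      have hi : (KK K i ((eR n).symm (eR n w + t • eR n u))).IsHermitian := by
        rw [e]; exact ((kd K i).pd _ (hs t ht)).1
      change ∑ a, ∑ b, Ric_798.hm (eR n) (KK K i) (eR n w + t • eR n u) a b * _ * _ = _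
      rw [Ric_798.sum_hm (eR n) hi, e, ← G_eq_nq]
      simp
  have e1 : ((ofKah K).ch i).symm (eR n w) = (A.e i).symm w := by
    change (A.e i).symm ((eR n).symm (eR n w)) = _
    simp
  have e2 : ((ofKah K).ch i).symm (eR n w + eR n u) = (A.e i).symm (w + u) := by
    change (A.e i).symm ((eR n).symm (eR n w + eR n u)) = _
    simp
  rw [e1, e2] at h
  exact h

theorem lipOn_of_dK [T2Space M] [ConnectedSpace M] (K : Kah A) {f : M → ℝ} {c : ℝ} (hc : 0 ≤ c)
    (hf : ∀ x y, |f x - f y| ≤ c * dK K x y) : LipOn (gc K) univ c f := by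
  intro i x hx _ ε hε
  have hz := (A.e i).map_source hx
  set l : ℝ := (c + ε) / (c + ε / 2) with hl
  have hc2 : 0 < c + ε / 2 := by linarith
  have hl1 : 1 < l := by rw [hl, one_lt_div hc2]; linarith
  have hl2 : 1 < l ^ 2 := by nlinarith
  obtain ⟨r, hr, hball⟩ := Metric.nhds_basis_ball.mem_iff.1
    ((ev_cmp' (gc_continuousAt K hz) (gc_posDef K hz) hl2).and ((A.e i).open_target.mem_nhds hz))
  filter_upwards [ball_mem_nhds _ hr] with w hw
  have h1 : ∀ t ∈ Icc (0 : ℝ) 1, A.e i x + t • (w - A.e i x) ∈ ball (A.e i x) r := fun t ht =>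
    (convex_ball _ _).add_smul_sub_mem (mem_ball_self hr) hw ht
  set s := √(nq (gc K i (A.e i x)) (w - A.e i x)) with hs
  have hs0 : 0 ≤ s := Real.sqrt_nonneg _
  have h2 := dK_seg K (i := i) (w := A.e i x) (u := w - A.e i x) (L := l * s) (by positivity)
    (fun t ht => (hball (h1 t ht)).2) fun t ht => by
      rw [mul_pow, hs, Real.sq_sqrt (nq_nonneg (gc_posDef K hz).posSemidef _)]
      exact ((hball (h1 t ht)).1 _).1
  rw [(A.e i).left_inv hx, add_sub_cancel] at h2
  have h3 := hf x ((A.e i).symm w)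
  rw [abs_sub_comm] at h3
  refine h3.trans ?_
  have h4 : c * l ≤ c + ε := by
    rw [hl, ← mul_div_assoc, div_le_iff₀ hc2]
    nlinarith
  calc c * dK K x ((A.e i).symm w) ≤ c * (l * s) := by gcongr
    _ = c * l * s := by ring
    _ ≤ _ := by gcongr

theorem dK_lip [T2Space M] [ConnectedSpace M] (K : Kah A) (p x y : M) :
    |dK K p x - dK K p y| ≤ 1 * dK K x y := by
  rw [one_mul]
  have := abs_dist_sub_le (α := (ofKah K).M) x y p
  rwa [dist_comm (α := (ofKah K).M) x p, dist_comm (α := (ofKah K).M) y p] at this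

theorem lipOn_dK [T2Space M] [ConnectedSpace M] (K : Kah A) (p : M) :
    LipOn (gc K) univ 1 (dK K p) := lipOn_of_dK K zero_le_one (dK_lip K p)

/-- **the smoothed distance function** -/
theorem exists_rho0 [T2Space M] [ConnectedSpace M] [SecondCountableTopology M] (K : Kah A)
    (p : M) : ∃ ρ : M → ℝ, A.Sm ρ ∧ (∀ x, dK K p x ≤ ρ x ∧ ρ x ≤ dK K p x + 1) ∧
      ∀ i, ∀ z ∈ (A.e i).target, gsq (gc K i) (inC A i ρ) z ≤ 1 := by
  obtain ⟨g, h1, h2⟩ := smooth_lip K zero_le_one (η := 1 / 2) (by norm_num) (lipOn_dK K p)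
  refine ⟨fun x => g x + 1 / 2, fun i => (h1 i).add contDiffOn_const, fun x => ?_,
    fun i z hz => ?_⟩
  · have := abs_le.1 (h2 x).1
    constructor <;> linarith [this.1, this.2]
  · have h3 : Gr K (fun x => g x + 1 / 2) ((A.e i).symm z) (1 + 1 / 2) := fun j hj v => by
      have : inC A j (fun x => g x + 1 / 2) = fun w => inC A j g w + 1 / 2 := rfl
      rw [this, fderiv_add_const]
      exact (h2 _).2 j hj v
    exact (Gr.gsq_le (fun i => (h1 i).add contDiffOn_const) hz h3).trans (by norm_num)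

end

end Crest.Agent.T223.U0
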