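import Crest.Agent.T223.U0Def_15
import Crest.Agent.T223.U0S_15
import Crest.Agent.T223.LbDef_78
import Crest.Agent.T223.TrRic_90

/-!
# Row 223 (S0345), module U0 (helper15): `initStmt : NFStmt n → LbStmt n → InitStmt n`
-/

set_option autoImplicit false
set_option linter.unusedSectionVars false

open Set Filter Topology Metric
open scoped ContDiff Matrix ComplexConjugate ComplexOrder

namespace Crest.Agent.T223.U0

open Crest.Agent.R275.Geo Crest.Agent.R275.Core144 Crest.Agent.R275.EDR890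
open Crest.Agent.R273 Crest.Agent.R273.Hess_333
open Crest.Agent.R273.HessB_333 Crest.Agent.R273.Kah_333
open Crest.Agent.R273.RMan_798 Crest.Agent.R273.RMan4_798
open Crest.Agent.T223.Br Crest.Agent.T223.Tr

noncomputable section

variable {n : ℕ} {M : Type} [TopologicalSpace M] {A : Atl n M}

/-- the potential of a finite family of `n`-forms -/
theorem exists_pot_fam (K : Kah A) {ρ : M → ℝ} (hρ : A.Sm ρ) {a : ℝ}
    (hc : IsCompact {x | ρ x ≤ a}) (hNF : ∀ x, ∃ σ, IsHS (KB A) univ σ ∧ 0 < nsq K σ x)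
    {ι : Type} [Fintype ι] {s : ι → A.ι → M → ℂ} (hs : ∀ j, IsHS (KB A) univ (s j)) :
    ∃ θ : M → ℝ, Pot K {x | ρ x < a} θ ∧ (∀ x, ∑ j, nsq K (s j) x ≤ Real.exp (θ x)) ∧
      ∀ x, ρ x ≤ a → Real.exp (θ x) ≤ ∑ j, nsq K (s j) x + 1 := by
  classical
  choose σ hσ hσ0 using hNF
  obtain ⟨t, ht⟩ := hc.elim_finite_subcover (fun x => {y | 0 < nsq K (σ x) y})
    (fun x => isOpen_lt continuous_const (nsq_continuous K (hσ x)))
    (fun x _ => mem_iUnion.2 ⟨x, hσ0 x⟩)
  set S : M → ℝ := fun y => ∑ x : t, nsq K (σ x) y with hS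
  set S0 : M → ℝ := fun y => ∑ j, nsq K (s j) y with hS0d
  have hSsm : A.Sm S := fun i => ContDiffOn.sum fun x _ => nsq_sm K (hσ x) i
  have hS0sm : A.Sm S0 := fun i => ContDiffOn.sum fun j _ => nsq_sm K (hs j) i
  have hS0 : ∀ y, 0 ≤ S y := fun y => Finset.sum_nonneg fun x _ => nsq_nonneg K _ y
  have hS00 : ∀ y, 0 ≤ S0 y := fun y => Finset.sum_nonneg fun x _ => nsq_nonneg K _ y
  have hSp : ∀ y, ρ y ≤ a → 0 < S y := by
    intro y hy
    obtain ⟨x, hx, hxy⟩ := mem_iUnion₂.1 (ht hy)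
    exact Finset.sum_pos' (fun x _ => nsq_nonneg K _ y) ⟨⟨x, hx⟩, Finset.mem_univ _, hxy⟩
  obtain ⟨B, hB⟩ := hc.bddAbove_image (sm_continuous hSsm).continuousOn
  set c : ℝ := (|B| + 1)⁻¹ with hcdef
  have hcp : 0 < c := by positivity
  have hcS : ∀ y, ρ y ≤ a → c * S y ≤ 1 := by
    intro y hy
    have h1 : S y ≤ |B| + 1 := (hB ⟨y, hy, rfl⟩).trans ((le_abs_self B).trans (by linarith))
    rw [hcdef, inv_mul_le_iff₀ (by positivity)]
    linarith
  set F : M → ℝ := fun y => S0 y + c * S y + expNegInvGlue (ρ y - a) with hF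
  have hFp : ∀ y, 0 < F y := by
    intro y
    have h1 := hS00 y
    have h2 := mul_nonneg hcp.le (hS0 y)
    have h3 := expNegInvGlue.nonneg (ρ y - a)
    rcases le_or_gt (ρ y) a with hy | hy
    · have := mul_pos hcp (hSp y hy)
      simp only [hF]; linarith
    · have := expNegInvGlue.pos_of_pos (sub_pos.2 hy)
      simp only [hF]; linarith
  have hFsm : A.Sm F := fun i =>
    ((hS0sm i).add (contDiffOn_const.mul (hSsm i))).add
      (expNegInvGlue.contDiff.comp_contDiffOn ((hρ i).sub contDiffOn_const))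
  have hFin : ∀ y, ρ y ≤ a → F y = S0 y + c * S y := by
    intro y hy
    simp only [hF]
    rw [expNegInvGlue.zero_of_nonpos (sub_nonpos.2 hy), add_zero]
  refine ⟨fun y => Real.log (F y),
    pot_of_psd (fun i => (hFsm i).log fun z _ => (hFp _).ne') ?_, ?_, ?_⟩
  · intro i z hz hza
    set τ : ι ⊕ t → A.ι → M → ℂ := fun j =>
      Sum.casesOn j s fun x => ((Real.sqrt c : ℝ) : ℂ) • σ x with hτ
    have hτs : ∀ j, IsHS (KB A) univ (τ j) := by
      rintro (j | x)
      · exact hs j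
      · exact (hσ x).smul _
    have hsum : ∀ y, ∑ j, nsq K (τ j) y = S0 y + c * S y := by
      intro y
      rw [Fintype.sum_sum_type, hS, Finset.mul_sum]
      congr 1
      refine Finset.sum_congr rfl fun x _ => ?_
      change nsq K (((Real.sqrt c : ℝ) : ℂ) • σ x) y = _
      rw [nsq_smul, Complex.norm_real, Real.norm_eq_abs, sq_abs, Real.sq_sqrt hcp.le]
    have hev : ∀ᶠ w in 𝓝 z, ρ ((A.e i).symm w) < a :=
      (sm_contDiffAt hρ i hz).continuousAt.eventually (gt_mem_nhds hza)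
    refine psd_log_nsq K hτs (θ := fun y => Real.log (F y)) hz ?_ ?_
    · rw [hsum, ← hFin _ (le_of_lt hza)]
      exact hFp _
    · filter_upwards [hev] with w hw
      rw [hsum, hFin _ hw.le]
  · intro x
    rw [Real.exp_log (hFp x)]
    have h2 := mul_nonneg hcp.le (hS0 x)
    have h3 := expNegInvGlue.nonneg (ρ x - a)
    simp only [hF]; linarith
  · intro x hx
    rw [Real.exp_log (hFp x), hFin x hx]
    linarith [hcS x hx]

/-- `log |s|²` is plurisubharmonic if `Ric ≥ 0` -/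
theorem logPsh_nsq {K : Kah A} (hK : BKpos K) {s : A.ι → M → ℂ} (hs : IsHS (KB A) univ s) :
    Lb.LogPsh A (nsq K s) := by
  intro i y hy hp
  have hz := (A.e i).map_source hy
  have hp' : 0 < nsq K s ((A.e i).symm (A.e i y)) := by rwa [(A.e i).left_inv hy]
  have h1 : ContDiffAt ℝ ∞ (fun w => Real.log (nsq K s ((A.e i).symm w))) (A.e i y) :=
    (sm_contDiffAt (nsq_sm K hs) i hz).log hp'.ne'
  refine ⟨fun w => Real.log (nsq K s ((A.e i).symm w)),
    ⟨h1, by rw [(A.e i).left_inv hy], Eventually.of_forall fun _ => le_rfl⟩, fun v => ?_⟩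
  have h2 := psd_log_nsq K (σ := fun _ : Unit => s) (fun _ => hs)
    (θ := fun x => Real.log (nsq K s x)) hz (by simpa using hp')
    (Eventually.of_forall fun w => by simp)
  rw [hess_add h1 (ld_contDiffAt K hz)] at h2
  have h3 := nq_nonneg h2 v
  have h4 := nq_nonneg (ric_posDef_of_BKpos hK i hz).posSemidef v
  rw [ric, Ev.nq_neg] at h4
  rw [Ev.nq_add] at h3
  linarith

variable [T2Space M] [ConnectedSpace M]

theorem dK_nonneg (K : Kah A) (x y : M) : 0 ≤ dK K x y := dist_nonneg (α := (ofKah K).M)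

theorem dK_comm (K : Kah A) (x y : M) : dK K x y = dK K y x := dist_comm (α := (ofKah K).M) x y

theorem dK_triangle (K : Kah A) (x y z : M) : dK K x z ≤ dK K x y + dK K y z :=
  dist_triangle (α := (ofKah K).M) x y z

theorem isCompact_sublevel {K : Kah A} (hP : ProperSpace (ofKah K).M) {ρ : M → ℝ}
    (hρ : Continuous ρ) {p : M} (h : ∀ x, dK K p x ≤ ρ x) (a : ℝ) : IsCompact {x | ρ x ≤ a} := by
  have h1 : IsCompact (closedBall (α := (ofKah K).M) p a) := isCompact_closedBall _ _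
  refine IsCompact.of_isClosed_subset (X := M) h1 (isClosed_le hρ continuous_const) fun x hx => ?_
  exact (mem_closedBall' (α := (ofKah K).M)).2 ((h x).trans hx)

/-- the three-circle lower bound -/
theorem three_circ {K : Kah A} (hT : Lb.TC K) {w : M → ℝ} (hc : Continuous w) (h0 : ∀ y, 0 ≤ w y)
    (hp : Lb.LogPsh A w) {p : M} {C1 L : ℝ} (hC1 : 0 ≤ C1) (hL : 0 ≤ L)
    (hw : ∀ y, w y ≤ Real.exp (C1 * (1 + dK K p y))) (hwp : Real.exp (-L) ≤ w p)
    {u : M → ℝ} (hu : ∀ y, w y ≤ Real.exp (u y)) (x : M) {r : ℝ} (hr : 0 < r) (hr1 : r ≤ 1) :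
    ∃ y, dK K x y < r ∧
      -((12 * C1 + 4 * L + 2) * (2 + dK K p x) * Real.log ((2 + dK K p x) / r)) ≤ u y := by
  set D := dK K p x with hD
  set C := 12 * C1 + 4 * L + 2 with hC
  have hD0 : 0 ≤ D := dK_nonneg K p x
  set Λ := Real.log ((2 + D) / r) with hΛ
  have hl2 : 1 / 2 < Real.log 2 := by linarith [Real.log_two_gt_d9]
  have hΛ2 : Real.log 2 ≤ Λ := by
    refine Real.log_le_log two_pos ?_
    rw [le_div_iff₀ hr]
    linarith
  have hup : -L ≤ u p := Real.exp_le_exp.1 (hwp.trans (hu p))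
  rcases lt_or_ge D r with hDr | hDr
  · refine ⟨p, by rwa [dK_comm], le_trans ?_ hup⟩
    have h1 : 1 ≤ (2 + D) * Λ := by nlinarith
    have h2 : C * 1 ≤ C * ((2 + D) * Λ) := mul_le_mul_of_nonneg_left h1 (by positivity)
    rw [mul_assoc]
    linarith
  by_contra hcon
  push Not at hcon
  have hDp : 0 < D := hr.trans_le hDr
  have h1 := hT w hc h0 hp x (r / 2) D (2 * D) (-(C * (2 + D) * Λ)) (C1 * (1 + 3 * D))
    (half_pos hr) (by linarith) (by linarith) (by linarith)
    (fun y hy => (hu y).trans (Real.exp_le_exp.2 (hcon y (by linarith)).le))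
    (fun y hy => (hw y).trans (Real.exp_le_exp.2 (mul_le_mul_of_nonneg_left
      (by linarith [dK_triangle K p x y]) hC1))) p (by rw [dK_comm])
  have h2 := Real.exp_le_exp.1 (hwp.trans h1)
  have e1 : 2 * D / D = 2 := by field_simp
  have hq : 0 < (2 + D) / r := by positivity
  have h3 : Real.log (D / (r / 2)) ≤ 2 * Λ := by
    have : D / (r / 2) ≤ 2 * ((2 + D) / r) := by
      rw [div_le_iff₀ (half_pos hr)]
      field_simp
      linarith
    refine (Real.log_le_log (by positivity) this).trans ?_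
    rw [Real.log_mul two_ne_zero hq.ne']
    linarith
  have h4 : Real.log (2 * D / (r / 2)) ≤ 3 * Λ := by
    have : 2 * D / (r / 2) ≤ 2 * (2 * ((2 + D) / r)) := by
      rw [div_le_iff₀ (half_pos hr)]
      field_simp
      linarith
    refine (Real.log_le_log (by positivity) this).trans ?_
    rw [Real.log_mul two_ne_zero (by positivity), Real.log_mul two_ne_zero hq.ne']
    linarith
  have h5 : 0 < Real.log (2 * D / (r / 2)) :=
    Real.log_pos (by rw [one_lt_div (half_pos hr)]; linarith)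
  rw [e1, le_div_iff₀ h5] at h2
  have hΛ0 : 0 < Λ := by linarith
  have h6 : Real.log (D / (r / 2)) * (C1 * (1 + 3 * D)) ≤ 2 * Λ * (C1 * (3 * (2 + D))) :=
    (mul_le_mul_of_nonneg_right h3 (by positivity)).trans
      (mul_le_mul_of_nonneg_left (mul_le_mul_of_nonneg_left (by linarith) hC1) (by positivity))
  have h7 : L * Real.log (2 * D / (r / 2)) ≤ L * (2 * (2 + D) * Λ) :=
    mul_le_mul_of_nonneg_left (h4.trans (by nlinarith)) hL
  have h8 : 0 < (2 + D) * Λ := by positivity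
  have h9 : 1 / 2 * (C * (2 + D) * Λ) ≤ Real.log 2 * (C * (2 + D) * Λ) :=
    mul_le_mul_of_nonneg_right hl2.le (by positivity)
  have h10 : C * (2 + D) * Λ = 12 * (C1 * ((2 + D) * Λ)) + 4 * (L * ((2 + D) * Λ))
      + 2 * ((2 + D) * Λ) := by rw [hC]; ring
  nlinarith

/-- potentials which are bounded below on a given compact set -/
theorem pot_compact {K : Kah A} {p : M} (hNF : NF K (dK K p)) {ρ : M → ℝ} (hρ : A.Sm ρ)
    (hc : ∀ a, IsCompact {x | ρ x ≤ a}) {Q : Set M} (hQ : IsCompact Q) :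
    ∃ C' : ℝ, 0 ≤ C' ∧ ∀ a, ∃ θ : M → ℝ, Pot K {x | ρ x < a} θ ∧
      (∀ x, ρ x ≤ a → θ x ≤ C' * (1 + dK K p x)) ∧ ∀ x ∈ Q, -C' ≤ θ x := by
  classical
  have hNF' : ∀ x, ∃ σ, IsHS (KB A) univ σ ∧ 0 < nsq K σ x := fun x => by
    obtain ⟨σ, C, h, h', -⟩ := hNF x
    exact ⟨σ, h, h'⟩
  choose σ C hσ hσ0 hσC using hNF
  obtain ⟨t, ht⟩ := hQ.elim_finite_subcover (fun x => {y | 0 < nsq K (σ x) y})
    (fun x => isOpen_lt continuous_const (nsq_continuous K (hσ x)))
    (fun x _ => mem_iUnion.2 ⟨x, hσ0 x⟩)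
  have hSc : Continuous fun y => ∑ x : t, nsq K (σ x) y :=
    continuous_finsetSum _ fun x _ => nsq_continuous K (hσ x)
  obtain ⟨μ, hμ, hμ'⟩ := hQ.exists_forall_le' (a := 0) hSc.continuousOn fun y hy => by
    obtain ⟨x, hx, hxy⟩ := mem_iUnion₂.1 (ht hy)
    exact Finset.sum_pos' (fun x _ => nsq_nonneg K _ y) ⟨⟨x, hx⟩, Finset.mem_univ _, hxy⟩
  set Cm : ℝ := ∑ x : t, |C x| with hCm
  have hCm0 : 0 ≤ Cm := by positivity
  set N : ℝ := (Fintype.card t : ℝ) with hN
  have hN0 : 0 ≤ N := Nat.cast_nonneg _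
  refine ⟨N + Cm + |Real.log μ|, by positivity, fun a => ?_⟩
  obtain ⟨θ, h1, h2, h3⟩ := exists_pot_fam K hρ (hc a) hNF' (s := fun x : t => σ x) fun x => hσ x
  refine ⟨θ, h1, fun y hy => ?_, fun y hy => ?_⟩
  · have hd := dK_nonneg K p y
    have a1 : ∀ x : t, nsq K (σ x) y ≤ Real.exp (Cm * (1 + dK K p y)) := fun x =>
      (hσC x y).trans (Real.exp_le_exp.2 (mul_le_mul_of_nonneg_right ((le_abs_self _).trans
        (Finset.single_le_sum (f := fun x : t => |C x|) (fun _ _ => abs_nonneg _)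
          (Finset.mem_univ x))) (by linarith)))
    have a2 : ∑ x : t, nsq K (σ x) y ≤ N * Real.exp (Cm * (1 + dK K p y)) := by
      refine (Finset.sum_le_sum fun x _ => a1 x).trans (le_of_eq ?_)
      rw [Finset.sum_const, nsmul_eq_mul, Finset.card_univ]
    have a3 : 1 ≤ Real.exp (Cm * (1 + dK K p y)) := Real.one_le_exp (by positivity)
    have a4 : Real.exp (θ y) ≤ Real.exp (N + Cm * (1 + dK K p y)) := by
      rw [Real.exp_add]
      have := Real.add_one_le_exp N
      have := h3 y hy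
      nlinarith
    have a5 := Real.exp_le_exp.1 a4
    have := abs_nonneg (Real.log μ)
    nlinarith
  · have a1 : Real.log μ ≤ θ y := by
      rw [Real.log_le_iff_le_exp hμ]
      exact (hμ' y hy).trans (h2 y)
    linarith [neg_abs_le (Real.log μ)]

end

/-- **INIT** -/
theorem initStmt {n : ℕ} (hNF : NFStmt n) (hLb : Lb.LbStmt n) : InitStmt n := by
  intro M _ _ _ _ _ A K p H
  obtain ⟨hL1, hTC, -⟩ := hLb M A K H
  have hN := hNF M A K p H
  obtain ⟨ρ, hρ, hρd, hρg⟩ := exists_rho0 K p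
  have hc : ∀ a, IsCompact {x | ρ x ≤ a} :=
    isCompact_sublevel H.proper (sm_continuous hρ) fun x => (hρd x).1
  obtain ⟨s, Cs, hs, hsp, hsC⟩ := hN p
  set C1 := max Cs 0 with hC1
  have hC10 : 0 ≤ C1 := le_max_right _ _
  have hsC' : ∀ y, nsq K s y ≤ Real.exp (C1 * (1 + dK K p y)) := fun y =>
    (hsC y).trans (Real.exp_le_exp.2 (mul_le_mul_of_nonneg_right (le_max_left _ _)
      (by linarith [dK_nonneg K p y])))
  set L := |Real.log (nsq K s p)| with hL
  have hL0 : 0 ≤ L := abs_nonneg _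
  have hLp : Real.exp (-L) ≤ nsq K s p := by
    rw [← Real.le_log_iff_exp_le hsp]
    exact neg_abs_le _
  choose u h1 h2 h3 using fun a => exists_u0' K hρ (hc a) hN hs
    (b := fun y => C1 * (1 + dK K p y)) (fun y => by have := dK_nonneg K p y; positivity) hsC'
  refine ⟨⟨ρ, u, 12 * C1 + 4 * L + 2, by linarith, hρ, fun x => ?_, fun x => ?_, hρg, h1,
    fun a x hx => ?_, fun a x r hr hr1 => three_circ hTC (nsq_continuous K hs) (nsq_nonneg K s)
      (logPsh_nsq H.bk hs) hC10 hL0 hsC' hLp (h2 a) x hr hr1, fun a => ?_,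
    fun Q hQ => pot_compact hN hρ hc hQ, fun x i y hy => ?_⟩⟩
  · exact abs_le.2 ⟨by linarith [(hρd x).1], by linarith [(hρd x).2]⟩
  · exact (dK_nonneg K p x).trans (hρd x).1
  · have := h3 a x hx
    have := dK_nonneg K p x
    nlinarith
  · have := Real.exp_le_exp.1 (hLp.trans (h2 a p))
    linarith
  · obtain ⟨b, hb, hb'⟩ := hL1 x i y hy
    refine ⟨b, hb.sm, hb.eq, hb.le, fun v => (hb' v).trans (mul_le_mul_of_nonneg_right
      (by linarith) (nq_nonneg (gc_posDef K ((A.e i).map_source hy)).posSemidef v))⟩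

end Crest.Agent.T223.U0
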