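import Crest.Agent.R266.Osgood

/-!
# Row 223, leaf AND (helper22), part A: orders of vanishing of holomorphic germs
-/

set_option autoImplicit false
set_option linter.unusedSectionVars false
set_option linter.unusedVariables false

open Set Filter Topology Metric Asymptotics

namespace Crest.Agent.T223.And

noncomputable section

variable {E F : Type*} [NormedAddCommGroup E] [NormedSpace ℂ E] [NormedAddCommGroup F]
  [NormedSpace ℂ F]

/-- `H = O(|z|^k)` at the origin -/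
def OO (k : ℕ) (H : E → F) : Prop := H =O[𝓝 0] fun z => ‖z‖ ^ k

theorem OO.bound {k : ℕ} {H : E → F} (h : OO k H) :
    ∃ K : ℝ, 0 < K ∧ ∀ᶠ z in 𝓝 (0 : E), ‖H z‖ ≤ K * ‖z‖ ^ k := by
  obtain ⟨K, hK, h⟩ := (IsBigO.exists_pos h)
  refine ⟨K, hK, ?_⟩
  filter_upwards [h.bound] with z hz
  simpa using hz

theorem oo_of_bound {k : ℕ} {H : E → F} {K : ℝ} (h : ∀ᶠ z in 𝓝 (0 : E), ‖H z‖ ≤ K * ‖z‖ ^ k) :
    OO k H := by
  refine IsBigO.of_bound K ?_
  filter_upwards [h] with z hz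
  simpa using hz

theorem OO.zero {k : ℕ} {H : E → F} (h : OO (k + 1) H) : H 0 = 0 := by
  obtain ⟨K, -, h⟩ := h.bound
  simpa using h.self_of_nhds

theorem OO.mono {k l : ℕ} {H : E → F} (h : OO k H) (hl : l ≤ k) : OO l H := by
  obtain ⟨K, hK, h⟩ := h.bound
  refine oo_of_bound (K := K) ?_
  filter_upwards [h, closedBall_mem_nhds (0 : E) one_pos] with z hz h1
  refine hz.trans (mul_le_mul_of_nonneg_left ?_ hK.le)
  exact pow_le_pow_of_le_one (norm_nonneg _) (by simpa using h1) hl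

theorem OO.add {k : ℕ} {H G : E → F} (h : OO k H) (g : OO k G) : OO k (fun z => H z + G z) :=
  IsBigO.add h g

theorem OO.sub {k : ℕ} {H G : E → F} (h : OO k H) (g : OO k G) : OO k (fun z => H z - G z) :=
  IsBigO.sub h g

theorem OO.neg {k : ℕ} {H : E → F} (h : OO k H) : OO k (fun z => - H z) :=
  IsBigO.neg_left h

theorem OO.smul {k : ℕ} {H : E → F} (h : OO k H) (c : ℂ) : OO k (fun z => c • H z) :=
  IsBigO.const_smul_left h c

theorem OO.congr {k : ℕ} {H G : E → F} (h : OO k H) (e : H =ᶠ[𝓝 0] G) : OO k G :=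
  IsBigO.congr' h e EventuallyEq.rfl

theorem OO.of_le {F' : Type*} [NormedAddCommGroup F'] {k : ℕ} {H : E → F} {G : E → F'} {c : ℝ}
    (h : OO k H) (e : ∀ᶠ z in 𝓝 (0 : E), ‖G z‖ ≤ c * ‖H z‖) : OO k G :=
  (IsBigO.of_bound c e).trans h

theorem oo_id : OO 1 (fun z : E => z) := oo_of_bound (K := 1) (by simp)

theorem OO.tendsto {k : ℕ} {H : E → F} (h : OO (k + 1) H) : Tendsto H (𝓝 0) (𝓝 0) := by
  refine IsBigO.trans_tendsto h ?_
  have : Continuous fun z : E => ‖z‖ ^ (k + 1) := by fun_prop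
  simpa using this.tendsto 0

/-- composition with a germ of order one -/
theorem OO.comp {E' : Type*} [NormedAddCommGroup E'] [NormedSpace ℂ E'] {k : ℕ} {H : E → F} {G : E' → E}
    (h : OO k H) (g : OO 1 G) : OO k (fun z => H (G z)) := by
  obtain ⟨K, hK, h⟩ := h.bound
  obtain ⟨L, hL, g'⟩ := g.bound
  refine oo_of_bound (K := K * L ^ k) ?_
  filter_upwards [g.tendsto.eventually h, g'] with z hz h2
  rw [pow_one] at h2
  refine hz.trans ?_
  rw [mul_assoc, ← mul_pow]
  gcongr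

theorem OO.one_of_tan {G : E → E} (h : OO 2 (fun z => G z - z)) : OO 1 G := by
  have := (h.mono (by norm_num : 1 ≤ 2)).add oo_id
  simpa using this

theorem oo_one_of_diff {G : E → F} (h : DifferentiableAt ℂ G 0) (h0 : G 0 = 0) : OO 1 G := by
  have := h.isBigO_sub
  simp only [h0, sub_zero] at this
  unfold OO
  simpa using this.norm_right

/-- Schwarz lemma of order `k + 1` -/
theorem OO.schwarz {k : ℕ} {H : E → F} (h : OO (k + 1) H) {R M : ℝ}
    (hd : DifferentiableOn ℂ H (ball 0 R)) (hM : ∀ z ∈ ball (0 : E) R, ‖H z‖ ≤ M) {z : E}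
    (hz : z ∈ ball (0 : E) R) : ‖H z‖ ≤ M * (‖z‖ / R) ^ (k + 1) := by
  have h0 := h.zero
  have := Complex.dist_le_mul_div_pow_of_mapsTo_ball_of_isLittleO (n := k) (R₂ := M) hd
    (fun w hw => by simpa [h0] using hM w hw) ?_ hz
  · simpa [h0] using this
  · simp only [h0, sub_zero]
    refine IsBigO.trans_isLittleO h ?_
    simp only [pow_succ]
    have h1 : (fun z : E => ‖z‖) =o[𝓝 0] fun _ => (1 : ℝ) := by
      rw [isLittleO_one_iff]
      simpa using (continuous_norm (E := E)).tendsto 0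
    simpa using (isBigO_refl (fun z : E => ‖z‖ ^ k) (𝓝 0)).mul_isLittleO h1

/-- the derivative loses one order -/
theorem OO.fderiv {k : ℕ} {H : E → F} (h : OO (k + 1) H)
    (hd : ∀ᶠ z in 𝓝 (0 : E), DifferentiableAt ℂ H z) : OO k (fderiv ℂ H) := by
  obtain ⟨K, hK, h⟩ := h.bound
  obtain ⟨δ, hδ, hb⟩ := Metric.eventually_nhds_iff_ball.1 (h.and hd)
  refine oo_of_bound (K := 4 * K * 2 ^ k) ?_
  filter_upwards [ball_mem_nhds (0 : E) (by positivity : 0 < δ / 3)] with z hz
  rw [mem_ball_zero_iff] at hz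
  have key : ∀ ε : ℝ, 0 < ε → ε < δ / 3 → ‖_root_.fderiv ℂ H z‖ ≤ 4 * K * (2 * ‖z‖ + ε) ^ k := by
    intro ε hε hε'
    have hρ : 0 < ‖z‖ + ε := by positivity
    have hsub : ∀ w ∈ ball z (‖z‖ + ε), ‖w‖ ≤ 2 * ‖z‖ + ε := by
      intro w hw
      rw [mem_ball_iff_norm] at hw
      have := norm_add_le (w - z) z
      rw [sub_add_cancel] at this
      linarith
    have hin : ∀ w ∈ ball z (‖z‖ + ε), w ∈ ball (0 : E) δ := by
      intro w hw
      rw [mem_ball_zero_iff]
      have := hsub w hw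
      linarith
    have hbd : ∀ w ∈ ball z (‖z‖ + ε), ‖H w‖ ≤ K * (2 * ‖z‖ + ε) ^ (k + 1) := by
      intro w hw
      refine (hb w (hin w hw)).1.trans ?_
      have := hsub w hw
      gcongr
    have := Complex.norm_fderiv_le_div_of_mapsTo_ball (f := H) (c := z) (R₁ := ‖z‖ + ε)
      (R₂ := 2 * (K * (2 * ‖z‖ + ε) ^ (k + 1)))
      (fun w hw => (hb w (hin w hw)).2.differentiableWithinAt) ?_ hρ
    · refine this.trans ?_
      rw [div_le_iff₀ hρ, pow_succ]
      have h1 : 0 ≤ K * (2 * ‖z‖ + ε) ^ k := by positivity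
      nlinarith [norm_nonneg z]
    · intro w hw
      rw [mem_closedBall, dist_eq_norm]
      have h1 := hbd w hw
      have h2 := hbd z (mem_ball_self hρ)
      have := norm_sub_le (H w) (H z)
      linarith
  have ht : Tendsto (fun ε : ℝ => 4 * K * (2 * ‖z‖ + ε) ^ k) (𝓝[>] 0)
      (𝓝 (4 * K * (2 * ‖z‖ + 0) ^ k)) := by
    refine Tendsto.mono_left ?_ nhdsWithin_le_nhds
    exact Continuous.tendsto (by fun_prop) 0
  have := ge_of_tendsto ht (by
    filter_upwards [Ioo_mem_nhdsGT (by positivity : (0 : ℝ) < δ / 3)] with ε hε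
    exact key ε hε.1 hε.2)
  refine this.trans_eq ?_
  rw [add_zero, mul_pow]; ring

/-- `σ ∘ S - σ ∘ T` when `S - T` is small -/
theorem OO.comp_sub {E' : Type*} [NormedAddCommGroup E'] [NormedSpace ℂ E'] {k l : ℕ} {σ : E → F} {S T : E' → E}
    (h : OO k (_root_.fderiv ℂ σ)) (hd : ∀ᶠ z in 𝓝 (0 : E), DifferentiableAt ℂ σ z)
    (hS : OO 1 S) (hT : OO 1 T) (hST : OO l (fun z => S z - T z)) :
    OO (k + l) (fun z => σ (S z) - σ (T z)) := by
  obtain ⟨K, hK, h⟩ := h.bound
  obtain ⟨δ, hδ, hb⟩ := Metric.eventually_nhds_iff_ball.1 (h.and hd)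
  obtain ⟨A, hA, hS'⟩ := hS.bound
  obtain ⟨B, hB, hT'⟩ := hT.bound
  obtain ⟨L, hL, hST⟩ := hST.bound
  refine oo_of_bound (K := K * (A + B) ^ k * L) ?_
  have hsm : ∀ᶠ z in 𝓝 (0 : E'), (A + B) * ‖z‖ < δ := by
    have : Continuous fun z : E' => (A + B) * ‖z‖ := by fun_prop
    exact (this.tendsto 0).eventually (gt_mem_nhds (by simpa using hδ))
  filter_upwards [hS', hT', hST, hsm] with z h1 h2 h3 h4
  rw [pow_one] at h1 h2
  have hin : ∀ w ∈ closedBall (0 : E) ((A + B) * ‖z‖), w ∈ ball (0 : E) δ :=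
    fun w hw => closedBall_subset_ball h4 hw
  have := (convex_closedBall (0 : E) ((A + B) * ‖z‖)).norm_image_sub_le_of_norm_fderiv_le
    (f := σ) (𝕜 := ℂ) (C := K * ((A + B) * ‖z‖) ^ k) (x := T z) (y := S z)
    (fun w hw => (hb w (hin w hw)).2)
    (fun w hw => (hb w (hin w hw)).1.trans (by
      have : ‖w‖ ≤ (A + B) * ‖z‖ := by simpa using hw
      gcongr))
    (by rw [mem_closedBall_zero_iff]; nlinarith [norm_nonneg z])
    (by rw [mem_closedBall_zero_iff]; nlinarith [norm_nonneg z])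
  refine this.trans ?_
  calc K * ((A + B) * ‖z‖) ^ k * ‖S z - T z‖ ≤ K * ((A + B) * ‖z‖) ^ k * (L * ‖z‖ ^ l) := by gcongr
    _ = _ := by rw [mul_pow, pow_add]; ring

theorem oo_zero_fderiv [FiniteDimensional ℂ E] [CompleteSpace F] {σ : E → F}
    (hd : ∀ᶠ z in 𝓝 (0 : E), DifferentiableAt ℂ σ z) : OO 0 (fderiv ℂ σ) := by
  have := (Crest.Agent.R266.SCV.analyticAt_of_eventually_differentiableAt hd).fderiv.continuousAt
  unfold OO
  simpa using this.isBigO_one (F := ℝ)

/-- leading homogeneous term -/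
theorem OO.lead [FiniteDimensional ℂ E] [CompleteSpace F] {k : ℕ} {H : E → F} (h : OO k H)
    (hd : ∀ᶠ z in 𝓝 (0 : E), DifferentiableAt ℂ H z) :
    ∃ p : ContinuousMultilinearMap ℂ (fun _ : Fin k => E) F,
      OO (k + 1) (fun z => H z - p (fun _ => z)) := by
  obtain ⟨p, hp⟩ := Crest.Agent.R266.SCV.analyticAt_of_eventually_differentiableAt hd
  have hz : ∀ j, j < k → ∀ y : E, p j (fun _ => y) = 0 := by
    intro j
    induction j using Nat.strong_induction_on with
    | _ j ih =>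
      intro hj
      have h1 := hp.isBigO_sub_partialSum_pow (j + 1)
      have h2 : ∀ y : E, p.partialSum (j + 1) y = p j (fun _ => y) := by
        intro y
        rw [FormalMultilinearSeries.partialSum, Finset.sum_range_succ, Finset.sum_eq_zero, zero_add]
        intro i hi
        have hi' := Finset.mem_range.1 hi
        exact ih i hi' (by omega) y
      simp only [zero_add, h2] at h1
      have h3 : OO (j + 1) (fun y => H y - (H y - p j (fun _ => y))) :=
        (h.mono (by omega)).sub h1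
      simp only [sub_sub_cancel] at h3
      exact fun y => IsBigO.continuousMultilinearMap_apply_eq_zero h3 y
  refine ⟨p k, ?_⟩
  have h1 := hp.isBigO_sub_partialSum_pow (k + 1)
  have h2 : ∀ y : E, p.partialSum (k + 1) y = p k (fun _ => y) := by
    intro y
    rw [FormalMultilinearSeries.partialSum, Finset.sum_range_succ, Finset.sum_eq_zero, zero_add]
    intro i hi
    exact hz i (Finset.mem_range.1 hi) y
  simp only [zero_add, h2] at h1
  exact h1

/-- a homogeneous function of degree `k` inherits the bound of a function it approximates -/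
theorem hom_bound {k : ℕ} {X H : E → F} (hX : ∀ (t : ℝ) z, X ((t : ℂ) • z) = ((t : ℂ) ^ k) • X z)
    (h : OO (k + 1) (fun z => H z - X z)) {M : ℝ}
    (hM : ∀ᶠ z in 𝓝 (0 : E), ‖H z‖ ≤ M * ‖z‖ ^ k) (z : E) : ‖X z‖ ≤ M * ‖z‖ ^ k := by
  obtain ⟨K, hK, h⟩ := h.bound
  have ht : Tendsto (fun t : ℝ => (t : ℂ) • z) (𝓝[>] 0) (𝓝 0) := by
    refine Tendsto.mono_left ?_ nhdsWithin_le_nhds
    have : Continuous fun t : ℝ => (t : ℂ) • z := by fun_prop
    simpa using this.tendsto 0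
  have hl : Tendsto (fun t : ℝ => M * ‖z‖ ^ k + K * ‖z‖ ^ (k + 1) * t) (𝓝[>] 0)
      (𝓝 (M * ‖z‖ ^ k + K * ‖z‖ ^ (k + 1) * 0)) := by
    refine Tendsto.mono_left ?_ nhdsWithin_le_nhds
    exact Continuous.tendsto (by fun_prop) 0
  have := ge_of_tendsto hl (b := ‖X z‖) (by
    filter_upwards [ht.eventually h, ht.eventually hM, self_mem_nhdsWithin] with t h1 h2 h3
    have h3 : 0 < t := h3
    have e1 : ‖(t : ℂ) • z‖ = t * ‖z‖ := by rw [norm_smul]; simp [abs_of_pos h3]
    have e2 : ‖X ((t : ℂ) • z)‖ = t ^ k * ‖X z‖ := by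
      rw [hX, norm_smul]; simp [abs_of_pos h3]
    have h4 := norm_sub_le (H ((t : ℂ) • z)) (H ((t : ℂ) • z) - X ((t : ℂ) • z))
    rw [sub_sub_cancel, e2] at h4
    rw [e1] at h1 h2
    have h5 : t ^ k * ‖X z‖ ≤ t ^ k * (M * ‖z‖ ^ k + K * ‖z‖ ^ (k + 1) * t) := by
      calc t ^ k * ‖X z‖ ≤ M * (t * ‖z‖) ^ k + K * (t * ‖z‖) ^ (k + 1) := by linarith
        _ = _ := by rw [mul_pow, mul_pow]; ring
    exact le_of_mul_le_mul_left h5 (pow_pos h3 k))
  simpa using this

/-- a homogeneous function of degree `k` which is `O(|z|^(k+1))` vanishes -/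
theorem hom_zero {k : ℕ} {X : E → F} (hX : ∀ (t : ℝ) z, X ((t : ℂ) • z) = ((t : ℂ) ^ k) • X z)
    (h : OO (k + 1) X) (z : E) : X z = 0 := by
  have := hom_bound (H := fun _ => (0 : F)) (M := 0) hX (by simpa using h.neg) (by simp) z
  simpa using this

end

end Crest.Agent.T223.And
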