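import Crest.Agent.T223.AndA_22

/-!
# Row 223, leaf AND (helper22), part B: divergence free homogeneous fields are sums of shears
-/

set_option autoImplicit false
set_option linter.unusedSectionVars false
set_option linter.unusedVariables false

open Set Filter Topology Metric Asymptotics MvPolynomial

namespace Crest.Agent.T223.And

noncomputable section

abbrev En (n : ℕ) : Type := EuclideanSpace ℂ (Fin n)
abbrev Pl (n : ℕ) : Type := MvPolynomial (Fin n) ℂ

variable {n : ℕ}

/-- evaluation of a polynomial -/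
def ev (p : Pl n) (z : En n) : ℂ := MvPolynomial.eval (fun j => z j) p

/-- unit vectors -/
def ee (i : Fin n) : En n := EuclideanSpace.single i 1

@[simp] theorem ev_add (p q : Pl n) (z : En n) : ev (p + q) z = ev p z + ev q z := by simp [ev]
@[simp] theorem ev_sub (p q : Pl n) (z : En n) : ev (p - q) z = ev p z - ev q z := by simp [ev]
@[simp] theorem ev_mul (p q : Pl n) (z : En n) : ev (p * q) z = ev p z * ev q z := by simp [ev]
@[simp] theorem ev_pow (p : Pl n) (k : ℕ) (z : En n) : ev (p ^ k) z = ev p z ^ k := by simp [ev]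
@[simp] theorem ev_C (c : ℂ) (z : En n) : ev (C c : Pl n) z = c := by simp [ev]
@[simp] theorem ev_X (i : Fin n) (z : En n) : ev (X i : Pl n) z = z i := by simp [ev]
@[simp] theorem ev_zero (z : En n) : ev (0 : Pl n) z = 0 := by simp [ev]
@[simp] theorem ev_one (z : En n) : ev (1 : Pl n) z = 1 := by simp [ev]
@[simp] theorem ev_smul (c : ℂ) (p : Pl n) (z : En n) : ev (c • p) z = c * ev p z := by simp [ev]
theorem ev_sum {ι : Type*} (s : Finset ι) (p : ι → Pl n) (z : En n) :
    ev (∑ a ∈ s, p a) z = ∑ a ∈ s, ev (p a) z := by simp [ev]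
theorem ev_prod {ι : Type*} (s : Finset ι) (p : ι → Pl n) (z : En n) :
    ev (∏ a ∈ s, p a) z = ∏ a ∈ s, ev (p a) z := by simp [ev]
theorem ev_monomial (I : Fin n →₀ ℕ) (r : ℂ) (z : En n) :
    ev (monomial I r) z = r * ∏ j, z j ^ I j := by
  simp [ev, eval_monomial, Finsupp.prod_fintype]

theorem ev_ext {p : Pl n} (h : ∀ z, ev p z = 0) : p = 0 := by
  refine MvPolynomial.funext fun x => ?_
  simpa [ev] using h (WithLp.toLp 2 x)

theorem ev_monomial_inv (I : Fin n →₀ ℕ) (r : ℂ) (z w : En n) (h : ∀ j, I j ≠ 0 → w j = 0) :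
    ev (monomial I r) (z + w) = ev (monomial I r) z := by
  rw [ev_monomial, ev_monomial]
  congr 1
  refine Finset.prod_congr rfl fun j _ => ?_
  by_cases hj : I j = 0
  · simp [hj]
  · simp [h j hj]

theorem deg_of_wt {d : Fin n →₀ ℕ} {k : ℕ} (h : Finsupp.weight (1 : Fin n → ℕ) d = k) :
    d.degree = k := by
  rw [Finsupp.degree_eq_weight_one]; exact h

theorem ev_hom {p : Pl n} {k : ℕ} (hp : p.IsHomogeneous k) (t : ℂ) (z : En n) :
    ev p (t • z) = t ^ k * ev p z := by
  induction hp using IsWeightedHomogeneous.induction_on with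
  | zero => simp
  | add p q hp hq h1 h2 => simp [h1, h2, mul_add]
  | monomial d r hr =>
    replace hr := deg_of_wt hr
    rw [ev_monomial, ev_monomial, ← hr, Finsupp.degree_eq_sum]
    simp [mul_pow, Finset.prod_mul_distrib, Finset.prod_pow_eq_pow_sum]
    ring

theorem ev_bound {p : Pl n} {k : ℕ} (hp : p.IsHomogeneous k) :
    ∃ K : ℝ, 0 ≤ K ∧ ∀ z, ‖ev p z‖ ≤ K * ‖z‖ ^ k := by
  induction hp using IsWeightedHomogeneous.induction_on with
  | zero => exact ⟨0, le_rfl, by simp⟩
  | add p q hp hq h1 h2 =>
    obtain ⟨K, hK, h1⟩ := h1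
    obtain ⟨L, hL, h2⟩ := h2
    refine ⟨K + L, by positivity, fun z => ?_⟩
    rw [ev_add, add_mul]
    exact (norm_add_le _ _).trans (add_le_add (h1 z) (h2 z))
  | monomial d r hr =>
    replace hr := deg_of_wt hr
    refine ⟨‖r‖, norm_nonneg _, fun z => ?_⟩
    rw [ev_monomial, norm_mul, ← hr, Finsupp.degree_eq_sum, ← Finset.prod_pow_eq_pow_sum,
      norm_prod]
    gcongr with j
    rw [norm_pow]
    gcongr
    exact PiLp.norm_apply_le z j

/-- coordinate functionals -/
def pr (i : Fin n) : En n →L[ℂ] ℂ := EuclideanSpace.proj i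

@[simp] theorem pr_apply (i : Fin n) (v : En n) : pr i v = v i := rfl

theorem ev_hasFDerivAt (p : Pl n) (z : En n) :
    HasFDerivAt (ev p) (∑ i, ev (pderiv i p) z • pr i) z := by
  induction p using MvPolynomial.induction_on with
  | C a =>
    have : ev (C a : Pl n) = fun _ => a := by ext z; simp
    rw [this]
    refine (hasFDerivAt_const a z).congr_fderiv ?_
    ext v
    simp
  | add p q hp hq =>
    have : ev (p + q) = ev p + ev q := by ext z; simp
    rw [this]
    refine (hp.add hq).congr_fderiv ?_
    ext v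
    simp [add_mul, Finset.sum_add_distrib]
  | mul_X p i hp =>
    have : ev (p * X i) = ev p * (pr i : En n → ℂ) := by
      ext z; simp
    rw [this]
    refine (hp.mul (pr i).hasFDerivAt).congr_fderiv ?_
    ext v
    simp only [Derivation.leibniz, smul_eq_mul, ev_add, ev_mul, ev_X, pderiv_X,
      sum_apply, smul_apply, add_apply,
      add_mul, Finset.sum_add_distrib, Finset.mul_sum, pr_apply]
    congr 1
    · rw [Finset.sum_eq_single i]
      · simp
      · intro j _ hj
        simp [hj.symm]
      · simp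
    · exact Finset.sum_congr rfl fun j _ => by ring

theorem ev_differentiable (p : Pl n) : Differentiable ℂ (ev p) :=
  fun z => (ev_hasFDerivAt p z).differentiableAt

/-- the field `p e_i` -/
def fld (i : Fin n) : Pl n →ₗ[ℂ] (En n → En n) where
  toFun p := fun z => ev p z • ee i
  map_add' p q := by ext1 z; simp [add_smul]
  map_smul' c p := by ext1 z; simp [mul_smul]

theorem fld_apply (i : Fin n) (p : Pl n) (z : En n) : fld i p z = ev p z • ee i := rfl

/-- shear fields of degree `k` -/
def Sh (n k : ℕ) : Set (En n → En n) :=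
  {σ | ∃ (p : Pl n) (v : En n), p.IsHomogeneous k ∧ (∀ z (t : ℂ), ev p (z + t • v) = ev p z) ∧
    σ = fun z => ev p z • v}

theorem coeff_extract {M : ℕ} {A B : ℕ → ℂ}
    (h : ∀ l : ℂ, ∑ s ∈ Finset.range M, l ^ (s + 1) * A s - ∑ s ∈ Finset.range M, l ^ s * B s = 0)
    {b : ℕ} (hb : b + 1 < M) : A b = B (b + 1) := by
  have hp : (∑ s ∈ Finset.range M, Polynomial.monomial (s + 1) (A s) -
      ∑ s ∈ Finset.range M, Polynomial.monomial s (B s) : Polynomial ℂ) = 0 := by
    refine Polynomial.funext fun l => ?_
    simpa [Polynomial.eval_finsetSum, mul_comm] using h l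
  have := congrArg (fun p => Polynomial.coeff p (b + 1)) hp
  simp only [Polynomial.coeff_sub, Polynomial.finsetSum_coeff, Polynomial.coeff_monomial,
    Polynomial.coeff_zero, add_left_inj, Finset.sum_ite_eq', Finset.mem_range] at this
  rw [if_pos (by omega), if_pos hb] at this
  exact sub_eq_zero.1 this

section span

variable {k : ℕ} {φ : (En n → En n) →ₗ[ℂ] ℂ}

theorem phi_shear (hφ : ∀ σ ∈ Sh n k, φ σ = 0) {I : Fin n →₀ ℕ} {i : Fin n} (hI : I.degree = k)
    (hi : I i = 0) : φ (fld i (monomial I 1)) = 0 := by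
  refine hφ _ ⟨monomial I 1, ee i, isHomogeneous_monomial _ hI, fun z t => ?_, rfl⟩
  refine ev_monomial_inv _ _ _ _ fun j hj => ?_
  have : j ≠ i := fun e => hj (e ▸ hi)
  simp [ee, this]

theorem phi_ham (hφ : ∀ σ ∈ Sh n k, φ σ = 0) {J : Fin n →₀ ℕ} {i l : Fin n} (hil : i ≠ l)
    (hJ : J.degree + 1 = k) :
    φ (fld i (monomial (J + Finsupp.single i 1) 1)) * (J l + 1) =
      φ (fld l (monomial (J + Finsupp.single l 1) 1)) * (J i + 1) := by
  set a := J i with ha
  set b := J l with hb
  set J' := (J.erase i).erase l with hJ'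
  have hJi : J' i = 0 := by simp [hJ', Finsupp.erase_apply]
  have hJl : J' l = 0 := by simp [hJ']
  have hdec : J = J' + Finsupp.single i a + Finsupp.single l b := by
    ext j
    by_cases h1 : j = i
    · subst h1; simp [hJi, ha, hil.symm]
    · by_cases h2 : j = l
      · subst h2; simp [hJl, hb, hil]
      · simp [hJ', h1, h2]
  have hdeg : J'.degree + (a + b + 1) = k := by
    rw [← hJ]
    conv_rhs => rw [hdec]
    simp only [map_add, Finsupp.degree_single]
    ring
  set N := a + b + 1 with hN
  set m : ℕ → Pl n := fun s => monomial J' 1 * X l ^ s * X i ^ (N - s) with hm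
  have hq : ∀ c : ℂ, monomial J' 1 * (C c * X l + X i : Pl n) ^ N =
      ∑ s ∈ Finset.range (N + 1), (c ^ s * (N.choose s : ℂ)) • m s := by
    intro c
    rw [add_pow, Finset.mul_sum]
    refine Finset.sum_congr rfl fun s _ => ?_
    simp only [hm, smul_eq_C_mul, map_mul, map_pow, map_natCast, mul_pow]
    ring
  have key : ∀ c : ℂ,
      ∑ s ∈ Finset.range (N + 1), c ^ (s + 1) * ((N.choose s : ℂ) * φ (fld i (m s))) -
      ∑ s ∈ Finset.range (N + 1), c ^ s * ((N.choose s : ℂ) * φ (fld l (m s))) = 0 := by
    intro c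
    have h1 := hφ _ ⟨monomial J' 1 * (C c * X l + X i : Pl n) ^ N, c • ee i - ee l, ?_, ?_, rfl⟩
    · have h2 : (fun z => ev (monomial J' 1 * (C c * X l + X i : Pl n) ^ N) z • (c • ee i - ee l))
          = c • fld i (monomial J' 1 * (C c * X l + X i : Pl n) ^ N) -
            fld l (monomial J' 1 * (C c * X l + X i : Pl n) ^ N) := by
        ext1 z
        simp only [Pi.sub_apply, Pi.smul_apply, fld_apply, smul_sub]
        rw [smul_comm]
      rw [h2, hq] at h1
      simp only [map_sub, map_smul, map_sum, smul_eq_mul, Finset.mul_sum] at h1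
      rw [← h1]
      congr 1
      · exact Finset.sum_congr rfl fun s _ => by ring
      · exact Finset.sum_congr rfl fun s _ => by ring
    · rw [← hdeg]
      refine (isHomogeneous_monomial _ rfl).mul ?_
      simpa using ((isHomogeneous_C_mul_X c l).add (isHomogeneous_X ℂ i)).pow N
    · intro z t
      rw [ev_mul, ev_mul, ev_monomial_inv]
      · congr 1
        simp only [ev_pow, ev_add, ev_mul, ev_C, ev_X]
        congr 1
        simp [ee, hil, hil.symm]
        ring
      · intro j hj
        have h1 : j ≠ i := fun e => hj (e ▸ hJi)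
        have h2 : j ≠ l := fun e => hj (e ▸ hJl)
        simp [ee, h1, h2]
  have h3 := coeff_extract key (b := b) (by omega)
  have e1 : m b = monomial (J + Finsupp.single i 1) 1 := by
    simp only [hm, X_pow_eq_monomial, monomial_mul, mul_one]
    congr 2
    rw [hdec, show N - b = a + 1 by omega, Finsupp.single_add]
    abel
  have e2 : m (b + 1) = monomial (J + Finsupp.single l 1) 1 := by
    simp only [hm, X_pow_eq_monomial, monomial_mul, mul_one]
    congr 2
    rw [hdec, show N - (b + 1) = a by omega, Finsupp.single_add]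
    abel
  rw [e1, e2] at h3
  have h4 : (N.choose (b + 1) : ℂ) * (b + 1) = N.choose b * (a + 1) := by
    have := Nat.choose_succ_right_eq N b
    rw [show N - b = a + 1 by omega] at this
    exact_mod_cast this
  have h5 : (N.choose b : ℂ) ≠ 0 := by
    exact_mod_cast (Nat.choose_pos (by omega : b ≤ N)).ne'
  refine mul_left_cancel₀ h5 ?_
  linear_combination (b + 1) * h3 + φ (fld l (monomial (J + Finsupp.single l 1) 1)) * h4

/-- Andersén: divergence free homogeneous fields are combinations of shear fields -/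
theorem mem_span_Sh {P : Fin n → Pl n} (hP : ∀ i, (P i).IsHomogeneous k)
    (hdiv : ∑ i, pderiv i (P i) = 0) : ∑ i, fld i (P i) ∈ Submodule.span ℂ (Sh n k) := by
  by_contra hc
  obtain ⟨φ, h1, h2⟩ := Submodule.exists_le_ker_of_notMem hc
  have hφ : ∀ σ ∈ Sh n k, φ σ = 0 := fun σ hσ => h2 (Submodule.subset_span hσ)
  apply h1
  rcases isEmpty_or_nonempty (Fin n) with hn | ⟨⟨i0⟩⟩
  · simp
  set τ : (Fin n →₀ ℕ) → ℂ :=
    fun J => φ (fld i0 (monomial (J + Finsupp.single i0 1) 1)) / (J i0 + 1) with hτ
  set Λ : Pl n →ₗ[ℂ] ℂ := (basisMonomials (Fin n) ℂ).constr ℂ τ with hΛ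
  have hΛm : ∀ J r, Λ (monomial J r) = r * τ J := by
    intro J r
    have : (monomial J r : Pl n) = r • basisMonomials (Fin n) ℂ J := by
      simp [smul_monomial]
    rw [this, map_smul, hΛ, Module.Basis.constr_basis, smul_eq_mul]
  have key : ∀ i (p : Pl n), p.IsHomogeneous k → φ (fld i p) = Λ (pderiv i p) := by
    intro i p hp
    induction hp using IsWeightedHomogeneous.induction_on with
    | zero => simp
    | add p q hp hq h1 h2 => simp [h1, h2]
    | monomial I r hr =>
      replace hr := deg_of_wt hr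
      have e0 : (monomial I r : Pl n) = r • monomial I 1 := by simp [smul_monomial]
      rw [pderiv_monomial, hΛm, e0, map_smul, map_smul, smul_eq_mul]
      by_cases hi : I i = 0
      · rw [phi_shear hφ hr hi, hi]; simp
      · set J := I - Finsupp.single i 1 with hJ
        have hI : I = J + Finsupp.single i 1 := by
          rw [hJ, tsub_add_cancel_of_le]
          rw [Finsupp.single_le_iff]; omega
        have hIi : (I i : ℂ) = J i + 1 := by rw [hI]; simp
        have hd : J.degree + 1 = k := by rw [← hr, hI]; simp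
        have hne : ∀ j, (J j : ℂ) + 1 ≠ 0 := fun j => Nat.cast_add_one_ne_zero _
        rw [hIi, mul_assoc]
        congr 1
        rw [hτ]
        by_cases hii : i = i0
        · subst hii
          simp only [← hI]
          field_simp [hne i]
        · have := phi_ham hφ hii hd
          rw [← hI] at this
          simp only
          rw [mul_div_assoc', eq_div_iff (hne i0), this]
          ring
  rw [map_sum, Finset.sum_congr rfl fun i _ => key i (P i) (hP i), ← map_sum, hdiv, map_zero]

theorem sum_ee (v : En n) : ∑ i, v i • ee i = v := by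
  ext j
  simp [ee, Pi.single_apply]

theorem fg_Sh (n k : ℕ) : (Submodule.span ℂ (Sh n k)).FG := by
  have h1 : (⨆ i : Fin n, (homogeneousSubmodule (Fin n) ℂ k).map (fld i)).FG :=
    Submodule.fg_iSup _ fun i => (homogeneousSubmodule_fg (Fin n) ℂ k).map _
  have h2 : Submodule.span ℂ (Sh n k) ≤
      ⨆ i : Fin n, (homogeneousSubmodule (Fin n) ℂ k).map (fld i) := by
    rw [Submodule.span_le]
    rintro σ ⟨p, v, hp, -, rfl⟩
    have : (fun z => ev p z • v) = ∑ i, v i • fld i p := by
      ext1 z
      conv_lhs => rw [← sum_ee v]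
      simp only [Finset.smul_sum, Finset.sum_apply, Pi.smul_apply, fld_apply]
      exact Finset.sum_congr rfl fun i _ => smul_comm _ _ _
    rw [this]
    refine Submodule.sum_mem _ fun i _ => Submodule.smul_mem _ _ ?_
    exact Submodule.mem_iSup_of_mem i ⟨p, hp, rfl⟩
  have := (Submodule.fg_iff_finiteDimensional _).1 h1
  exact (Submodule.fg_iff_finiteDimensional _).2 (Submodule.finiteDimensional_of_le h2)

end span

end

end Crest.Agent.T223.And
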