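import Crest.Agent.T223.AndB_22

/-!
# Row 223, leaf AND (helper22), part C: determinant expansion, leading terms, coefficients
-/

set_option autoImplicit false
set_option linter.unusedSectionVars false
set_option linter.unusedVariables false

open Set Filter Topology Metric Asymptotics MvPolynomial

namespace Crest.Agent.T223.And

noncomputable section

variable {n : ℕ}

/-- trace -/
def trE : (En n →L[ℂ] En n) →L[ℂ] ℂ :=
  ∑ i, (pr i).comp (ContinuousLinearMap.apply ℂ (En n) (ee i))

theorem trE_apply (A : En n →L[ℂ] En n) : trE A = ∑ i, A (ee i) i := by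
  simp [trE]

/-- matrix of a linear map -/
def mt (A : En n →L[ℂ] En n) : Matrix (Fin n) (Fin n) ℂ := Matrix.of fun i j => A (ee j) i

theorem det_mt (A : En n →L[ℂ] En n) : A.det = (mt A).det := by
  rw [ContinuousLinearMap.det,
    ← LinearMap.det_toMatrix (EuclideanSpace.basisFun (Fin n) ℂ).toBasis]
  congr 1

theorem differentiable_det : Differentiable ℂ (fun A : En n →L[ℂ] En n => A.det) := by
  simp only [det_mt, Matrix.det_apply, mt, Matrix.of_apply]
  refine Differentiable.fun_sum fun σ _ => Differentiable.const_smul ?_ _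
  have h : ∀ i : Fin n, Differentiable ℂ (fun A : En n →L[ℂ] En n => A (ee i) (σ i)) := fun i =>
    ((pr (σ i)).comp (ContinuousLinearMap.apply ℂ (En n) (ee i))).differentiable
  intro A
  exact (HasFDerivAt.finsetProd (u := Finset.univ)
    (fun i _ => (h i A).hasFDerivAt)).differentiableAt

theorem oo_det : OO 2 (fun Y : En n →L[ℂ] En n => (1 + Y).det - 1 - trE Y) := by
  set H : (En n →L[ℂ] En n) → ℂ := fun Y => (1 + Y).det - 1 - trE Y with hH
  have hd : Differentiable ℂ H :=
    ((differentiable_det.comp (by fun_prop)).sub_const 1).sub trE.differentiable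
  have h0 : H 0 = 0 := by simp [hH, ContinuousLinearMap.det]
  have hD : fderiv ℂ H 0 = 0 := by
    ext1 Y
    have h1 : HasDerivAt (fun t : ℂ => H (t • Y)) (fderiv ℂ H 0 Y) 0 := by
      have a : HasDerivAt (fun t : ℂ => t • Y) Y 0 := by
        simpa using (hasDerivAt_id (0 : ℂ)).smul_const Y
      have b : HasFDerivAt H (fderiv ℂ H 0) ((0 : ℂ) • Y) := by
        have : (0 : ℂ) • Y = 0 := by ext; simp
        rw [this]; exact (hd 0).hasFDerivAt
      exact b.comp_hasDerivAt (0 : ℂ) a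
    set q : Polynomial ℂ :=
      (Matrix.det (1 + (Polynomial.X : Polynomial ℂ) • (mt Y).map Polynomial.C)).divX.divX
    have h2 : (fun t : ℂ => H (t • Y)) = fun t => q.eval t * t ^ 2 := by
      ext t
      have e : mt (1 + t • Y) = 1 + t • mt Y := by
        ext i j
        simp [mt, ee, Matrix.one_apply]
      have e2 : trE (t • Y) = (mt Y).trace * t := by
        simp [trE_apply, Matrix.trace, mt, mul_comm]
      simp only [hH, det_mt, e, e2]
      rw [Matrix.det_one_add_smul]
      ring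
    have h3 : HasDerivAt (fun t : ℂ => q.eval t * t ^ 2) 0 0 := by
      have := (q.hasDerivAt 0).fun_mul (hasDerivAt_pow 2 (0 : ℂ))
      simpa using this
    rw [h2] at h1
    simpa using h1.unique h3
  have h1 : OO 1 (fderiv ℂ H) := by
    refine oo_one_of_diff ?_ hD
    exact (Crest.Agent.R266.SCV.analyticAt_of_eventually_differentiableAt
      (Eventually.of_forall hd)).fderiv.differentiableAt
  have := OO.comp_sub (l := 1) (S := fun Y => Y) (T := fun _ => 0) h1 (Eventually.of_forall hd)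
    oo_id (oo_of_bound (K := 0) (by simp)) (by simpa using oo_id)
  simpa [h0] using this

theorem OO.comp_two {E F G : Type*} [NormedAddCommGroup E] [NormedSpace ℂ E]
    [NormedAddCommGroup F] [NormedSpace ℂ F] [NormedAddCommGroup G] [NormedSpace ℂ G] {d : ℕ}
    {H : F → G} {B : E → F} (h : OO 2 H) (b : OO (d + 1) B) : OO (d + 2) (fun z => H (B z)) := by
  obtain ⟨K, hK, h⟩ := h.bound
  obtain ⟨L, hL, b1⟩ := b.bound
  obtain ⟨L', hL', b2⟩ := (b.mono (by omega : 1 ≤ d + 1)).bound
  refine oo_of_bound (K := K * L * L') ?_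
  filter_upwards [b.tendsto.eventually h, b1, b2] with z h1 h2 h3
  calc ‖H (B z)‖ ≤ K * (‖B z‖ * ‖B z‖) := by rw [← pow_two]; exact h1
    _ ≤ K * (L * ‖z‖ ^ (d + 1) * (L' * ‖z‖ ^ 1)) := by gcongr
    _ = _ := by ring

/-- the diagonal of a multilinear map is a polynomial field -/
theorem diag_poly {k : ℕ} (p : ContinuousMultilinearMap ℂ (fun _ : Fin k => En n) (En n)) :
    ∃ P : Fin n → Pl n, (∀ i, (P i).IsHomogeneous k) ∧
      (fun z => p (fun _ => z)) = ∑ i, fld i (P i) := by
  refine ⟨fun i => ∑ f : Fin k → Fin n, C (p (fun j => ee (f j)) i) * ∏ j, X (f j), fun i => ?_, ?_⟩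
  · refine IsHomogeneous.sum _ _ _ fun f _ => IsHomogeneous.C_mul ?_ _
    have := IsHomogeneous.prod (Finset.univ : Finset (Fin k)) (fun j => (X (f j) : Pl n))
      (fun _ => 1) (fun j _ => isHomogeneous_X ℂ (f j))
    simpa using this
  · ext1 z
    have h1 : p (fun _ => z) = ∑ f : Fin k → Fin n, (∏ j, z (f j)) • p (fun j => ee (f j)) := by
      conv_lhs => rw [← sum_ee z]
      rw [p.map_sum (fun _ i => z i • ee i)]
      exact Finset.sum_congr rfl fun f _ => p.map_smul_univ _ _
    rw [← sum_ee (p fun _ => z), Finset.sum_apply]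
    refine Finset.sum_congr rfl fun i _ => ?_
    rw [fld_apply, h1, ev_sum]
    congr 1
    simp [ev_prod, mul_comm]

theorem fld_sum_hasFDerivAt (P : Fin n → Pl n) (z : En n) :
    HasFDerivAt (∑ i, fld i (P i))
      (∑ i, (∑ j, ev (pderiv j (P i)) z • pr j).smulRight (ee i)) z :=
  HasFDerivAt.sum fun i _ => (ev_hasFDerivAt (P i) z).smul_const (ee i)

theorem trE_fld (P : Fin n → Pl n) (z : En n) :
    trE (fderiv ℂ (∑ i, fld i (P i)) z) = ev (∑ i, pderiv i (P i)) z := by
  rw [(fld_sum_hasFDerivAt P z).fderiv, trE_apply, ev_sum]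
  refine Finset.sum_congr rfl fun a _ => ?_
  simp [ee, Pi.single_apply]

theorem fld_sum_hom {k : ℕ} {P : Fin n → Pl n} (hP : ∀ i, (P i).IsHomogeneous k) (t : ℂ)
    (z : En n) : (∑ i, fld i (P i)) (t • z) = t ^ k • (∑ i, fld i (P i)) z := by
  simp only [Finset.sum_apply, fld_apply, ev_hom (hP _), Finset.smul_sum, mul_smul]

theorem Sh.differentiable {k : ℕ} {σ : En n → En n} (h : σ ∈ Sh n k) : Differentiable ℂ σ := by
  obtain ⟨p, v, -, -, rfl⟩ := h
  exact (ev_differentiable p).smul_const v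

theorem exists_preimage {V W : Type*} [NormedAddCommGroup V] [NormedSpace ℂ V]
    [FiniteDimensional ℂ V] [NormedAddCommGroup W] [NormedSpace ℂ W] (T : V →ₗ[ℂ] W) :
    ∃ B : ℝ, 0 < B ∧ ∀ x, ∃ x', T x' = T x ∧ ‖x'‖ ≤ B * ‖T x‖ := by
  have : CompleteSpace (LinearMap.range T) := FiniteDimensional.complete ℂ _
  have : CompleteSpace V := FiniteDimensional.complete ℂ _
  obtain ⟨B, hB, hpre⟩ := ContinuousLinearMap.exists_preimage_norm_le
    (LinearMap.toContinuousLinearMap T.rangeRestrict) T.surjective_rangeRestrict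
  refine ⟨B, hB, fun x => ?_⟩
  obtain ⟨c, hc1, hc2⟩ := hpre (T.rangeRestrict x)
  exact ⟨c, congrArg Subtype.val hc1, hc2⟩

/-- bounded coefficients with respect to a finite family of shear fields -/
theorem coef_bound (n k : ℕ) : ∃ (s : Finset (En n → En n)) (B : ℝ), 0 ≤ B ∧ (∀ σ ∈ s, σ ∈ Sh n k) ∧
    ∀ Y ∈ Submodule.span ℂ (Sh n k), ∀ M : ℝ, 0 ≤ M → (∀ z : En n, ‖z‖ ≤ 1 → ‖Y z‖ ≤ M) →
      ∃ c : (En n → En n) → ℂ, (∀ σ, ‖c σ‖ ≤ B * M) ∧
        ∀ z : En n, ‖z‖ ≤ 1 → Y z = ∑ σ ∈ s, c σ • σ z := by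
  classical
  obtain ⟨s, hs, hsp⟩ := (Submodule.fg_span_iff_fg_span_finset_subset _).1 (fg_Sh n k)
  have : CompactSpace (closedBall (0 : En n) 1) :=
    isCompact_iff_compactSpace.1 (isCompact_closedBall _ _)
  let r : s → C(closedBall (0 : En n) 1, En n) := fun σ =>
    ⟨fun z => σ.1 z.1, (Sh.differentiable (hs σ.2)).continuous.comp continuous_subtype_val⟩
  let T : (s → ℂ) →ₗ[ℂ] C(closedBall (0 : En n) 1, En n) := Fintype.linearCombination ℂ r
  have hT : ∀ (c : s → ℂ) (z : closedBall (0 : En n) 1), T c z = ∑ σ : s, c σ • σ.1 z.1 := by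
    intro c z
    simp [T, r, Fintype.linearCombination_apply]
  obtain ⟨B, hB, hpre⟩ := exists_preimage (W := C(closedBall (0 : En n) 1, En n)) T
  refine ⟨s, B, hB.le, hs, fun Y hY M hM hYM => ?_⟩
  rw [hsp, Submodule.mem_span_finset] at hY
  obtain ⟨c0, -, rfl⟩ := hY
  obtain ⟨c, hc1', hc2⟩ := hpre (fun σ => c0 σ.1)
  have hY : ∀ z : closedBall (0 : En n) 1,
      T (fun σ => c0 σ.1) z = (∑ σ ∈ s, c0 σ • σ) z.1 := by
    intro z
    rw [hT, Finset.sum_apply, Finset.sum_coe_sort s (fun σ => c0 σ • σ z.1)]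
    rfl
  have hn : ‖T fun σ => c0 σ.1‖ ≤ M := by
    rw [ContinuousMap.norm_le _ hM]
    intro z
    rw [hY]
    exact hYM _ (mem_closedBall_zero_iff.1 z.2)
  refine ⟨fun σ => if h : σ ∈ s then c ⟨σ, h⟩ else 0, fun σ => ?_, fun z hz => ?_⟩
  · by_cases h : σ ∈ s
    · simp only [h, dif_pos]
      exact (norm_le_pi_norm c _).trans (hc2.trans (by gcongr))
    · simp only [h, dif_neg, not_false_iff, norm_zero]
      positivity
  · have := hY ⟨z, by simpa using hz⟩
    rw [← this, ← hc1', hT, ← Finset.sum_coe_sort s]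
    refine Finset.sum_congr rfl fun σ _ => ?_
    simp

end

end Crest.Agent.T223.And
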