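import Crest.Agent.T223.BrDef_13

/-!
# Row 223 (S0345), bridge, part 1 (helper13): linear algebra of the induced hermitian metric

For a real linear map `A : ℂⁿ → E`: `pr A X v = ⟪X, A v⟫ + i ⟪X, A (i v)⟫`, `gL A a b = pr A (A e_a) e_b`.
-/

set_option autoImplicit false

open Set Filter Topology Complex
open scoped ContDiff Matrix ComplexConjugate RealInnerProductSpace ComplexOrder

namespace Crest.Agent.T223.Br

open Crest.Agent.R275.Geo Crest.Agent.R275.EDR890 Crest.Agent.R273.Ric_798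

noncomputable section

variable {n : ℕ}

/-- the unit vectors of `ℂⁿ` -/
abbrev ee (a : Fin n) : Cn n := EuclideanSpace.single a (1 : ℂ)

theorem eq_sum_ee (v : Cn n) : v = ∑ a, v a • ee a := by
  ext b
  simp [Finset.sum_apply, Pi.single_apply]

theorem single_I (a : Fin n) : (EuclideanSpace.single a I : Cn n) = I • ee a := by
  ext c
  simp

theorem II_smul (v : Cn n) : I • I • v = -v := by
  rw [smul_smul, I_mul_I, neg_smul, one_smul]

theorem csmul_eq (c : ℂ) (v : Cn n) : c • v = c.re • v + c.im • (I • v) := by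
  ext a
  simp only [PiLp.smul_apply, PiLp.add_apply, smul_eq_mul, real_smul]
  conv_lhs => rw [← re_add_im c]
  ring

theorem map_sum_of_add {φ : Cn n → ℂ} (ha : ∀ u v, φ (u + v) = φ u + φ v) (f : Fin n → Cn n) :
    φ (∑ a, f a) = ∑ a, φ (f a) :=
  map_sum (AddMonoidHom.mk' φ ha) f Finset.univ

theorem sum_lin {φ : Cn n → ℂ} (ha : ∀ u v, φ (u + v) = φ u + φ v)
    (hs : ∀ (c : ℝ) v, φ (c • v) = c * φ v) (hI : ∀ v, φ (I • v) = I * φ v) (v : Cn n) :
    φ v = ∑ a, v a * φ (ee a) := by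
  conv_lhs => rw [eq_sum_ee v]
  rw [map_sum_of_add ha]
  refine Finset.sum_congr rfl fun a _ => ?_
  rw [csmul_eq, ha, hs, hs, hI]
  conv_rhs => rw [← re_add_im (v a)]
  ring

theorem sum_anti {φ : Cn n → ℂ} (ha : ∀ u v, φ (u + v) = φ u + φ v)
    (hs : ∀ (c : ℝ) v, φ (c • v) = c * φ v) (hI : ∀ v, φ (I • v) = -I * φ v) (v : Cn n) :
    φ v = ∑ a, conj (v a) * φ (ee a) := by
  conv_lhs => rw [eq_sum_ee v]
  rw [map_sum_of_add ha]
  refine Finset.sum_congr rfl fun a _ => ?_
  rw [csmul_eq, ha, hs, hs, hI]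
  conv_rhs => rw [← re_add_im (v a)]
  simp only [map_add, map_mul, conj_ofReal, conj_I]
  ring

variable {E : Type} [NormedAddCommGroup E] [InnerProductSpace ℝ E]

/-- the pairing of an ambient vector with a tangent vector, conjugate linear in the latter -/
def pr (A : Cn n →L[ℝ] E) (X : E) (v : Cn n) : ℂ :=
  ((⟪X, A v⟫ : ℝ) : ℂ) + I * ((⟪X, A (I • v)⟫ : ℝ) : ℂ)

/-- the hermitian matrix induced by `A` -/
def gL (A : Cn n →L[ℝ] E) : Matrix (Fin n) (Fin n) ℂ :=
  Matrix.of fun a b => pr A (A (ee a)) (ee b)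

/-- multiplication by `i` is orthogonal for the induced metric -/
def Orth (A : Cn n →L[ℝ] E) : Prop := ∀ u v, ⟪A (I • u), A (I • v)⟫ = ⟪A u, A v⟫

variable {A : Cn n →L[ℝ] E}

theorem pr_re (X : E) (v : Cn n) : (pr A X v).re = ⟪X, A v⟫ := by simp [pr]

theorem pr_im (X : E) (v : Cn n) : (pr A X v).im = ⟪X, A (I • v)⟫ := by simp [pr]

theorem pr_add_left (X Y : E) (v : Cn n) : pr A (X + Y) v = pr A X v + pr A Y v := by
  simp only [pr, inner_add_left, ofReal_add]
  ring

theorem pr_smul_left (c : ℝ) (X : E) (v : Cn n) : pr A (c • X) v = c * pr A X v := by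
  simp only [pr, real_inner_smul_left, ofReal_mul]
  ring

theorem pr_sum (X : E) (v : Cn n) : pr A X v = ∑ b, conj (v b) * pr A X (ee b) := by
  refine sum_anti (φ := pr A X) (fun u v => ?_) (fun c v => ?_) (fun v => ?_) v
  · simp only [pr, smul_add, map_add, inner_add_right, ofReal_add]
    ring
  · rw [pr, pr, smul_comm I c v, map_smul, map_smul, real_inner_smul_right, real_inner_smul_right]
    push_cast
    ring
  · rw [pr, pr, II_smul, map_neg, inner_neg_right]
    push_cast
    linear_combination ((⟪X, A (I • v)⟫ : ℝ) : ℂ) * I_mul_I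

theorem Orth.skew (h : Orth A) (u v : Cn n) : ⟪A (I • u), A v⟫ = -⟪A u, A (I • v)⟫ := by
  rw [← h (I • u) v, II_smul, map_neg, inner_neg_left]

theorem Orth.self (h : Orth A) (u : Cn n) : ⟪A u, A (I • u)⟫ = 0 := by
  have h1 := h.skew u u
  rw [real_inner_comm] at h1
  linarith

theorem Orth.pr_I (h : Orth A) (u v : Cn n) : pr A (A (I • u)) v = I * pr A (A u) v := by
  rw [pr, pr, h u v, h.skew]
  push_cast
  linear_combination (-(⟪A u, A (I • v)⟫ : ℝ) : ℂ) * I_mul_I

theorem Orth.pr_sum_left (h : Orth A) (u v : Cn n) :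
    pr A (A u) v = ∑ a, u a * pr A (A (ee a)) v :=
  sum_lin (φ := fun u => pr A (A u) v) (fun u u' => by simp only [map_add, pr_add_left])
    (fun c u => by simp only [map_smul, pr_smul_left]) (fun u => h.pr_I u v) u

theorem Orth.pr_eq (h : Orth A) (u v : Cn n) :
    pr A (A u) v = ∑ a, ∑ b, u a * conj (v b) * gL A a b := by
  rw [h.pr_sum_left]
  refine Finset.sum_congr rfl fun a _ => ?_
  rw [pr_sum, Finset.mul_sum]
  refine Finset.sum_congr rfl fun b _ => ?_
  simp only [gL, Matrix.of_apply]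
  ring

theorem Orth.pr_conj (h : Orth A) (u v : Cn n) : conj (pr A (A u) v) = pr A (A v) u := by
  have h1 : ⟪A v, A (I • u)⟫ = -⟪A u, A (I • v)⟫ := by rw [real_inner_comm, h.skew]
  rw [pr, pr, h1, real_inner_comm (A u) (A v)]
  simp only [map_add, map_mul, conj_ofReal, conj_I]
  push_cast
  ring

theorem Orth.pr_self (h : Orth A) (u : Cn n) : pr A (A u) u = ((‖A u‖ ^ 2 : ℝ) : ℂ) := by
  rw [pr, h.self, real_inner_self_eq_norm_sq]
  simp

theorem Orth.posDef (h : Orth A) (hA : Function.Injective A) : (gL A).PosDef := by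
  refine Matrix.PosDef.of_dotProduct_mulVec_pos ?_ ?_
  · ext a b
    simp only [Matrix.conjTranspose_apply, gL, Matrix.of_apply]
    exact h.pr_conj _ _
  · intro x hx
    set u : Cn n := WithLp.toLp 2 (star x) with hu
    have h1 : star x ⬝ᵥ (gL A).mulVec x = pr A (A u) u := by
      rw [h.pr_eq]
      simp only [dotProduct, Matrix.mulVec, Finset.mul_sum, hu, Pi.star_apply, RCLike.star_def,
        conj_conj]
      refine Finset.sum_congr rfl fun a _ => Finset.sum_congr rfl fun b _ => ?_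
      ring
    rw [h1, h.pr_self]
    have h2 : A u ≠ 0 := by
      intro h0
      have h3 : u = 0 := hA (by rw [h0, map_zero])
      apply hx
      have h4 : star x = 0 := (WithLp.toLp_eq_zero 2).1 h3
      simpa using h4
    have h5 : 0 < ‖A u‖ ^ 2 := by positivity
    exact_mod_cast h5

/-- the real metric of the transposed matrix is the induced one -/
theorem Orth.G_eq (h : Orth A) {K : Cn n → Matrix (Fin n) (Fin n) ℂ} {z : Cn n}
    (hK : K z = (gL A)ᵀ) (u v : Cn n) : G K z u v = ⟪A u, A v⟫ := by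
  rw [← pr_re, h.pr_eq, G, hK]
  congr 1
  simp only [dotProduct, Matrix.mulVec, Finset.mul_sum, Pi.star_apply, RCLike.star_def,
    Matrix.transpose_apply]
  rw [Finset.sum_comm]
  refine Finset.sum_congr rfl fun a _ => Finset.sum_congr rfl fun b _ => ?_
  ring

/-- transformation law -/
theorem gL_tr {A' : Cn n →L[ℝ] E} (h : Orth A') (T : Cn n →L[ℂ] Cn n) (hT : ∀ u, A u = A' (T u))
    (Jm : Matrix (Fin n) (Fin n) ℂ) (hJ : ∀ b a, Jm b a = T (ee a) b) :
    gL A = Jmᵀ * gL A' * Jm.map conj := by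
  ext a b
  have h1 : gL A a b = pr A' (A' (T (ee a))) (T (ee b)) := by
    simp only [gL, Matrix.of_apply, pr, hT, map_smul]
  rw [h1, h.pr_eq]
  simp only [Matrix.mul_apply, Matrix.transpose_apply, Matrix.map_apply, Finset.sum_mul, hJ]
  rw [Finset.sum_comm]
  refine Finset.sum_congr rfl fun d _ => Finset.sum_congr rfl fun c _ => ?_
  ring

/-- the quadratic term of the curvature -/
theorem Orth.quad (h : Orth A) (hA : Function.Injective A) (γ : Cn n) :
    ∑ q, ∑ p, pr A (A γ) (ee q) * (gL A)⁻¹ q p * conj (pr A (A γ) (ee p))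
      = ((‖A γ‖ ^ 2 : ℝ) : ℂ) := by
  have hdet : IsUnit (gL A).det := (h.posDef hA).det_pos.ne'.isUnit
  have h1 : ∀ p, ∑ q, pr A (A γ) (ee q) * (gL A)⁻¹ q p = γ p := by
    intro p
    have h2 : ∀ q, pr A (A γ) (ee q) = ∑ a, γ a * gL A a q := fun q => h.pr_sum_left γ _
    simp only [h2, Finset.sum_mul]
    rw [Finset.sum_comm]
    have h3 : ∀ a, ∑ q, γ a * gL A a q * (gL A)⁻¹ q p = γ a * (gL A * (gL A)⁻¹) a p := by
      intro a
      rw [Matrix.mul_apply, Finset.mul_sum]
      exact Finset.sum_congr rfl fun q _ => by ring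
    simp only [h3, Matrix.mul_nonsing_inv _ hdet, Matrix.one_apply]
    simp
  rw [Finset.sum_comm]
  simp only [← Finset.sum_mul, h1]
  rw [← h.pr_self, ← h.pr_conj, pr_sum, map_sum]
  refine Finset.sum_congr rfl fun p _ => ?_
  simp

end

end Crest.Agent.T223.Br
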