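import Crest.Agent.T223.Br1_13

/-!
# Row 223 (S0345), bridge, part 2 (helper13): Kaehler immersions `h : ℂⁿ ⊇ U → E`

First derivatives of the induced hermitian matrix (Kaehler identities) and its bisectional
curvature in terms of the normal parts of the second derivatives (Gauss equation).
-/

set_option autoImplicit false

open Set Filter Topology Complex
open scoped ContDiff Matrix ComplexConjugate RealInnerProductSpace ComplexOrder

namespace Crest.Agent.T223.Br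

open Crest.Agent.R275.Geo Crest.Agent.R275.EDR890 Crest.Agent.R273.Ric_798

noncomputable section

section Calc

variable {X F : Type} [NormedAddCommGroup X] [NormedSpace ℝ X] [NormedAddCommGroup F]
  [NormedSpace ℝ F]

theorem cd_fd {k : X → F} {z : X} (hk : ContDiffAt ℝ ∞ k z) : ContDiffAt ℝ ∞ (fderiv ℝ k) z :=
  hk.fderiv_right (m := ∞) (by simp)

theorem cd_fd_apply {k : X → F} {z : X} (hk : ContDiffAt ℝ ∞ k z) (a : X) :
    ContDiffAt ℝ ∞ (fun y => fderiv ℝ k y a) z :=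
  (cd_fd hk).clm_apply contDiffAt_const

theorem cd_diff {k : X → F} {z : X} (hk : ContDiffAt ℝ ∞ k z) : DifferentiableAt ℝ k z :=
  hk.differentiableAt (by simp)

theorem fd_apply {k : X → F} {z : X} (hk : ContDiffAt ℝ ∞ k z) (a x : X) :
    fderiv ℝ (fun y => fderiv ℝ k y a) z x = fderiv ℝ (fderiv ℝ k) z x a := by
  rw [fderiv_clm_apply (cd_diff (cd_fd hk)) (differentiableAt_const a)]
  simp

theorem fd_symm {k : X → F} {z : X} (hk : ContDiffAt ℝ ∞ k z) (a x : X) :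
    fderiv ℝ (fderiv ℝ k) z x a = fderiv ℝ (fderiv ℝ k) z a x :=
  ((hk.of_le (m := 2) (WithTop.coe_le_coe.2 (le_top : (2 : ℕ∞) ≤ ⊤))).isSymmSndFDerivAt (by simp)) x a

theorem fd_cx {a b : X → ℝ} {z : X} (ha : DifferentiableAt ℝ a z) (hb : DifferentiableAt ℝ b z)
    (c : ℂ) (x : X) :
    fderiv ℝ (fun y => ((a y : ℝ) : ℂ) + c * ((b y : ℝ) : ℂ)) z x
      = ((fderiv ℝ a z x : ℝ) : ℂ) + c * ((fderiv ℝ b z x : ℝ) : ℂ) := by
  have h1 : HasFDerivAt (fun y => ((a y : ℝ) : ℂ)) (ofRealCLM.comp (fderiv ℝ a z)) z :=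
    ofRealCLM.hasFDerivAt.comp z ha.hasFDerivAt
  have h2 : HasFDerivAt (fun y => ((b y : ℝ) : ℂ)) (ofRealCLM.comp (fderiv ℝ b z)) z :=
    ofRealCLM.hasFDerivAt.comp z hb.hasFDerivAt
  rw [(h1.fun_add (h2.const_mul c)).fderiv]
  simp

end Calc

variable {n : ℕ} {E : Type} [NormedAddCommGroup E] [InnerProductSpace ℝ E]

/-- second derivative -/
def d2 (h : Cn n → E) (z a b : Cn n) : E := fderiv ℝ (fderiv ℝ h) z a b

/-- third derivative -/
def d3 (h : Cn n → E) (z x a b : Cn n) : E := fderiv ℝ (fun y => d2 h y a b) z x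

/-- an immersion for which the standard complex structure is orthogonal and parallel -/
structure KI (h : Cn n → E) (U : Set (Cn n)) : Prop where
  op : IsOpen U
  sm : ContDiffOn ℝ ∞ h U
  inj : ∀ z ∈ U, Function.Injective (fderiv ℝ h z)
  orth : ∀ z ∈ U, Orth (fderiv ℝ h z)
  par : ∀ z ∈ U, ∀ w v u : Cn n,
    ⟪d2 h z w (I • v), fderiv ℝ h z u⟫ = -⟪d2 h z w v, fderiv ℝ h z (I • u)⟫

/-- the induced hermitian matrix -/
def gm (h : Cn n → E) (z : Cn n) : Matrix (Fin n) (Fin n) ℂ := gL (fderiv ℝ h z)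

/-- the Christoffel symbols of the first kind -/
def Pf (h : Cn n → E) (z x u v : Cn n) : ℂ := pr (fderiv ℝ h z) (d2 h z x u) v

variable {h : Cn n → E} {U : Set (Cn n)} {z : Cn n}

theorem cd_d2 (hh : ContDiffAt ℝ ∞ h z) (a b : Cn n) : ContDiffAt ℝ ∞ (fun y => d2 h y a b) z :=
  ((cd_fd (cd_fd hh)).clm_apply contDiffAt_const).clm_apply contDiffAt_const

theorem cd_pr (hh : ContDiffAt ℝ ∞ h z) {k : Cn n → E} (hk : ContDiffAt ℝ ∞ k z) (v : Cn n) :
    ContDiffAt ℝ ∞ (fun y => pr (fderiv ℝ h y) (k y) v) z := by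
  unfold pr
  exact (ofRealCLM.contDiff.contDiffAt.comp z (hk.inner ℝ (cd_fd_apply hh v))).add
    (contDiffAt_const.mul
      (ofRealCLM.contDiff.contDiffAt.comp z (hk.inner ℝ (cd_fd_apply hh (I • v)))))

theorem fd_inner (hh : ContDiffAt ℝ ∞ h z) {k : Cn n → E} (hk : ContDiffAt ℝ ∞ k z)
    (v x : Cn n) : fderiv ℝ (fun y => ⟪k y, fderiv ℝ h y v⟫) z x
      = ⟪fderiv ℝ k z x, fderiv ℝ h z v⟫ + ⟪k z, d2 h z x v⟫ := by
  rw [fderiv_inner_apply ℝ (cd_diff hk) (cd_diff (cd_fd_apply hh v)), fd_apply hh, add_comm]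
  rfl

namespace KI

theorem cd (H : KI h U) (hz : z ∈ U) : ContDiffAt ℝ ∞ h z := H.sm.contDiffAt (H.op.mem_nhds hz)

theorem d2_symm (H : KI h U) (hz : z ∈ U) (a b : Cn n) : d2 h z a b = d2 h z b a :=
  fd_symm (H.cd hz) b a

theorem d3_swap23 (H : KI h U) (hz : z ∈ U) (x a b : Cn n) : d3 h z x a b = d3 h z x b a := by
  have : (fun y => d2 h y a b) =ᶠ[𝓝 z] fun y => d2 h y b a := by
    filter_upwards [H.op.mem_nhds hz] with y hy
    exact H.d2_symm hy a b
  rw [d3, d3, this.fderiv_eq]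

theorem d3_swap12 (H : KI h U) (hz : z ∈ U) (x a b : Cn n) : d3 h z x a b = d3 h z a x b := by
  have h1 : ∀ c : Cn n, (fun y => d2 h y c b) =ᶠ[𝓝 z]
      fun y => fderiv ℝ (fun y' => fderiv ℝ h y' b) y c := by
    intro c
    filter_upwards [H.op.mem_nhds hz] with y hy
    exact (fd_apply (H.cd hy) b c).symm
  have hk := cd_fd_apply (H.cd hz) b
  rw [d3, d3, (h1 a).fderiv_eq, (h1 x).fderiv_eq, fd_apply hk, fd_apply hk, fd_symm hk]

theorem gm_sm (H : KI h U) (a b : Fin n) : ContDiffOn ℝ ∞ (fun y => gm h y a b) U :=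
  fun _ hz => (cd_pr (H.cd hz) (cd_fd_apply (H.cd hz) _) _).contDiffWithinAt

theorem cd_Pf (H : KI h U) (hz : z ∈ U) (x u v : Cn n) :
    ContDiffAt ℝ ∞ (fun y => Pf h y x u v) z :=
  cd_pr (H.cd hz) (cd_d2 (H.cd hz) x u) v

theorem Pf_symm (H : KI h U) (hz : z ∈ U) (x u v : Cn n) : Pf h z x u v = Pf h z u x v := by
  rw [Pf, Pf, H.d2_symm hz]

theorem Pf_I (H : KI h U) (hz : z ∈ U) (x u v : Cn n) :
    Pf h z x (I • u) v = I * Pf h z x u v := by
  rw [Pf, Pf, pr, pr, H.par z hz, H.par z hz, II_smul, map_neg, inner_neg_right]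
  push_cast
  linear_combination (-(⟪d2 h z x u, fderiv ℝ h z (I • v)⟫ : ℝ) : ℂ) * I_mul_I

theorem Pf_I' (H : KI h U) (hz : z ∈ U) (x u v : Cn n) :
    Pf h z (I • x) u v = I * Pf h z x u v := by
  rw [H.Pf_symm hz, H.Pf_I hz, H.Pf_symm hz]

theorem Pf_sum2 (H : KI h U) (hz : z ∈ U) (x u v : Cn n) :
    Pf h z x u v = ∑ a, u a * Pf h z x (ee a) v :=
  sum_lin (φ := fun u => Pf h z x u v)
    (fun u u' => by simp only [Pf, d2, map_add, pr_add_left])
    (fun c u => by simp only [Pf, d2, map_smul, pr_smul_left]) (fun u => H.Pf_I hz x u v) u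

theorem Pf_sum12 (H : KI h U) (hz : z ∈ U) (x u v : Cn n) :
    Pf h z x u v = ∑ a, ∑ c, u a * x c * Pf h z (ee c) (ee a) v := by
  rw [H.Pf_sum2 hz]
  refine Finset.sum_congr rfl fun a _ => ?_
  rw [H.Pf_symm hz, H.Pf_sum2 hz, Finset.mul_sum]
  refine Finset.sum_congr rfl fun c _ => ?_
  rw [H.Pf_symm hz]
  ring

/-- first derivative of the hermitian form -/
theorem fd_H (H : KI h U) (hz : z ∈ U) (u v x : Cn n) :
    fderiv ℝ (fun y => pr (fderiv ℝ h y) (fderiv ℝ h y u) v) z x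
      = Pf h z x u v + conj (Pf h z x v u) := by
  have hh := H.cd hz
  have hu := cd_fd_apply hh u
  unfold pr
  rw [fd_cx (cd_diff (hu.inner ℝ (cd_fd_apply hh v))) (cd_diff (hu.inner ℝ (cd_fd_apply hh _))),
    fd_inner hh hu, fd_inner hh hu, fd_apply hh, real_inner_comm (d2 h z x v),
    real_inner_comm (d2 h z x (I • v)), H.par z hz]
  simp only [Pf, pr, d2, map_add, map_mul, conj_ofReal, conj_I]
  push_cast
  ring

theorem wd_false (H : KI h U) (hz : z ∈ U) (a b c : Fin n) :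
    wd (false, c) (fun y => gm h y a b) z = Pf h z (ee c) (ee a) (ee b) := by
  change (1 / 2 : ℂ) • (fderiv ℝ (fun y => pr (fderiv ℝ h y) (fderiv ℝ h y (ee a)) (ee b)) z (ee c)
    + (-I) • fderiv ℝ (fun y => pr (fderiv ℝ h y) (fderiv ℝ h y (ee a)) (ee b)) z
      (EuclideanSpace.single c I)) = _
  rw [single_I, H.fd_H hz, H.fd_H hz, H.Pf_I' hz, H.Pf_I' hz]
  simp only [smul_eq_mul, map_mul, conj_I]
  linear_combination (1 / 2 * (conj (Pf h z (ee c) (ee b) (ee a)) - Pf h z (ee c) (ee a) (ee b)))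
    * I_mul_I

theorem wd_true (H : KI h U) (hz : z ∈ U) (a b c : Fin n) :
    wd (true, c) (fun y => gm h y a b) z = conj (Pf h z (ee c) (ee b) (ee a)) := by
  change (1 / 2 : ℂ) • (fderiv ℝ (fun y => pr (fderiv ℝ h y) (fderiv ℝ h y (ee a)) (ee b)) z (ee c)
    + I • fderiv ℝ (fun y => pr (fderiv ℝ h y) (fderiv ℝ h y (ee a)) (ee b)) z
      (EuclideanSpace.single c I)) = _
  rw [single_I, H.fd_H hz, H.fd_H hz, H.Pf_I' hz, H.Pf_I' hz]
  simp only [smul_eq_mul, map_mul, conj_I]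
  linear_combination (1 / 2 * (Pf h z (ee c) (ee a) (ee b) - conj (Pf h z (ee c) (ee b) (ee a))))
    * I_mul_I

theorem closed (H : KI h U) (hz : z ∈ U) (a b c : Fin n) :
    wd (false, c) (fun y => gm h y a b) z = wd (false, a) (fun y => gm h y c b) z := by
  rw [H.wd_false hz, H.wd_false hz, H.Pf_symm hz]

theorem closed' (H : KI h U) (hz : z ∈ U) (a b c : Fin n) :
    wd (true, c) (fun y => gm h y a b) z = wd (true, b) (fun y => gm h y a c) z := by
  rw [H.wd_true hz, H.wd_true hz, H.Pf_symm hz]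

/-- the second order term of the curvature -/
theorem second (H : KI h U) (hz : z ∈ U) (v w : Cn n) :
    (∑ a, ∑ b, ∑ c, ∑ d, wdM (false, c) (wdM (true, d) (gm h)) z a b * v a * conj (v b) * w c
      * conj (w d)).re
      = 1 / 2 * (⟪d2 h z v (I • w), d2 h z w (I • v)⟫ - ⟪d2 h z w v, d2 h z (I • w) (I • v)⟫) := by
  have hh := H.cd hz
  have hc : ∀ x u v : Cn n, DifferentiableAt ℝ (fun y => conj (Pf h y x u v)) z := fun x u v =>
    (conjCLE : ℂ →L[ℝ] ℂ).differentiableAt.comp z (cd_diff (H.cd_Pf hz x u v))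
  have h1 : ∀ a b c d : Fin n, wdM (false, c) (wdM (true, d) (gm h)) z a b
      = wd (false, c) (fun y => conj (Pf h y (ee d) (ee b) (ee a))) z := by
    intro a b c d
    refine wd_congr ?_ _
    filter_upwards [H.op.mem_nhds hz] with y hy
    exact H.wd_true hy a b d
  have h2 : (fun y => conj (Pf h y w v v)) =ᶠ[𝓝 z] fun y => ∑ a, ∑ b, ∑ d,
      (v a * conj (v b) * conj (w d)) • conj (Pf h y (ee d) (ee b) (ee a)) := by
    filter_upwards [H.op.mem_nhds hz] with y hy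
    rw [Pf, pr_sum, map_sum]
    refine Finset.sum_congr rfl fun a _ => ?_
    have h3 := H.Pf_sum12 hy w v (ee a)
    rw [Pf] at h3
    rw [h3]
    simp only [map_mul, conj_conj, map_sum, Finset.mul_sum, smul_eq_mul]
    refine Finset.sum_congr rfl fun b _ => Finset.sum_congr rfl fun d _ => ?_
    ring
  have h3 : ∀ c : Fin n, wd (false, c) (fun y => conj (Pf h y w v v)) z = ∑ a, ∑ b, ∑ d,
      (v a * conj (v b) * conj (w d)) *
        wd (false, c) (fun y => conj (Pf h y (ee d) (ee b) (ee a))) z := by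
    intro c
    have d1 : ∀ a b d : Fin n, DifferentiableAt ℝ (fun y =>
        (v a * conj (v b) * conj (w d)) • conj (Pf h y (ee d) (ee b) (ee a))) z :=
      fun a b d => (hc (ee d) (ee b) (ee a)).const_smul (v a * conj (v b) * conj (w d))
    rw [wd_congr h2, wd_sum _ fun a _ => DifferentiableAt.fun_sum fun b _ =>
      DifferentiableAt.fun_sum fun d _ => d1 a b d]
    refine Finset.sum_congr rfl fun a _ => ?_
    rw [wd_sum _ fun b _ => DifferentiableAt.fun_sum fun d _ => d1 a b d]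
    refine Finset.sum_congr rfl fun b _ => ?_
    rw [wd_sum _ fun d _ => d1 a b d]
    refine Finset.sum_congr rfl fun d _ => ?_
    rw [wd_const_smul _ (hc _ _ _), smul_eq_mul]
  have h4 : ∑ a, ∑ b, ∑ c, ∑ d, wdM (false, c) (wdM (true, d) (gm h)) z a b * v a * conj (v b) * w c
      * conj (w d) = ∑ c, w c * wd (false, c) (fun y => conj (Pf h y w v v)) z := by
    simp only [h3, h1, Finset.mul_sum]
    conv_rhs => rw [Finset.sum_comm]
    refine Finset.sum_congr rfl fun a _ => ?_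
    conv_rhs => rw [Finset.sum_comm]
    refine Finset.sum_congr rfl fun b _ => Finset.sum_congr rfl fun c _ =>
      Finset.sum_congr rfl fun d _ => ?_
    ring
  have h5 := wdL_vec false (fderiv ℝ (fun y => conj (Pf h y w v v)) z) w
  simp only [cI_false, cj_false, smul_eq_mul] at h5
  have h6 : (fun y => conj (Pf h y w v v)) = fun y => ((⟪d2 h y w v, fderiv ℝ h y v⟫ : ℝ) : ℂ)
      + (-I) * ((⟪d2 h y w v, fderiv ℝ h y (I • v)⟫ : ℝ) : ℂ) := by
    funext y
    simp only [Pf, pr, map_add, map_mul, conj_ofReal, conj_I]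
  have hk := cd_d2 hh w v
  have h7 : ∀ x, fderiv ℝ (fun y => conj (Pf h y w v v)) z x =
      ((⟪d3 h z x w v, fderiv ℝ h z v⟫ + ⟪d2 h z w v, d2 h z x v⟫ : ℝ) : ℂ) + (-I) *
      ((⟪d3 h z x w v, fderiv ℝ h z (I • v)⟫ + ⟪d2 h z w v, d2 h z x (I • v)⟫ : ℝ) : ℂ) := by
    intro x
    rw [h6, fd_cx (cd_diff (hk.inner ℝ (cd_fd_apply hh v))) (cd_diff (hk.inner ℝ
      (cd_fd_apply hh _))), fd_inner hh hk, fd_inner hh hk]
    rfl
  -- the differentiated parallelism
  have h8 : (fun y => ⟪d2 h y v (I • w), fderiv ℝ h y (I • v)⟫) =ᶠ[𝓝 z]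
      fun y => ⟪d2 h y v w, fderiv ℝ h y v⟫ := by
    filter_upwards [H.op.mem_nhds hz] with y hy
    rw [H.par y hy, II_smul, map_neg, inner_neg_right, neg_neg]
  have h9 : fderiv ℝ (fun y => ⟪d2 h y v (I • w), fderiv ℝ h y (I • v)⟫) z w =
      fderiv ℝ (fun y => ⟪d2 h y v w, fderiv ℝ h y v⟫) z w := by rw [h8.fderiv_eq]
  rw [fd_inner hh (cd_d2 hh _ _), fd_inner hh (cd_d2 hh _ _)] at h9
  change ⟪d3 h z w v (I • w), _⟫ + _ = ⟪d3 h z w v w, _⟫ + _ at h9
  rw [H.d3_swap23 hz w v (I • w), H.d3_swap12 hz w (I • w) v, H.d3_swap23 hz w v w,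
    H.d2_symm hz v w] at h9
  change (∑ a, ∑ b, ∑ c, ∑ d, wdM (false, c) (wdM (true, d) (gm h)) z a b * v a * conj (v b) * w c
      * conj (w d)).re = _
  rw [h4]
  change (∑ c, w c * wdL (false, c) (fderiv ℝ (fun y => conj (Pf h y w v v)) z)).re = _
  rw [← h5, h7, h7]
  simp only [mul_re, add_re, ofReal_re, ofReal_im, neg_re, neg_im, I_re, I_im, mul_im, add_im,
    one_div, inv_re, inv_im, re_ofNat, im_ofNat, normSq_ofNat]
  linarith

theorem sum5 (x y : Fin n → Fin n → Fin n → ℂ) :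
    ∑ a, ∑ b, ∑ c, ∑ d, ∑ p, x a c p * y b d p
      = ∑ p, (∑ a, ∑ c, x a c p) * (∑ b, ∑ d, y b d p) := by
  simp only [Finset.sum_mul]
  simp only [Finset.mul_sum]
  conv_rhs => rw [Finset.sum_comm]
  refine Finset.sum_congr rfl fun a _ => ?_
  conv_lhs => rw [Finset.sum_comm]
  conv_rhs => rw [Finset.sum_comm]
  refine Finset.sum_congr rfl fun c _ => ?_
  conv_rhs => rw [Finset.sum_comm]
  refine Finset.sum_congr rfl fun b _ => ?_
  rw [Finset.sum_comm]

/-- the quadratic term of the curvature -/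
theorem quad (H : KI h U) (hz : z ∈ U) (v w γ : Cn n)
    (hγ : ∀ u, ⟪d2 h z w v, fderiv ℝ h z u⟫ = ⟪fderiv ℝ h z γ, fderiv ℝ h z u⟫) :
    ∑ a, ∑ b, ∑ c, ∑ d, (wdM (false, c) (gm h) z * (gm h z)⁻¹ * wdM (true, d) (gm h) z) a b
      * v a * conj (v b) * w c * conj (w d) = ((‖fderiv ℝ h z γ‖ ^ 2 : ℝ) : ℂ) := by
  rw [← (H.orth z hz).quad (H.inj z hz) γ]
  have h1 : ∀ q, pr (fderiv ℝ h z) (fderiv ℝ h z γ) (ee q)
      = ∑ a, ∑ c, v a * w c * Pf h z (ee c) (ee a) (ee q) := by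
    intro q
    rw [← H.Pf_sum12 hz, Pf, pr, pr, hγ, hγ]
  have h2 := sum5 (fun a c p => v a * w c * ∑ q, Pf h z (ee c) (ee a) (ee q) * (gm h z)⁻¹ q p)
    (fun b d p => conj (v b * w d * Pf h z (ee d) (ee b) (ee p)))
  rw [Finset.sum_comm (f := fun q p => pr (fderiv ℝ h z) (fderiv ℝ h z γ) (ee q) *
    (gL (fderiv ℝ h z))⁻¹ q p * conj (pr (fderiv ℝ h z) (fderiv ℝ h z γ) (ee p)))]
  refine Eq.trans ?_ (h2.trans ?_)
  · refine Finset.sum_congr rfl fun a _ => Finset.sum_congr rfl fun b _ =>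
      Finset.sum_congr rfl fun c _ => Finset.sum_congr rfl fun d _ => ?_
    rw [Matrix.mul_apply]
    simp only [Finset.sum_mul]
    refine Finset.sum_congr rfl fun p _ => ?_
    rw [Matrix.mul_apply]
    simp only [wdM, Matrix.of_apply, H.wd_false hz, H.wd_true hz, map_mul]
    ring
  · refine Finset.sum_congr rfl fun p _ => ?_
    rw [← Finset.sum_mul]
    congr 1
    · simp only [h1, Finset.sum_mul, Finset.mul_sum]
      conv_rhs => rw [Finset.sum_comm]
      refine Finset.sum_congr rfl fun a _ => ?_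
      conv_rhs => rw [Finset.sum_comm]
      refine Finset.sum_congr rfl fun c _ => Finset.sum_congr rfl fun q _ => ?_
      rw [gm]
      ring
    · rw [h1]
      simp only [map_sum]

/-- **Gauss equation** for the bisectional curvature; `π` is the orthogonal projection onto the
tangent space -/
theorem bis_eq (H : KI h U) (hz : z ∈ U) (π : E → E) (h1 : ∀ X, ∃ u, π X = fderiv ℝ h z u)
    (h2 : ∀ X u, ⟪X - π X, fderiv ℝ h z u⟫ = 0) (v w : Cn n) :
    bis (gm h) z v w = 1 / 2 *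
      (⟪d2 h z v w - π (d2 h z v w), d2 h z (I • v) (I • w) - π (d2 h z (I • v) (I • w))⟫
        - ⟪d2 h z v (I • w) - π (d2 h z v (I • w)), d2 h z (I • v) w - π (d2 h z (I • v) w)⟫) := by
  have h3 : ∀ X u, ⟪X, fderiv ℝ h z u⟫ = ⟪π X, fderiv ℝ h z u⟫ := by
    intro X u
    have := h2 X u
    rw [inner_sub_left] at this
    linarith
  have h4 : ∀ X Y, ⟪X - π X, Y - π Y⟫ = ⟪X, Y⟫ - ⟪π X, Y⟫ := by
    intro X Y
    obtain ⟨u, hu⟩ := h1 Y
    rw [inner_sub_right, hu, h2, inner_sub_left]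
    ring
  obtain ⟨γ, hγ⟩ := h1 (d2 h z w v)
  have hγ' : ∀ u, ⟪d2 h z w v, fderiv ℝ h z u⟫ = ⟪fderiv ℝ h z γ, fderiv ℝ h z u⟫ := by
    intro u
    rw [h3, hγ]
  have h5 : bis (gm h) z v w = -(1 / 2 * (⟪d2 h z v (I • w), d2 h z w (I • v)⟫
      - ⟪d2 h z w v, d2 h z (I • w) (I • v)⟫)) + ‖fderiv ℝ h z γ‖ ^ 2 := by
    rw [← H.second hz v w, ← ofReal_re (‖fderiv ℝ h z γ‖ ^ 2), ← H.quad hz v w γ hγ', ← neg_re,
      ← add_re, bis]
    congr 1
    simp only [Rm, Matrix.add_apply, Matrix.neg_apply, ← Finset.sum_neg_distrib,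
      ← Finset.sum_add_distrib]
    refine Finset.sum_congr rfl fun a _ => Finset.sum_congr rfl fun b _ =>
      Finset.sum_congr rfl fun c _ => Finset.sum_congr rfl fun d _ => ?_
    ring
  have h6 : ⟪π (d2 h z v w), d2 h z (I • v) (I • w)⟫ = -‖fderiv ℝ h z γ‖ ^ 2 := by
    rw [H.d2_symm hz v w, hγ, real_inner_comm, H.par z hz, H.d2_symm hz (I • v) w, H.par z hz,
      II_smul, map_neg, inner_neg_right, hγ', real_inner_self_eq_norm_sq]
    ring
  have h7 : ⟪π (d2 h z v (I • w)), d2 h z (I • v) w⟫ = ‖fderiv ℝ h z γ‖ ^ 2 := by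
    obtain ⟨δ, hδ⟩ := h1 (d2 h z v (I • w))
    rw [hδ, real_inner_comm, H.d2_symm hz (I • v) w, H.par z hz, hγ', ← (H.orth z hz).skew,
      ← hδ, real_inner_comm, ← h3, H.par z hz, II_smul, map_neg, inner_neg_right,
      H.d2_symm hz v w, hγ', real_inner_self_eq_norm_sq]
    ring
  rw [h5, h4, h4, h6, h7, H.d2_symm hz w (I • v), H.d2_symm hz w v, H.d2_symm hz (I • w) (I • v)]
  ring

end KI

end

end Crest.Agent.T223.Br
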