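import Crest.Prelude.Def_SubmanifoldKahler
import Crest.Agent.T223.Br2_13
import Crest.Agent.N222.D.Sub
import Crest.Agent.R260.NN6_900

/-!
# Row 223 (S0345), bridge, part 3 (helper13): the complex structure in a local parametrisation

`Jc J f y` is the complex structure read in the parametrisation `f`; it is integrable because `J`
is parallel, so Newlander-Nirenberg gives holomorphic parametrisations (`exists_hp`).
-/

set_option autoImplicit false

open Set Filter Topology Complex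
open scoped ContDiff RealInnerProductSpace
open Crest.GeometryTopology.Submanifold

namespace Crest.Agent.T223.Br

open Crest.Agent.R241.Geo Crest.Agent.R275.Geo Crest.Agent.R273.RMan4_798

noncomputable section

variable {m N : ℕ} {S : Set (Euc N)} {p : Euc N} {f : Euc m → Euc N} {V : Set (Euc m)}
  {J : Euc N → Euc N →L[ℝ] Euc N}

theorem sum_std (u : Euc m) : ∑ i, u i • stdVec m i = u := by
  ext j
  simp [stdVec, Finset.sum_apply, Pi.single_apply]

theorem mem_tan (f : Euc m → Euc N) (x v : Euc m) : fderiv ℝ f x v ∈ tangentAt f x := by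
  rw [tangentAt_eq_range]
  exact ⟨v, rfl⟩

theorem of_mem_tan {x : Euc m} {X : Euc N} (h : X ∈ tangentAt f x) : ∃ v, fderiv ℝ f x v = X := by
  rw [tangentAt_eq_range] at h
  exact h

theorem fd_tr (f : Euc m → Euc N) (y : Euc m) :
    fderiv ℝ (fun z => f (z + y)) 0 = fderiv ℝ f y := by
  rw [fderiv_comp_add_right, zero_add]

theorem fd2_tr (f : Euc m → Euc N) (y : Euc m) :
    fderiv ℝ (fderiv ℝ (fun z => f (z + y))) 0 = fderiv ℝ (fderiv ℝ f) y := by
  have : fderiv ℝ (fun z => f (z + y)) = fun z => fderiv ℝ f (z + y) := by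
    funext z
    rw [fderiv_comp_add_right]
  rw [this, fderiv_comp_add_right, zero_add]

theorem coords_fd {x : Euc m} (hx : Function.Injective (fderiv ℝ f x)) (a : Euc m) (i : Fin m) :
    coords f x (fderiv ℝ f x a) i = a i := by
  have hdet : IsUnit (metricMat f x).det := (N222.D.egr_posDef hx).det_pos.ne'.isUnit
  have h1 : ∀ j, ⟪fderiv ℝ f x a, pd f x j⟫ = ∑ k, metricMat f x j k * a k := by
    intro j
    rw [N222.D.egr_fderiv_sum f x a, sum_inner]
    refine Finset.sum_congr rfl fun k _ => ?_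
    rw [real_inner_smul_left, metricMat, Matrix.of_apply, real_inner_comm, mul_comm]
  simp only [coords, h1, Finset.mul_sum]
  rw [Finset.sum_comm]
  have h2 : ∀ k, ∑ j, (metricMat f x)⁻¹ i j * (metricMat f x j k * a k)
      = ((metricMat f x)⁻¹ * metricMat f x) i k * a k := by
    intro k
    rw [Matrix.mul_apply, Finset.sum_mul]
    exact Finset.sum_congr rfl fun j _ => by ring
  simp only [h2, Matrix.nonsing_inv_mul _ hdet, Matrix.one_apply]
  simp

theorem coordVec_fd {x : Euc m} (hx : Function.Injective (fderiv ℝ f x)) (a : Euc m) :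
    coordVec f x (fderiv ℝ f x a) = a := by
  simp only [coordVec, coords_fd hx, sum_std]

theorem hess_eq' {x : Euc m} (hx : ContDiffAt ℝ ∞ f x) (i j : Fin m) :
    hess f x i j = fderiv ℝ (fderiv ℝ f) x (stdVec m i) (stdVec m j) :=
  fd_apply hx _ _

theorem bil_expand {F : Type} [NormedAddCommGroup F] [NormedSpace ℝ F]
    (B : Euc m →L[ℝ] Euc m →L[ℝ] F) (a b : Euc m) :
    B a b = ∑ i, ∑ j, (a i * b j) • B (stdVec m i) (stdVec m j) := by
  conv_lhs => rw [← sum_std a, ← sum_std b]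
  simp only [map_sum, map_smul, _root_.sum_apply, _root_.smul_apply,
    Finset.smul_sum, smul_smul]
  rw [Finset.sum_comm]
  refine Finset.sum_congr rfl fun i _ => Finset.sum_congr rfl fun j _ => ?_
  rw [mul_comm]

theorem sffVec_fd {x : Euc m} (hc : ContDiffAt ℝ ∞ f x) (hx : Function.Injective (fderiv ℝ f x))
    (a b : Euc m) : sffVec f x (fderiv ℝ f x a) (fderiv ℝ f x b) =
      fderiv ℝ (fderiv ℝ f) x a b
        - (tangentAt f x).starProjection (fderiv ℝ (fderiv ℝ f) x a b) := by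
  rw [bil_expand (fderiv ℝ (fderiv ℝ f) x) a b]
  simp only [sffVec, coords_fd hx, sff, normalPart, hess_eq' hc, map_sum, map_smul, smul_sub,
    Finset.sum_sub_distrib]

section Kahler

variable (hJ : IsKahlerStructure m N S J) (hf : IsLocalParam m N S p f V) {y : Euc m} (hy : y ∈ V)
include hJ hf hy

theorem J_maps (v : Euc m) : ∃ u, fderiv ℝ f y u = J (f y) (fderiv ℝ f y v) := by
  have h := hJ.mapsTo _ (lp_mem hf hy) _ _ (lp_translate hf hy) _ (mem_tan _ 0 v)
  obtain ⟨u, hu⟩ := of_mem_tan h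
  rw [fd_tr] at hu
  exact ⟨u, hu⟩

theorem J_sq (v : Euc m) : J (f y) (J (f y) (fderiv ℝ f y v)) = -fderiv ℝ f y v := by
  have h := hJ.sq _ (lp_mem hf hy) _ _ (lp_translate hf hy) _ (mem_tan _ 0 v)
  rwa [fd_tr] at h

theorem J_orth (u v : Euc m) : ⟪J (f y) (fderiv ℝ f y u), J (f y) (fderiv ℝ f y v)⟫
    = ⟪fderiv ℝ f y u, fderiv ℝ f y v⟫ := by
  have h := hJ.orthogonal _ (lp_mem hf hy) _ _ (lp_translate hf hy) _ (mem_tan _ 0 u) _
    (mem_tan _ 0 v)
  rwa [fd_tr] at h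

theorem J_skew (u v : Euc m) : ⟪J (f y) (fderiv ℝ f y u), fderiv ℝ f y v⟫
    = -⟪fderiv ℝ f y u, J (f y) (fderiv ℝ f y v)⟫ := by
  obtain ⟨u', hu'⟩ := J_maps hJ hf hy u
  rw [← hu', ← J_orth hJ hf hy, hu', J_sq hJ hf hy, inner_neg_left]

theorem J_cd : ContDiffAt ℝ ∞ (fun x => J (f x)) y :=
  (hJ.smooth p (lp_base_mem hf) f V hf).contDiffAt (hf.isOpen.mem_nhds hy)

theorem fd_Jdf (u v : Euc m) : fderiv ℝ (fun x => J (f x) (fderiv ℝ f x v)) y u =
    fderiv ℝ (fun x => J (f x)) y u (fderiv ℝ f y v) + J (f y) (fderiv ℝ (fderiv ℝ f) y u v) := by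
  have hc := lp_contDiffAt hf hy
  rw [fderiv_clm_apply (cd_diff (J_cd hJ hf hy)) (cd_diff (cd_fd_apply hc v))]
  simp only [_root_.add_apply, ContinuousLinearMap.comp_apply,
    ContinuousLinearMap.flip_apply, fd_apply hc]
  rw [add_comm]

/-- parallelism, weak form, at every point of the domain -/
theorem J_par (u v w : Euc m) :
    ⟪fderiv ℝ (fun x => J (f x) (fderiv ℝ f x v)) y u, fderiv ℝ f y w⟫
      = -⟪fderiv ℝ (fderiv ℝ f) y u v, J (f y) (fderiv ℝ f y w)⟫ := by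
  have ht := lp_translate hf hy
  set T := tangentAt (fun z => f (z + y)) 0 with hT
  have hTm : ∀ a, fderiv ℝ f y a ∈ T := fun a => by
    have := mem_tan (fun z => f (z + y)) 0 a
    rwa [fd_tr] at this
  have hπ : ∀ X a, ⟪T.starProjection X, fderiv ℝ f y a⟫ = ⟪X, fderiv ℝ f y a⟫ := by
    intro X a
    rw [Submodule.inner_starProjection_left_eq_right,
      Submodule.starProjection_eq_self_iff.2 (hTm a)]
  have h0 : ∀ i j, ⟪fderiv ℝ (fun x => J (f x)) y (stdVec m i) (fderiv ℝ f y (stdVec m j))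
      + J (f y) (fderiv ℝ (fderiv ℝ f) y (stdVec m i) (stdVec m j)), fderiv ℝ f y w⟫
      = -⟪fderiv ℝ (fderiv ℝ f) y (stdVec m i) (stdVec m j), J (f y) (fderiv ℝ f y w)⟫ := by
    intro i j
    have h := hJ.parallel _ (lp_mem hf hy) _ _ ht i j
    rw [hess_eq' (lp_contDiffAt ht ht.zero_mem), fd2_tr] at h
    have e1 : fderiv ℝ (fun x => J (f (x + y)) (pd (fun z => f (z + y)) x j)) 0 =
        fderiv ℝ (fun x => J (f x) (fderiv ℝ f x (stdVec m j))) y := by
      have e0 := fderiv_comp_add_right (𝕜 := ℝ)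
        (f := fun x => J (f x) (fderiv ℝ f x (stdVec m j))) (x := 0) y
      rw [zero_add] at e0
      rw [← e0]
      congr 1
      funext x
      rw [pd, fderiv_comp_add_right]
    rw [e1, fd_Jdf hJ hf hy] at h
    change T.starProjection _ = J (f y) (T.starProjection _) at h
    obtain ⟨a, ha⟩ := of_mem_tan (T.starProjection_apply_mem
      (fderiv ℝ (fderiv ℝ f) y (stdVec m i) (stdVec m j)))
    rw [fd_tr] at ha
    obtain ⟨w', hw'⟩ := J_maps hJ hf hy w
    rw [← hπ, h, ← ha, J_skew hJ hf hy, ha, ← hw', hπ]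
  rw [fd_Jdf hJ hf hy, bil_expand (fderiv ℝ (fderiv ℝ f) y) u v]
  have e2 : fderiv ℝ (fun x => J (f x)) y u (fderiv ℝ f y v) = ∑ i, ∑ j, (u i * v j) •
      fderiv ℝ (fun x => J (f x)) y (stdVec m i) (fderiv ℝ f y (stdVec m j)) :=
    bil_expand ((fderiv ℝ (fun x => J (f x)) y).flip.comp (fderiv ℝ f y)).flip u v
  rw [e2]
  simp only [map_sum, map_smul, ← Finset.sum_add_distrib, ← smul_add, sum_inner,
    real_inner_smul_left, h0, ← Finset.sum_neg_distrib, mul_neg]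

end Kahler

/-- the complex structure read in the parametrisation `f` -/
def Jc (J : Euc N → Euc N →L[ℝ] Euc N) (f : Euc m → Euc N) (y : Euc m) : Euc m →L[ℝ] Euc m :=
  (pinv (fderiv ℝ f y)).comp ((J (f y)).comp (fderiv ℝ f y))

section Nij

variable (hJ : IsKahlerStructure m N S J) (hf : IsLocalParam m N S p f V)
include hJ hf

theorem fd_Jc {y : Euc m} (hy : y ∈ V) (v : Euc m) :
    fderiv ℝ f y (Jc J f y v) = J (f y) (fderiv ℝ f y v) := by
  obtain ⟨u, hu⟩ := J_maps hJ hf hy v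
  change fderiv ℝ f y (pinv (fderiv ℝ f y) (J (f y) (fderiv ℝ f y v))) = _
  rw [← hu, pinv_comp_self (hf.injective_fderiv y hy)]

theorem Jc_cd {y : Euc m} (hy : y ∈ V) : ContDiffAt ℝ ∞ (Jc J f) y := by
  have h1 := cd_fd (lp_contDiffAt hf hy)
  have h2 : ContDiffAt ℝ ∞ (fun x => pinv (fderiv ℝ f x)) y :=
    ContDiffAt.comp (g := pinv) (f := fderiv ℝ f) y
      (contDiffAt_pinv (hf.injective_fderiv y hy)) h1
  exact h2.clm_comp ((J_cd hJ hf hy).clm_comp h1)

theorem Jc_sq {y : Euc m} (hy : y ∈ V) (v : Euc m) : Jc J f y (Jc J f y v) = -v := by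
  apply hf.injective_fderiv y hy
  rw [fd_Jc hJ hf hy, fd_Jc hJ hf hy, J_sq hJ hf hy, map_neg]

theorem DJc {y : Euc m} (hy : y ∈ V) (u v w : Euc m) :
    ⟪fderiv ℝ f y (fderiv ℝ (Jc J f) y u v), fderiv ℝ f y w⟫
      = -⟪fderiv ℝ (fderiv ℝ f) y u v, fderiv ℝ f y (Jc J f y w)⟫
        - ⟪fderiv ℝ (fderiv ℝ f) y u (Jc J f y v), fderiv ℝ f y w⟫ := by
  have hc := lp_contDiffAt hf hy
  have hJc := Jc_cd hJ hf hy
  have e1 : (fun x => J (f x) (fderiv ℝ f x v)) =ᶠ[𝓝 y] fun x => fderiv ℝ f x (Jc J f x v) := by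
    filter_upwards [hf.isOpen.mem_nhds hy] with x hx
    exact (fd_Jc hJ hf hx v).symm
  have h := J_par hJ hf hy u v w
  rw [e1.fderiv_eq, fderiv_clm_apply (cd_diff (cd_fd hc))
    (cd_diff (hJc.clm_apply contDiffAt_const)),
    fderiv_clm_apply (cd_diff hJc) (differentiableAt_const v)] at h
  simp only [_root_.add_apply, ContinuousLinearMap.comp_apply,
    ContinuousLinearMap.flip_apply, fderiv_fun_const, Pi.zero_apply,
    _root_.zero_apply, map_zero, zero_add, inner_add_left] at h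
  rw [fd_Jc hJ hf hy w]
  linarith

theorem nij_zero {y : Euc m} (hy : y ∈ V) (v w : Euc m) :
    R260.ACM_580.Nij (Jc J f) y v w = 0 := by
  have hs := fd_symm (lp_contDiffAt hf hy)
  have hk : ∀ a x, ⟪fderiv ℝ f y (Jc J f y a), fderiv ℝ f y x⟫
      = -⟪fderiv ℝ f y a, fderiv ℝ f y (Jc J f y x)⟫ := by
    intro a x
    rw [fd_Jc hJ hf hy, fd_Jc hJ hf hy, J_skew hJ hf hy]
  have h0 : ∀ x, ⟪fderiv ℝ f y (R260.ACM_580.Nij (Jc J f) y v w), fderiv ℝ f y x⟫ = 0 := by
    intro x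
    simp only [R260.ACM_580.Nij, map_add, map_sub, inner_add_left, inner_sub_left]
    rw [hk, hk, DJc hJ hf hy, DJc hJ hf hy, DJc hJ hf hy, DJc hJ hf hy, Jc_sq hJ hf hy]
    simp only [map_neg, inner_neg_right]
    rw [hs (Jc J f y v) (Jc J f y w), hs w (Jc J f y v), hs v (Jc J f y w), hs v w]
    ring
  apply hf.injective_fderiv y hy
  rw [map_zero]
  exact inner_self_eq_zero.1 (h0 _)

end Nij

/-- reparametrisation -/
theorem lp_comp (hf : IsLocalParam m N S p f V) (Ψ : OpenPartialHomeomorph (Euc m) (Euc m))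
    (h0 : 0 ∈ Ψ.source) (h0' : Ψ 0 = 0) (hV : ∀ y ∈ Ψ.source, Ψ y ∈ V)
    (hs : ∀ y ∈ Ψ.source, ContDiffAt ℝ ∞ Ψ y)
    (hi : ∀ y ∈ Ψ.source, Function.Injective (fderiv ℝ Ψ y)) :
    IsLocalParam m N S p (fun y => f (Ψ y)) Ψ.source where
  isOpen := Ψ.open_source
  zero_mem := h0
  map_zero := by rw [h0', hf.map_zero]
  contDiffOn y hy :=
    (ContDiffAt.comp (g := f) y (lp_contDiffAt hf (hV y hy)) (hs y hy)).contDiffWithinAt
  injOn a ha b hb hab := Ψ.injOn ha hb (hf.injOn (hV a ha) (hV b hb) hab)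
  injective_fderiv y hy := by
    rw [fderiv_fun_comp y (cd_diff (lp_contDiffAt hf (hV y hy))) (cd_diff (hs y hy))]
    exact (hf.injective_fderiv _ (hV y hy)).comp (hi y hy)
  image_open W hW hWo := by
    obtain ⟨U, hU, hU'⟩ := hf.image_open (Ψ '' W) (by
      rintro _ ⟨y, hy, rfl⟩
      exact hV y (hW hy)) (Ψ.isOpen_image_of_subset_source hWo hW)
    exact ⟨U, hU, by rw [← hU', image_image]⟩

/-- holomorphic local parametrisations with a small domain -/
structure HP {n : ℕ} (S : Set (Euc N)) (J : Euc N → Euc N →L[ℝ] Euc N) (p : Euc N)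
    (f : Euc (2 * n) → Euc N) (V : Set (Euc (2 * n))) : Prop where
  lp : IsLocalParam (2 * n) N S p f V
  hol : ∀ y ∈ V, ∀ v : Cn n, J (f y) (fderiv ℝ f y (eR n v)) = fderiv ℝ f y (eR n (I • v))
  small : ∀ y ∈ V, ‖(eR n).symm y‖ < 1 / 2

theorem exists_hp {n : ℕ} (hS : IsSubmanifold (2 * n) N S) (hJ : IsKahlerStructure (2 * n) N S J)
    (hp : p ∈ S) : ∃ (f : Euc (2 * n) → Euc N) (V : Set (Euc (2 * n))), HP S J p f V := by
  obtain ⟨f, V, hf⟩ := hS p hp
  obtain ⟨W, hW, h0W, hWV, F, hF, hFW⟩ := R260.NN6_900.nnat n (Euc (2 * n))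
    finrank_euclideanSpace_fin V hf.isOpen 0 hf.zero_mem (Jc J f)
    (fun y hy => (Jc_cd hJ hf hy).contDiffWithinAt) (fun y hy v => Jc_sq hJ hf hy v)
    (fun y hy v w => nij_zero hJ hf hy v w)
  have hFa : ∀ y ∈ W, ContDiffAt ℝ ∞ F y := fun y hy => hF.contDiffAt (hW.mem_nhds hy)
  have hFd : ∀ y ∈ W, ∃ T : Euc (2 * n) ≃L[ℝ] Cn n,
      HasFDerivAt F (T : Euc (2 * n) →L[ℝ] Cn n) y := by
    intro y hy
    refine ⟨ContinuousLinearEquiv.ofBijective (fderiv ℝ F y)
      (LinearMap.ker_eq_bot.2 (hFW y hy).1.1) (LinearMap.range_eq_top.2 (hFW y hy).1.2), ?_⟩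
    rw [ContinuousLinearEquiv.coe_ofBijective]
    exact (cd_diff (hFa y hy)).hasFDerivAt
  obtain ⟨T, hT⟩ := hFd _ h0W
  let G0 := (hFa _ h0W).toOpenPartialHomeomorph F hT (by simp)
  let G := G0.restrOpen W hW
  have hG : ∀ y, G y = F y := fun y => rfl
  have hGs : G.source = G0.source ∩ W := G0.restrOpen_source W hW
  have h0G : (0 : Euc (2 * n)) ∈ G.source := by
    rw [hGs]
    exact ⟨(hFa _ h0W).mem_toOpenPartialHomeomorph_source hT (by simp), h0W⟩
  let a : Euc (2 * n) ≃ₜ Cn n := (eR n).symm.toHomeomorph.trans (Homeomorph.addLeft (F 0))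
  have ha : ∀ y, a y = F 0 + (eR n).symm y := fun y => rfl
  have hB : IsOpen {y : Euc (2 * n) | ‖(eR n).symm y‖ < 1 / 2} :=
    isOpen_lt (by fun_prop) continuous_const
  let Ψ := (a.toOpenPartialHomeomorph.trans G.symm).restrOpen _ hB
  have hΨ : ∀ y, Ψ y = G.symm (F 0 + (eR n).symm y) := fun y => rfl
  have hΨs : ∀ y, y ∈ Ψ.source ↔ F 0 + (eR n).symm y ∈ G.target ∧ ‖(eR n).symm y‖ < 1 / 2 := by
    intro y
    simp [Ψ, ha]
  have hΨW : ∀ y ∈ Ψ.source, Ψ y ∈ W := by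
    intro y hy
    have := G.map_target ((hΨs y).1 hy).1
    rw [hGs] at this
    exact this.2
  have hΨc : ∀ y ∈ Ψ.source, ContDiffAt ℝ ∞ Ψ y := by
    intro y hy
    obtain ⟨T', hT'⟩ := hFd _ (hΨW y hy)
    have h1 : ContDiffAt ℝ ∞ G.symm (F 0 + (eR n).symm y) :=
      G.contDiffAt_symm (f₀' := T') ((hΨs y).1 hy).1 hT' (hFa _ (hΨW y hy))
    have h2 : ContDiffAt ℝ ∞ (fun y => F 0 + (eR n).symm y) y :=
      contDiffAt_const.add (eR n).symm.contDiff.contDiffAt
    exact ContDiffAt.comp (g := G.symm) y h1 h2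
  have hΨd : ∀ y ∈ Ψ.source, ∀ u, fderiv ℝ F (Ψ y) (fderiv ℝ Ψ y u) = (eR n).symm u := by
    intro y hy u
    have e1 : (fun x => F (Ψ x)) =ᶠ[𝓝 y] fun x => F 0 + (eR n).symm x := by
      filter_upwards [Ψ.open_source.mem_nhds hy] with x hx
      rw [← hG, hΨ, G.right_inv ((hΨs x).1 hx).1]
    have e2 := e1.fderiv_eq (𝕜 := ℝ)
    rw [fderiv_fun_comp y (cd_diff (hFa _ (hΨW y hy))) (cd_diff (hΨc y hy)), fderiv_const_add,
      (eR n).symm.fderiv] at e2
    exact congrArg (fun L => L u) e2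
  have hlp := lp_comp hf Ψ ((hΨs 0).2 ⟨by simpa [← hG] using G.map_source h0G, by simp⟩)
    (by rw [hΨ, map_zero, add_zero, ← hG, G.left_inv h0G]) (fun y hy => hWV (hΨW y hy)) hΨc
    (fun y hy a b hab => (eR n).symm.injective (by rw [← hΨd y hy, ← hΨd y hy, hab]))
  refine ⟨fun y => f (Ψ y), Ψ.source, hlp, fun y hy v => ?_, fun y hy => ((hΨs y).1 hy).2⟩
  have hyV := hWV (hΨW y hy)
  rw [fderiv_fun_comp y (cd_diff (lp_contDiffAt hf hyV)) (cd_diff (hΨc y hy))]
  simp only [ContinuousLinearMap.comp_apply]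
  rw [← fd_Jc hJ hf hyV]
  congr 1
  apply (hFW _ (hΨW y hy)).1.1
  rw [(hFW _ (hΨW y hy)).2, hΨd y hy, hΨd y hy]
  simp

end

end Crest.Agent.T223.Br
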