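import Mathlib

/-!
# Row 223 (helper87), CONE module, part A: differential rings with a maximum principle

`DR n S`: commuting derivations `d k = ∂_k`, `db k = ∂̄_k`, `D` (time), conjugation `cj`, evaluation
`ev` at the base point, coordinates `ζ`, and a predicate `Pos` ("real part `≥ 0` near the base
point, for past times") with the two maximum principle axioms.
`KM R`: a Kaehler metric over `R`;  `Th`: its curvature along two derivations.
`DR.fr`, `KM.fr`: holomorphic change of frame.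
-/

set_option autoImplicit false
set_option linter.unusedSectionVars false

open Finset Matrix
open scoped ComplexConjugate ComplexOrder

namespace Crest.Agent.T223.Cn

noncomputable section

/-- derivations -/
abbrev Der (S : Type) [CommRing S] [Algebra ℂ S] := Derivation ℂ S S

/-- a differential ring with a base point and a maximum principle -/
structure DR (n : ℕ) (S : Type) [CommRing S] [Algebra ℂ S] where
  d : Fin n → Der S
  db : Fin n → Der S
  D : Der S
  cj : S →+* S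
  ev : S →ₐ[ℂ] ℂ
  ζ : Fin n → S
  Pos : S → Prop
  cj_cj : ∀ f, cj (cj f) = f
  cj_smul : ∀ (c : ℂ) f, cj (c • f) = conj c • cj f
  cj_d : ∀ k f, cj (d k f) = db k (cj f)
  cj_D : ∀ f, cj (D f) = D (cj f)
  ev_cj : ∀ f, ev (cj f) = conj (ev f)
  dd : ∀ k l f, d k (d l f) = d l (d k f)
  ddb : ∀ k l f, d k (db l f) = db l (d k f)
  Dd : ∀ k f, D (d k f) = d k (D f)
  d_ζ : ∀ k l, d k (ζ l) = if k = l then 1 else 0
  db_ζ : ∀ k l, db k (ζ l) = 0
  D_ζ : ∀ l, D (ζ l) = 0
  ev_ζ : ∀ l, ev (ζ l) = 0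
  unit : ∀ f, ev f ≠ 0 → IsUnit f
  pos_add : ∀ f g, Pos f → Pos g → Pos (f + g)
  mp1 : ∀ f, Pos f → (ev f).re = 0 → (ev (D f)).re ≤ 0
  mp2 : ∀ f, Pos f → (ev f).re = 0 → ∀ e : Fin n → ℂ,
    0 ≤ (∑ k, ∑ l, e k * conj (e l) * ev (d k (db l f))).re

variable {n : ℕ} {S : Type} [CommRing S] [Algebra ℂ S]

theorem D_mul (δ : Der S) (f g : S) : δ (f * g) = δ f * g + f * δ g := by
  rw [Derivation.leibniz]; simp only [smul_eq_mul]; ring

theorem D_one (δ : Der S) : δ 1 = 0 := δ.map_one_eq_zero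

theorem D_ite (δ : Der S) (p : Prop) [Decidable p] : δ (if p then 1 else 0) = 0 := by
  split_ifs <;> simp

theorem D_alg (δ : Der S) (c : ℂ) : δ (algebraMap ℂ S c) = 0 := δ.map_algebraMap c

theorem Der.sum_app {ι : Type*} (s : Finset ι) (δ : ι → Der S) (f : S) :
    (∑ i ∈ s, δ i) f = ∑ i ∈ s, δ i f := by
  classical
  induction s using Finset.induction_on with
  | empty => simp
  | insert a s ha ih => rw [sum_insert ha, sum_insert ha, Derivation.add_apply, ih]

/-! ### matrices -/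

section mat

variable {ι κ μ : Type}

/-- entrywise derivative -/
def dM (δ : Der S) (M : Matrix ι κ S) : Matrix ι κ S := Matrix.of fun i j => δ (M i j)

@[simp] theorem dM_apply (δ : Der S) (M : Matrix ι κ S) (i : ι) (j : κ) :
    dM δ M i j = δ (M i j) := rfl

theorem dM_mul [Fintype κ] (δ : Der S) (M : Matrix ι κ S) (N : Matrix κ μ S) :
    dM δ (M * N) = dM δ M * N + M * dM δ N := by
  ext i j
  simp only [dM_apply, Matrix.mul_apply, Matrix.add_apply, map_sum, D_mul, sum_add_distrib]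

theorem dM_add (δ : Der S) (M N : Matrix ι κ S) : dM δ (M + N) = dM δ M + dM δ N := by
  ext i j; simp

theorem dM_neg (δ : Der S) (M : Matrix ι κ S) : dM δ (-M) = -dM δ M := by
  ext i j; simp

theorem dM_sub (δ : Der S) (M N : Matrix ι κ S) : dM δ (M - N) = dM δ M - dM δ N := by
  ext i j; simp

theorem dM_transpose (δ : Der S) (M : Matrix ι κ S) : dM δ Mᵀ = (dM δ M)ᵀ := rfl

theorem dM_one [DecidableEq ι] (δ : Der S) : dM δ (1 : Matrix ι ι S) = 0 := by
  ext i j; simp only [dM_apply, Matrix.one_apply, D_ite, Matrix.zero_apply]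

theorem dM_smul (δ : Der S) (u : S) (M : Matrix ι κ S) :
    dM δ (u • M) = δ u • M + u • dM δ M := by
  ext i j
  simp only [dM_apply, Matrix.smul_apply, smul_eq_mul, Matrix.add_apply, D_mul]

theorem dM_inv [Fintype ι] [DecidableEq ι] (δ : Der S) {M N : Matrix ι ι S} (h : M * N = 1) :
    dM δ N = -(N * dM δ M * N) := by
  have h' : N * M = 1 := mul_eq_one_comm.1 h
  have h1 := dM_mul δ M N
  rw [h, dM_one] at h1
  have h2 : N * (dM δ M * N + M * dM δ N) = 0 := by rw [← h1, Matrix.mul_zero]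
  rw [Matrix.mul_add, ← Matrix.mul_assoc, ← Matrix.mul_assoc, h', Matrix.one_mul] at h2
  exact eq_neg_of_add_eq_zero_right h2

theorem D_trace [Fintype ι] (δ : Der S) (M : Matrix ι ι S) : δ M.trace = (dM δ M).trace := by
  simp [Matrix.trace]

/-- curvature of `g` (with inverse `gi`) along two derivations -/
def Th [Fintype ι] (δ δ' : Der S) (g gi : Matrix ι ι S) : Matrix ι ι S :=
  -dM δ (dM δ' g) + dM δ g * gi * dM δ' g

/-- tensoriality of the curvature -/
theorem Th_conj [Fintype ι] [DecidableEq ι] (δ δ' : Der S) {g gi A A' B B' : Matrix ι ι S}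
    (hg : g * gi = 1) (hA : A * B = 1) (hA' : A' * B' = 1)
    (h1 : dM δ' A = 0) (h2 : dM δ A' = 0) (h3 : dM δ (dM δ' A') = 0) :
    Th δ δ' (A * g * A') (B' * gi * B) = A * Th δ δ' g gi * A' := by
  have hg' : gi * g = 1 := mul_eq_one_comm.1 hg
  have hB : B * A = 1 := mul_eq_one_comm.1 hA
  have e1 : dM δ' (A * g * A') = A * (dM δ' g * A' + g * dM δ' A') := by
    simp only [dM_mul, h1, Matrix.zero_mul, zero_add, Matrix.mul_add, Matrix.mul_assoc]
  have e2 : dM δ (A * g * A') = (dM δ A * g + A * dM δ g) * A' := by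
    simp only [dM_mul, h2, Matrix.mul_zero, add_zero]
  have e3 : dM δ (dM δ' (A * g * A')) = dM δ A * (dM δ' g * A' + g * dM δ' A') +
      A * (dM δ (dM δ' g) * A' + dM δ g * dM δ' A') := by
    rw [e1]
    simp only [dM_mul, dM_add, h2, h3, Matrix.mul_zero, add_zero]
  have e4 : (dM δ A * g + A * dM δ g) * A' * (B' * gi * B) * (A * (dM δ' g * A' + g * dM δ' A'))
      = (dM δ A * g + A * dM δ g) * gi * (dM δ' g * A' + g * dM δ' A') := by
    calc _ = (dM δ A * g + A * dM δ g) * (A' * B') * gi * (B * A) *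
          (dM δ' g * A' + g * dM δ' A') := by simp only [Matrix.mul_assoc]
      _ = _ := by rw [hA', hB, Matrix.mul_one, Matrix.mul_one]
  have e5 : dM δ A * g * gi = dM δ A := by rw [Matrix.mul_assoc, hg, Matrix.mul_one]
  have e6 : A * dM δ g * gi * (g * dM δ' A') = A * dM δ g * dM δ' A' := by
    rw [Matrix.mul_assoc (A * dM δ g), ← Matrix.mul_assoc gi, hg', Matrix.one_mul]
  unfold Th
  rw [e3, e2, e1, e4, Matrix.add_mul, e5, Matrix.add_mul, Matrix.mul_add (A * dM δ g * gi), e6]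
  simp only [Matrix.mul_add, Matrix.add_mul, Matrix.mul_neg, Matrix.neg_mul, Matrix.mul_assoc]
  abel

/-- the curvature of the inverse -/
theorem Th_inv [Fintype ι] [DecidableEq ι] (δ δ' : Der S) {g gi : Matrix ι ι S} (hg : g * gi = 1) :
    dM δ (dM δ' gi) - dM δ' gi * g * dM δ gi = gi * Th δ δ' g gi * gi := by
  have hg' : gi * g = 1 := mul_eq_one_comm.1 hg
  have e1 := dM_inv δ hg
  have e2 := dM_inv δ' hg
  have e3 : dM δ (dM δ' gi) = -(dM δ gi * dM δ' g * gi + gi * dM δ (dM δ' g) * gi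
      + gi * dM δ' g * dM δ gi) := by
    rw [e2, dM_neg]
    simp only [dM_mul, Matrix.add_mul]
  have e4 : dM δ' gi * g = -(gi * dM δ' g) := by
    rw [e2, Matrix.neg_mul, Matrix.mul_assoc, hg', Matrix.mul_one]
  rw [e3, e4, e1]
  unfold Th
  simp only [Matrix.mul_add, Matrix.add_mul, Matrix.mul_neg, Matrix.neg_mul, Matrix.mul_assoc]
  abel

end mat

namespace DR

variable (R : DR n S)

theorem cj_db (k : Fin n) (f : S) : R.cj (R.db k f) = R.d k (R.cj f) := by
  have := R.cj_d k (R.cj f)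
  rw [R.cj_cj] at this
  rw [← this, R.cj_cj]

theorem cj_inj {f g : S} (h : R.cj f = R.cj g) : f = g := by
  rw [← R.cj_cj f, h, R.cj_cj]

theorem dbdb (k l : Fin n) (f : S) : R.db k (R.db l f) = R.db l (R.db k f) :=
  R.cj_inj (by simp only [cj_db, R.dd k l])

theorem Ddb (k : Fin n) (f : S) : R.D (R.db k f) = R.db k (R.D f) :=
  R.cj_inj (by simp only [cj_db, R.cj_D, R.Dd])

theorem cj_alg (c : ℂ) : R.cj (algebraMap ℂ S c) = algebraMap ℂ S (conj c) := by
  rw [Algebra.algebraMap_eq_smul_one, R.cj_smul, map_one, Algebra.algebraMap_eq_smul_one]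

theorem im_ev {f : S} (h : R.cj f = f) : (R.ev f).im = 0 := by
  have := R.ev_cj f
  rw [h] at this
  exact Complex.conj_eq_iff_im.1 this.symm

/-- holomorphic and independent of time -/
def Hol (f : S) : Prop := (∀ k, R.db k f = 0) ∧ R.D f = 0

variable {R}

theorem Hol.d_cj {f : S} (h : R.Hol f) (k : Fin n) : R.d k (R.cj f) = 0 := by
  rw [← cj_db, h.1, map_zero]

theorem Hol.D_cj {f : S} (h : R.Hol f) : R.D (R.cj f) = 0 := by
  rw [← R.cj_D, h.2, map_zero]

theorem Hol.add {f g : S} (hf : R.Hol f) (hg : R.Hol g) : R.Hol (f + g) :=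
  ⟨fun k => by rw [map_add, hf.1, hg.1, add_zero], by rw [map_add, hf.2, hg.2, add_zero]⟩

theorem Hol.mul {f g : S} (hf : R.Hol f) (hg : R.Hol g) : R.Hol (f * g) :=
  ⟨fun k => by rw [D_mul, hf.1, hg.1]; ring, by rw [D_mul, hf.2, hg.2]; ring⟩

theorem Hol.smul {f : S} (hf : R.Hol f) (c : ℂ) : R.Hol (c • f) :=
  ⟨fun k => by rw [Derivation.map_smul, hf.1, smul_zero], by
    rw [Derivation.map_smul, hf.2, smul_zero]⟩

theorem Hol.sum {ι : Type*} (s : Finset ι) {f : ι → S} (hf : ∀ i, R.Hol (f i)) :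
    R.Hol (∑ i ∈ s, f i) :=
  ⟨fun k => by rw [map_sum]; exact sum_eq_zero fun i _ => (hf i).1 k, by
    rw [map_sum]; exact sum_eq_zero fun i _ => (hf i).2⟩

theorem Hol.d {f : S} (hf : R.Hol f) (k : Fin n) : R.Hol (R.d k f) :=
  ⟨fun l => by rw [← R.ddb, hf.1, map_zero], by rw [R.Dd, hf.2, map_zero]⟩

variable (R)

theorem hol_alg (c : ℂ) : R.Hol (algebraMap ℂ S c) := ⟨fun _ => D_alg _ _, D_alg _ _⟩

theorem hol_ζ (k : Fin n) : R.Hol (R.ζ k) := ⟨fun l => R.db_ζ l k, R.D_ζ k⟩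

theorem hol_ite (p : Prop) [Decidable p] : R.Hol (if p then 1 else 0) :=
  ⟨fun _ => D_ite _ _, D_ite _ _⟩

/-- conjugate of a vector -/
def cv {ι : Type} (v : ι → S) : ι → S := fun i => R.cj (v i)

/-- conjugate of a matrix -/
def cM {ι κ : Type} (M : Matrix ι κ S) : Matrix ι κ S := M.map R.cj

@[simp] theorem cv_apply {ι : Type} (v : ι → S) (i : ι) : R.cv v i = R.cj (v i) := rfl

@[simp] theorem cM_apply {ι κ : Type} (M : Matrix ι κ S) (i : ι) (j : κ) :
    R.cM M i j = R.cj (M i j) := rfl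

theorem cM_mul {ι κ μ : Type} [Fintype κ] (M : Matrix ι κ S) (N : Matrix κ μ S) :
    R.cM (M * N) = R.cM M * R.cM N := Matrix.map_mul

theorem cM_one {ι : Type} [DecidableEq ι] : R.cM (1 : Matrix ι ι S) = 1 :=
  Matrix.map_one _ (map_zero _) (map_one _)

theorem cM_cM {ι κ : Type} (M : Matrix ι κ S) : R.cM (R.cM M) = M := by
  ext i j; exact R.cj_cj _

theorem cM_transpose {ι κ : Type} (M : Matrix ι κ S) : R.cM Mᵀ = (R.cM M)ᵀ := rfl

theorem cv_mulVec {ι κ : Type} [Fintype κ] (M : Matrix ι κ S) (v : κ → S) :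
    R.cv (M *ᵥ v) = R.cM M *ᵥ R.cv v := by
  funext i; simp [Matrix.mulVec, dotProduct, map_sum]

theorem cv_cv {ι : Type} (v : ι → S) : R.cv (R.cv v) = v := funext fun _ => R.cj_cj _

/-- sesquilinear form of a matrix -/
def bf (M : Matrix (Fin n) (Fin n) S) (x y : Fin n → S) : S := x ⬝ᵥ (M *ᵥ R.cv y)

theorem bf_eq (M : Matrix (Fin n) (Fin n) S) (x y : Fin n → S) :
    R.bf M x y = ∑ i, ∑ j, x i * R.cj (y j) * M i j := by
  simp only [bf, dotProduct, Matrix.mulVec, cv_apply, mul_sum]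
  exact sum_congr rfl fun i _ => sum_congr rfl fun j _ => by ring

theorem bf_conj (M A A' : Matrix (Fin n) (Fin n) S) (x y : Fin n → S) :
    R.bf (Aᵀ * M * R.cM A') x y = R.bf M (A *ᵥ x) (A' *ᵥ y) := by
  unfold bf
  rw [cv_mulVec, ← Matrix.mulVec_mulVec, ← Matrix.mulVec_mulVec, Matrix.dotProduct_mulVec,
    Matrix.vecMul_transpose]

theorem bf_add (M N : Matrix (Fin n) (Fin n) S) (x y : Fin n → S) :
    R.bf (M + N) x y = R.bf M x y + R.bf N x y := by
  simp only [bf, Matrix.add_mulVec, dotProduct_add]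

theorem bf_neg (M : Matrix (Fin n) (Fin n) S) (x y : Fin n → S) :
    R.bf (-M) x y = -R.bf M x y := by
  simp only [bf, Matrix.neg_mulVec, dotProduct_neg]

theorem bf_smul (u : S) (M : Matrix (Fin n) (Fin n) S) (x y : Fin n → S) :
    R.bf (u • M) x y = u * R.bf M x y := by
  simp only [bf, Matrix.smul_mulVec, dotProduct_smul, smul_eq_mul]

/-- `∑ a_k ∂_k + c D` -/
def dv (a : Fin n → S) (c : ℂ) : Der S := ∑ k, a k • R.d k + c • R.D

/-- the conjugate operator -/
def dbv (a : Fin n → S) (c : ℂ) : Der S := ∑ k, R.cj (a k) • R.db k + conj c • R.D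

theorem dv_apply (a : Fin n → S) (c : ℂ) (f : S) :
    R.dv a c f = ∑ k, a k * R.d k f + c • R.D f := by
  simp only [dv, Derivation.add_apply, Der.sum_app, Derivation.smul_apply, smul_eq_mul]

theorem dbv_apply (a : Fin n → S) (c : ℂ) (f : S) :
    R.dbv a c f = ∑ k, R.cj (a k) * R.db k f + conj c • R.D f := by
  simp only [dbv, Derivation.add_apply, Der.sum_app, Derivation.smul_apply, smul_eq_mul]

theorem cj_dv (a : Fin n → S) (c : ℂ) (f : S) : R.cj (R.dv a c f) = R.dbv a c (R.cj f) := by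
  simp only [dv_apply, dbv_apply, map_add, map_sum, map_mul, R.cj_d, R.cj_smul, R.cj_D]

theorem cj_dbv (a : Fin n → S) (c : ℂ) (f : S) : R.cj (R.dbv a c f) = R.dv a c (R.cj f) := by
  have := R.cj_dv a c (R.cj f)
  rw [R.cj_cj] at this
  rw [← this, R.cj_cj]

variable {R}

theorem Hol.dbv {f : S} (h : R.Hol f) (a : Fin n → S) (c : ℂ) : R.dbv a c f = 0 := by
  simp [dbv_apply, h.1, h.2]

theorem Hol.dv_cj {f : S} (h : R.Hol f) (a : Fin n → S) (c : ℂ) : R.dv a c (R.cj f) = 0 := by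
  rw [← cj_dbv, h.dbv, map_zero]

theorem db_dv {a : Fin n → S} (ha : ∀ k, R.Hol (a k)) (c : ℂ) (l : Fin n) (f : S) :
    R.db l (R.dv a c f) = R.dv a c (R.db l f) := by
  simp only [dv_apply, map_add, map_sum, D_mul, (ha _).1, zero_mul, zero_add, Derivation.map_smul,
    R.ddb, R.Ddb]

theorem D_dv {a : Fin n → S} (ha : ∀ k, R.Hol (a k)) (c : ℂ) (f : S) :
    R.D (R.dv a c f) = R.dv a c (R.D f) := by
  simp only [dv_apply, map_add, map_sum, D_mul, (ha _).2, zero_mul, zero_add, Derivation.map_smul,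
    R.Dd]

theorem d_dbv {a : Fin n → S} (ha : ∀ k, R.Hol (a k)) (c : ℂ) (l : Fin n) (f : S) :
    R.d l (R.dbv a c f) = R.dbv a c (R.d l f) :=
  R.cj_inj (by simp only [R.cj_d, cj_dbv, db_dv ha])

theorem D_dbv {a : Fin n → S} (ha : ∀ k, R.Hol (a k)) (c : ℂ) (f : S) :
    R.D (R.dbv a c f) = R.dbv a c (R.D f) :=
  R.cj_inj (by simp only [R.cj_D, cj_dbv, D_dv ha])

theorem dv_dbv {a a' : Fin n → S} (ha : ∀ k, R.Hol (a k)) (ha' : ∀ k, R.Hol (a' k)) (c c' : ℂ)
    (f : S) : R.dv a c (R.dbv a' c' f) = R.dbv a' c' (R.dv a c f) := by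
  rw [R.dv_apply a c (R.dbv a' c' f), R.dv_apply a c f]
  simp only [map_add, map_sum, D_mul, (ha _).dbv, zero_mul, zero_add, Derivation.map_smul,
    d_dbv ha', D_dbv ha']

variable (R)

/-- complex Hessian -/
def hs (f : S) : Matrix (Fin n) (Fin n) S := Matrix.of fun k l => R.d k (R.db l f)

/-- `∂ f ⊗ ∂̄ g` -/
def gr (f g : S) : Matrix (Fin n) (Fin n) S := Matrix.of fun k l => R.d k f * R.db l g

/-- evaluation of a matrix -/
def eM {ι κ : Type} (M : Matrix ι κ S) : Matrix ι κ ℂ := M.map R.ev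

@[simp] theorem eM_apply {ι κ : Type} (M : Matrix ι κ S) (i : ι) (j : κ) :
    R.eM M i j = R.ev (M i j) := rfl

theorem eM_mul {ι κ μ : Type} [Fintype κ] (M : Matrix ι κ S) (N : Matrix κ μ S) :
    R.eM (M * N) = R.eM M * R.eM N := by
  ext i j; simp [Matrix.mul_apply, map_sum]

theorem eM_add {ι κ : Type} (M N : Matrix ι κ S) : R.eM (M + N) = R.eM M + R.eM N := by
  ext i j; simp

theorem eM_sub {ι κ : Type} (M N : Matrix ι κ S) : R.eM (M - N) = R.eM M - R.eM N := by
  ext i j; simp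

theorem eM_neg {ι κ : Type} (M : Matrix ι κ S) : R.eM (-M) = -R.eM M := by
  ext i j; simp

theorem eM_one {ι : Type} [DecidableEq ι] : R.eM (1 : Matrix ι ι S) = 1 :=
  Matrix.map_one _ (map_zero _) (map_one _)

theorem eM_transpose {ι κ : Type} (M : Matrix ι κ S) : R.eM Mᵀ = (R.eM M)ᵀ := rfl

theorem eM_cM {ι κ : Type} (M : Matrix ι κ S) : R.eM (R.cM M) = (R.eM M).map conj := by
  ext i j; simp [R.ev_cj]

theorem ev_trace (M : Matrix (Fin n) (Fin n) S) : R.ev M.trace = (R.eM M).trace := by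
  simp [Matrix.trace, map_sum]

theorem mul_inv {M : Matrix (Fin n) (Fin n) S} (h : (R.eM M).det ≠ 0) : M * M⁻¹ = 1 := by
  refine Matrix.mul_nonsing_inv _ (R.unit _ ?_)
  rw [AlgHom.map_det]
  exact h

end DR

/-- a Kaehler metric over `R` -/
structure KM (R : DR n S) where
  g : Matrix (Fin n) (Fin n) S
  gi : Matrix (Fin n) (Fin n) S
  inv : g * gi = 1
  herm : R.cM g = gᵀ
  pos : ∀ v, R.Pos (R.bf g v v)
  pd : (R.eM g).PosDef
  closed : ∀ a b c, R.d c (g a b) = R.d a (g c b)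

namespace KM

variable {R : DR n S} (K : KM R)

theorem inv' : K.gi * K.g = 1 := mul_eq_one_comm.1 K.inv

theorem herm_gi : R.cM K.gi = K.giᵀ := by
  have h1 : K.gᵀ * R.cM K.gi = 1 := by rw [← K.herm, ← R.cM_mul, K.inv, R.cM_one]
  have h2 : K.giᵀ * K.gᵀ = 1 := by rw [← Matrix.transpose_mul, K.inv, Matrix.transpose_one]
  calc R.cM K.gi = (K.giᵀ * K.gᵀ) * R.cM K.gi := by rw [h2, Matrix.one_mul]
    _ = K.giᵀ := by rw [Matrix.mul_assoc, h1, Matrix.mul_one]

theorem cj_g (a b : Fin n) : R.cj (K.g a b) = K.g b a := congrFun (congrFun K.herm a) b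

theorem cj_gi (a b : Fin n) : R.cj (K.gi a b) = K.gi b a := congrFun (congrFun K.herm_gi a) b

theorem closed' (a b c : Fin n) : R.db c (K.g a b) = R.db b (K.g a c) :=
  R.cj_inj (by rw [R.cj_db, R.cj_db, K.cj_g, K.cj_g, K.closed])

/-- trace with respect to the metric -/
def tr (M : Matrix (Fin n) (Fin n) S) : S := (K.gi * M).trace

/-- Laplacian -/
def lap (f : S) : S := K.tr (R.hs f)

/-- Ricci form -/
def ric : Matrix (Fin n) (Fin n) S :=
  Matrix.of fun k l => K.tr (Th (R.d k) (R.db l) K.g K.gi)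

/-- the space-time curvature form -/
def th (v a : Fin n → S) (c : ℂ) : S := R.bf (Th (R.dv a c) (R.dbv a c) K.g K.gi) v v

/-- the (normalised) Kaehler-Ricci flow -/
def Flow (lam : ℝ) : Prop := dM R.D K.g = -((lam : ℂ) • K.g) - K.ric

end KM

end

end Crest.Agent.T223.Cn
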