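import Crest.Agent.T223.CnA_87

/-!
# Row 223 (helper87), CONE module, part F: holomorphic frames, normal frames

`Frm R`: holomorphic coordinates `ψ` with Jacobian `B` and inverse Jacobian `A`.
`F.dr : DR n S` the ring in the new coordinates, `K.fr F` the metric in the new coordinates.
`KM.exists_normal`: coordinates with `g = 1`, `∂ g = 0` at the base point.
-/

set_option autoImplicit false
set_option linter.unusedSectionVars false

open Finset Matrix
open scoped ComplexConjugate ComplexOrder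

namespace Crest.Agent.T223.Cn

noncomputable section

variable {n : ℕ} {S : Type} [CommRing S] [Algebra ℂ S]

/-- new holomorphic coordinates -/
structure Frm (R : DR n S) where
  ψ : Fin n → S
  A : Matrix (Fin n) (Fin n) S
  B : Matrix (Fin n) (Fin n) S
  hψ : ∀ i, R.Hol (ψ i)
  ev_ψ : ∀ i, R.ev (ψ i) = 0
  hB : ∀ i p, R.d p (ψ i) = B i p
  AB : A * B = 1

namespace Frm

variable {R : DR n S} (F : Frm R)

theorem BA : F.B * F.A = 1 := mul_eq_one_comm.1 F.AB

theorem holB (i p : Fin n) : R.Hol (F.B i p) := by rw [← F.hB]; exact (F.hψ i).d p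

theorem holA (i p : Fin n) : R.Hol (F.A i p) := by
  have h : ∀ δ : Der S, (∀ i p, δ (F.B i p) = 0) → δ (F.A i p) = 0 := by
    intro δ hδ
    have h0 : dM δ F.B = 0 := by ext i p; exact hδ i p
    have := dM_inv δ F.BA
    rw [h0, Matrix.mul_zero, Matrix.zero_mul, neg_zero] at this
    exact congrFun (congrFun this i) p
  exact ⟨fun k => h _ fun i p => (F.holB i p).1 k, h _ fun i p => (F.holB i p).2⟩

/-- new `∂_k` -/
def d (k : Fin n) : Der S := R.dv (fun p => F.A p k) 0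

/-- new `∂̄_k` -/
def db (k : Fin n) : Der S := R.dbv (fun p => F.A p k) 0

theorem d_apply (k : Fin n) (f : S) : F.d k f = ∑ p, F.A p k * R.d p f := by
  simp [d, R.dv_apply]

theorem db_apply (k : Fin n) (f : S) : F.db k f = ∑ p, R.cj (F.A p k) * R.db p f := by
  simp [db, R.dbv_apply]

theorem d_ψ (k l : Fin n) : F.d k (F.ψ l) = if k = l then 1 else 0 := by
  have := congrFun (congrFun F.BA l) k
  rw [Matrix.mul_apply, Matrix.one_apply] at this
  rw [d_apply]
  simp only [F.hB, eq_comm (a := k)]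
  rw [← this]
  exact sum_congr rfl fun _ _ => mul_comm _ _

theorem comm_aux (k l : Fin n) (f : S) : F.d k (F.d l f) - F.d l (F.d k f) =
    ∑ q, (F.d k (F.A q l) - F.d l (F.A q k)) * R.d q f := by
  have e : ∀ k l, F.d k (F.d l f) = ∑ q, F.d k (F.A q l) * R.d q f +
      ∑ q, ∑ p, F.A q l * F.A p k * R.d p (R.d q f) := by
    intro k l
    rw [F.d_apply l f, map_sum, ← sum_add_distrib]
    refine sum_congr rfl fun q _ => ?_
    rw [D_mul, F.d_apply k (R.d q f), mul_sum]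
    simp only [mul_assoc]
  have e2 : ∑ q, ∑ p, F.A q l * F.A p k * R.d p (R.d q f) =
      ∑ q, ∑ p, F.A q k * F.A p l * R.d p (R.d q f) := by
    rw [sum_comm]
    exact sum_congr rfl fun q _ => sum_congr rfl fun p _ => by rw [R.dd q p]; ring
  rw [e, e, e2]
  simp only [sub_mul, sum_sub_distrib]
  ring

theorem dA_symm (k l q : Fin n) : F.d k (F.A q l) = F.d l (F.A q k) := by
  set c : Fin n → S := fun q => F.d k (F.A q l) - F.d l (F.A q k) with hc
  have h1 : F.B *ᵥ c = 0 := by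
    funext i
    have := F.comm_aux k l (F.ψ i)
    rw [d_ψ, d_ψ, D_ite, D_ite, sub_zero] at this
    simp only [Matrix.mulVec, dotProduct, Pi.zero_apply]
    rw [this]
    exact sum_congr rfl fun q _ => by rw [F.hB, mul_comm]
  have h2 : c = 0 := by
    rw [← Matrix.one_mulVec c, ← F.AB, ← Matrix.mulVec_mulVec, h1, Matrix.mulVec_zero]
  exact sub_eq_zero.1 (congrFun h2 q)

theorem dd (k l : Fin n) (f : S) : F.d k (F.d l f) = F.d l (F.d k f) := by
  rw [← sub_eq_zero, comm_aux]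
  exact sum_eq_zero fun q _ => by rw [F.dA_symm k l q, sub_self, zero_mul]

theorem d_db (k l : Fin n) (f : S) : F.d k (F.db l f) =
    ∑ p, ∑ q, F.A p k * R.cj (F.A q l) * R.d p (R.db q f) := by
  rw [d_apply, db_apply]
  refine sum_congr rfl fun p _ => ?_
  rw [map_sum, mul_sum]
  refine sum_congr rfl fun q _ => ?_
  rw [D_mul, (F.holA q l).d_cj]
  ring

/-- the ring in the new coordinates -/
def dr : DR n S where
  d := F.d
  db := F.db
  D := R.D
  cj := R.cj
  ev := R.ev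
  ζ := F.ψ
  Pos := R.Pos
  cj_cj := R.cj_cj
  cj_smul := R.cj_smul
  cj_d k f := R.cj_dv _ _ f |>.trans (by simp [db])
  cj_D := R.cj_D
  ev_cj := R.ev_cj
  dd := F.dd
  ddb k l f := DR.dv_dbv (fun p => F.holA p k) (fun p => F.holA p l) _ _ f
  Dd k f := DR.D_dv (fun p => F.holA p k) _ f
  d_ζ := F.d_ψ
  db_ζ k l := (F.hψ l).dbv _ _
  D_ζ l := (F.hψ l).2
  ev_ζ := F.ev_ψ
  unit := R.unit
  pos_add := R.pos_add
  mp1 := R.mp1
  mp2 f hf h0 e := by
    have := R.mp2 f hf h0 fun p => ∑ k, R.ev (F.A p k) * e k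
    convert this using 2
    simp only [d_db, map_sum, map_mul, R.ev_cj, mul_sum, sum_mul]
    calc _ = ∑ k, ∑ p, ∑ l, ∑ q, e k * conj (e l) *
          (R.ev (F.A p k) * conj (R.ev (F.A q l)) * R.ev (R.d p (R.db q f))) :=
          sum_congr rfl fun k _ => sum_comm
      _ = ∑ p, ∑ k, ∑ l, ∑ q, e k * conj (e l) *
          (R.ev (F.A p k) * conj (R.ev (F.A q l)) * R.ev (R.d p (R.db q f))) := sum_comm
      _ = ∑ p, ∑ k, ∑ q, ∑ l, e k * conj (e l) *
          (R.ev (F.A p k) * conj (R.ev (F.A q l)) * R.ev (R.d p (R.db q f))) :=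
          sum_congr rfl fun p _ => sum_congr rfl fun k _ => sum_comm
      _ = ∑ p, ∑ q, ∑ k, ∑ l, e k * conj (e l) *
          (R.ev (F.A p k) * conj (R.ev (F.A q l)) * R.ev (R.d p (R.db q f))) :=
          sum_congr rfl fun p _ => sum_comm
      _ = _ := by
          refine sum_congr rfl fun p _ => sum_congr rfl fun q _ => ?_
          rw [sum_comm]
          exact sum_congr rfl fun l _ => sum_congr rfl fun k _ => by ring

@[simp] theorem dr_D : F.dr.D = R.D := rfl
@[simp] theorem dr_ev : F.dr.ev = R.ev := rfl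
@[simp] theorem dr_cj : F.dr.cj = R.cj := rfl
@[simp] theorem dr_Pos : F.dr.Pos = R.Pos := rfl
theorem dr_d : F.dr.d = F.d := rfl
theorem dr_db : F.dr.db = F.db := rfl
theorem dr_bf : F.dr.bf = R.bf := rfl
theorem dr_cM {ι κ : Type} (M : Matrix ι κ S) : F.dr.cM M = R.cM M := rfl
theorem dr_eM {ι κ : Type} (M : Matrix ι κ S) : F.dr.eM M = R.eM M := rfl

theorem db_eq (q : Fin n) (f : S) : R.db q f = ∑ l, R.cj (F.B l q) * F.db l f := by
  have h : ∀ p, ∑ l, R.cj (F.B l q) * R.cj (F.A p l) = if p = q then 1 else 0 := by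
    intro p
    have := congrFun (congrFun (congrArg R.cM F.AB) p) q
    rw [R.cM_mul, R.cM_one, Matrix.mul_apply, Matrix.one_apply] at this
    rw [← this]
    exact sum_congr rfl fun _ _ => mul_comm _ _
  simp only [db_apply, mul_sum]
  rw [sum_comm]
  simp only [← mul_assoc, ← sum_mul, h, ite_mul, one_mul, zero_mul, sum_ite_eq', mem_univ, if_true]

theorem hol_iff (f : S) : F.dr.Hol f ↔ R.Hol f := by
  constructor
  · rintro ⟨h1, h2⟩
    refine ⟨fun q => ?_, h2⟩
    rw [F.db_eq]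
    exact sum_eq_zero fun l _ => by rw [show F.db l f = 0 from h1 l, mul_zero]
  · intro h
    exact ⟨fun k => h.dbv _ _, h.2⟩

theorem hol_mulVec {a : Fin n → S} (ha : ∀ k, F.dr.Hol (a k)) (p : Fin n) :
    R.Hol ((F.A *ᵥ a) p) :=
  DR.Hol.sum univ fun k => (F.holA p k).mul ((F.hol_iff _).1 (ha k))

theorem dr_dv (a : Fin n → S) (c : ℂ) : F.dr.dv a c = R.dv (F.A *ᵥ a) c := by
  ext f
  simp only [DR.dv_apply, dr_d, d_apply, dr_D, Matrix.mulVec, dotProduct, mul_sum, sum_mul]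
  rw [sum_comm]
  congr 1
  exact sum_congr rfl fun _ _ => sum_congr rfl fun _ _ => by ring

theorem dr_dbv (a : Fin n → S) (c : ℂ) : F.dr.dbv a c = R.dbv (F.A *ᵥ a) c := by
  ext f
  apply R.cj_inj
  rw [R.cj_dbv, ← dr_dv]
  exact F.dr.cj_dbv a c f

/-- pull-back of a `(1,1)`-tensor -/
def pb (M : Matrix (Fin n) (Fin n) S) : Matrix (Fin n) (Fin n) S := F.Aᵀ * M * R.cM F.A

theorem pb_apply (M : Matrix (Fin n) (Fin n) S) (k l : Fin n) :
    F.pb M k l = ∑ p, ∑ q, F.A p k * R.cj (F.A q l) * M p q := by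
  simp only [pb, Matrix.mul_apply, Matrix.transpose_apply, DR.cM_apply, sum_mul]
  rw [sum_comm]
  exact sum_congr rfl fun _ _ => sum_congr rfl fun _ _ => by ring

theorem pb_add (M N : Matrix (Fin n) (Fin n) S) : F.pb (M + N) = F.pb M + F.pb N := by
  simp only [pb, Matrix.mul_add, Matrix.add_mul]

theorem pb_sub (M N : Matrix (Fin n) (Fin n) S) : F.pb (M - N) = F.pb M - F.pb N := by
  simp only [pb, Matrix.mul_sub, Matrix.sub_mul]

theorem pb_neg (M : Matrix (Fin n) (Fin n) S) : F.pb (-M) = -F.pb M := by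
  simp only [pb, Matrix.mul_neg, Matrix.neg_mul]

theorem pb_smul (u : S) (M : Matrix (Fin n) (Fin n) S) : F.pb (u • M) = u • F.pb M := by
  simp only [pb, Matrix.mul_smul, Matrix.smul_mul]

theorem pb_smulC (u : ℂ) (M : Matrix (Fin n) (Fin n) S) : F.pb (u • M) = u • F.pb M := by
  simp only [pb, Matrix.mul_smul, Matrix.smul_mul]

theorem bf_pb (M : Matrix (Fin n) (Fin n) S) (x y : Fin n → S) :
    F.dr.bf (F.pb M) x y = R.bf M (F.A *ᵥ x) (F.A *ᵥ y) := R.bf_conj M F.A F.A x y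

theorem dr_hs (f : S) : F.dr.hs f = F.pb (R.hs f) := by
  ext k l
  rw [pb_apply]
  exact F.d_db k l f

theorem dr_gr (f g : S) : F.dr.gr f g = F.pb (R.gr f g) := by
  ext k l
  rw [pb_apply]
  change F.d k f * F.db l g = _
  rw [d_apply, db_apply, sum_mul_sum]
  exact sum_congr rfl fun _ _ => sum_congr rfl fun _ _ => by simp only [DR.gr, of_apply]; ring

theorem D_pb (M : Matrix (Fin n) (Fin n) S) : dM R.D (F.pb M) = F.pb (dM R.D M) := by
  have h1 : dM R.D F.Aᵀ = 0 := by ext i j; exact (F.holA j i).2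
  have h2 : dM R.D (R.cM F.A) = 0 := by ext i j; exact (F.holA i j).D_cj
  simp only [pb, dM_mul, h1, h2, Matrix.zero_mul, Matrix.mul_zero, zero_add, add_zero]

theorem cM_pb {M : Matrix (Fin n) (Fin n) S} (h : R.cM M = Mᵀ) : R.cM (F.pb M) = (F.pb M)ᵀ := by
  simp only [pb, R.cM_mul, R.cM_cM, R.cM_transpose, h, Matrix.transpose_mul,
    Matrix.transpose_transpose, Matrix.mul_assoc]

theorem closed_pb {M : Matrix (Fin n) (Fin n) S} (h : ∀ a b c, R.d c (M a b) = R.d a (M c b))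
    (a b c : Fin n) : F.d c (F.pb M a b) = F.d a (F.pb M c b) := by
  have e : ∀ a c, F.d c (F.pb M a b) =
      ∑ p, ∑ q, F.d c (F.A p a) * R.cj (F.A q b) * M p q +
      ∑ p, ∑ r, ∑ q, F.A p a * F.A r c * R.cj (F.A q b) * R.d r (M p q) := by
    intro a c
    rw [pb_apply, map_sum, ← sum_add_distrib]
    refine sum_congr rfl fun p _ => ?_
    rw [map_sum, sum_comm, ← sum_add_distrib]
    refine sum_congr rfl fun q _ => ?_
    have : F.d c (R.cj (F.A q b)) = 0 := (F.holA q b).dv_cj _ _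
    rw [D_mul, D_mul, this, F.d_apply c (M p q), mul_sum, mul_zero, add_zero]
    congr 1
    exact sum_congr rfl fun _ _ => by ring
  rw [e, e]
  congr 1
  · simp only [F.dA_symm c a]
  · rw [sum_comm]
    exact sum_congr rfl fun p _ => sum_congr rfl fun r _ => sum_congr rfl fun q _ => by
      rw [h r q p]; ring

theorem eA_unit : IsUnit (R.eM F.A) :=
  IsUnit.of_mul_eq_one (R.eM F.B) (by rw [← R.eM_mul, F.AB, R.eM_one])

end Frm

namespace KM

variable {R : DR n S} (K : KM R) (F : Frm R)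

/-- the metric in the new coordinates -/
def fr : KM F.dr where
  g := F.pb K.g
  gi := R.cM F.B * K.gi * F.Bᵀ
  inv := by
    have h1 : R.cM F.A * R.cM F.B = 1 := by rw [← R.cM_mul, F.AB, R.cM_one]
    have h2 : F.Aᵀ * F.Bᵀ = 1 := by rw [← Matrix.transpose_mul, F.BA, Matrix.transpose_one]
    calc _ = F.Aᵀ * (K.g * (R.cM F.A * R.cM F.B) * K.gi) * F.Bᵀ := by
          simp only [Frm.pb, Matrix.mul_assoc]
      _ = 1 := by rw [h1, Matrix.mul_one, K.inv, Matrix.mul_one, h2]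
  herm := F.cM_pb K.herm
  pos v := by rw [F.bf_pb]; exact K.pos _
  pd := by
    have h : F.dr.eM (F.pb K.g) =
        ((R.eM F.A).map conj)ᴴ * R.eM K.g * (R.eM F.A).map conj := by
      rw [F.dr_eM, Frm.pb, R.eM_mul, R.eM_mul, R.eM_cM]
      congr 2
      ext i j
      simp
    rw [h]
    refine K.pd.conjTranspose_mul_mul_same (Matrix.mulVec_injective_iff_isUnit.2 ?_)
    rw [← R.eM_cM]
    exact IsUnit.of_mul_eq_one (R.eM (R.cM F.B))
      (by rw [← R.eM_mul, ← R.cM_mul, F.AB, R.cM_one, R.eM_one])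
  closed := F.closed_pb K.closed

theorem fr_g : (K.fr F).g = F.pb K.g := rfl

theorem fr_tr (M : Matrix (Fin n) (Fin n) S) : (K.fr F).tr (F.pb M) = K.tr M := by
  have h1 : R.cM F.A * R.cM F.B = 1 := by rw [← R.cM_mul, F.AB, R.cM_one]
  have h2 : F.Bᵀ * F.Aᵀ = 1 := by rw [← Matrix.transpose_mul, F.AB, Matrix.transpose_one]
  change (R.cM F.B * K.gi * F.Bᵀ * (F.Aᵀ * M * R.cM F.A)).trace = (K.gi * M).trace
  calc _ = (R.cM F.B * (K.gi * (F.Bᵀ * F.Aᵀ) * M * R.cM F.A)).trace := by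
        simp only [Matrix.mul_assoc]
    _ = _ := by
        rw [h2, Matrix.mul_one, Matrix.trace_mul_comm, Matrix.mul_assoc, h1, Matrix.mul_one]

theorem fr_lap (f : S) : (K.fr F).lap f = K.lap f := by
  unfold lap
  rw [F.dr_hs, fr_tr]

theorem Th_fr {a a' : Fin n → S} (ha' : ∀ k, R.Hol (a' k)) (c c' : ℂ) :
    Th (R.dv a c) (R.dbv a' c') (K.fr F).g (K.fr F).gi =
      F.pb (Th (R.dv a c) (R.dbv a' c') K.g K.gi) := by
  refine Th_conj _ _ K.inv ?_ ?_ ?_ ?_ ?_
  · rw [← Matrix.transpose_mul, F.BA, Matrix.transpose_one]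
  · rw [← R.cM_mul, F.AB, R.cM_one]
  · ext i j; exact (F.holA j i).dbv _ _
  · ext i j; exact (F.holA i j).dv_cj _ _
  · ext i j
    change R.dv a c (R.dbv a' c' (R.cj (F.A i j))) = 0
    rw [← R.cj_dv]
    refine DR.Hol.dv_cj ?_ _ _
    rw [R.dv_apply, (F.holA i j).2, smul_zero, add_zero]
    exact DR.Hol.sum _ fun k => (ha' k).mul ((F.holA i j).d k)

theorem fr_th (v : Fin n → S) {a : Fin n → S} (ha : ∀ k, F.dr.Hol (a k)) (c : ℂ) :
    (K.fr F).th v a c = K.th (F.A *ᵥ v) (F.A *ᵥ a) c := by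
  unfold th
  rw [F.dr_dv, F.dr_dbv, K.Th_fr F (F.hol_mulVec ha), F.bf_pb]

/-- the curvature is bilinear over holomorphic coefficients -/
theorem Th_dv {a a' : Fin n → S} (ha' : ∀ k, R.Hol (a' k)) (g gi : Matrix (Fin n) (Fin n) S) :
    Th (R.dv a 0) (R.dbv a' 0) g gi =
      ∑ p, ∑ q, (a p * R.cj (a' q)) • Th (R.d p) (R.db q) g gi := by
  have e1 : dM (R.dv a 0) g = ∑ p, a p • dM (R.d p) g := by
    ext i j; simp [R.dv_apply, Matrix.sum_apply]
  have e2 : dM (R.dbv a' 0) g = ∑ q, R.cj (a' q) • dM (R.db q) g := by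
    ext i j; simp [R.dbv_apply, Matrix.sum_apply]
  have e3 : dM (R.dv a 0) (dM (R.dbv a' 0) g) =
      ∑ p, ∑ q, (a p * R.cj (a' q)) • dM (R.d p) (dM (R.db q) g) := by
    ext i j
    simp only [dM_apply, R.dv_apply, R.dbv_apply, map_zero, zero_smul, add_zero, map_sum, D_mul,
      (ha' _).d_cj, zero_mul, zero_add, Matrix.sum_apply, Matrix.smul_apply, smul_eq_mul, mul_sum,
      mul_assoc]
  unfold Th
  rw [e3, e1, e2]
  simp only [Matrix.sum_mul, Matrix.mul_sum, Matrix.smul_mul, Matrix.mul_smul, smul_add, smul_neg,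
    sum_add_distrib, sum_neg_distrib, smul_smul, smul_sum]
  congr 1
  rw [sum_comm]
  exact sum_congr rfl fun _ _ => sum_congr rfl fun _ _ => by rw [mul_comm]

theorem tr_sum {ι : Type*} (s : Finset ι) (M : ι → Matrix (Fin n) (Fin n) S) :
    K.tr (∑ i ∈ s, M i) = ∑ i ∈ s, K.tr (M i) := by
  simp only [tr, Matrix.mul_sum, Matrix.trace_sum]

theorem tr_smul (u : S) (M : Matrix (Fin n) (Fin n) S) : K.tr (u • M) = u * K.tr M := by
  simp only [tr, Matrix.mul_smul, Matrix.trace_smul, smul_eq_mul]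

theorem tr_add (M N : Matrix (Fin n) (Fin n) S) : K.tr (M + N) = K.tr M + K.tr N := by
  simp only [tr, Matrix.mul_add, Matrix.trace_add]

theorem tr_sub (M N : Matrix (Fin n) (Fin n) S) : K.tr (M - N) = K.tr M - K.tr N := by
  simp only [tr, Matrix.mul_sub, Matrix.trace_sub]

theorem tr_neg (M : Matrix (Fin n) (Fin n) S) : K.tr (-M) = -K.tr M := by
  simp only [tr, Matrix.mul_neg, Matrix.trace_neg]

theorem tr_g : K.tr K.g = n := by
  simp [tr, K.inv']

theorem fr_ric : (K.fr F).ric = F.pb K.ric := by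
  ext k l
  rw [F.pb_apply]
  change (K.fr F).tr (Th (R.dv (fun p => F.A p k) 0) (R.dbv (fun p => F.A p l) 0) _ _) = _
  rw [K.Th_fr F fun p => F.holA p l, fr_tr, Th_dv fun p => F.holA p l]
  simp only [tr_sum, tr_smul, ric, of_apply]

theorem Flow.fr {K : KM R} {lam : ℝ} (h : K.Flow lam) (F : Frm R) : (K.fr F).Flow lam := by
  unfold Flow at h ⊢
  rw [fr_ric, fr_g, F.dr_D, F.D_pb, h, F.pb_sub, F.pb_neg, F.pb_smulC]

/-- normal at the base point -/
structure Normal (K : KM R) : Prop where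
  g0 : R.eM K.g = 1
  g1 : ∀ k, R.eM (dM (R.d k) K.g) = 0

theorem exists_sqrt {g : Matrix (Fin n) (Fin n) ℂ} (h : g.PosDef) :
    ∃ C : Matrix (Fin n) (Fin n) ℂ, IsUnit C ∧ g = Cᵀ * C.map conj := by
  open scoped MatrixOrder in
  obtain ⟨B, hB⟩ := CStarAlgebra.nonneg_iff_eq_star_mul_self.1 h.posSemidef.nonneg
  have e : g = (B.map conj)ᵀ * (B.map conj).map conj := by
    rw [hB]
    congr 1
    ext i j
    simp
  refine ⟨B.map conj, ?_, e⟩
  have hu := (Matrix.isUnit_iff_isUnit_det _).1 h.isUnit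
  rw [e, Matrix.det_mul, Matrix.det_transpose] at hu
  exact (Matrix.isUnit_iff_isUnit_det _).2 (isUnit_of_mul_isUnit_left hu)

theorem exists_normal : ∃ F : Frm R, (K.fr F).Normal := by
  obtain ⟨C, hC, hg⟩ := exists_sqrt K.pd
  -- Christoffel symbols at the base point
  set Γ : Fin n → Matrix (Fin n) (Fin n) ℂ := fun p => (R.eM (dM (R.d p) K.g) * R.eM K.gi)ᵀ
    with hΓ
  have Γs : ∀ m a p, Γ p m a = Γ a m p := by
    intro m a p
    simp only [hΓ, Matrix.transpose_apply, Matrix.mul_apply, DR.eM_apply, dM_apply, K.closed a _ p]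
  let χ : Fin n → S := fun m => R.ζ m + (1 / 2 : ℂ) • ∑ a, ∑ q, Γ q m a • (R.ζ a * R.ζ q)
  let E : Matrix (Fin n) (Fin n) S := Matrix.of fun m p =>
    (if m = p then 1 else 0) + ∑ q, Γ q m p • R.ζ q
  have hχ : ∀ m p, R.d p (χ m) = E m p := by
    intro m p
    have e1 : ∑ a, ∑ q, Γ q m a • ((if p = a then 1 else 0) * R.ζ q) = ∑ q, Γ q m p • R.ζ q := by
      rw [sum_comm]
      refine sum_congr rfl fun q _ => ?_
      simp [ite_mul, smul_ite]
    have e2 : ∑ a, ∑ q, Γ q m a • (R.ζ a * (if p = q then 1 else 0)) = ∑ q, Γ q m p • R.ζ q := by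
      refine sum_congr rfl fun q _ => ?_
      simp [mul_ite, smul_ite, Γs m q p]
    simp only [χ, E, map_add, Derivation.map_smul, map_sum, D_mul, R.d_ζ, smul_add,
      sum_add_distrib, e1, e2, of_apply]
    congr 1
    · simp only [eq_comm]
    · rw [← add_smul]
      norm_num
  let Cs : Matrix (Fin n) (Fin n) S := C.map (algebraMap ℂ S)
  have eCs : R.eM Cs = C := by ext i j; simp [Cs]
  have eE : R.eM E = 1 := by
    ext i j
    simp [E, R.ev_ζ, Matrix.one_apply, apply_ite R.ev]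
  have eB : R.eM (Cs * E) = C := by rw [R.eM_mul, eCs, eE, Matrix.mul_one]
  have hdet : (R.eM (Cs * E)).det ≠ 0 := by
    rw [eB]; exact ((Matrix.isUnit_iff_isUnit_det _).1 hC).ne_zero
  let F : Frm R :=
    { ψ := Cs *ᵥ χ
      A := (Cs * E)⁻¹
      B := Cs * E
      hψ := fun i => DR.Hol.sum univ fun m => (R.hol_alg _).mul ((R.hol_ζ m).add
        (DR.Hol.smul (DR.Hol.sum _ fun a => DR.Hol.sum _ fun q =>
          ((R.hol_ζ a).mul (R.hol_ζ q)).smul _) _))
      ev_ψ := fun i => by simp [Matrix.mulVec, dotProduct, χ, R.ev_ζ]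
      hB := fun i p => by
        simp only [Matrix.mulVec, dotProduct, map_sum, D_mul, Cs, Matrix.map_apply, D_alg, zero_mul,
          zero_add, hχ, Matrix.mul_apply]
      AB := mul_eq_one_comm.1 (R.mul_inv hdet) }
  have hFB : R.eM F.B = C := eB
  have hAB : R.eM F.A * C = 1 := by rw [← hFB, ← R.eM_mul, F.AB, R.eM_one]
  have hBA : C * R.eM F.A = 1 := mul_eq_one_comm.1 hAB
  have g0 : R.eM (F.pb K.g) = 1 := by
    rw [Frm.pb, R.eM_mul, R.eM_mul, R.eM_cM, hg, R.eM_transpose]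
    calc _ = (C * R.eM F.A)ᵀ * (C * R.eM F.A).map conj := by
          rw [Matrix.transpose_mul, Matrix.map_mul]; simp only [Matrix.mul_assoc]
      _ = 1 := by rw [hBA]; simp
  refine ⟨F, g0, fun k => ?_⟩
  have key : ∀ p, R.eM (dM (R.d p) (F.pb K.g)) = 0 := by
    intro p
    have h1 : dM (R.d p) (R.cM F.A) = 0 := by ext i j; exact (F.holA i j).d_cj p
    have h2 : R.eM (dM (R.d p) F.B) = C * Γ p := by
      have h3 : dM (R.d p) Cs = 0 := by ext i j; exact D_alg _ _
      have h4 : R.eM (dM (R.d p) E) = Γ p := by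
        ext i j
        simp [E, D_ite, R.d_ζ]
      change R.eM (dM (R.d p) (Cs * E)) = _
      rw [dM_mul, h3, Matrix.zero_mul, zero_add, R.eM_mul, eCs, h4]
    have h5 : R.eM (dM (R.d p) F.A) = -(Γ p * R.eM F.A) := by
      rw [dM_inv _ F.BA, R.eM_neg, R.eM_mul, R.eM_mul, h2, ← Matrix.mul_assoc, hAB, Matrix.one_mul]
    have h6 : (Γ p)ᵀ * R.eM K.g = R.eM (dM (R.d p) K.g) := by
      simp only [hΓ, Matrix.transpose_transpose]
      rw [Matrix.mul_assoc, ← R.eM_mul, K.inv', R.eM_one, Matrix.mul_one]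
    rw [Frm.pb, dM_mul, dM_mul, h1, Matrix.mul_zero, add_zero, R.eM_mul, R.eM_add, R.eM_mul,
      R.eM_mul, dM_transpose, R.eM_transpose, h5, Matrix.transpose_neg, Matrix.transpose_mul,
      Matrix.neg_mul, Matrix.mul_assoc, h6, R.eM_transpose, neg_add_cancel, Matrix.zero_mul]
  ext i j
  change R.ev (F.d k (F.pb K.g i j)) = 0
  rw [F.d_apply, map_sum]
  refine sum_eq_zero fun p _ => ?_
  rw [map_mul, show R.ev (R.d p (F.pb K.g i j)) = 0 from congrFun (congrFun (key p) i) j, mul_zero]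

end KM

end

end Crest.Agent.T223.Cn
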