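import Crest.Agent.T223.CnF_87
import Crest.Agent.R273.HessB_333
import Crest.Agent.R273.C0a_390

/-!
# Row 223 (helper87), CONE module, part G: the ring of germs

`Gm p` : germs at `p = (t₀, z₀)` of complex functions on `ℝ × Cn n` that are smooth at `p` within
the past half space `Pa p = {t ≤ t₀}`;  `gdr p : DR n (Gm p)`.
`Rep φ f` : the germ `φ` is represented by `f : ℝ → Cn n → ℂ` (`SmP p f` : smooth at `p` in the past).
-/

set_option autoImplicit false
set_option linter.unusedSectionVars false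

open Set Filter Topology
open scoped ContDiff ComplexConjugate ComplexOrder Matrix

namespace Crest.Agent.T223.Cn

open Crest.Agent.R275.Geo Crest.Agent.R275.EDR890 Crest.Agent.R273.Hess_333
open Crest.Agent.R273.HessB_333 Crest.Agent.R273.Defs_333

noncomputable section

variable {n : ℕ}

/-- the past half space -/
def Pa (p : ℝ × Cn n) : Set (ℝ × Cn n) := {q | q.1 ≤ p.1}

/-- the past neighbourhood filter -/
abbrev past (p : ℝ × Cn n) : Filter (ℝ × Cn n) := 𝓝[{q | q.1 ≤ p.1}] p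

/-- smooth at `p` within the past half space -/
def SmP {W : Type*} [NormedAddCommGroup W] [NormedSpace ℝ W] (p : ℝ × Cn n)
    (f : ℝ → Cn n → W) : Prop :=
  ContDiffWithinAt ℝ ∞ (fun q : ℝ × Cn n => f q.1 q.2) {q | q.1 ≤ p.1} p

variable {p : ℝ × Cn n}

theorem Pa_eq (p : ℝ × Cn n) : Pa p = Iic p.1 ×ˢ univ := by
  ext q; simp [Pa]

theorem mem_Pa (p : ℝ × Cn n) : p ∈ Pa p := le_refl p.1

theorem ud_Pa (p : ℝ × Cn n) : UniqueDiffOn ℝ (Pa p) := by
  rw [Pa_eq]; exact (uniqueDiffOn_Iic _).prod uniqueDiffOn_univ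

theorem cl_Pa (p : ℝ × Cn n) : Pa p ⊆ closure (interior (Pa p)) := by
  rw [Pa_eq, interior_prod_eq, closure_prod_eq, interior_Iic, closure_Iio, interior_univ,
    closure_univ]

theorem SmP.of_contDiffAt {W : Type*} [NormedAddCommGroup W] [NormedSpace ℝ W]
    {f : ℝ → Cn n → W} (h : ContDiffAt ℝ ∞ (fun q : ℝ × Cn n => f q.1 q.2) p) : SmP p f :=
  h.contDiffWithinAt

/-- functions that are smooth on `[a, b] × U` are `SmP` at the points of `(a, b] × U` -/
theorem SmP.of_contDiffOn {W : Type*} [NormedAddCommGroup W] [NormedSpace ℝ W]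
    {f : ℝ → Cn n → W} {a b : ℝ} {U : Set (Cn n)}
    (h : ContDiffOn ℝ ∞ (fun q : ℝ × Cn n => f q.1 q.2) (Icc a b ×ˢ U)) (hU : U ∈ 𝓝 p.2)
    (ha : a < p.1) (hb : p.1 ≤ b) : SmP p f := by
  refine (h p ⟨⟨ha.le, hb⟩, mem_of_mem_nhds hU⟩).mono_of_mem_nhdsWithin ?_
  have h1 : ∀ᶠ q : ℝ × Cn n in 𝓝 p, a < q.1 := continuous_fst.continuousAt.eventually (lt_mem_nhds ha)
  have h2 : ∀ᶠ q : ℝ × Cn n in 𝓝 p, q.2 ∈ U := continuous_snd.continuousAt.eventually hU
  filter_upwards [nhdsWithin_le_nhds h1, nhdsWithin_le_nhds h2, self_mem_nhdsWithin] with q a1 a2 a3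
  exact ⟨⟨a1.le, le_trans a3 hb⟩, a2⟩

theorem ev_cd {W : Type*} [NormedAddCommGroup W] [NormedSpace ℝ W] {f : ℝ × Cn n → W}
    (h : ContDiffWithinAt ℝ ∞ f (Pa p) p) (k : ℕ) :
    ∀ᶠ q in past p, ContDiffWithinAt ℝ k f (Pa p) q := by
  have h1 : ContDiffWithinAt ℝ k f (Pa p) p := h.of_le (by exact_mod_cast le_top)
  have := h1.eventually (by simp)
  rwa [insert_eq_of_mem (mem_Pa p)] at this

theorem ev_diff {W : Type*} [NormedAddCommGroup W] [NormedSpace ℝ W] {f : ℝ × Cn n → W}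
    (h : ContDiffWithinAt ℝ ∞ f (Pa p) p) : ∀ᶠ q in past p, DifferentiableWithinAt ℝ f (Pa p) q :=
  (ev_cd h 1).mono fun _ hq => hq.differentiableWithinAt (by simp)

theorem slice_cd {W : Type*} [NormedAddCommGroup W] [NormedSpace ℝ W] {f : ℝ × Cn n → W}
    {q : ℝ × Cn n} {k : WithTop ℕ∞} (h : ContDiffWithinAt ℝ k f (Pa p) q) (hq : q.1 ≤ p.1) :
    ContDiffAt ℝ k (fun z => f (q.1, z)) q.2 := by
  have h2 : ContDiffWithinAt ℝ k (fun z : Cn n => ((q.1, z) : ℝ × Cn n)) univ q.2 :=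
    (contDiff_const.prodMk contDiff_id).contDiffAt.contDiffWithinAt
  exact (ContDiffWithinAt.comp q.2 (g := f) (f := fun z : Cn n => ((q.1, z) : ℝ × Cn n)) h h2
    fun z _ => hq).contDiffAt univ_mem

/-- the time slice through `p` is smooth at `p.2` -/
theorem SmP.slice {W : Type*} [NormedAddCommGroup W] [NormedSpace ℝ W] {f : ℝ → Cn n → W}
    (h : SmP p f) : ContDiffAt ℝ ∞ (f p.1) p.2 := slice_cd (p := p) h le_rfl

/-- nearby slices are `C^k` -/
theorem SmP.ev_slice {W : Type*} [NormedAddCommGroup W] [NormedSpace ℝ W] {f : ℝ → Cn n → W}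
    (h : SmP p f) (k : ℕ) : ∀ᶠ q in past p, ContDiffAt ℝ k (f q.1) q.2 := by
  filter_upwards [ev_cd h k, self_mem_nhdsWithin] with q h1 h2
  exact slice_cd (p := p) h1 h2

theorem tendsto_slice (p : ℝ × Cn n) :
    Tendsto (fun z : Cn n => ((p.1, z) : ℝ × Cn n)) (𝓝 p.2) (past p) :=
  tendsto_nhdsWithin_iff.2 ⟨(Continuous.prodMk_right p.1).tendsto p.2,
    Eventually.of_forall fun _ => le_refl p.1⟩

theorem tendsto_time (p : ℝ × Cn n) :
    Tendsto (fun s : ℝ => ((s, p.2) : ℝ × Cn n)) (𝓝[≤] p.1) (past p) :=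
  tendsto_nhdsWithin_iff.2 ⟨((Continuous.prodMk_left p.2).tendsto p.1).mono_left nhdsWithin_le_nhds,
    self_mem_nhdsWithin⟩

/-- a property that holds near `p` in the past holds near `q.2` on the slices through nearby `q` -/
theorem ev_ev_slice {P : ℝ × Cn n → Prop} (h : ∀ᶠ q in past p, P q) :
    ∀ᶠ q in past p, ∀ᶠ z in 𝓝 q.2, P (q.1, z) := by
  filter_upwards [eventually_eventually_nhdsWithin.2 h, self_mem_nhdsWithin] with q h1 h2
  have : Tendsto (fun z : Cn n => ((q.1, z) : ℝ × Cn n)) (𝓝 q.2) (𝓝[{q | q.1 ≤ p.1}] q) :=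
    tendsto_nhdsWithin_iff.2 ⟨(Continuous.prodMk_right q.1).tendsto q.2,
      Eventually.of_forall fun _ => h2⟩
  exact this.eventually h1

/-- functions smooth at `p` -/
def SmA (p : ℝ × Cn n) : Subalgebra ℂ (ℝ × Cn n → ℂ) where
  carrier := {f | ContDiffWithinAt ℝ ∞ f (Pa p) p}
  mul_mem' {f g} hf hg := by
    rw [mem_ofPred_eq] at hf hg ⊢
    exact hf.mul hg
  add_mem' {f g} hf hg := by
    rw [mem_ofPred_eq] at hf hg ⊢
    exact hf.add hg
  algebraMap_mem' c := show ContDiffWithinAt ℝ ∞ (fun _ => c) (Pa p) p from contDiffWithinAt_const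

/-- functions vanishing near `p` -/
def ZI (p : ℝ × Cn n) : Ideal (SmA p) where
  carrier := {f | ∀ᶠ q in past p, f.1 q = 0}
  add_mem' {f g} hf hg := by
    rw [mem_ofPred_eq] at hf hg ⊢
    filter_upwards [hf, hg] with q h1 h2
    change f.1 q + g.1 q = 0
    rw [h1, h2, add_zero]
  zero_mem' := by
    rw [mem_ofPred_eq]
    exact Eventually.of_forall fun _ => rfl
  smul_mem' c f hf := by
    rw [mem_ofPred_eq] at hf ⊢
    filter_upwards [hf] with q h
    change c.1 q * f.1 q = 0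
    rw [h, mul_zero]

theorem mem_ZI {f : SmA p} : f ∈ ZI p ↔ ∀ᶠ q in past p, f.1 q = 0 := Iff.rfl

/-- germs -/
def Gm (p : ℝ × Cn n) : Type := SmA p ⧸ ZI p

instance (p : ℝ × Cn n) : CommRing (Gm p) := inferInstanceAs (CommRing (SmA p ⧸ ZI p))

instance (p : ℝ × Cn n) : Algebra ℂ (Gm p) := inferInstanceAs (Algebra ℂ (SmA p ⧸ ZI p))

/-- the germ of a function -/
def mk {f : ℝ × Cn n → ℂ} (hf : ContDiffWithinAt ℝ ∞ f (Pa p) p) : Gm p :=
  Ideal.Quotient.mk (ZI p) ⟨f, hf⟩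

theorem mk_eq {f g : ℝ × Cn n → ℂ} (hf : ContDiffWithinAt ℝ ∞ f (Pa p) p)
    (hg : ContDiffWithinAt ℝ ∞ g (Pa p) p) : mk hf = mk hg ↔ f =ᶠ[past p] g := by
  refine Ideal.Quotient.eq.trans (mem_ZI.trans ?_)
  exact eventually_congr (Eventually.of_forall fun q => sub_eq_zero (a := f q))

theorem mk_surj (φ : Gm p) : ∃ f, ∃ hf : ContDiffWithinAt ℝ ∞ f (Pa p) p, φ = mk hf := by
  obtain ⟨⟨f, hf⟩, rfl⟩ := Ideal.Quotient.mk_surjective (I := ZI p) φ
  exact ⟨f, hf, rfl⟩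

theorem mk_add {f g : ℝ × Cn n → ℂ} (hf : ContDiffWithinAt ℝ ∞ f (Pa p) p)
    (hg : ContDiffWithinAt ℝ ∞ g (Pa p) p) : mk hf + mk hg = mk (hf.add hg) := rfl

theorem mk_mul {f g : ℝ × Cn n → ℂ} (hf : ContDiffWithinAt ℝ ∞ f (Pa p) p)
    (hg : ContDiffWithinAt ℝ ∞ g (Pa p) p) : mk hf * mk hg = mk (hf.mul hg) := rfl

theorem mk_smul {f : ℝ × Cn n → ℂ} (hf : ContDiffWithinAt ℝ ∞ f (Pa p) p) (c : ℂ) :
    c • mk hf = mk (hf.const_smul c) := rfl

theorem cd_dir {f : ℝ × Cn n → ℂ} (hf : ContDiffWithinAt ℝ ∞ f (Pa p) p) (v : ℝ × Cn n) :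
    ContDiffWithinAt ℝ ∞ (fun q => fderivWithin ℝ f (Pa p) q v) (Pa p) p :=
  (hf.fderivWithin_right (m := ∞) (ud_Pa p) (by simp) (mem_Pa p)).clm_apply contDiffWithinAt_const

theorem dir_congr {f g : ℝ × Cn n → ℂ} (h : f =ᶠ[past p] g) (v : ℝ × Cn n) :
    (fun q => fderivWithin ℝ f (Pa p) q v) =ᶠ[past p] fun q => fderivWithin ℝ g (Pa p) q v := by
  filter_upwards [eventually_eventually_nhdsWithin.2 h, h] with q h1 h2
  rw [Filter.EventuallyEq.fderivWithin_eq (s := Pa p) h1 h2]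

/-- directional derivative of a germ -/
def D0 (v : ℝ × Cn n) (φ : Gm p) : Gm p := mk (cd_dir (mk_surj φ).choose_spec.choose v)

theorem D0_mk (v : ℝ × Cn n) {f : ℝ × Cn n → ℂ} (hf : ContDiffWithinAt ℝ ∞ f (Pa p) p) :
    D0 v (mk hf) = mk (cd_dir hf v) :=
  (mk_eq _ _).2 (dir_congr ((mk_eq _ _).1 (mk_surj (mk hf)).choose_spec.choose_spec.symm) v)

/-- directional derivative of a germ -/
def Dv (p : ℝ × Cn n) (v : ℝ × Cn n) : Der (Gm p) :=
  Derivation.mk'
    { toFun := D0 v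
      map_add' := fun φ ψ => by
        obtain ⟨f, hf, rfl⟩ := mk_surj φ
        obtain ⟨g, hg, rfl⟩ := mk_surj ψ
        rw [mk_add, D0_mk, D0_mk, D0_mk, mk_add, mk_eq]
        filter_upwards [ev_diff hf, ev_diff hg, self_mem_nhdsWithin] with q h1 h2 h3
        rw [fderivWithin_fun_add (ud_Pa p q h3) h1 h2]
        rfl
      map_smul' := fun c φ => by
        obtain ⟨f, hf, rfl⟩ := mk_surj φ
        rw [mk_smul, D0_mk, D0_mk, RingHom.id_apply, mk_smul, mk_eq]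
        filter_upwards [ev_diff hf, self_mem_nhdsWithin] with q h1 h3
        rw [fderivWithin_fun_const_smul (ud_Pa p q h3) h1]
        rfl }
    fun φ ψ => by
      obtain ⟨f, hf, rfl⟩ := mk_surj φ
      obtain ⟨g, hg, rfl⟩ := mk_surj ψ
      change D0 v (mk hf * mk hg) = mk hf * D0 v (mk hg) + mk hg * D0 v (mk hf)
      rw [mk_mul, D0_mk, D0_mk, D0_mk, mk_mul, mk_mul, mk_add, mk_eq]
      filter_upwards [ev_diff hf, ev_diff hg, self_mem_nhdsWithin] with q h1 h2 h3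
      rw [fderivWithin_fun_mul (ud_Pa p q h3) h1 h2]
      rfl

theorem Dv_mk (v : ℝ × Cn n) {f : ℝ × Cn n → ℂ} (hf : ContDiffWithinAt ℝ ∞ f (Pa p) p) :
    Dv p v (mk hf) = mk (cd_dir hf v) := D0_mk v hf

theorem Dv_comm (v w : ℝ × Cn n) (φ : Gm p) : Dv p v (Dv p w φ) = Dv p w (Dv p v φ) := by
  obtain ⟨f, hf, rfl⟩ := mk_surj φ
  rw [Dv_mk, Dv_mk, Dv_mk, Dv_mk, mk_eq]
  filter_upwards [ev_cd hf 2, self_mem_nhdsWithin] with q h2 hq
  have hd : DifferentiableWithinAt ℝ (fderivWithin ℝ f (Pa p)) (Pa p) q :=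
    (h2.fderivWithin_right (m := 1) (ud_Pa p) (by norm_num) hq).differentiableWithinAt (by simp)
  have e : ∀ v w : ℝ × Cn n, fderivWithin ℝ (fun q => fderivWithin ℝ f (Pa p) q w) (Pa p) q v
      = fderivWithin ℝ (fderivWithin ℝ f (Pa p)) (Pa p) q v w := by
    intro v w
    rw [fderivWithin_clm_apply (ud_Pa p q hq) hd (differentiableWithinAt_const _)]
    simp
  rw [e, e]
  exact h2.isSymmSndFDerivWithinAt (by simp) (ud_Pa p) (cl_Pa p hq) hq v w

theorem cd_conj {f : ℝ × Cn n → ℂ} (hf : ContDiffWithinAt ℝ ∞ f (Pa p) p) :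
    ContDiffWithinAt ℝ ∞ (fun q => conj (f q)) (Pa p) p :=
  Complex.conjCLE.contDiff.contDiffAt.comp_contDiffWithinAt p hf

/-- conjugation -/
def cjG (p : ℝ × Cn n) : Gm p →+* Gm p :=
  Ideal.Quotient.lift (ZI p)
    { toFun := fun f => mk (cd_conj f.2)
      map_one' := (mk_eq _ contDiffWithinAt_const).2 (Eventually.of_forall fun _ => map_one _)
      map_mul' := fun f g => by
        rw [mk_mul, mk_eq]; exact Eventually.of_forall fun _ => map_mul _ _ _
      map_zero' := (mk_eq _ contDiffWithinAt_const).2 (Eventually.of_forall fun _ => map_zero _)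
      map_add' := fun f g => by
        rw [mk_add, mk_eq]; exact Eventually.of_forall fun _ => map_add _ _ _ }
    fun f hf => (mk_eq _ contDiffWithinAt_const).2 ((mem_ZI.1 hf).mono fun q hq => by
      change conj (f.1 q) = 0
      rw [hq, map_zero])

theorem cjG_mk {f : ℝ × Cn n → ℂ} (hf : ContDiffWithinAt ℝ ∞ f (Pa p) p) :
    cjG p (mk hf) = mk (cd_conj hf) := rfl

theorem cjG_Dv (v : ℝ × Cn n) (φ : Gm p) : cjG p (Dv p v φ) = Dv p v (cjG p φ) := by
  obtain ⟨f, hf, rfl⟩ := mk_surj φ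
  rw [Dv_mk, cjG_mk, cjG_mk, Dv_mk, mk_eq]
  filter_upwards [self_mem_nhdsWithin] with q hq
  have := Complex.conjCLE.comp_fderivWithin (f := f) (ud_Pa p q hq)
  change _ = fderivWithin ℝ (Complex.conjCLE ∘ f) (Pa p) q v
  rw [this]
  rfl

theorem cjG_smul (c : ℂ) (φ : Gm p) : cjG p (c • φ) = conj c • cjG p φ := by
  obtain ⟨f, hf, rfl⟩ := mk_surj φ
  rw [mk_smul, cjG_mk, cjG_mk, mk_smul, mk_eq]
  exact Eventually.of_forall fun _ => map_mul _ _ _

/-- evaluation -/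
def evG (p : ℝ × Cn n) : Gm p →ₐ[ℂ] ℂ :=
  Ideal.Quotient.liftₐ (ZI p) ((Pi.evalAlgHom ℂ (fun _ : ℝ × Cn n => ℂ) p).comp (SmA p).val)
    fun _ hf => (mem_ZI.1 hf).self_of_nhdsWithin (mem_Pa p)

theorem evG_mk {f : ℝ × Cn n → ℂ} (hf : ContDiffWithinAt ℝ ∞ f (Pa p) p) :
    evG p (mk hf) = f p := rfl

/-- Wirtinger derivative of a germ -/
def wG (p : ℝ × Cn n) (s : WI n) : Der (Gm p) :=
  (1 / 2 : ℂ) • (Dv p (0, EuclideanSpace.single s.2 1) +
    cI s.1 • Dv p (0, EuclideanSpace.single s.2 Complex.I))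

theorem wG_apply (s : WI n) (φ : Gm p) : wG p s φ =
    (1 / 2 : ℂ) • (Dv p (0, EuclideanSpace.single s.2 1) φ +
      cI s.1 • Dv p (0, EuclideanSpace.single s.2 Complex.I) φ) := rfl

theorem Dv_wG (v : ℝ × Cn n) (s : WI n) (φ : Gm p) : Dv p v (wG p s φ) = wG p s (Dv p v φ) := by
  simp only [wG_apply, Derivation.map_smul, map_add, Dv_comm v]

theorem wG_comm (r s : WI n) (φ : Gm p) : wG p r (wG p s φ) = wG p s (wG p r φ) := by
  rw [wG_apply r (wG p s φ), Dv_wG, Dv_wG, wG_apply r φ]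
  simp only [Derivation.map_smul, map_add]

/-- `φ` is the germ of `f` -/
def Rep (φ : Gm p) (f : ℝ → Cn n → ℂ) : Prop := ∃ hf : SmP p f, φ = mk hf

theorem SmP.rep {f : ℝ → Cn n → ℂ} (hf : SmP p f) : Rep (mk hf) f := ⟨hf, rfl⟩

theorem exists_rep (φ : Gm p) : ∃ f, Rep φ f := by
  obtain ⟨f, hf, rfl⟩ := mk_surj φ
  exact ⟨fun t z => f (t, z), hf, rfl⟩

theorem fderiv_slice {f : ℝ × Cn n → ℂ} {q : ℝ × Cn n} (h : DifferentiableWithinAt ℝ f (Pa p) q)
    (hq : q.1 ≤ p.1) (v : Cn n) :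
    fderiv ℝ (fun z => f (q.1, z)) q.2 v = fderivWithin ℝ f (Pa p) q (0, v) := by
  have h2 : HasFDerivWithinAt (fun z : Cn n => ((q.1, z) : ℝ × Cn n))
      (ContinuousLinearMap.inr ℝ ℝ (Cn n)) univ q.2 :=
    (hasFDerivAt_prodMk_right q.1 q.2).hasFDerivWithinAt
  have h3 := (HasFDerivWithinAt.comp q.2 (g := f) (f := fun z : Cn n => ((q.1, z) : ℝ × Cn n))
    h.hasFDerivWithinAt h2 fun z _ => hq).hasFDerivAt univ_mem
  exact congrArg (· v) h3.fderiv

theorem hasDeriv_time {W : Type*} [NormedAddCommGroup W] [NormedSpace ℝ W] {f : ℝ × Cn n → W}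
    {q : ℝ × Cn n} (h : DifferentiableWithinAt ℝ f (Pa p) q) :
    HasDerivWithinAt (fun s => f (s, q.2)) (fderivWithin ℝ f (Pa p) q (1, 0)) (Iic p.1) q.1 := by
  have h2 : HasDerivWithinAt (fun s : ℝ => ((s, q.2) : ℝ × Cn n)) (1, 0) (Iic p.1) q.1 :=
    ((hasDerivAt_id q.1).prodMk (hasDerivAt_const q.1 q.2)).hasDerivWithinAt
  exact HasFDerivWithinAt.comp_hasDerivWithinAt q.1 (l := f)
    (f := fun s : ℝ => ((s, q.2) : ℝ × Cn n)) h.hasFDerivWithinAt h2 fun s hs => hs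

namespace Rep

variable {φ ψ : Gm p} {f g : ℝ → Cn n → ℂ}

theorem sm (h : Rep φ f) : SmP p f := h.1

theorem congr (h : Rep φ f) (e : ∀ᶠ q in past p, g q.1 q.2 = f q.1 q.2) : Rep φ g := by
  obtain ⟨hf, rfl⟩ := h
  have hg : SmP p g := ContDiffWithinAt.congr_of_eventuallyEq_of_mem hf e (mem_Pa p)
  exact ⟨hg, (mk_eq _ _).2 (EventuallyEq.symm e)⟩

theorem congr' (h : Rep φ f) (e : ∀ t z, g t z = f t z) : Rep φ g :=
  h.congr (Eventually.of_forall fun _ => e _ _)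

theorem ext (h : Rep φ f) (h' : Rep ψ g) (e : ∀ᶠ q in past p, f q.1 q.2 = g q.1 q.2) : φ = ψ := by
  obtain ⟨hf, rfl⟩ := h
  obtain ⟨hg, rfl⟩ := h'
  exact (mk_eq _ _).2 e

theorem unique (h : Rep φ f) (h' : Rep φ g) : ∀ᶠ q in past p, f q.1 q.2 = g q.1 q.2 := by
  obtain ⟨hf, rfl⟩ := h
  obtain ⟨hg, e⟩ := h'
  exact (mk_eq _ _).1 e

theorem evG (h : Rep φ f) : evG p φ = f p.1 p.2 := by
  obtain ⟨hf, rfl⟩ := h
  rfl

theorem add (h : Rep φ f) (h' : Rep ψ g) : Rep (φ + ψ) fun t z => f t z + g t z := by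
  obtain ⟨hf, rfl⟩ := h
  obtain ⟨hg, rfl⟩ := h'
  exact ⟨ContDiffWithinAt.add hf hg, rfl⟩

theorem mul (h : Rep φ f) (h' : Rep ψ g) : Rep (φ * ψ) fun t z => f t z * g t z := by
  obtain ⟨hf, rfl⟩ := h
  obtain ⟨hg, rfl⟩ := h'
  exact ⟨ContDiffWithinAt.mul hf hg, rfl⟩

theorem neg (h : Rep φ f) : Rep (-φ) fun t z => -f t z := by
  obtain ⟨hf, rfl⟩ := h
  exact ⟨ContDiffWithinAt.neg hf, rfl⟩

theorem sub (h : Rep φ f) (h' : Rep ψ g) : Rep (φ - ψ) fun t z => f t z - g t z := by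
  rw [sub_eq_add_neg]
  exact (h.add h'.neg).congr' fun _ _ => sub_eq_add_neg _ _

theorem smul (h : Rep φ f) (c : ℂ) : Rep (c • φ) fun t z => c * f t z := by
  obtain ⟨hf, rfl⟩ := h
  exact ⟨ContDiffWithinAt.const_smul c hf, rfl⟩

theorem const (c : ℂ) : Rep (algebraMap ℂ (Gm p) c) fun _ _ => c :=
  ⟨contDiffWithinAt_const, rfl⟩

theorem zero : Rep (0 : Gm p) fun _ _ => 0 := ⟨contDiffWithinAt_const, rfl⟩

theorem one : Rep (1 : Gm p) fun _ _ => 1 := ⟨contDiffWithinAt_const, rfl⟩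

theorem sum {ι : Type*} (s : Finset ι) {φ : ι → Gm p} {f : ι → ℝ → Cn n → ℂ}
    (h : ∀ i, Rep (φ i) (f i)) : Rep (∑ i ∈ s, φ i) fun t z => ∑ i ∈ s, f i t z := by
  classical
  induction s using Finset.induction_on with
  | empty => simpa using zero
  | insert a s ha ih =>
    rw [Finset.sum_insert ha]
    exact ((h a).add ih).congr' fun _ _ => Finset.sum_insert ha

theorem prod {ι : Type*} (s : Finset ι) {φ : ι → Gm p} {f : ι → ℝ → Cn n → ℂ}
    (h : ∀ i, Rep (φ i) (f i)) : Rep (∏ i ∈ s, φ i) fun t z => ∏ i ∈ s, f i t z := by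
  classical
  induction s using Finset.induction_on with
  | empty => simpa using one
  | insert a s ha ih =>
    rw [Finset.prod_insert ha]
    exact ((h a).mul ih).congr' fun _ _ => Finset.prod_insert ha

theorem cjG (h : Rep φ f) : Rep (cjG p φ) fun t z => conj (f t z) := by
  obtain ⟨hf, rfl⟩ := h
  exact ⟨cd_conj hf, rfl⟩

theorem dir (h : Rep φ f) (v : Cn n) : Rep (Dv p (0, v) φ) fun t z => fderiv ℝ (f t) z v := by
  obtain ⟨hf, rfl⟩ := h
  have h1 : Rep (Dv p (0, v) (mk hf)) fun t z =>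
      fderivWithin ℝ (fun q : ℝ × Cn n => f q.1 q.2) (Pa p) (t, z) (0, v) :=
    ⟨cd_dir hf _, Dv_mk _ hf⟩
  refine h1.congr ?_
  filter_upwards [ev_diff hf, self_mem_nhdsWithin] with q h1 h2
  exact fderiv_slice h1 h2 v

theorem wG (h : Rep φ f) (s : WI n) : Rep (wG p s φ) fun t z => wd s (f t) z :=
  (((h.dir _).add ((h.dir _).smul (cI s.1))).smul (1 / 2)).congr' fun _ _ => rfl

theorem time (h : Rep φ f) :
    Rep (Dv p (1, 0) φ) fun t z => derivWithin (fun s => f s z) (Iic p.1) t := by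
  obtain ⟨hf, rfl⟩ := h
  have h1 : Rep (Dv p (1, 0) (mk hf)) fun t z =>
      fderivWithin ℝ (fun q : ℝ × Cn n => f q.1 q.2) (Pa p) (t, z) (1, 0) :=
    ⟨cd_dir hf _, Dv_mk _ hf⟩
  refine h1.congr ?_
  filter_upwards [ev_diff hf, self_mem_nhdsWithin] with q h1 h2
  exact (hasDeriv_time h1).derivWithin (uniqueDiffOn_Iic _ _ h2)

theorem hasDeriv (h : Rep φ f) :
    HasDerivWithinAt (fun s => f s p.2) (Cn.evG p (Dv p (1, 0) φ)) (Iic p.1) p.1 := by
  rw [h.time.evG]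
  exact (hasDeriv_time (h.sm.differentiableWithinAt (by simp))).differentiableWithinAt.hasDerivWithinAt

end Rep

theorem SmP.hasDeriv {W : Type*} [NormedAddCommGroup W] [NormedSpace ℝ W] {f : ℝ → Cn n → W}
    (h : SmP p f) : ∀ᶠ q in past p, HasDerivWithinAt (fun s => f s q.2)
      (derivWithin (fun s => f s q.2) (Iic p.1) q.1) (Iic p.1) q.1 :=
  (ev_diff h).mono fun _ hq => (hasDeriv_time hq).differentiableWithinAt.hasDerivWithinAt

theorem smP_coord (p : ℝ × Cn n) (k : Fin n) : SmP p fun _ z => z k - p.2 k :=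
  ((((EuclideanSpace.proj k : Cn n →L[ℂ] ℂ).restrictScalars ℝ).contDiff.comp contDiff_snd).sub
    contDiff_const).contDiffAt.contDiffWithinAt

theorem wd_coord (s : WI n) (k : Fin n) (c : ℂ) (z : Cn n) :
    wd s (fun z : Cn n => z k - c) z = if s = (false, k) then 1 else 0 := by
  have h : HasFDerivAt (fun z : Cn n => z k - c) (ze (false, k)) z :=
    (ze (false, k)).hasFDerivAt.sub_const c
  rw [wd, h.fderiv, wdL_ze]

theorem mp2_fun {f : Cn n → ℂ} {z : Cn n} (hf : ContDiffAt ℝ ∞ f z)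
    (hm : IsLocalMin (fun w => (f w).re) z) (e : Fin n → ℂ) :
    0 ≤ (∑ k, ∑ l, e k * conj (e l) * wd (false, k) (wd (true, l) f) z).re := by
  have hu : ContDiffAt ℝ ∞ (fun w => (f w).re) z := Complex.reCLM.contDiff.contDiffAt.comp z hf
  have hv : ContDiffAt ℝ ∞ (fun w => (f w).im) z := Complex.imCLM.contDiff.contDiffAt.comp z hf
  have e1 : ∀ k l, wd (false, k) (wd (true, l) f) z =
      hess (fun w => (f w).re) z k l + Complex.I * hess (fun w => (f w).im) z k l := by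
    intro k l
    have h1 : wd (true, l) f =ᶠ[𝓝 z] fun w => wd (true, l) (cu fun w => (f w).re) w +
        Complex.I • wd (true, l) (cu fun w => (f w).im) w := by
      filter_upwards [eventually_diff hu, eventually_diff hv] with w a1 a2
      rw [← wd_const_smul _ a2, ← wd_add a1 (a2.fun_const_smul _)]
      congr 1
      funext y
      simp only [cu, smul_eq_mul]
      rw [mul_comm, Complex.re_add_im]
    have b1 := (contDiffAt_wd (contDiffAt_cu hu) (true, l)).differentiableAt (by simp)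
    have b2 := (contDiffAt_wd (contDiffAt_cu hv) (true, l)).differentiableAt (by simp)
    rw [wd_congr h1, wd_add b1 (b2.fun_const_smul _), wd_const_smul _ b2]
    rfl
  have e2 : ∑ k, ∑ l, e k * conj (e l) * wd (false, k) (wd (true, l) f) z =
      hq (fun w => (f w).re) z (WithLp.toLp 2 e) +
        Complex.I * hq (fun w => (f w).im) z (WithLp.toLp 2 e) := by
    simp only [hq, e1, Finset.mul_sum, ← Finset.sum_add_distrib]
    exact Finset.sum_congr rfl fun _ _ => Finset.sum_congr rfl fun _ _ => by ring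
  rw [e2, hq_real hu, hq_real hv]
  have h2 : ContDiffAt ℝ 2 (fun w => (f w).re) z := hu.of_le (WithTop.coe_le_coe.2 le_top)
  have h3 : 0 ≤ lev (fun w => (f w).re) z (WithLp.toLp 2 e) := by
    simp only [lev, iteratedFDeriv_two_apply]
    exact add_nonneg (R273.C0a_390.fderiv2_nonneg h2 hm _) (R273.C0a_390.fderiv2_nonneg h2 hm _)
  simp only [Complex.add_re, Complex.ofReal_re, Complex.mul_re, Complex.I_re, zero_mul,
    Complex.I_im, Complex.ofReal_im, mul_zero, sub_zero, add_zero]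
  positivity

theorem deriv_nonpos_of_past {u : ℝ → ℝ} {t u' : ℝ} (h : HasDerivWithinAt u u' (Iic t) t)
    (hm : ∀ᶠ s in 𝓝[≤] t, u t ≤ u s) : u' ≤ 0 := by
  have h1 : IsLocalMinOn u (Iic t) t := hm
  have h2 : (-1 : ℝ) ∈ posTangentConeAt (Iic t) t := by
    have := sub_mem_posTangentConeAt_of_segment_subset (s := Iic t) (x := t) (y := t - 1)
      ((convex_Iic t).segment_subset (le_refl t) (by simp))
    simpa using this
  have := h1.hasFDerivWithinAt_nonneg h.hasFDerivWithinAt h2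
  simpa using this

/-- the differential ring of germs -/
def gdr (p : ℝ × Cn n) : DR n (Gm p) where
  d k := wG p (false, k)
  db k := wG p (true, k)
  D := Dv p (1, 0)
  cj := cjG p
  ev := evG p
  ζ k := mk (smP_coord p k)
  Pos φ := ∃ f, Rep φ f ∧ ∀ᶠ q in past p, 0 ≤ (f q.1 q.2).re
  cj_cj φ := by
    obtain ⟨f, hf⟩ := exists_rep φ
    exact hf.cjG.cjG.ext hf (Eventually.of_forall fun _ => Complex.conj_conj _)
  cj_smul := cjG_smul
  cj_d k φ := by
    simp only [wG_apply, cjG_smul, map_add, cjG_Dv, cI_false, cI_true, map_neg, Complex.conj_I,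
      neg_neg, map_div₀, map_one, Complex.conj_ofNat]
  cj_D := cjG_Dv _
  ev_cj φ := by
    obtain ⟨f, hf⟩ := exists_rep φ
    rw [hf.cjG.evG, hf.evG]
  dd _ _ := wG_comm _ _
  ddb _ _ := wG_comm _ _
  Dd _ := Dv_wG _ _
  d_ζ k l := by
    have h := (smP_coord p l).rep.wG (false, k)
    split_ifs with hkl
    · exact h.ext Rep.one (Eventually.of_forall fun _ => by rw [wd_coord, if_pos (by rw [hkl])])
    · exact h.ext Rep.zero (Eventually.of_forall fun _ => by rw [wd_coord, if_neg (by simpa)])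
  db_ζ k l := ((smP_coord p l).rep.wG (true, k)).ext Rep.zero
    (Eventually.of_forall fun _ => by rw [wd_coord, if_neg (by simp)])
  D_ζ l := (smP_coord p l).rep.time.ext Rep.zero (Eventually.of_forall fun _ => by simp)
  ev_ζ l := by rw [(smP_coord p l).rep.evG, sub_self]
  unit φ h0 := by
    obtain ⟨f, hf⟩ := exists_rep φ
    rw [hf.evG] at h0
    have hi : SmP p fun t z => (f t z)⁻¹ := ContDiffWithinAt.inv hf.sm h0
    refine IsUnit.of_mul_eq_one (mk hi) ((hf.mul hi.rep).ext Rep.one ?_)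
    filter_upwards [hf.sm.continuousWithinAt.eventually_ne h0] with q hq
    exact mul_inv_cancel₀ hq
  pos_add φ ψ := by
    rintro ⟨f, hf, h1⟩ ⟨g, hg, h2⟩
    refine ⟨_, hf.add hg, ?_⟩
    filter_upwards [h1, h2] with q a1 a2
    rw [Complex.add_re]
    exact add_nonneg a1 a2
  mp1 φ := by
    rintro ⟨f, hf, h1⟩ h0
    rw [hf.evG] at h0
    have h2 := Complex.reCLM.hasFDerivAt.comp_hasDerivWithinAt p.1 hf.hasDeriv
    refine deriv_nonpos_of_past h2 ?_
    filter_upwards [(tendsto_time p).eventually h1] with s hs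
    change (f p.1 p.2).re ≤ (f s p.2).re
    rw [h0]; exact hs
  mp2 φ := by
    rintro ⟨f, hf, h1⟩ h0 e
    rw [hf.evG] at h0
    have h2 : ∀ k l, evG p (wG p (false, k) (wG p (true, l) φ)) =
        wd (false, k) (wd (true, l) (f p.1)) p.2 := fun k l => ((hf.wG _).wG _).evG
    simp only [h2]
    refine mp2_fun hf.sm.slice ?_ e
    filter_upwards [(tendsto_slice p).eventually h1] with z hz
    rw [h0]; exact hz

namespace Rep

variable {φ ψ : Gm p} {f g : ℝ → Cn n → ℂ}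

theorem d (h : Rep φ f) (k : Fin n) : Rep ((gdr p).d k φ) fun t z => wd (false, k) (f t) z :=
  h.wG _

theorem db (h : Rep φ f) (k : Fin n) : Rep ((gdr p).db k φ) fun t z => wd (true, k) (f t) z :=
  h.wG _

theorem D (h : Rep φ f) :
    Rep ((gdr p).D φ) fun t z => derivWithin (fun s => f s z) (Iic p.1) t := h.time

theorem cj (h : Rep φ f) : Rep ((gdr p).cj φ) fun t z => conj (f t z) := h.cjG

theorem ev (h : Rep φ f) : (gdr p).ev φ = f p.1 p.2 := h.evG

theorem pos (h : Rep φ f) (e : ∀ᶠ q in past p, 0 ≤ (f q.1 q.2).re) : (gdr p).Pos φ := ⟨f, h, e⟩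

/-- the time derivative is given by an equation -/
theorem D_eq (h : Rep φ f) (h' : Rep ψ g)
    (e : ∀ᶠ q in past p, HasDerivWithinAt (fun s => f s q.2) (g q.1 q.2) (Iic p.1) q.1) :
    (gdr p).D φ = ψ := by
  refine h.D.ext h' ?_
  filter_upwards [e, self_mem_nhdsWithin] with q h1 h2
  exact h1.derivWithin (uniqueDiffOn_Iic _ _ h2)

/-- a germ of a real function is real -/
theorem cj_real {u : ℝ → Cn n → ℝ} (h : Rep φ fun t z => (u t z : ℂ)) : (gdr p).cj φ = φ :=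
  h.cj.ext h (Eventually.of_forall fun _ => Complex.conj_ofReal _)

/-- chain rule for directional derivatives -/
theorem chain_Dv {u : ℝ → Cn n → ℝ} {F F' : ℝ → ℝ} {χ χ' : Gm p}
    (h : Rep φ fun t z => (u t z : ℂ)) (hF : ∀ᶠ x in 𝓝 (u p.1 p.2), HasDerivAt F (F' x) x)
    (h1 : Rep χ fun t z => (F (u t z) : ℂ)) (h2 : Rep χ' fun t z => (F' (u t z) : ℂ))
    (v : ℝ × Cn n) : Dv p v χ = χ' * Dv p v φ := by
  obtain ⟨hf, rfl⟩ := h
  obtain ⟨a1, rfl⟩ := h1
  obtain ⟨a2, rfl⟩ := h2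
  refine (Dv_mk v a1).trans (Eq.trans ?_ (congrArg _ (Dv_mk v hf)).symm)
  refine (mk_eq _ (ContDiffWithinAt.mul a2 (cd_dir hf v))).2 ?_
  have hu : ContDiffWithinAt ℝ ∞ (fun q : ℝ × Cn n => u q.1 q.2) (Pa p) p :=
    Complex.reCLM.contDiff.contDiffAt.comp_contDiffWithinAt p hf
  filter_upwards [ev_diff hu, hu.continuousWithinAt.eventually hF, self_mem_nhdsWithin]
    with q b1 b2 b3
  have c1 := Complex.ofRealCLM.hasFDerivAt.comp_hasFDerivWithinAt q b1.hasFDerivWithinAt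
  have c2 := Complex.ofRealCLM.hasFDerivAt.comp_hasFDerivWithinAt q
    (b2.comp_hasFDerivWithinAt q b1.hasFDerivWithinAt)
  have d1 := c1.fderivWithin (ud_Pa p q b3)
  have d2 := c2.fderivWithin (ud_Pa p q b3)
  change fderivWithin ℝ (Complex.ofRealCLM ∘ F ∘ fun q : ℝ × Cn n => u q.1 q.2) (Pa p) q v =
    _ * fderivWithin ℝ (Complex.ofRealCLM ∘ fun q : ℝ × Cn n => u q.1 q.2) (Pa p) q v
  rw [d1, d2]
  simp

/-- chain rule -/
theorem chain {u : ℝ → Cn n → ℝ} {F F' : ℝ → ℝ} {χ χ' : Gm p}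
    (h : Rep φ fun t z => (u t z : ℂ)) (hF : ∀ᶠ x in 𝓝 (u p.1 p.2), HasDerivAt F (F' x) x)
    (h1 : Rep χ fun t z => (F (u t z) : ℂ)) (h2 : Rep χ' fun t z => (F' (u t z) : ℂ)) :
    (∀ k, (gdr p).d k χ = χ' * (gdr p).d k φ) ∧ (∀ k, (gdr p).db k χ = χ' * (gdr p).db k φ) ∧
      (gdr p).D χ = χ' * (gdr p).D φ := by
  have hw : ∀ s, Cn.wG p s χ = χ' * Cn.wG p s φ := fun s => by
    simp only [wG_apply, chain_Dv h hF h1 h2, mul_smul_comm, mul_add, smul_add]
  exact ⟨fun _ => hw _, fun _ => hw _, chain_Dv h hF h1 h2 _⟩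

end Rep

theorem SmP.ofReal {u : ℝ → Cn n → ℝ} (h : SmP p u) : SmP p fun t z => (u t z : ℂ) :=
  Complex.ofRealCLM.contDiff.contDiffAt.comp_contDiffWithinAt p h

theorem SmP.re {f : ℝ → Cn n → ℂ} (h : SmP p f) : SmP p fun t z => (f t z).re :=
  Complex.reCLM.contDiff.contDiffAt.comp_contDiffWithinAt p h

theorem SmP.comp {u : ℝ → Cn n → ℝ} (h : SmP p u) {F : ℝ → ℝ}
    (hF : ContDiffAt ℝ ∞ F (u p.1 p.2)) : SmP p fun t z => F (u t z) :=
  hF.comp_contDiffWithinAt p h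

theorem smP_time {a : ℝ → ℝ} (h : ContDiffAt ℝ ∞ a p.1) : SmP p fun t _ => a t :=
  (h.comp p contDiffAt_fst).contDiffWithinAt

end

end Crest.Agent.T223.Cn
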