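import Crest.Agent.T223.CnQ_87

/-!
# Row 223 (helper87), CONE module, part J: the second order test at a null vector

`KM.Cone K φ₁ φ₂ c` : `Θ(v; a, c) + (φ₁ |a|² + φ₂ |c|²) |v|² ≥ 0` near the base point.
`KM.psd` : at a null vector (normal frame) the `4n × 4n` matrix `ev m0 + jE.q` is positive.
-/

set_option autoImplicit false
set_option linter.unusedSectionVars false

open Finset Matrix Filter Topology
open scoped ComplexConjugate ComplexOrder

namespace Crest.Agent.T223.Cn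

noncomputable section

variable {n : ℕ} {S : Type} [CommRing S] [Algebra ℂ S]

/-- constant vectors -/
def cst (v : Fin n → ℂ) : Fin n → S := fun i => kk (v i)

/-- numerical sesquilinear form -/
def b0 (M : Matrix (Fin n) (Fin n) ℂ) (u w : Fin n → ℂ) : ℂ := ∑ i, ∑ j, u i * conj (w j) * M i j

/-- squared norm -/
def ns (u : Fin n → ℂ) : ℝ := ∑ i, Complex.normSq (u i)

theorem ns_nonneg (u : Fin n → ℂ) : 0 ≤ ns u := sum_nonneg fun _ _ => Complex.normSq_nonneg _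

theorem ns_eq (u : Fin n → ℂ) : (ns u : ℂ) = ∑ i, u i * conj (u i) := by
  simp only [ns, Complex.ofReal_sum, Complex.mul_conj]

theorem b0_one (u w : Fin n → ℂ) : b0 1 u w = ∑ i, u i * conj (w i) := by
  simp [b0, Matrix.one_apply]

theorem ns_eq_zero {u : Fin n → ℂ} (h : ns u = 0) : u = 0 := funext fun i =>
  Complex.normSq_eq_zero.1
    ((sum_eq_zero_iff_of_nonneg fun _ _ => Complex.normSq_nonneg _).1 h i (mem_univ _))

theorem ns_pos {u : Fin n → ℂ} (h : u ≠ 0) : 0 < ns u :=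
  lt_of_le_of_ne (ns_nonneg u) fun e => h (ns_eq_zero e.symm)

variable {R : DR n S}

@[simp] theorem ev_kk (c : ℂ) : R.ev (kk c) = c := R.ev.commutes c

theorem cj_kk (c : ℂ) : R.cj (kk c) = kk (conj c) := R.cj_alg c

theorem hol_cst (v : Fin n → ℂ) (k : Fin n) : R.Hol (cst v k : S) := R.hol_alg _

theorem ev_bf (M : Matrix (Fin n) (Fin n) S) (x y : Fin n → S) :
    R.ev (R.bf M x y) = b0 (R.eM M) (fun i => R.ev (x i)) fun i => R.ev (y i) := by
  simp only [R.bf_eq, b0, map_sum, map_mul, R.ev_cj, DR.eM_apply]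

theorem ev_bf_cst (M : Matrix (Fin n) (Fin n) S) (x y : Fin n → ℂ) :
    R.ev (R.bf M (cst x) (cst y)) = b0 (R.eM M) x y := by
  simp only [ev_bf, cst, ev_kk]

theorem D_bf_cst (δ : Der S) (M : Matrix (Fin n) (Fin n) S) (x y : Fin n → ℂ) :
    δ (R.bf M (cst x) (cst y)) = R.bf (dM δ M) (cst x) (cst y) := by
  simp only [R.bf_eq, cst, cj_kk, map_sum, D_mul, D_alg, dM_apply, zero_mul, mul_zero, add_zero,
    zero_add]

theorem cj_bf (M : Matrix (Fin n) (Fin n) S) (x y : Fin n → S) :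
    R.cj (R.bf M x y) = R.bf (R.cM M)ᵀ y x := by
  rw [R.bf_eq, R.bf_eq, sum_comm]
  simp only [map_sum, map_mul, R.cj_cj, transpose_apply, DR.cM_apply]
  exact sum_congr rfl fun _ _ => sum_congr rfl fun _ _ => by ring

/-! ### jets -/

/-- second order jets along a family of holomorphic curves -/
structure Jet (I : Type) where
  v : ℂ
  l : I → ℂ
  lb : I → ℂ
  q : I → I → ℂ

namespace Jet

variable {I : Type}

/-- product -/
def mul (f g : Jet I) : Jet I where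
  v := f.v * g.v
  l x := f.l x * g.v + f.v * g.l x
  lb x := f.lb x * g.v + f.v * g.lb x
  q x y := f.q x y * g.v + g.l x * f.lb y + f.l x * g.lb y + f.v * g.q x y

/-- `f + c g` -/
def lin (f : Jet I) (c : ℂ) (g : Jet I) : Jet I where
  v := f.v + c * g.v
  l x := f.l x + c * g.l x
  lb x := f.lb x + c * g.lb x
  q x y := f.q x y + c * g.q x y

end Jet

/-- `j` is the jet of `f` -/
structure JR (R : DR n S) {I : Type} [Fintype I] (u : I → ℂ) (E Eb : Der S) (f : S) (j : Jet I) :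
    Prop where
  v : R.ev f = j.v
  l : R.ev (E f) = ∑ x, u x * j.l x
  lb : R.ev (Eb f) = ∑ y, conj (u y) * j.lb y
  q : R.ev (E (Eb f)) = qf j.q u

section JR

variable {I : Type} [Fintype I] {u : I → ℂ} {E Eb : Der S} {f g : S} {j j' : Jet I}

theorem JR.mul (h : JR R u E Eb f j) (h' : JR R u E Eb g j') : JR R u E Eb (f * g) (j.mul j') := by
  refine ⟨by rw [map_mul, h.v, h'.v]; rfl, ?_, ?_, ?_⟩
  · simp only [D_mul, map_add, map_mul, h.v, h'.v, h.l, h'.l, Jet.mul, mul_add, sum_add_distrib,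
      sum_mul, mul_sum]
    congr 1 <;> exact sum_congr rfl fun _ _ => by ring
  · simp only [D_mul, map_add, map_mul, h.v, h'.v, h.lb, h'.lb, Jet.mul, mul_add, sum_add_distrib,
      sum_mul, mul_sum]
    congr 1 <;> exact sum_congr rfl fun _ _ => by ring
  · simp only [D_mul, map_add, map_mul, h.v, h'.v, h.l, h'.l, h.lb, h'.lb, h.q, h'.q]
    rw [mul_comm (∑ y, conj (u y) * j.lb y), sum_mul_sum, sum_mul_sum]
    simp only [qf, Jet.mul, sum_mul, mul_sum, ← sum_add_distrib]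
    exact sum_congr rfl fun _ _ => sum_congr rfl fun _ _ => by ring

theorem JR.lin (h : JR R u E Eb f j) (c : ℂ) (h' : JR R u E Eb g j') :
    JR R u E Eb (f + g * kk c) (j.lin c j') := by
  refine ⟨by simp only [map_add, map_mul, ev_kk, h.v, h'.v, Jet.lin]; ring, ?_, ?_, ?_⟩
  · simp only [D_mul, D_alg, mul_zero, add_zero, map_add, map_mul, ev_kk, h.l, h'.l, Jet.lin,
      sum_mul, ← sum_add_distrib]
    exact sum_congr rfl fun _ _ => by ring
  · simp only [D_mul, D_alg, mul_zero, add_zero, map_add, map_mul, ev_kk, h.lb, h'.lb, Jet.lin,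
      sum_mul, ← sum_add_distrib]
    exact sum_congr rfl fun _ _ => by ring
  · simp only [D_mul, D_alg, mul_zero, add_zero, map_add, map_mul, ev_kk, h.q, h'.q, Jet.lin, qf,
      sum_mul, ← sum_add_distrib]
    exact sum_congr rfl fun _ _ => sum_congr rfl fun _ _ => by ring

end JR

/-- the jet of a function on the base -/
def jf (R : DR n S) (φ : S) : Jet (I4 n) where
  v := R.ev φ
  l := fun
    | .inl (.inl k) => R.ev (R.d k φ)
    | _ => 0
  lb := fun
    | .inl (.inl k) => R.ev (R.db k φ)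
    | _ => 0
  q := fun
    | .inl (.inl k), .inl (.inl l) => R.ev (R.d k (R.db l φ))
    | _, _ => 0

/-- the jet of a Hermitian form which is normal at the base point -/
def jb (R : DR n S) (N : Matrix (Fin n) (Fin n) S) (w : Fin n → ℂ) (ι : Fin n → I4 n) :
    Jet (I4 n) where
  v := ns w
  l x := ∑ i, if ι i = x then conj (w i) else 0
  lb y := ∑ i, if ι i = y then w i else 0
  q x y := (jf R (R.bf N (cst w) (cst w))).q x y +
    ∑ i, (if ι i = x then 1 else 0) * (if ι i = y then 1 else 0)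

/-- the direction of the base curve -/
def ue (u : I4 n → ℂ) : Fin n → ℂ := fun k => u (.inl (.inl k))

theorem dv_cst (e : Fin n → ℂ) (f : S) : R.dv (cst e) 0 f = ∑ k, kk (e k) * R.d k f := by
  simp [R.dv_apply, cst]

theorem dbv_cst (e : Fin n → ℂ) (f : S) :
    R.dbv (cst e) 0 f = ∑ k, kk (conj (e k)) * R.db k f := by
  simp [R.dbv_apply, cst, cj_kk]

theorem ev_dv_dbv (e : Fin n → ℂ) (f : S) : R.ev (R.dv (cst e) 0 (R.dbv (cst e) 0 f)) =
    ∑ k, ∑ l, e k * conj (e l) * R.ev (R.d k (R.db l f)) := by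
  rw [dv_cst, dbv_cst]
  simp only [map_sum, D_mul, D_alg, zero_mul, zero_add, map_mul, ev_kk, mul_sum, mul_assoc]

theorem JR_jf (u : I4 n → ℂ) (φ : S) :
    JR R u (R.dv (cst (ue u)) 0) (R.dbv (cst (ue u)) 0) φ (jf R φ) := by
  refine ⟨rfl, ?_, ?_, ?_⟩
  · simp [dv_cst, jf, ue, Fintype.sum_sum_type]
  · simp [dbv_cst, jf, ue, Fintype.sum_sum_type]
  · simp [ev_dv_dbv, qf, jf, ue, Fintype.sum_sum_type]

/-- affine fields -/
def fld (ℓ : S) (w w' : Fin n → ℂ) : Fin n → S := fun i => kk (w i) + ℓ * kk (w' i)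

theorem hol_fld {ℓ : S} (h : R.Hol ℓ) (w w' : Fin n → ℂ) (i : Fin n) : R.Hol (fld ℓ w w' i) :=
  (R.hol_alg _).add (h.mul (R.hol_alg _))

theorem sum_ite_swap (u : I4 n → ℂ) (ι : Fin n → I4 n) (w : Fin n → ℂ) :
    ∑ x, u x * ∑ i, (if ι i = x then w i else 0) = ∑ i, u (ι i) * w i := by
  simp only [mul_sum]
  rw [sum_comm]
  simp

theorem JR_jb (u : I4 n → ℂ) {ℓ : S} (h : R.Hol ℓ) (h0 : R.ev ℓ = 0)
    (h1 : R.dv (cst (ue u)) 0 ℓ = 1) {N : Matrix (Fin n) (Fin n) S} (N0 : R.eM N = 1)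
    (N1 : ∀ k, R.eM (dM (R.d k) N) = 0) (N2 : ∀ k, R.eM (dM (R.db k) N) = 0)
    (w : Fin n → ℂ) (ι : Fin n → I4 n) :
    JR R u (R.dv (cst (ue u)) 0) (R.dbv (cst (ue u)) 0)
      (R.bf N (fld ℓ w fun i => u (ι i)) (fld ℓ w fun i => u (ι i))) (jb R N w ι) := by
  set E := R.dv (cst (ue u)) 0 with hE
  set Eb := R.dbv (cst (ue u)) 0 with hEb
  have a1 : Eb ℓ = 0 := h.dbv _ _
  have a2 : E (R.cj ℓ) = 0 := h.dv_cj _ _
  have a3 : Eb (R.cj ℓ) = 1 := by rw [hEb, ← R.cj_dv, ← hE, h1, map_one]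
  have n0 : ∀ i j, R.ev (N i j) = if i = j then 1 else 0 := fun i j =>
    (congrFun (congrFun N0 i) j).trans Matrix.one_apply
  have n1 : ∀ i j, R.ev (E (N i j)) = 0 := by
    intro i j
    rw [hE, dv_cst, map_sum]
    exact sum_eq_zero fun k _ => by
      rw [map_mul, show R.ev (R.d k (N i j)) = 0 from congrFun (congrFun (N1 k) i) j, mul_zero]
  have n2 : ∀ i j, R.ev (Eb (N i j)) = 0 := by
    intro i j
    rw [hEb, dbv_cst, map_sum]
    exact sum_eq_zero fun k _ => by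
      rw [map_mul, show R.ev (R.db k (N i j)) = 0 from congrFun (congrFun (N2 k) i) j, mul_zero]
  refine ⟨?_, ?_, ?_, ?_⟩
  · simp [R.bf_eq, fld, h0, R.ev_cj, n0, jb, ns_eq]
  · simp only [jb, sum_ite_swap]
    simp [R.bf_eq, fld, D_mul, cj_kk, h0, h1, a2, R.ev_cj, n0, n1, -Derivation.leibniz]
  · simp only [jb, sum_ite_swap (fun y => conj (u y))]
    simp [R.bf_eq, fld, D_mul, cj_kk, h0, a1, a3, R.ev_cj, n0, n2, -Derivation.leibniz, mul_comm]
  · have e1 : qf (jb R N w ι).q u = R.ev (E (Eb (R.bf N (cst w) (cst w)))) +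
        ∑ i, u (ι i) * conj (u (ι i)) := by
      rw [(JR_jf u _).q, ← hE, ← hEb] at *
      simp only [jb, qf_add]
      congr 1
      simp only [qf, mul_sum]
      calc _ = ∑ x, ∑ i, ∑ y, u x * conj (u y) *
            ((if ι i = x then 1 else 0) * (if ι i = y then 1 else 0)) :=
            sum_congr rfl fun _ _ => sum_comm
        _ = ∑ i, ∑ x, ∑ y, u x * conj (u y) *
            ((if ι i = x then 1 else 0) * (if ι i = y then 1 else 0)) := sum_comm
        _ = _ := by simp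
    have e2 : ∀ i j, R.ev (E (Eb (fld ℓ w (fun i => u (ι i)) i *
        R.cj (fld ℓ w (fun i => u (ι i)) j) * N i j))) =
        w i * conj (w j) * R.ev (E (Eb (N i j))) +
          if i = j then u (ι i) * conj (u (ι i)) else 0 := by
      intro i j
      simp only [fld, map_add, map_mul, D_mul, D_alg, cj_kk, a1, a2, a3, h1, D_one, map_zero,
        map_one, ev_kk, h0, R.ev_cj, n0, n1, n2]
      split_ifs with hij
      · subst hij; ring
      · ring
    rw [e1, D_bf_cst, D_bf_cst, ev_bf_cst]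
    simp only [R.bf_eq, map_sum, e2, b0, sum_add_distrib, sum_ite_eq, mem_univ, if_true,
      DR.eM_apply, dM_apply]

/-! ### the test for `F0` -/

theorem E_Xr {d : Fin n → Der S} {E V V0 A : Der S} {ℓ : S} (u : I4 n → ℂ)
    (hE : ∀ f, E f = ∑ k, kk (u (.inl (.inl k))) * d k f)
    (hA : ∀ f, A f = ∑ k, kk (u (.inl (.inr k))) * d k f)
    (hV : ∀ f, V f = V0 f + ℓ * A f) (h1 : E ℓ = 1) (hc : ∀ k f, d k (V0 f) = V0 (d k f))
    (ξ b : Fin n → ℂ) (i : Fin n) (f : S) :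
    ∃ r, E ((kk (ξ i) + ℓ * kk (u (.inr (.inr i)))) * V f +
        (kk (b i) + ℓ * kk (u (.inr (.inl i)))) * f) =
      ∑ x, kk (u x) * To d V0 ξ b x i f + ℓ * r := by
  have e : ∑ x, kk (u x) * To d V0 ξ b x i f = kk (ξ i) * E (V0 f) + kk (b i) * E f +
      kk (ξ i) * A f + (kk (u (.inr (.inl i))) * f + kk (u (.inr (.inr i))) * V0 f) := by
    simp only [Fintype.sum_sum_type, To, mul_ite, mul_zero, sum_ite_eq, mem_univ, if_true, hE, hA,
      hc, Xo, mul_sum, ← sum_add_distrib]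
    congr 1
    exact sum_congr rfl fun _ _ => by ring
  refine ⟨kk (u (.inr (.inr i))) * A f + kk (ξ i) * E (A f) +
    kk (u (.inr (.inr i))) * (E (V0 f) + A f + ℓ * E (A f)) + kk (u (.inr (.inl i))) * E f, ?_⟩
  rw [e, hV]
  simp only [map_add, D_mul, D_alg, h1]
  ring

theorem To_add (d : Fin n → Der S) (V : Der S) (ξ b : Fin n → ℂ) (x : I4 n) (i : Fin n) (f g : S) :
    To d V ξ b x i (f + g) = To d V ξ b x i f + To d V ξ b x i g := by
  rcases x with (k | k) | (k | k) <;> simp only [To, map_add, Xo_add, mul_add] <;>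
    split_ifs <;> simp

theorem To_mul {d : Fin n → Der S} {V : Der S} (ξ b : Fin n → ℂ) (x : I4 n) (i : Fin n) {g : S}
    (h1 : ∀ k, d k g = 0) (h2 : V g = 0) (f : S) :
    To d V ξ b x i (g * f) = g * To d V ξ b x i f := by
  rcases x with (k | k) | (k | k) <;> simp only [To, Xo, D_mul, h1, h2, zero_mul, zero_add]
  · ring
  · ring
  · split_ifs <;> simp
  · split_ifs <;> simp

theorem To_sum {ι : Type*} (d : Fin n → Der S) (V : Der S) (ξ b : Fin n → ℂ) (x : I4 n) (i : Fin n)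
    (s : Finset ι) (f : ι → S) : To d V ξ b x i (∑ y ∈ s, f y) = ∑ y ∈ s, To d V ξ b x i (f y) := by
  classical
  induction s using Finset.induction_on with
  | empty =>
    have := To_mul (d := d) (V := V) ξ b x i (g := 0) (fun _ => map_zero _) (map_zero _) 0
    simpa using this
  | insert a s ha ih => rw [sum_insert ha, sum_insert ha, To_add, ih]

theorem dv_fld (ℓ : S) (a α : Fin n → ℂ) (c : ℂ) (f : S) :
    R.dv (fld ℓ a α) c f = R.dv (cst a) c f + ℓ * R.dv (cst α) 0 f := by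
  simp only [R.dv_apply, fld, cst, add_mul, sum_add_distrib, zero_smul, add_zero, mul_sum, mul_assoc]
  ring

theorem dbv_fld (ℓ : S) (a α : Fin n → ℂ) (c : ℂ) (f : S) :
    R.dbv (fld ℓ a α) c f = R.dbv (cst a) c f + R.cj ℓ * R.dbv (cst α) 0 f :=
  R.cj_inj (by simp only [R.cj_dbv, map_add, map_mul, R.cj_cj, dv_fld])

theorem d_dv_cst (a : Fin n → ℂ) (c : ℂ) (k : Fin n) (f : S) :
    R.d k (R.dv (cst a) c f) = R.dv (cst a) c (R.d k f) := by
  simp only [R.dv_apply, cst, map_add, map_sum, D_mul, D_alg, zero_mul, zero_add,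
    Derivation.map_smul, R.dd k, R.Dd]

theorem db_dbv_cst (a : Fin n → ℂ) (c : ℂ) (k : Fin n) (f : S) :
    R.db k (R.dbv (cst a) c f) = R.dbv (cst a) c (R.db k f) :=
  R.cj_inj (by simp only [R.cj_db, R.cj_dbv, d_dv_cst])

namespace KM

variable (K : KM R)

theorem F0_op {ξ a b : Fin n → S} (hξ : ∀ i, R.Hol (ξ i)) (hb : ∀ i, R.Hol (b i)) (c : ℂ) :
    K.F0 ξ a c b = ∑ i, ∑ j,
      (ξ i * R.dv a c (R.cj (ξ j) * R.dbv a c (K.H i j) + R.cj (b j) * K.H i j) +
        b i * (R.cj (ξ j) * R.dbv a c (K.H i j) + R.cj (b j) * K.H i j)) := by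
  simp only [F0, R.bf_eq, dM_apply, ← sum_add_distrib, map_add, D_mul, (hξ _).dv_cj, (hb _).dv_cj]
  exact sum_congr rfl fun _ _ => sum_congr rfl fun _ _ => by ring

/-- the matrix of second variations of the Levi form -/
def M0 (ξ a : Fin n → ℂ) (c : ℂ) (b : Fin n → ℂ) : I4 n → I4 n → S :=
  m0 R.d R.db (R.dv (cst a) c) (R.dbv (cst a) c) ξ b (fun i => conj (ξ i)) (fun i => conj (b i)) K.H

theorem test_F0 (ξ a : Fin n → ℂ) (c : ℂ) (b : Fin n → ℂ) (u : I4 n → ℂ) {ℓ : S} (h : R.Hol ℓ)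
    (h0 : R.ev ℓ = 0) (h1 : R.dv (cst (ue u)) 0 ℓ = 1) :
    R.ev (R.dv (cst (ue u)) 0 (R.dbv (cst (ue u)) 0
      (K.F0 (fld ℓ ξ fun i => u (.inr (.inr i))) (fld ℓ a fun i => u (.inl (.inr i))) c
        (fld ℓ b fun i => u (.inr (.inl i)))))) =
      qf (fun x y => R.ev (K.M0 ξ a c b x y)) u := by
  set E := R.dv (cst (ue u)) 0 with hE
  set Eb := R.dbv (cst (ue u)) 0 with hEb
  have a3 : Eb (R.cj ℓ) = 1 := by rw [hEb, ← R.cj_dv, ← hE, h1, map_one]
  have key : ∀ (i j : Fin n) (f : S),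
      R.ev (E (Eb (fld ℓ ξ (fun i => u (.inr (.inr i))) i *
        R.dv (fld ℓ a fun i => u (.inl (.inr i))) c
          (R.cj (fld ℓ ξ (fun i => u (.inr (.inr i))) j) *
            R.dbv (fld ℓ a fun i => u (.inl (.inr i))) c f +
            R.cj (fld ℓ b (fun i => u (.inr (.inl i))) j) * f) +
        fld ℓ b (fun i => u (.inr (.inl i))) i *
          (R.cj (fld ℓ ξ (fun i => u (.inr (.inr i))) j) *
            R.dbv (fld ℓ a fun i => u (.inl (.inr i))) c f +
            R.cj (fld ℓ b (fun i => u (.inr (.inl i))) j) * f)))) =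
      ∑ x, ∑ y, u x * conj (u y) * R.ev (To R.d (R.dv (cst a) c) ξ b x i
        (To R.db (R.dbv (cst a) c) (fun i => conj (ξ i)) (fun i => conj (b i)) y j f)) := by
    intro i j f
    obtain ⟨r, hr⟩ := E_Xr (d := R.db) (E := Eb) (V0 := R.dbv (cst a) c)
      (V := R.dbv (fld ℓ a fun i => u (.inl (.inr i))) c)
      (A := R.dbv (cst fun i => u (.inl (.inr i))) 0) (ℓ := R.cj ℓ) (fun x => conj (u x))
      (fun f => dbv_cst _ f) (fun f => dbv_cst _ f) (fun f => dbv_fld _ _ _ _ f) a3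
      (db_dbv_cst a c) (fun i => conj (ξ i)) (fun i => conj (b i)) j f
    set g := R.cj (fld ℓ ξ (fun i => u (.inr (.inr i))) j) *
            R.dbv (fld ℓ a fun i => u (.inl (.inr i))) c f +
            R.cj (fld ℓ b (fun i => u (.inr (.inl i))) j) * f with hg
    have hr' : Eb g = ∑ x, kk (conj (u x)) * To R.db (R.dbv (cst a) c) (fun i => conj (ξ i))
        (fun i => conj (b i)) x j f + R.cj ℓ * r := by
      rw [hg]
      simp only [fld, map_add R.cj, map_mul R.cj, cj_kk]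
      exact hr
    have e1 : Eb (fld ℓ ξ (fun i => u (.inr (.inr i))) i *
        R.dv (fld ℓ a fun i => u (.inl (.inr i))) c g + fld ℓ b (fun i => u (.inr (.inl i))) i * g) =
        fld ℓ ξ (fun i => u (.inr (.inr i))) i *
        R.dv (fld ℓ a fun i => u (.inl (.inr i))) c (Eb g) +
          fld ℓ b (fun i => u (.inr (.inl i))) i * Eb g := by
      rw [map_add, D_mul, D_mul, hEb, (hol_fld h _ _ _).dbv, (hol_fld h _ _ _).dbv,
        ← DR.dv_dbv (hol_fld h _ _) (hol_cst _)]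
      ring
    obtain ⟨r', hr2⟩ := E_Xr (d := R.d) (E := E) (V0 := R.dv (cst a) c)
      (V := R.dv (fld ℓ a fun i => u (.inl (.inr i))) c)
      (A := R.dv (cst fun i => u (.inl (.inr i))) 0) (ℓ := ℓ) u
      (fun f => dv_cst _ f) (fun f => dv_cst _ f) (fun f => dv_fld _ _ _ _ f) h1
      (d_dv_cst a c) ξ b i (Eb g)
    rw [e1]
    refine (congrArg R.ev hr2).trans ?_
    rw [map_add, map_mul, h0, zero_mul, add_zero, map_sum]
    refine sum_congr rfl fun x _ => ?_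
    rw [hr', To_add, To_mul ξ b x i h.d_cj (h.dv_cj _ _), To_sum]
    simp only [To_mul ξ b x i (fun _ => D_alg _ _) (D_alg _ _), map_mul, map_add, map_sum, ev_kk,
      R.ev_cj, h0, map_zero, zero_mul, add_zero, mul_sum, mul_assoc]
  rw [K.F0_op (hol_fld h _ _) (hol_fld h _ _)]
  simp only [map_sum, key, qf, M0, m0, mul_sum]
  calc _ = ∑ i, ∑ x, ∑ j, ∑ y, _ := sum_congr rfl fun _ _ => sum_comm
    _ = ∑ x, ∑ i, ∑ j, ∑ y, _ := sum_comm
    _ = ∑ x, ∑ i, ∑ y, ∑ j, _ := sum_congr rfl fun _ _ => sum_congr rfl fun _ _ => sum_comm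
    _ = _ := sum_congr rfl fun _ _ => sum_comm

/-- the cone condition near the base point -/
def Cone (φ₁ φ₂ : S) (c : ℂ) : Prop :=
  ∀ v a : Fin n → S, (∀ k, R.Hol (a k)) →
    R.Pos (K.th v a c + (φ₁ * R.bf K.g a a + φ₂ * kk (c * conj c)) * R.bf K.g v v)

/-- the perturbed Levi form -/
def Ff (φ₁ φ₂ : S) (ξ a : Fin n → S) (c : ℂ) (b : Fin n → S) : S :=
  K.F0 ξ a c b + (φ₁ * R.bf K.g a a + φ₂ * kk (c * conj c)) * R.bf K.H ξ ξ

variable {K}

theorem Cone.pos {φ₁ φ₂ : S} {c : ℂ} (h : K.Cone φ₁ φ₂ c) (ξ : Fin n → S) {a : Fin n → S}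
    (ha : ∀ k, R.Hol (a k)) (b : Fin n → S) : R.Pos (K.Ff φ₁ φ₂ ξ a c b) := by
  have := R.pos_add _ _ (h (K.H *ᵥ R.cv ξ) a ha)
    (K.pos (K.H *ᵥ R.cv (b + (K.g * (dM (R.dv a c) K.H)ᵀ) *ᵥ ξ)))
  rw [← K.bf_H, ← K.bf_H] at this
  rw [Ff, F0_eq]
  convert this using 1
  ring

theorem cj_Ff {φ₁ φ₂ : S} (h1 : R.cj φ₁ = φ₁) (h2 : R.cj φ₂ = φ₂) (ξ : Fin n → S) {a : Fin n → S}
    (ha : ∀ k, R.Hol (a k)) (c : ℂ) (b : Fin n → S) :
    R.cj (K.Ff φ₁ φ₂ ξ a c b) = K.Ff φ₁ φ₂ ξ a c b := by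
  have e0 : (R.cM K.H)ᵀ = K.H := by ext i j; exact K.cj_H j i
  have e1 : (R.cM K.g)ᵀ = K.g := by ext i j; exact K.cj_g j i
  have e2 : (R.cM (dM (R.dv a c) K.H))ᵀ = dM (R.dbv a c) K.H := by
    ext i j; simp only [transpose_apply, DR.cM_apply, dM_apply, R.cj_dv, K.cj_H]
  have e3 : (R.cM (dM (R.dbv a c) K.H))ᵀ = dM (R.dv a c) K.H := by
    ext i j; simp only [transpose_apply, DR.cM_apply, dM_apply, R.cj_dbv, K.cj_H]
  have e4 : (R.cM (dM (R.dv a c) (dM (R.dbv a c) K.H)))ᵀ =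
      dM (R.dv a c) (dM (R.dbv a c) K.H) := by
    ext i j
    simp only [transpose_apply, DR.cM_apply, dM_apply, R.cj_dv, R.cj_dbv, K.cj_H, DR.dv_dbv ha ha]
  simp only [Ff, F0, map_add, map_mul, cj_bf, e0, e1, e2, e3, e4, h1, h2, cj_kk, Complex.conj_conj]
  ring

theorem H0 (h : K.Normal) : R.eM K.H = 1 := by
  rw [H, R.eM_transpose, Ev.gi0 h, transpose_one]

theorem H1 (h : K.Normal) (k : Fin n) : R.eM (dM (R.d k) K.H) = 0 := by
  rw [H, dM_transpose, R.eM_transpose, Ev.gi1 h, transpose_zero]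

theorem H1b (h : K.Normal) (k : Fin n) : R.eM (dM (R.db k) K.H) = 0 := by
  rw [H, dM_transpose, R.eM_transpose, Ev.gi1b h, transpose_zero]

variable (K) in
/-- the jet of the perturbation -/
def jE (φ₁ φ₂ : S) (ξ a : Fin n → ℂ) (c : ℂ) : Jet (I4 n) :=
  ((((jf R φ₁).mul (jb R K.g a fun i => .inl (.inr i))).lin (c * conj c) (jf R φ₂))).mul
    (jb R K.H ξ fun i => .inr (.inr i))

/-- **second order test** -/
theorem psd (hN : K.Normal) {φ₁ φ₂ : S} (r1 : R.cj φ₁ = φ₁) (r2 : R.cj φ₂ = φ₂) {c : ℂ}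
    (hC : K.Cone φ₁ φ₂ c) {ξ a b : Fin n → ℂ} (hξ : ξ ≠ 0)
    (h0 : (R.ev (K.Ff φ₁ φ₂ (cst ξ) (cst a) c (cst b))).re = 0) (u : I4 n → ℂ) :
    0 ≤ qf (fun x y => R.ev (K.M0 ξ a c b x y) + (K.jE φ₁ φ₂ ξ a c).q x y) u := by
  have main : ∀ u : I4 n → ℂ, ue u ≠ 0 →
      0 ≤ qf (fun x y => R.ev (K.M0 ξ a c b x y) + (K.jE φ₁ φ₂ ξ a c).q x y) u := by
    intro u hu
    have hn : (ns (ue u) : ℂ) ≠ 0 := Complex.ofReal_ne_zero.2 (ns_pos hu).ne'
    set ℓ : S := ∑ k, kk (conj (ue u k) / ns (ue u)) * R.ζ k with hℓ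
    have l0 : R.Hol ℓ := DR.Hol.sum _ fun k => (R.hol_alg _).mul (R.hol_ζ k)
    have l1 : R.ev ℓ = 0 := by simp [hℓ, R.ev_ζ]
    have l2 : R.dv (cst (ue u)) 0 ℓ = 1 := by
      have : ∑ k, ue u k * (conj (ue u k) / ns (ue u)) = 1 := by
        simp only [← mul_div_assoc, ← sum_div, ← ns_eq, div_self hn]
      rw [dv_cst]
      simp only [hℓ, map_sum, D_mul, D_alg, zero_mul, zero_add, R.d_ζ, mul_ite, mul_one,
        mul_zero, sum_ite_eq, mem_univ, if_true, ← map_mul]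
      rw [← map_sum, this, map_one]
    set F := K.Ff φ₁ φ₂ (fld ℓ ξ fun i => u (.inr (.inr i))) (fld ℓ a fun i => u (.inl (.inr i))) c
      (fld ℓ b fun i => u (.inr (.inl i))) with hF
    have hp : R.Pos F := hC.pos _ (hol_fld l0 _ _) _
    have hr : R.cj F = F := cj_Ff r1 r2 _ (hol_fld l0 _ _) _ _
    have ef : ∀ w w' : Fin n → ℂ, (fun i => R.ev (fld ℓ w w' i)) = fun i => R.ev (cst w i : S) := by
      intro w w'; funext i; simp [fld, cst, l1]
    have he : R.ev F = R.ev (K.Ff φ₁ φ₂ (cst ξ) (cst a) c (cst b)) := by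
      have e1 : R.eM (dM (R.dv (fld ℓ a fun i => u (.inl (.inr i))) c) K.H) =
          R.eM (dM (R.dv (cst a) c) K.H) := by
        ext i j; simp [dv_fld, l1]
      have e2 : R.eM (dM (R.dbv (fld ℓ a fun i => u (.inl (.inr i))) c) K.H) =
          R.eM (dM (R.dbv (cst a) c) K.H) := by
        ext i j; simp [dbv_fld, l1, R.ev_cj]
      have e3 : R.eM (dM (R.dv (fld ℓ a fun i => u (.inl (.inr i))) c)
          (dM (R.dbv (fld ℓ a fun i => u (.inl (.inr i))) c) K.H)) =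
          R.eM (dM (R.dv (cst a) c) (dM (R.dbv (cst a) c) K.H)) := by
        ext i j; simp [dv_fld, dbv_fld, l1, R.ev_cj, D_mul, l0.dv_cj, -Derivation.leibniz]
      simp only [hF, Ff, F0, map_add, map_mul, ev_bf, ef, e1, e2, e3]
    have hq : R.ev (R.dv (cst (ue u)) 0 (R.dbv (cst (ue u)) 0 F)) =
        qf (fun x y => R.ev (K.M0 ξ a c b x y) + (K.jE φ₁ φ₂ ξ a c).q x y) u := by
      rw [qf_add, hF, Ff, map_add, map_add, map_add, K.test_F0 ξ a c b u l0 l1 l2]
      congr 1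
      exact ((((JR_jf u φ₁).mul (JR_jb u l0 l1 l2 hN.g0 hN.g1 (Ev.g1b hN) a _)).lin _
        (JR_jf u φ₂)).mul (JR_jb u l0 l1 l2 (H0 hN) (H1 hN) (H1b hN) ξ _)).q
    rw [← hq]
    refine Complex.nonneg_iff.2 ⟨?_, (R.im_ev ?_).symm⟩
    · rw [ev_dv_dbv]
      exact R.mp2 F hp (by rw [he, h0]) _
    · rw [R.cj_dv, R.cj_dbv, hr, DR.dv_dbv (hol_cst _) (hol_cst _)]
  by_cases hu : ue u = 0
  · obtain ⟨i0, -⟩ := Function.ne_iff.1 hξ
    set w : I4 n → ℂ := Pi.single (.inl (.inl i0)) 1 with hw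
    have hc : Continuous fun ε : ℝ =>
        qf (fun x y => R.ev (K.M0 ξ a c b x y) + (K.jE φ₁ φ₂ ξ a c).q x y) (u + (ε : ℂ) • w) := by
      simp only [qf, Pi.add_apply, Pi.smul_apply, smul_eq_mul]
      fun_prop
    have ht := (hc.tendsto 0).mono_left (nhdsWithin_le_nhds (s := Set.Ioi 0))
    simp only [Complex.ofReal_zero, zero_smul, add_zero] at ht
    refine ge_of_tendsto ht ?_
    filter_upwards [self_mem_nhdsWithin] with ε hε
    refine main _ fun h => ?_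
    have h1 := congrFun h i0
    have h2 := congrFun hu i0
    simp only [ue, Pi.add_apply, Pi.smul_apply, hw, Pi.single_eq_same, smul_eq_mul, mul_one,
      Pi.zero_apply] at h1 h2
    rw [h2, zero_add] at h1
    exact (ne_of_gt hε) (Complex.ofReal_eq_zero.1 h1)
  · exact main u hu

end KM

end

end Crest.Agent.T223.Cn
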