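import Crest.Agent.T223.CnL_43
import Crest.Agent.T223.EvA_41

/-!
# Row 223 (helper43), CONE module: LICH for `η = ∂∂̄ u - Ric`, `(∂_t - Δ) u = 0`, in the ring
-/

set_option autoImplicit false
set_option linter.unusedSectionVars false

open Finset Matrix
open scoped ComplexConjugate ComplexOrder

namespace Crest.Agent.T223.CnL

open Crest.Agent.T223.Cn Crest.Agent.T223.Ev

noncomputable section

variable {n : ℕ} {S : Type} [CommRing S] [Algebra ℂ S] {R : DR n S}

theorem hs_herm {u : S} (hu : R.cj u = u) : R.cM (R.hs u) = (R.hs u)ᵀ := by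
  ext k l
  simp only [DR.cM_apply, DR.hs, of_apply, transpose_apply, R.cj_d, R.cj_db, hu, R.ddb]

theorem hs_closed (u : S) (a b c : Fin n) : R.d c (R.hs u a b) = R.d a (R.hs u c b) := by
  simp only [DR.hs, of_apply, R.dd c a]

theorem cj_be (K : KM R) (b : Fin n) : R.cj (be K (R.db b)) = be K (R.d b) := by
  simp only [be, KM.tr, Matrix.trace, Matrix.diag_apply, Matrix.mul_apply, dM_apply, map_sum,
    map_mul, K.cj_gi, R.cj_db, K.cj_g]
  exact sum_comm

theorem ric_herm (K : KM R) : R.cM K.ric = K.ricᵀ := by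
  ext a b
  rw [DR.cM_apply, transpose_apply, ric_eq, ric_eq, map_neg, R.cj_d, cj_be,
    be_symm K (R.ddb b a)]

theorem ric_closed (K : KM R) (a b c : Fin n) : R.d c (K.ric a b) = R.d a (K.ric c b) := by
  rw [ric_eq, ric_eq, map_neg, map_neg, R.dd]

theorem cM_sub (M N : Matrix (Fin n) (Fin n) S) : R.cM (M - N) = R.cM M - R.cM N := by
  ext a b; simp

/-- LICH for `η = ∂∂̄ u - Ric` with a source: `(∂_t - Δ) u = f` -/
theorem lich_u (K : KM R) (hF : K.Flow 0) {u : S} (hu : R.cj u = u)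
    {φ : S} (hφ : R.cj φ = φ) (hφ0 : 0 ≤ (R.ev φ).re)
    (hpos : ∀ w, R.Pos (R.bf (R.hs u - K.ric + φ • K.g) w w))
    (hP : ∀ w, 0 ≤ (R.ev (R.bf (R.hs u - K.ric + φ • K.g) w w)).re)
    {l c m : ℝ} (hl : Lo K l) (hc : Hi K c) {v : Fin n → S}
    (hv : 0 < (R.ev (R.bf K.g v v)).re)
    (h0 : (R.ev (R.bf (R.hs u - K.ric + φ • K.g) v v)).re = 0)
    (hm : -(m * (R.ev (R.bf K.g v v)).re) ≤ (R.ev (R.bf (R.hs (bx K u)) v v)).re) :
    (R.ev (bx K φ)).re ≤
      n * c * (R.ev φ).re + l * ((R.ev (K.lap u - sc K)).re + n * (R.ev φ).re) + m := by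
  have e : K.tr (R.hs u - K.ric) = K.lap u - sc K := by rw [K.tr_sub]; rfl
  have := lich K hF (η := R.hs u - K.ric) (src := R.hs (bx K u))
    (by rw [cM_sub, hs_herm hu, ric_herm, transpose_sub])
    (fun a b c => by simp only [Matrix.sub_apply, map_sub, hs_closed u a b c, ric_closed K a b c])
    (by rw [e, dM_sub, D_hs, D_ric hF, bx, hs_sub, hs_sub]; abel) hφ hφ0 hpos hP hl hc hv h0 hm
  rwa [e] at this

end

end Crest.Agent.T223.CnL
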