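import Crest.Agent.T223.CnF_87

/-!
# Row 223 (helper43), CONE module, part L: the Lichnerowicz maximum principle in the ring

`η` a closed Hermitian matrix field with `D η = ∂∂̄ (tr_g η) + src`, `η + φ g ≥ 0` in the past
with a null vector at the base point.  Then `(D - Δ) φ ≤ n K φ + l (tr η + n φ) + m`.
-/

set_option autoImplicit false
set_option linter.unusedSectionVars false

open Finset Matrix
open scoped ComplexConjugate ComplexOrder

namespace Crest.Agent.T223.CnL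

open Crest.Agent.T223.Cn

noncomputable section

variable {n : ℕ} {S : Type} [CommRing S] [Algebra ℂ S]

/-- constant vector field -/
def cst (S : Type) [CommRing S] [Algebra ℂ S] (v : Fin n → ℂ) : Fin n → S :=
  fun i => algebraMap ℂ S (v i)

/-- complex sesquilinear form -/
def qf (M : Matrix (Fin n) (Fin n) ℂ) (x : Fin n → ℂ) : ℂ := ∑ i, ∑ j, x i * conj (x j) * M i j

variable {R : DR n S}

theorem hol_cst (v : Fin n → ℂ) (k : Fin n) : R.Hol (cst S v k) := R.hol_alg _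

theorem ev_cst (v : Fin n → ℂ) (k : Fin n) : R.ev (cst S v k) = v k := by simp [cst]

theorem ev_bf (M : Matrix (Fin n) (Fin n) S) (x : Fin n → S) :
    R.ev (R.bf M x x) = qf (R.eM M) fun i => R.ev (x i) := by
  simp only [R.bf_eq, map_sum, map_mul, R.ev_cj, qf, DR.eM_apply]

theorem ev_bf_cst (M : Matrix (Fin n) (Fin n) S) (v : Fin n → ℂ) :
    R.ev (R.bf M (cst S v) (cst S v)) = qf (R.eM M) v := by
  rw [ev_bf]; simp only [ev_cst]

theorem der_bf_cst (δ : Der S) (M : Matrix (Fin n) (Fin n) S) (v : Fin n → ℂ) :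
    δ (R.bf M (cst S v) (cst S v)) = R.bf (dM δ M) (cst S v) (cst S v) := by
  simp only [R.bf_eq, map_sum, D_mul, cst, R.cj_alg, D_alg, dM_apply, zero_mul, mul_zero, add_zero,
    zero_add]

theorem qf_add (M N : Matrix (Fin n) (Fin n) ℂ) (x : Fin n → ℂ) :
    qf (M + N) x = qf M x + qf N x := by
  simp only [qf, Matrix.add_apply, mul_add, sum_add_distrib]

theorem qf_neg (M : Matrix (Fin n) (Fin n) ℂ) (x : Fin n → ℂ) : qf (-M) x = -qf M x := by
  simp only [qf, Matrix.neg_apply, mul_neg, sum_neg_distrib]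

theorem qf_smul (c : ℂ) (M : Matrix (Fin n) (Fin n) ℂ) (x : Fin n → ℂ) :
    qf (c • M) x = c * qf M x := by
  simp only [qf, Matrix.smul_apply, smul_eq_mul, mul_sum]
  exact sum_congr rfl fun _ _ => sum_congr rfl fun _ _ => by ring

theorem qf_one (x : Fin n → ℂ) :
    qf (1 : Matrix (Fin n) (Fin n) ℂ) x = ((∑ i, ‖x i‖ ^ 2 : ℝ) : ℂ) := by
  simp only [qf, Matrix.one_apply, mul_ite, mul_one, mul_zero, sum_ite_eq, mem_univ, if_true,
    Complex.mul_conj, Complex.normSq_eq_norm_sq]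
  push_cast
  rfl

theorem qf_zero (x : Fin n → ℂ) : qf (0 : Matrix (Fin n) (Fin n) ℂ) x = 0 := by simp [qf]

theorem qf_single (M : Matrix (Fin n) (Fin n) ℂ) (i : Fin n) :
    qf M (Pi.single i 1) = M i i := by
  simp [qf, Pi.single_apply, apply_ite conj]

theorem psd_of_qf {P : Matrix (Fin n) (Fin n) ℂ} (hP : P.IsHermitian)
    (h : ∀ x, 0 ≤ (qf P x).re) : P.PosSemidef := by
  refine PosSemidef.of_dotProduct_mulVec_nonneg hP fun x => ?_
  have e : star x ⬝ᵥ P *ᵥ x = qf P fun i => conj (x i) := by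
    simp only [qf, dotProduct, mulVec, Pi.star_apply, mul_sum, RCLike.star_def, Complex.conj_conj]
    exact sum_congr rfl fun _ _ => sum_congr rfl fun _ _ => by ring
  refine Complex.nonneg_iff.2 ⟨by rw [e]; exact h _, ?_⟩
  have h2 : conj (star x ⬝ᵥ P *ᵥ x) = star x ⬝ᵥ P *ᵥ x := by
    have h3 : star (star x ⬝ᵥ P *ᵥ x) = star (P *ᵥ x) ⬝ᵥ x := by
      rw [star_dotProduct, star_star]
    rw [← RCLike.star_def, h3, star_mulVec, hP.eq, dotProduct_mulVec]
  exact (Complex.conj_eq_iff_im.1 h2).symm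

/-- `tr (T P) ≥ - c tr P` if `T ≥ -c` and `P ≥ 0` -/
theorem trace_mul_ge {T P : Matrix (Fin n) (Fin n) ℂ} (hP : P.PosSemidef) {c : ℝ}
    (hT : ∀ x, -(c * ∑ i, ‖x i‖ ^ 2) ≤ (qf T x).re) :
    -(c * P.trace.re) ≤ (T * P).trace.re := by
  open scoped MatrixOrder in
  obtain ⟨B, hB⟩ := CStarAlgebra.nonneg_iff_eq_star_mul_self.1 hP.nonneg
  have e : ∀ T : Matrix (Fin n) (Fin n) ℂ, (T * P).trace = ∑ k, qf T fun i => B k i := by
    intro T
    rw [hB]
    simp only [Matrix.trace, Matrix.diag_apply, Matrix.mul_apply, Matrix.star_apply, qf, mul_sum,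
      RCLike.star_def]
    calc _ = ∑ i, ∑ k, ∑ j, T i j * (conj (B k j) * B k i) := sum_congr rfl fun _ _ => sum_comm
      _ = ∑ k, ∑ i, ∑ j, T i j * (conj (B k j) * B k i) := sum_comm
      _ = _ := sum_congr rfl fun _ _ => sum_congr rfl fun _ _ => sum_congr rfl fun _ _ => by ring
  have e1 := e 1
  rw [Matrix.one_mul] at e1
  rw [e, e1, Complex.re_sum, Complex.re_sum, mul_sum, ← sum_neg_distrib]
  refine sum_le_sum fun k _ => ?_
  rw [qf_one, Complex.ofReal_re]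
  exact hT _

theorem trace_le {T : Matrix (Fin n) (Fin n) ℂ} {c : ℝ}
    (hT : ∀ x, (qf T x).re ≤ c * ∑ i, ‖x i‖ ^ 2) : T.trace.re ≤ n * c := by
  have h : ∀ i, (T i i).re ≤ c := by
    intro i
    have := hT (Pi.single i 1)
    rw [qf_single] at this
    refine this.trans (le_of_eq ?_)
    have : ∑ j, ‖(Pi.single i 1 : Fin n → ℂ) j‖ ^ 2 = 1 := by
      rw [Finset.sum_eq_single i] <;> simp +contextual
    rw [this, mul_one]
  simp only [Matrix.trace, Matrix.diag_apply, Complex.re_sum]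
  calc _ ≤ ∑ _i : Fin n, c := sum_le_sum fun i _ => h i
    _ = _ := by simp

/-- a closed Hermitian matrix field: `∂_k ∂̄_k η_{a b̄} = ∂_a ∂̄_b η_{k k̄}` -/
theorem swap_closed {η : Matrix (Fin n) (Fin n) S} (hη : R.cM η = ηᵀ)
    (hcl : ∀ a b c, R.d c (η a b) = R.d a (η c b)) (k a b : Fin n) :
    R.d k (R.db k (η a b)) = R.d a (R.db b (η k k)) := by
  have cj : ∀ a b, R.cj (η a b) = η b a := fun a b => congrFun (congrFun hη a) b
  have hcl' : ∀ a b c, R.db c (η a b) = R.db b (η a c) := fun a b c =>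
    R.cj_inj (by rw [R.cj_db, R.cj_db, cj, cj, hcl])
  rw [hcl' a b k, R.ddb, hcl a k k, ← R.ddb]

theorem bf_hs_cst (f : S) (v : Fin n → ℂ) :
    R.bf (R.hs f) (cst S v) (cst S v) = R.dv (cst S v) 0 (R.dbv (cst S v) 0 f) := by
  simp only [R.bf_eq, DR.hs, of_apply, R.dv_apply, R.dbv_apply, map_zero, zero_smul, add_zero,
    map_sum, D_mul, (hol_cst v _).d_cj, zero_mul, zero_add, mul_sum, mul_assoc]

namespace Normal

variable {K : KM R} (hN : K.Normal)
include hN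

theorem gi0 : R.eM K.gi = 1 := by
  have := congrArg R.eM K.inv
  rwa [R.eM_mul, hN.g0, Matrix.one_mul, R.eM_one] at this

theorem g1b (k : Fin n) : R.eM (dM (R.db k) K.g) = 0 := by
  ext a b
  have h := congrFun (congrFun (hN.g1 k) b) a
  simp only [DR.eM_apply, dM_apply, Matrix.zero_apply] at h ⊢
  rw [← K.cj_g, ← R.cj_d, R.ev_cj, h, map_zero]

theorem gdv (a : Fin n → S) : R.eM (dM (R.dv a 0) K.g) = 0 := by
  ext i j
  have h := fun k => congrFun (congrFun (hN.g1 k) i) j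
  simp only [DR.eM_apply, dM_apply, Matrix.zero_apply] at h ⊢
  simp [R.dv_apply, h]

theorem gdbv (a : Fin n → S) : R.eM (dM (R.dbv a 0) K.g) = 0 := by
  ext i j
  have h := fun k => congrFun (congrFun (g1b hN k) i) j
  simp only [DR.eM_apply, dM_apply, Matrix.zero_apply] at h ⊢
  simp [R.dbv_apply, h]

theorem gi_der {δ : Der S} (h : R.eM (dM δ K.g) = 0) : R.eM (dM δ K.gi) = 0 := by
  rw [dM_inv δ K.inv, R.eM_neg, R.eM_mul, R.eM_mul, h, Matrix.mul_zero, Matrix.zero_mul, neg_zero]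

theorem Th_ev {δ δ' : Der S} (h : R.eM (dM δ K.g) = 0) :
    R.eM (Th δ δ' K.g K.gi) = -R.eM (dM δ (dM δ' K.g)) := by
  rw [Th, R.eM_add, R.eM_neg, R.eM_mul, R.eM_mul, h, Matrix.zero_mul, Matrix.zero_mul, add_zero]

theorem gi_der2 {δ δ' : Der S} (h : R.eM (dM δ K.g) = 0) :
    R.eM (dM δ (dM δ' K.gi)) = R.eM (Th δ δ' K.g K.gi) := by
  have := congrArg R.eM (Th_inv δ δ' K.inv)
  rw [R.eM_sub, R.eM_mul, R.eM_mul, R.eM_mul, R.eM_mul, gi_der hN h, gi0 hN, Matrix.mul_zero,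
    sub_zero, Matrix.one_mul, Matrix.mul_one] at this
  exact this

theorem tr_ev (M : Matrix (Fin n) (Fin n) S) : R.ev (K.tr M) = (R.eM M).trace := by
  rw [KM.tr, R.ev_trace, R.eM_mul, gi0 hN, Matrix.one_mul]

theorem lap_ev (f : S) : R.ev (K.lap f) = ∑ k, R.ev (R.d k (R.db k f)) := by
  rw [KM.lap, tr_ev hN]
  simp [Matrix.trace, DR.hs]

/-- second derivative of a trace -/
theorem dd_tr {δ δ' : Der S} (h : R.eM (dM δ K.g) = 0) (h' : R.eM (dM δ' K.g) = 0)
    (M : Matrix (Fin n) (Fin n) S) :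
    R.ev (δ (δ' (K.tr M))) =
      (R.eM (Th δ δ' K.g K.gi) * R.eM M).trace + (R.eM (dM δ (dM δ' M))).trace := by
  rw [KM.tr, D_trace, D_trace, R.ev_trace, dM_mul, dM_add, dM_mul, dM_mul]
  simp only [R.eM_add, R.eM_mul, gi_der hN h, gi_der hN h', gi_der2 hN h, gi0 hN, Matrix.zero_mul,
    Matrix.one_mul, add_zero, zero_add, Matrix.trace_add]

end Normal

/-- sum of the pure second derivatives of a closed Hermitian field -/
theorem sum_dd_bf {η : Matrix (Fin n) (Fin n) S} (hη : R.cM η = ηᵀ)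
    (hcl : ∀ a b c, R.d c (η a b) = R.d a (η c b)) (v : Fin n → ℂ) :
    ∑ k, R.d k (R.db k (R.bf η (cst S v) (cst S v))) =
      (dM (R.dv (cst S v) 0) (dM (R.dbv (cst S v) 0) η)).trace := by
  simp only [der_bf_cst, Matrix.trace, Matrix.diag_apply, dM_apply, ← bf_hs_cst]
  refine sum_congr rfl fun k _ => ?_
  congr 1
  ext a b
  exact swap_closed hη hcl k a b

theorem bf_ric_cst (K : KM R) (v : Fin n → ℂ) :
    R.bf K.ric (cst S v) (cst S v) =
      K.tr (Th (R.dv (cst S v) 0) (R.dbv (cst S v) 0) K.g K.gi) := by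
  rw [KM.Th_dv (hol_cst v)]
  simp only [K.tr_sum, K.tr_smul, R.bf_eq, KM.ric, of_apply]

/-- the maximum principle: `(D - Δ) f ≤ 0` at a past minimum -/
theorem box_nonpos (K : KM R) {f : S} (hf : R.Pos f) (h0 : (R.ev f).re = 0) :
    (R.ev (R.D f - K.lap f)).re ≤ 0 := by
  obtain ⟨F, hN⟩ := K.exists_normal
  have h1 := R.mp1 f hf h0
  have h2 : 0 ≤ (R.ev (K.lap f)).re := by
    rw [← K.fr_lap F, ← F.dr_ev, Normal.lap_ev hN, Complex.re_sum]
    refine sum_nonneg fun k _ => ?_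
    have := F.dr.mp2 f hf h0 (Pi.single k 1)
    simpa [Pi.single_apply, apply_ite conj] using this
  rw [map_sub, Complex.sub_re]
  linarith

/-- LICH in a normal frame: the pointwise identity -/
theorem lich_id {K : KM R} (hN : K.Normal) (hF : K.Flow 0) {η src : Matrix (Fin n) (Fin n) S}
    (hη : R.cM η = ηᵀ) (hcl : ∀ a b c, R.d c (η a b) = R.d a (η c b))
    (hev : dM R.D η = R.hs (K.tr η) + src) (φ : S) (v : Fin n → ℂ) :
    R.ev (R.D (R.bf (η + φ • K.g) (cst S v) (cst S v)) -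
        K.lap (R.bf (η + φ • K.g) (cst S v) (cst S v))) =
      R.ev (R.D φ - K.lap φ) * ((∑ i, ‖v i‖ ^ 2 : ℝ) : ℂ) +
        (R.eM (Th (R.dv (cst S v) 0) (R.dbv (cst S v) 0) K.g K.gi) * R.eM η).trace +
        qf (R.eM src) v := by
  set δ := R.dv (cst S v) 0 with hδ
  set δ' := R.dbv (cst S v) 0 with hδ'
  have h1 : R.eM (dM δ K.g) = 0 := Normal.gdv hN _
  have h2 : R.eM (dM δ' K.g) = 0 := Normal.gdbv hN _
  set T := R.eM (Th δ δ' K.g K.gi) with hT
  set N : S := R.bf K.g (cst S v) (cst S v) with hNv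
  have eN : R.ev N = ((∑ i, ‖v i‖ ^ 2 : ℝ) : ℂ) := by rw [hNv, ev_bf_cst, hN.g0, qf_one]
  have eNd : ∀ k, R.ev (R.d k N) = 0 := fun k => by
    rw [hNv, der_bf_cst, ev_bf_cst, hN.g1, qf_zero]
  have eNb : ∀ k, R.ev (R.db k N) = 0 := fun k => by
    rw [hNv, der_bf_cst, ev_bf_cst, Normal.g1b hN, qf_zero]
  have eND : R.ev (R.D N) = -T.trace := by
    have hF' : dM R.D K.g = -K.ric := by
      have := hF
      unfold KM.Flow at this
      rw [this]; simp
    rw [hNv, der_bf_cst, hF', R.bf_neg, map_neg, bf_ric_cst, Normal.tr_ev hN]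
  have eNL : ∑ k, R.ev (R.d k (R.db k N)) = -T.trace := by
    rw [← map_sum, hNv, sum_dd_bf K.herm K.closed, R.ev_trace, hT, Normal.Th_ev hN h1,
      Matrix.trace_neg, neg_neg]
  have eηD : R.ev (R.D (R.bf η (cst S v) (cst S v))) =
      (T * R.eM η).trace + (R.eM (dM δ (dM δ' η))).trace + qf (R.eM src) v := by
    rw [der_bf_cst, hev, R.bf_add, map_add, bf_hs_cst, Normal.dd_tr hN h1 h2, ev_bf_cst]
  have eηL : ∑ k, R.ev (R.d k (R.db k (R.bf η (cst S v) (cst S v)))) =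
      (R.eM (dM δ (dM δ' η))).trace := by
    rw [← map_sum, sum_dd_bf hη hcl, R.ev_trace]
  have eφL : ∑ k, R.ev (R.d k (R.db k (φ * N))) =
      (∑ k, R.ev (R.d k (R.db k φ))) * R.ev N + R.ev φ * ∑ k, R.ev (R.d k (R.db k N)) := by
    rw [sum_mul, mul_sum, ← sum_add_distrib]
    refine sum_congr rfl fun k _ => ?_
    simp only [D_mul, map_add, map_mul, eNd, eNb, mul_zero, add_zero, zero_add]
  rw [R.bf_add, R.bf_smul, ← hNv, map_sub, map_sub, Normal.lap_ev hN, Normal.lap_ev hN]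
  simp only [map_add, sum_add_distrib]
  rw [eηD, eηL, eφL, eNL, D_mul, map_add, map_mul, map_mul, eND, eN]
  ring

/-- lower curvature bound at the base point -/
def Lo (K : KM R) (l : ℝ) : Prop := ∀ v a : Fin n → S, (∀ k, R.Hol (a k)) →
  -(l * (R.ev (R.bf K.g v v)).re * (R.ev (R.bf K.g a a)).re) ≤ (R.ev (K.th v a 0)).re

/-- upper curvature bound at the base point -/
def Hi (K : KM R) (c : ℝ) : Prop := ∀ v a : Fin n → S, (∀ k, R.Hol (a k)) →
  (R.ev (K.th v a 0)).re ≤ c * (R.ev (R.bf K.g v v)).re * (R.ev (R.bf K.g a a)).re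

theorem Lo.fr {K : KM R} {l : ℝ} (h : Lo K l) (F : Frm R) : Lo (K.fr F) l := by
  intro v a ha
  rw [K.fr_th F v ha, K.fr_g, F.bf_pb, F.bf_pb]
  exact h _ _ (F.hol_mulVec ha)

theorem Hi.fr {K : KM R} {l : ℝ} (h : Hi K l) (F : Frm R) : Hi (K.fr F) l := by
  intro v a ha
  rw [K.fr_th F v ha, K.fr_g, F.bf_pb, F.bf_pb]
  exact h _ _ (F.hol_mulVec ha)

theorem lich_normal {K : KM R} (hN : K.Normal) (hF : K.Flow 0)
    {η src : Matrix (Fin n) (Fin n) S}
    (hη : R.cM η = ηᵀ) (hcl : ∀ a b c, R.d c (η a b) = R.d a (η c b))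
    (hev : dM R.D η = R.hs (K.tr η) + src) {φ : S} (hφ : R.cj φ = φ) (hφ0 : 0 ≤ (R.ev φ).re)
    (hpos : ∀ w, R.Pos (R.bf (η + φ • K.g) w w))
    (hP : ∀ w, 0 ≤ (R.ev (R.bf (η + φ • K.g) w w)).re)
    {l c m : ℝ} (hl : Lo K l) (hc : Hi K c) {v : Fin n → S}
    (hv : 0 < (R.ev (R.bf K.g v v)).re) (h0 : (R.ev (R.bf (η + φ • K.g) v v)).re = 0)
    (hm : -(m * (R.ev (R.bf K.g v v)).re) ≤ (R.ev (R.bf src v v)).re) :
    (R.ev (R.D φ - K.lap φ)).re ≤
      n * c * (R.ev φ).re + l * ((R.ev (K.tr η)).re + n * (R.ev φ).re) + m := by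
  set u : Fin n → ℂ := fun i => R.ev (v i) with hu
  have ev : ∀ M, R.ev (R.bf M v v) = qf (R.eM M) u := fun M => ev_bf M v
  have eg : ∀ x : Fin n → ℂ, (R.ev (R.bf K.g (cst S x) (cst S x))).re = ∑ i, ‖x i‖ ^ 2 := fun x => by
    rw [ev_bf_cst, hN.g0, qf_one, Complex.ofReal_re]
  rw [ev, hN.g0, qf_one, Complex.ofReal_re] at hv hm
  rw [ev] at hm
  set N : ℝ := ∑ i, ‖u i‖ ^ 2 with hNd
  have h1 := box_nonpos K (hpos (cst S u)) (by rw [ev_bf_cst, ← ev]; exact h0)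
  rw [lich_id hN hF hη hcl hev] at h1
  set T := R.eM (Th (R.dv (cst S u) 0) (R.dbv (cst S u) 0) K.g K.gi) with hT
  have eT : ∀ x : Fin n → ℂ, R.ev (K.th (cst S x) (cst S u) 0) = qf T x := fun x => by
    rw [KM.th, ev_bf_cst]
  obtain ⟨f, hf⟩ : ∃ f : ℝ, R.ev φ = f :=
    ⟨(R.ev φ).re, by apply Complex.ext <;> simp [R.im_ev hφ]⟩
  have eP : R.eM (η + φ • K.g) = R.eM η + (f : ℂ) • 1 := by
    rw [R.eM_add, ← hN.g0, ← hf]
    congr 1
    ext i j
    simp
  have hH : (R.eM η + (f : ℂ) • (1 : Matrix (Fin n) (Fin n) ℂ)).IsHermitian := by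
    refine Matrix.IsHermitian.add ?_ ?_
    · ext i j
      have := congrFun (congrFun hη j) i
      simp only [DR.cM_apply, Matrix.transpose_apply] at this
      simp only [Matrix.conjTranspose_apply, DR.eM_apply, RCLike.star_def, ← R.ev_cj, this]
    · ext i j
      simp [Matrix.one_apply, eq_comm, apply_ite conj]
  have hPS := psd_of_qf hH fun x => by rw [← eP, ← ev_bf_cst]; exact hP _
  have h2 := trace_mul_ge (T := T) hPS (c := l * N) fun x => by
    have := hl (cst S x) (cst S u) (hol_cst u)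
    rw [eT, eg, eg] at this
    linarith
  have h3 := trace_le (T := T) (c := c * N) fun x => by
    have := hc (cst S x) (cst S u) (hol_cst u)
    rw [eT, eg, eg] at this
    linarith
  rw [Matrix.mul_add, Matrix.mul_smul, Matrix.mul_one, Matrix.trace_add, Matrix.trace_add,
    Matrix.trace_smul, Matrix.trace_smul, Matrix.trace_one] at h2
  simp only [smul_eq_mul, Complex.add_re, Complex.re_ofReal_mul, Fintype.card_fin,
    Complex.natCast_re] at h2
  simp only [Complex.add_re, Complex.re_mul_ofReal] at h1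
  rw [Normal.tr_ev hN]
  rw [hf, Complex.ofReal_re] at hφ0 ⊢
  have h4 : f * T.trace.re ≤ f * (n * (c * N)) := mul_le_mul_of_nonneg_left h3 hφ0
  refine le_of_mul_le_mul_right ?_ hv
  nlinarith

/-- **LICH in the ring** -/
theorem lich (K : KM R) (hF : K.Flow 0) {η src : Matrix (Fin n) (Fin n) S}
    (hη : R.cM η = ηᵀ) (hcl : ∀ a b c, R.d c (η a b) = R.d a (η c b))
    (hev : dM R.D η = R.hs (K.tr η) + src) {φ : S} (hφ : R.cj φ = φ) (hφ0 : 0 ≤ (R.ev φ).re)
    (hpos : ∀ w, R.Pos (R.bf (η + φ • K.g) w w))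
    (hP : ∀ w, 0 ≤ (R.ev (R.bf (η + φ • K.g) w w)).re)
    {l c m : ℝ} (hl : Lo K l) (hc : Hi K c) {v : Fin n → S}
    (hv : 0 < (R.ev (R.bf K.g v v)).re) (h0 : (R.ev (R.bf (η + φ • K.g) v v)).re = 0)
    (hm : -(m * (R.ev (R.bf K.g v v)).re) ≤ (R.ev (R.bf src v v)).re) :
    (R.ev (R.D φ - K.lap φ)).re ≤
      n * c * (R.ev φ).re + l * ((R.ev (K.tr η)).re + n * (R.ev φ).re) + m := by
  obtain ⟨F, hN⟩ := K.exists_normal
  have e : ∀ M, F.dr.bf (F.pb M) (F.B *ᵥ v) (F.B *ᵥ v) = R.bf M v v := fun M => by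
    rw [F.bf_pb, Matrix.mulVec_mulVec, F.AB, Matrix.one_mulVec]
  have e2 : F.pb η + φ • (K.fr F).g = F.pb (η + φ • K.g) := by
    rw [F.pb_add, F.pb_smul, K.fr_g]
  have := lich_normal (R := F.dr) hN (hF.fr F) (η := F.pb η) (src := F.pb src) (F.cM_pb hη)
    (F.closed_pb hcl) (by rw [F.dr_D, F.D_pb, hev, F.pb_add, K.fr_tr, F.dr_hs]) hφ hφ0
    (fun w => by rw [e2, F.bf_pb]; exact hpos _) (fun w => by rw [e2, F.bf_pb]; exact hP _)
    (hl.fr F) (hc.fr F) (v := F.B *ᵥ v) (m := m) (by rw [K.fr_g, e]; exact hv)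
    (by rw [e2, e]; exact h0) (by rw [K.fr_g, e, e]; exact hm)
  rwa [K.fr_lap, K.fr_tr] at this

end

end Crest.Agent.T223.CnL
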