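import Crest.Agent.T223.EvA_41

/-!
# Row 223 (helper87), CONE module, part Q: the quadratic form `Q`, the equation of `H = g⁻ᵀ`

* `Q_nonneg` : `∑ M(x,y) M(x̂,ŷ) - M(x,ŷ) M(x̂,y) ≥ 0` for a positive semidefinite `M`
* `KM.D_H`   : the flow is `D H = λ H + Q(H)`
* `KM.F0_eq` : the Levi form of `H(ξ, ξ̄)` is the curvature plus a square
* `lam_Q`    : the second variation of `Q(H)` is `Q` of the `4n × 4n` matrix `m0`
-/

set_option autoImplicit false
set_option linter.unusedSectionVars false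

open Finset Matrix
open scoped ComplexConjugate ComplexOrder

namespace Crest.Agent.T223.Cn

noncomputable section

/-- the Hermitian form of an array -/
def qf {ι : Type} [Fintype ι] (M : ι → ι → ℂ) (u : ι → ℂ) : ℂ :=
  ∑ x, ∑ y, u x * conj (u y) * M x y

theorem qf_add {ι : Type} [Fintype ι] (M N : ι → ι → ℂ) (u : ι → ℂ) :
    qf (fun x y => M x y + N x y) u = qf M u + qf N u := by
  simp only [qf, mul_add, sum_add_distrib]

theorem psd_of_qf {ι : Type} [Fintype ι] {M : ι → ι → ℂ} (h : ∀ u, 0 ≤ qf M u) :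
    (Matrix.of M).PosSemidef := by
  classical
  have him : ∀ u, (qf M u).im = 0 := fun u => ((Complex.nonneg_iff.1 (h u)).2).symm
  have e : ∀ x y (c : ℂ), qf M (Pi.single x 1 + Pi.single y c) =
      M x x + conj c * M x y + c * M y x + c * conj c * M y y := by
    intro x y c
    simp only [qf, Pi.add_apply, map_add, add_mul, mul_add, sum_add_distrib, Pi.single_apply,
      apply_ite conj, map_one, map_zero, ite_mul, mul_ite, one_mul, zero_mul, mul_zero, mul_one,
      sum_ite_eq', mem_univ, if_true]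
    ring
  have e0 : ∀ x, (M x x).im = 0 := by
    intro x
    have := him (Pi.single x 1 + Pi.single x 0)
    rw [e] at this
    simpa using this
  refine PosSemidef.of_dotProduct_mulVec_nonneg ?_ fun v => ?_
  · ext x y
    have h1 := him (Pi.single x 1 + Pi.single y 1)
    have h2 := him (Pi.single x 1 + Pi.single y Complex.I)
    rw [e] at h1 h2
    simp [e0] at h1 h2
    apply Complex.ext
    · simp; linarith
    · simp; linarith
  · have := h (star v)
    convert this using 1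
    simp only [qf, dotProduct, Matrix.mulVec, of_apply, Pi.star_apply, mul_sum, RCLike.star_def,
      Complex.conj_conj]
    exact sum_congr rfl fun _ _ => sum_congr rfl fun _ _ => by ring

theorem Q_nonneg {ι : Type} [Fintype ι] {M : ι ⊕ ι → ι ⊕ ι → ℂ} (h : ∀ u, 0 ≤ qf M u) :
    0 ≤ (∑ x, ∑ y, (M (.inl x) (.inl y) * M (.inr x) (.inr y) -
      M (.inl x) (.inr y) * M (.inr x) (.inl y))).re := by
  obtain ⟨m, v, hv⟩ := Matrix.posSemidef_iff_eq_sum_vecMulVec.1 (psd_of_qf h)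
  have hM : ∀ x y, M x y = ∑ r, v r x * conj (v r y) := by
    intro x y
    have := congrFun (congrFun hv x) y
    simpa [Matrix.sum_apply, vecMulVec_apply] using this
  set μ : Fin m → Fin m → ℂ := fun r s => ∑ x, v r (.inl x) * v s (.inr x) with hμ
  have sw : ∀ f : ι → ι → Fin m → Fin m → ℂ,
      ∑ x, ∑ y, ∑ r, ∑ s, f x y r s = ∑ r, ∑ s, ∑ x, ∑ y, f x y r s := by
    intro f
    calc _ = ∑ x, ∑ r, ∑ y, ∑ s, f x y r s := sum_congr rfl fun _ _ => sum_comm
      _ = ∑ r, ∑ x, ∑ y, ∑ s, f x y r s := sum_comm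
      _ = ∑ r, ∑ x, ∑ s, ∑ y, f x y r s :=
          sum_congr rfl fun _ _ => sum_congr rfl fun _ _ => sum_comm
      _ = _ := sum_congr rfl fun _ _ => sum_comm
  have e1 : ∑ x, ∑ y, (M (.inl x) (.inl y) * M (.inr x) (.inr y) -
      M (.inl x) (.inr y) * M (.inr x) (.inl y)) =
      ∑ r, ∑ s, (μ r s * conj (μ r s) - μ r s * conj (μ s r)) := by
    simp only [hM, hμ, sum_mul_sum, map_sum, map_mul, ← sum_sub_distrib]
    rw [sw]
    exact sum_congr rfl fun _ _ => sum_congr rfl fun _ _ => sum_congr rfl fun _ _ =>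
      sum_congr rfl fun _ _ => by ring
  have e2 : ∑ r, ∑ s, (μ r s * conj (μ r s) - μ r s * conj (μ s r)) =
      ∑ r, ∑ s, (μ s r * conj (μ s r) - μ s r * conj (μ r s)) := sum_comm
  have e3 : 2 * ∑ r, ∑ s, (μ r s * conj (μ r s) - μ r s * conj (μ s r)) =
      ∑ r, ∑ s, ((Complex.normSq (μ r s - μ s r) : ℝ) : ℂ) := by
    rw [two_mul]
    nth_rewrite 2 [e2]
    simp only [← sum_add_distrib, ← Complex.mul_conj, map_sub]
    exact sum_congr rfl fun _ _ => sum_congr rfl fun _ _ => by ring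
  simp only [← Complex.ofReal_sum] at e3
  have e4 := congrArg Complex.re e3
  simp only [Complex.mul_re, Complex.re_ofNat, Complex.im_ofNat, zero_mul, sub_zero,
    Complex.ofReal_re] at e4
  have e5 : 0 ≤ ∑ r, ∑ s, Complex.normSq (μ r s - μ s r) :=
    sum_nonneg fun _ _ => sum_nonneg fun _ _ => Complex.normSq_nonneg _
  rw [e1]
  linarith

variable {n : ℕ} {S : Type} [CommRing S] [Algebra ℂ S]

namespace KM

variable {R : DR n S} (K : KM R)

/-- the dual metric -/
def H : Matrix (Fin n) (Fin n) S := K.giᵀ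

theorem cj_H (a b : Fin n) : R.cj (K.H a b) = K.H b a := K.cj_gi b a

theorem Th_symm (a b k l : Fin n) :
    Th (R.d k) (R.db l) K.g K.gi a b = Th (R.d a) (R.db b) K.g K.gi k l := by
  simp only [Th, Matrix.add_apply, Matrix.neg_apply, dM_apply, Matrix.mul_apply]
  rw [Ev.ddb_symm a b k l]
  simp only [K.closed a _ k, K.closed' _ b l]

/-- the quadratic expression `Q(H)` -/
def QH (i j : Fin n) : S :=
  ∑ k, ∑ l, (K.H k l * R.d k (R.db l (K.H i j)) - R.d k (K.H i l) * R.db l (K.H k j))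

theorem QH_eq (i j : Fin n) : K.QH i j = (K.gi * K.ric * K.gi) j i := by
  set U : Fin n → Fin n → S := fun l b => (K.gi * dM (R.db l) K.g) j b with hU
  set W : Fin n → Fin n → S := fun k c => (dM (R.d k) K.g * K.gi) c i with hW
  have Us : ∀ l b, U l b = U b l := by
    intro l b
    simp only [hU, Matrix.mul_apply, dM_apply, K.closed' _ b l]
  have e1 : ∀ k l, R.d k (K.H i l) = -∑ c, K.gi l c * W k c := by
    intro k l
    have := congrFun (congrFun (dM_inv (R.d k) K.inv) l) i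
    rw [Matrix.mul_assoc, Matrix.neg_apply, Matrix.mul_apply] at this
    exact this
  have e2 : ∀ k l, R.db l (K.H k j) = -∑ b, U l b * K.gi b k := by
    intro k l
    have := congrFun (congrFun (dM_inv (R.db l) K.inv) j) k
    rw [Matrix.neg_apply, Matrix.mul_apply] at this
    exact this
  have e3 : ∀ k l, R.d k (R.db l (K.H i j)) =
      (K.gi * Th (R.d k) (R.db l) K.g K.gi * K.gi) j i + ∑ c, ∑ b, U l b * K.gi b c * W k c := by
    intro k l
    have h1 := Th_inv (R.d k) (R.db l) K.inv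
    have h2 : dM (R.db l) K.gi * K.g * dM (R.d k) K.gi =
        K.gi * dM (R.db l) K.g * K.gi * (dM (R.d k) K.g * K.gi) := by
      rw [dM_inv (R.db l) K.inv, dM_inv (R.d k) K.inv]
      simp only [Matrix.neg_mul, Matrix.mul_neg, neg_neg, Matrix.mul_assoc]
      rw [← Matrix.mul_assoc K.g, K.inv, Matrix.one_mul]
    rw [h2, sub_eq_iff_eq_add] at h1
    have h3 := congrFun (congrFun h1 j) i
    rw [Matrix.add_apply] at h3
    refine h3.trans ?_
    congr 1
    rw [Matrix.mul_apply]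
    refine sum_congr rfl fun c _ => ?_
    rw [Matrix.mul_apply, sum_mul]
  have e4 : ∑ k, ∑ l, K.H k l * ∑ c, ∑ b, U l b * K.gi b c * W k c =
      ∑ k, ∑ l, R.d k (K.H i l) * R.db l (K.H k j) := by
    refine sum_congr rfl fun k _ => ?_
    simp only [e1, e2, neg_mul_neg, sum_mul_sum]
    simp only [mul_sum]
    calc _ = ∑ l, ∑ b, ∑ c, K.H k l * (U l b * K.gi b c * W k c) :=
          sum_congr rfl fun _ _ => sum_comm
      _ = ∑ b, ∑ l, ∑ c, K.H k l * (U l b * K.gi b c * W k c) := sum_comm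
      _ = ∑ b, ∑ c, ∑ l, K.H k l * (U l b * K.gi b c * W k c) :=
          sum_congr rfl fun _ _ => sum_comm
      _ = _ := sum_congr rfl fun b _ => sum_congr rfl fun c _ => sum_congr rfl fun l _ => by
          rw [Us l b]; simp only [H, transpose_apply]; ring
  have e5 : K.ric = ∑ k, ∑ l, K.H k l • Th (R.d k) (R.db l) K.g K.gi := by
    ext a b
    simp only [ric, tr, of_apply, Matrix.trace, diag_apply, Matrix.mul_apply, Matrix.sum_apply,
      Matrix.smul_apply, smul_eq_mul, K.Th_symm a b, H, transpose_apply]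
    rw [sum_comm]
  have e6 : (K.gi * K.ric * K.gi) j i =
      ∑ k, ∑ l, K.H k l * (K.gi * Th (R.d k) (R.db l) K.g K.gi * K.gi) j i := by
    rw [e5]
    simp only [Matrix.mul_sum, Matrix.sum_mul, Matrix.mul_smul, Matrix.smul_mul, Matrix.sum_apply,
      Matrix.smul_apply, smul_eq_mul]
  simp only [QH, e3, mul_add, sum_sub_distrib, sum_add_distrib, e4, e6]
  ring

theorem D_H {lam : ℝ} (h : K.Flow lam) (i j : Fin n) :
    R.D (K.H i j) = (lam : ℂ) • K.H i j + K.QH i j := by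
  have h1 := dM_inv R.D K.inv
  rw [h] at h1
  have h2 : -(K.gi * (-((lam : ℂ) • K.g) - K.ric) * K.gi) =
      (lam : ℂ) • K.gi + K.gi * K.ric * K.gi := by
    simp only [Matrix.mul_sub, Matrix.sub_mul, Matrix.mul_neg, Matrix.neg_mul, Matrix.mul_smul,
      Matrix.smul_mul, K.inv', Matrix.one_mul]
    abel
  rw [h2] at h1
  rw [QH_eq]
  exact congrFun (congrFun h1 j) i

theorem bf_dual (M : Matrix (Fin n) (Fin n) S) (x y : Fin n → S) :
    R.bf (K.gi * M * K.gi)ᵀ x y = R.bf M (K.H *ᵥ R.cv y) (K.H *ᵥ R.cv x) := by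
  have h1 : R.cM K.H = K.gi := by
    rw [H, R.cM_transpose, K.herm_gi, transpose_transpose]
  have h2 := R.bf_conj M K.H K.H (R.cv y) (R.cv x)
  rw [h1, H, transpose_transpose] at h2
  rw [H, ← h2, R.bf_eq, R.bf_eq, sum_comm]
  simp only [DR.cv_apply, R.cj_cj, transpose_apply]
  exact sum_congr rfl fun _ _ => sum_congr rfl fun _ _ => by ring

theorem bf_H (x : Fin n → S) :
    R.bf K.H x x = R.bf K.g (K.H *ᵥ R.cv x) (K.H *ᵥ R.cv x) := by
  rw [← bf_dual, K.inv', Matrix.one_mul, H]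

/-- the Levi form of `H(ξ, ξ̄)` in the direction `(a, c, b)` -/
def F0 (ξ a : Fin n → S) (c : ℂ) (b : Fin n → S) : S :=
  R.bf (dM (R.dv a c) (dM (R.dbv a c) K.H)) ξ ξ + R.bf (dM (R.dv a c) K.H) ξ b +
    R.bf (dM (R.dbv a c) K.H) b ξ + R.bf K.H b b

theorem F0_eq (ξ a : Fin n → S) (c : ℂ) (b : Fin n → S) :
    K.F0 ξ a c b = K.th (K.H *ᵥ R.cv ξ) a c +
      R.bf K.H (b + (K.g * (dM (R.dv a c) K.H)ᵀ) *ᵥ ξ) (b + (K.g * (dM (R.dv a c) K.H)ᵀ) *ᵥ ξ) := by
  set U := dM (R.dv a c) K.H with hU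
  set U' := dM (R.dbv a c) K.H with hU'
  have c1 : R.cM Uᵀ = U' := by
    ext i j
    simp only [hU, hU', DR.cM_apply, transpose_apply, dM_apply, R.cj_dv, K.cj_H]
  have h1 : K.gᵀ * K.H = 1 := by rw [H, ← transpose_mul, K.inv', transpose_one]
  have h2 : K.H * K.gᵀ = 1 := mul_eq_one_comm.1 h1
  have a1 : ∀ y, R.bf K.H ((K.g * Uᵀ) *ᵥ ξ) y = R.bf U ξ y := by
    intro y
    have := R.bf_conj K.H (K.g * Uᵀ) 1 ξ y
    rw [Matrix.one_mulVec, R.cM_one, Matrix.mul_one, transpose_mul, transpose_transpose,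
      Matrix.mul_assoc, h1, Matrix.mul_one] at this
    exact this.symm
  have a2 : ∀ (N : Matrix (Fin n) (Fin n) S) x,
      R.bf N x ((K.g * Uᵀ) *ᵥ ξ) = R.bf (N * K.gᵀ * U') x ξ := by
    intro N x
    have := R.bf_conj N 1 (K.g * Uᵀ) x ξ
    rw [Matrix.one_mulVec, transpose_one, Matrix.one_mul, R.cM_mul, c1, K.herm,
      ← Matrix.mul_assoc] at this
    exact this.symm
  have l1 : ∀ (N : Matrix (Fin n) (Fin n) S) x x' y, R.bf N (x + x') y = R.bf N x y + R.bf N x' y :=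
    fun N x x' y => add_dotProduct _ _ _
  have l2 : ∀ (N : Matrix (Fin n) (Fin n) S) x y y', R.bf N x (y + y') = R.bf N x y + R.bf N x y' := by
    intro N x y y'
    simp only [R.bf_eq, Pi.add_apply, map_add, mul_add, add_mul, sum_add_distrib]
  have t1 : dM (R.dv a c) U' = (K.gi * Th (R.dv a c) (R.dbv a c) K.g K.gi * K.gi)ᵀ
      + U * K.gᵀ * U' := by
    rw [← Th_inv _ _ K.inv, transpose_sub, transpose_mul, transpose_mul, Matrix.mul_assoc]
    simp only [hU, hU', H, dM_transpose]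
    abel
  rw [l1, l2, l2, a1, a1, a2, a2, h2, Matrix.one_mul, th, ← bf_dual, F0, ← hU, ← hU', t1, R.bf_add]
  ring

end KM

/-! ### the `4n × 4n` matrix of second variations -/

/-- index set: `e`, `α` (positions), `β`, `η` (momenta) -/
abbrev I4 (n : ℕ) : Type := (Fin n ⊕ Fin n) ⊕ (Fin n ⊕ Fin n)

/-- constants -/
abbrev kk (c : ℂ) : S := algebraMap ℂ S c

/-- `ξ V + b` -/
def Xo (V : Der S) (ξ b : ℂ) (f : S) : S := kk ξ * V f + kk b * f

theorem Xo_add (V : Der S) (ξ b : ℂ) (f g : S) : Xo V ξ b (f + g) = Xo V ξ b f + Xo V ξ b g := by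
  simp only [Xo, map_add]; ring

theorem Xo_sub (V : Der S) (ξ b : ℂ) (f g : S) : Xo V ξ b (f - g) = Xo V ξ b f - Xo V ξ b g := by
  simp only [Xo, map_sub]; ring

theorem Xo_sum {ι : Type*} (V : Der S) (ξ b : ℂ) (s : Finset ι) (f : ι → S) :
    Xo V ξ b (∑ i ∈ s, f i) = ∑ i ∈ s, Xo V ξ b (f i) := by
  simp only [Xo, map_sum, mul_sum, sum_add_distrib]

theorem Xo_kk (V : Der S) (ξ b c : ℂ) (f : S) : Xo V ξ b (kk c * f) = kk c * Xo V ξ b f := by
  simp only [Xo, D_mul, D_alg]; ring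

theorem D_Xo {δ V : Der S} (h : ∀ f, δ (V f) = V (δ f)) (ξ b : ℂ) (f : S) :
    δ (Xo V ξ b f) = Xo V ξ b (δ f) := by
  simp only [Xo, map_add, D_mul, D_alg, h]; ring

/-- the basic variations -/
def To (d : Fin n → Der S) (V : Der S) (ξ b : Fin n → ℂ) : I4 n → Fin n → S → S
  | .inl (.inl k), i, f => Xo V (ξ i) (b i) (d k f)
  | .inl (.inr k), i, f => kk (ξ i) * d k f
  | .inr (.inl k), i, f => if i = k then f else 0
  | .inr (.inr k), i, f => if i = k then V f else 0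

/-- the form `Q` on `4n × 4n` arrays -/
def PQ {A : Type} [CommRing A] (M : I4 n → I4 n → A) : A :=
  ∑ x, ∑ y, (M (.inl x) (.inl y) * M (.inr x) (.inr y) - M (.inl x) (.inr y) * M (.inr x) (.inl y))

theorem PQ_eq {A : Type} [CommRing A] (M : I4 n → I4 n → A) : PQ M = ∑ k, ∑ l,
    (M (.inl (.inl k)) (.inl (.inl l)) * M (.inr (.inl k)) (.inr (.inl l))
      - M (.inl (.inl k)) (.inr (.inl l)) * M (.inr (.inl k)) (.inl (.inl l))
      + (M (.inl (.inl k)) (.inl (.inr l)) * M (.inr (.inl k)) (.inr (.inr l))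
      - M (.inl (.inl k)) (.inr (.inr l)) * M (.inr (.inl k)) (.inl (.inr l)))
      + (M (.inl (.inr k)) (.inl (.inl l)) * M (.inr (.inr k)) (.inr (.inl l))
      - M (.inl (.inr k)) (.inr (.inl l)) * M (.inr (.inr k)) (.inl (.inl l))
      + (M (.inl (.inr k)) (.inl (.inr l)) * M (.inr (.inr k)) (.inr (.inr l))
      - M (.inl (.inr k)) (.inr (.inr l)) * M (.inr (.inr k)) (.inl (.inr l))))) := by
  simp only [PQ, Fintype.sum_sum_type, sum_add_distrib]
  abel

section m0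

variable (d db : Fin n → Der S) (V Vb : Der S) (ξ b ξ' b' : Fin n → ℂ)
  (H : Matrix (Fin n) (Fin n) S)

/-- the matrix of second variations -/
def m0 (x y : I4 n) : S := ∑ i, ∑ j, To d V ξ b x i (To db Vb ξ' b' y j (H i j))

/-- the second variation of a matrix function -/
def lamo (M : Fin n → Fin n → S) : S := ∑ i, ∑ j, Xo V (ξ i) (b i) (Xo Vb (ξ' j) (b' j) (M i j))

theorem m0_bb (k l : Fin n) : m0 d db V Vb ξ b ξ' b' H (.inr (.inl k)) (.inr (.inl l)) = H k l := by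
  simp [m0, To]

theorem m0_bh (k l : Fin n) :
    m0 d db V Vb ξ b ξ' b' H (.inr (.inl k)) (.inr (.inr l)) = Vb (H k l) := by
  simp [m0, To]

theorem m0_hb (k l : Fin n) :
    m0 d db V Vb ξ b ξ' b' H (.inr (.inr k)) (.inr (.inl l)) = V (H k l) := by
  simp [m0, To, apply_ite V]

theorem m0_hh (k l : Fin n) :
    m0 d db V Vb ξ b ξ' b' H (.inr (.inr k)) (.inr (.inr l)) = V (Vb (H k l)) := by
  simp [m0, To, apply_ite V]

theorem m0_aa (k l : Fin n) : m0 d db V Vb ξ b ξ' b' H (.inl (.inr k)) (.inl (.inr l)) =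
    ∑ i, ∑ j, kk (ξ i) * (kk (ξ' j) * d k (db l (H i j))) := by
  simp only [m0, To, D_mul, D_alg, zero_mul, zero_add]

theorem m0_ab (k l : Fin n) : m0 d db V Vb ξ b ξ' b' H (.inl (.inr k)) (.inr (.inl l)) =
    ∑ i, kk (ξ i) * d k (H i l) := by
  simp [m0, To, apply_ite (d k)]

theorem m0_ba (k l : Fin n) : m0 d db V Vb ξ b ξ' b' H (.inr (.inl k)) (.inl (.inr l)) =
    ∑ j, kk (ξ' j) * db l (H k j) := by
  simp [m0, To]

theorem lam_Q (h1 : ∀ k f, d k (Vb f) = Vb (d k f)) :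
    lamo V Vb ξ b ξ' b' (fun i j =>
      ∑ k, ∑ l, (H k l * d k (db l (H i j)) - d k (H i l) * db l (H k j))) =
    PQ (m0 d db V Vb ξ b ξ' b' H) := by
  have sw : ∀ f : Fin n → Fin n → Fin n → Fin n → S,
      ∑ x, ∑ y, ∑ r, ∑ s, f x y r s = ∑ r, ∑ s, ∑ x, ∑ y, f x y r s := by
    intro f
    calc _ = ∑ x, ∑ r, ∑ y, ∑ s, f x y r s := sum_congr rfl fun _ _ => sum_comm
      _ = ∑ r, ∑ x, ∑ y, ∑ s, f x y r s := sum_comm
      _ = ∑ r, ∑ x, ∑ s, ∑ y, f x y r s :=
          sum_congr rfl fun _ _ => sum_congr rfl fun _ _ => sum_comm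
      _ = _ := sum_congr rfl fun _ _ => sum_comm
  rw [PQ_eq]
  simp only [lamo, Xo_sum]
  rw [sw]
  refine sum_congr rfl fun k _ => sum_congr rfl fun l _ => ?_
  have ee : m0 d db V Vb ξ b ξ' b' H (.inl (.inl k)) (.inl (.inl l)) =
      ∑ i, ∑ j, Xo V (ξ i) (b i) (Xo Vb (ξ' j) (b' j) (d k (db l (H i j)))) := by
    simp only [m0, To, D_Xo (h1 k)]
  have ea : m0 d db V Vb ξ b ξ' b' H (.inl (.inl k)) (.inl (.inr l)) =
      ∑ i, ∑ j, kk (ξ' j) * Xo V (ξ i) (b i) (d k (db l (H i j))) := by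
    simp only [m0, To, D_mul, D_alg, zero_mul, zero_add, Xo_kk]
  have ae : m0 d db V Vb ξ b ξ' b' H (.inl (.inr k)) (.inl (.inl l)) =
      ∑ i, ∑ j, kk (ξ i) * Xo Vb (ξ' j) (b' j) (d k (db l (H i j))) := by
    simp only [m0, To, D_Xo (h1 k)]
  have eb : m0 d db V Vb ξ b ξ' b' H (.inl (.inl k)) (.inr (.inl l)) =
      ∑ i, Xo V (ξ i) (b i) (d k (H i l)) := by
    refine sum_congr rfl fun i _ => ?_
    simp only [To]
    rw [← Xo_sum, ← map_sum]
    simp
  have eh : m0 d db V Vb ξ b ξ' b' H (.inl (.inl k)) (.inr (.inr l)) =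
      ∑ i, Xo V (ξ i) (b i) (Vb (d k (H i l))) := by
    refine sum_congr rfl fun i _ => ?_
    simp only [To]
    rw [← Xo_sum, ← map_sum]
    simp [h1]
  have ah : m0 d db V Vb ξ b ξ' b' H (.inl (.inr k)) (.inr (.inr l)) =
      ∑ i, kk (ξ i) * Vb (d k (H i l)) := by
    simp [m0, To, apply_ite (d k), h1]
  have be : m0 d db V Vb ξ b ξ' b' H (.inr (.inl k)) (.inl (.inl l)) =
      ∑ j, Xo Vb (ξ' j) (b' j) (db l (H k j)) := by
    simp [m0, To]
  have he : m0 d db V Vb ξ b ξ' b' H (.inr (.inr k)) (.inl (.inl l)) =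
      ∑ j, V (Xo Vb (ξ' j) (b' j) (db l (H k j))) := by
    simp [m0, To]
  have ha : m0 d db V Vb ξ b ξ' b' H (.inr (.inr k)) (.inl (.inr l)) =
      ∑ j, kk (ξ' j) * V (db l (H k j)) := by
    simp only [m0, To, D_mul, D_alg, zero_mul, zero_add]
    simp
  rw [ee, ea, ae, eb, eh, ah, be, he, ha, m0_bb, m0_bh, m0_hb, m0_hh, m0_aa, m0_ab, m0_ba]
  simp only [sum_mul_sum]
  simp only [sum_mul, ← sum_sub_distrib, ← sum_add_distrib]
  refine sum_congr rfl fun i _ => sum_congr rfl fun j _ => ?_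
  simp only [Xo, map_add, map_sub, D_mul, D_alg]
  ring

end m0

end

end Crest.Agent.T223.Cn
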