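import Crest.Agent.T223.CnJ_87

/-!
# Row 223 (helper87), CONE module, part Y: the null vector inequality in a normal frame

`KM.raw` : Bando-Mok / Cao null vector inequality with barriers.
-/

set_option autoImplicit false
set_option linter.unusedSectionVars false

open Finset Matrix Filter Topology
open scoped ComplexConjugate ComplexOrder

namespace Crest.Agent.T223.Cn

noncomputable section

variable {n : ℕ} {S : Type} [CommRing S] [Algebra ℂ S] {R : DR n S}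

theorem normSq_sum_le (u w : Fin n → ℂ) : Complex.normSq (∑ i, u i * w i) ≤ ns u * ns w := by
  have h1 : ‖∑ i, u i * w i‖ ≤ ∑ i, ‖u i‖ * ‖w i‖ :=
    (norm_sum_le _ _).trans (le_of_eq (sum_congr rfl fun _ _ => norm_mul _ _))
  have h2 := sum_mul_sq_le_sq_mul_sq univ (fun i => ‖u i‖) fun i => ‖w i‖
  simp only [ns, Complex.normSq_eq_norm_sq]
  exact (pow_le_pow_left₀ (norm_nonneg _) h1 2).trans h2

theorem b0_add (M N : Matrix (Fin n) (Fin n) ℂ) (u w : Fin n → ℂ) :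
    b0 (M + N) u w = b0 M u w + b0 N u w := by
  simp only [b0, Matrix.add_apply, mul_add, sum_add_distrib]

theorem b0_neg (M : Matrix (Fin n) (Fin n) ℂ) (u w : Fin n → ℂ) : b0 (-M) u w = -b0 M u w := by
  simp only [b0, Matrix.neg_apply, mul_neg, sum_neg_distrib]

theorem b0_smul (c : ℂ) (M : Matrix (Fin n) (Fin n) ℂ) (u w : Fin n → ℂ) :
    b0 (c • M) u w = c * b0 M u w := by
  simp only [b0, Matrix.smul_apply, smul_eq_mul, mul_sum]
  exact sum_congr rfl fun _ _ => sum_congr rfl fun _ _ => by ring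

theorem b0_sum {ι : Type*} (s : Finset ι) (M : ι → Matrix (Fin n) (Fin n) ℂ) (u w : Fin n → ℂ) :
    b0 (∑ k ∈ s, M k) u w = ∑ k ∈ s, b0 (M k) u w := by
  simp only [b0, Matrix.sum_apply, mul_sum]
  calc _ = ∑ i, ∑ k ∈ s, ∑ j, u i * conj (w j) * M k i j := sum_congr rfl fun _ _ => sum_comm
    _ = _ := sum_comm

theorem b0_one_self (u : Fin n → ℂ) : b0 1 u u = ns u := by rw [b0_one, ns_eq]

theorem ns_single (k : Fin n) : ns (Pi.single k 1) = 1 := by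
  simp [ns, Pi.single_apply, apply_ite Complex.normSq]

theorem ns_conj (u : Fin n → ℂ) : ns (fun i => conj (u i)) = ns u := by
  simp [ns]

theorem ns_smul (c : ℂ) (u : Fin n → ℂ) : ns (fun i => c * u i) = Complex.normSq c * ns u := by
  simp [ns, mul_sum]

theorem b0_single (M : Matrix (Fin n) (Fin n) ℂ) (k : Fin n) :
    b0 M (Pi.single k 1) (Pi.single k 1) = M k k := by
  simp [b0, Pi.single_apply, apply_ite conj]

namespace KM

variable (K : KM R)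

/-- `D H` at the base point -/
def S0 : Matrix (Fin n) (Fin n) ℂ := R.eM (dM R.D K.H)

/-- `∂_k ∂̄_l H` at the base point -/
def R0 (k l : Fin n) : Matrix (Fin n) (Fin n) ℂ := R.eM (dM (R.d k) (dM (R.db l) K.H))

/-- `V V̄ H` at the base point -/
def W0 (a : Fin n → ℂ) (c : ℂ) : Matrix (Fin n) (Fin n) ℂ :=
  R.eM (dM (R.dv (cst a) c) (dM (R.dbv (cst a) c) K.H))

theorem S0_herm (k l : Fin n) : conj (K.S0 k l) = K.S0 l k := by
  simp only [S0, DR.eM_apply, dM_apply, ← R.ev_cj, R.cj_D, K.cj_H]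

variable {K}

theorem eH0 (h : K.Normal) (k l : Fin n) : R.ev (K.H k l) = if k = l then 1 else 0 :=
  (congrFun (congrFun (H0 h) k) l).trans Matrix.one_apply

theorem eH1 (h : K.Normal) (m k l : Fin n) : R.ev (R.d m (K.H k l)) = 0 :=
  congrFun (congrFun (H1 h m) k) l

theorem eH1b (h : K.Normal) (m k l : Fin n) : R.ev (R.db m (K.H k l)) = 0 :=
  congrFun (congrFun (H1b h m) k) l

theorem S0_eq (h : K.Normal) {lam : ℝ} (hF : K.Flow lam) :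
    K.S0 = (lam : ℂ) • 1 + ∑ k, K.R0 k k := by
  ext i j
  simp only [S0, DR.eM_apply, dM_apply, K.D_H hF, QH, map_add, map_smul, map_sum, map_sub, map_mul,
    eH0 h, eH1 h, R0, Matrix.sum_apply, Matrix.one_apply, Matrix.add_apply, Matrix.smul_apply,
    zero_mul, sub_zero, ite_mul, one_mul, sum_ite_eq, mem_univ, if_true]

theorem eV (h : K.Normal) (a : Fin n → ℂ) (c : ℂ) (k l : Fin n) :
    R.ev (R.dv (cst a) c (K.H k l)) = c * K.S0 k l := by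
  simp [R.dv_apply, eH1 h, S0]

theorem eVb (h : K.Normal) (a : Fin n → ℂ) (c : ℂ) (k l : Fin n) :
    R.ev (R.dbv (cst a) c (K.H k l)) = conj c * K.S0 k l := by
  simp [R.dbv_apply, eH1b h, S0]

theorem eDg (h : K.Normal) : R.eM (dM R.D K.g) = -K.S0ᵀ := by
  have := congrArg R.eM (dM_inv R.D K.inv)
  rw [R.eM_neg, R.eM_mul, R.eM_mul, Ev.gi0 h, Matrix.one_mul, Matrix.mul_one] at this
  rw [S0, H, dM_transpose, R.eM_transpose, transpose_transpose, this, neg_neg]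

theorem eddg (h : K.Normal) (k l : Fin n) :
    R.eM (dM (R.d k) (dM (R.db l) K.g)) = -(K.R0 k l)ᵀ := by
  rw [R0, H, dM_transpose, dM_transpose, R.eM_transpose, transpose_transpose, Ev.gi2 h, neg_neg]

theorem ev_lap (h : K.Normal) (f : S) : R.ev (K.lap f) = ∑ k, R.ev (R.d k (R.db k f)) :=
  Ev.ev_tr h _

theorem time_Ff (h : K.Normal) {lam : ℝ} (hF : K.Flow lam) (φ₁ φ₂ : S) (ξ a b : Fin n → ℂ)
    (c : ℂ) : R.ev (R.D (K.Ff φ₁ φ₂ (cst ξ) (cst a) c (cst b))) =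
      lam * R.ev (K.F0 (cst ξ) (cst a) c (cst b)) + PQ (fun x y => R.ev (K.M0 ξ a c b x y)) +
      ((R.ev (R.D φ₁) * ns a - R.ev φ₁ * b0 K.S0ᵀ a a + c * conj c * R.ev (R.D φ₂)) * ns ξ +
        (R.ev φ₁ * ns a + c * conj c * R.ev φ₂) * b0 K.S0 ξ ξ) := by
  have e0 : K.F0 (cst ξ) (cst a) c (cst b) = lamo (R.dv (cst a) c) (R.dbv (cst a) c) ξ b
      (fun i => conj (ξ i)) (fun i => conj (b i)) K.H := by
    rw [K.F0_op (hol_cst _) (hol_cst _)]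
    simp only [lamo, Xo, cst, cj_kk]
  have e1 : R.D (K.F0 (cst ξ) (cst a) c (cst b)) =
      kk lam * K.F0 (cst ξ) (cst a) c (cst b) + PQ (K.M0 ξ a c b) := by
    rw [e0, M0, ← lam_Q _ _ _ _ _ _ _ _ _ (fun k f => DR.d_dbv (hol_cst _) c k f)]
    simp only [lamo, map_sum, D_Xo (DR.D_dv (hol_cst _) c), D_Xo (DR.D_dbv (hol_cst _) c),
      K.D_H hF, Algebra.smul_def, Xo_add, Xo_kk, mul_sum, sum_add_distrib, QH]
  have e2 : R.ev (PQ (K.M0 ξ a c b)) = PQ fun x y => R.ev (K.M0 ξ a c b x y) := by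
    simp only [PQ, map_sum, map_sub, map_mul]
  rw [Ff, map_add, e1]
  simp only [map_add, map_mul, D_mul, D_alg, e2, ev_kk, D_bf_cst, ev_bf_cst, h.g0, H0 h, eDg h,
    b0_one_self, b0_neg, map_zero, S0]
  ring

theorem jE_ee (h : K.Normal) (φ₁ φ₂ : S) (ξ a : Fin n → ℂ) (c : ℂ) (k l : Fin n) :
    (K.jE φ₁ φ₂ ξ a c).q (.inl (.inl k)) (.inl (.inl l)) =
      (R.ev (R.d k (R.db l φ₁)) * ns a - R.ev φ₁ * b0 (K.R0 k l)ᵀ a a +
        c * conj c * R.ev (R.d k (R.db l φ₂))) * ns ξ +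
      (R.ev φ₁ * ns a + c * conj c * R.ev φ₂) * b0 (K.R0 k l) ξ ξ := by
  simp only [jE, Jet.mul, Jet.lin, jf, jb, D_bf_cst, ev_bf_cst, eddg h, b0_neg]
  simp only [R0, reduceCtorEq, Sum.inl.injEq, if_false, sum_const_zero, mul_zero, zero_mul, add_zero]
  ring

section entries

variable (φ₁ φ₂ : S) (ξ a : Fin n → ℂ) (c : ℂ)

theorem jE1 (k : Fin n) (y : I4 n) : (K.jE φ₁ φ₂ ξ a c).q (.inr (.inl k)) y = 0 := by
  rcases y with (l | l) | (l | l) <;>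
  simp only [jE, Jet.mul, Jet.lin, jf, jb, reduceCtorEq, Sum.inr.injEq, if_false, sum_const_zero,
    mul_zero, zero_mul, add_zero]

theorem jE2 (k : Fin n) (y : I4 n) : (K.jE φ₁ φ₂ ξ a c).q y (.inr (.inl k)) = 0 := by
  rcases y with (l | l) | (l | l) <;>
  simp only [jE, Jet.mul, Jet.lin, jf, jb, reduceCtorEq, Sum.inr.injEq, if_false, sum_const_zero,
    mul_zero, zero_mul, add_zero]

theorem jE3 (k l : Fin n) : (K.jE φ₁ φ₂ ξ a c).q (.inl (.inl k)) (.inl (.inr l)) =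
    R.ev (R.d k φ₁) * a l * ns ξ := by
  simp only [jE, Jet.mul, Jet.lin, jf, jb, reduceCtorEq, Sum.inr.injEq, Sum.inl.injEq, if_false,
    sum_const_zero, mul_zero, zero_mul, add_zero, zero_add, sum_ite_eq', mem_univ, if_true]

theorem jE4 (k l : Fin n) : (K.jE φ₁ φ₂ ξ a c).q (.inl (.inr k)) (.inl (.inl l)) =
    conj (a k) * R.ev (R.db l φ₁) * ns ξ := by
  simp only [jE, Jet.mul, Jet.lin, jf, jb, reduceCtorEq, Sum.inr.injEq, Sum.inl.injEq, if_false,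
    sum_const_zero, mul_zero, zero_mul, add_zero, zero_add, sum_ite_eq', mem_univ, if_true]

theorem jE5 (k l : Fin n) : (K.jE φ₁ φ₂ ξ a c).q (.inl (.inr k)) (.inl (.inr l)) =
    if k = l then R.ev φ₁ * ns ξ else 0 := by
  simp only [jE, Jet.mul, Jet.lin, jf, jb, reduceCtorEq, Sum.inr.injEq, Sum.inl.injEq, if_false,
    sum_const_zero, mul_zero, zero_mul, add_zero, zero_add, sum_ite_eq', mem_univ, if_true,
    ite_mul, mul_ite, mul_one, eq_comm (a := l)]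

theorem jE6 (k l : Fin n) : (K.jE φ₁ φ₂ ξ a c).q (.inr (.inr k)) (.inr (.inr l)) =
    if k = l then R.ev φ₁ * ns a + c * conj c * R.ev φ₂ else 0 := by
  simp only [jE, Jet.mul, Jet.lin, jf, jb, reduceCtorEq, Sum.inr.injEq, if_false,
    sum_const_zero, mul_zero, zero_mul, add_zero, zero_add, sum_ite_eq', mem_univ, if_true,
    mul_ite, mul_one, eq_comm (a := l)]

theorem jE7 (k l : Fin n) : (K.jE φ₁ φ₂ ξ a c).q (.inl (.inr k)) (.inr (.inr l)) =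
    R.ev φ₁ * conj (a k) * ξ l := by
  simp only [jE, Jet.mul, Jet.lin, jf, jb, reduceCtorEq, Sum.inr.injEq, Sum.inl.injEq, if_false,
    sum_const_zero, mul_zero, zero_mul, add_zero, zero_add, sum_ite_eq', mem_univ, if_true]

theorem jE8 (k l : Fin n) : (K.jE φ₁ φ₂ ξ a c).q (.inr (.inr k)) (.inl (.inr l)) =
    conj (ξ k) * (R.ev φ₁ * a l) := by
  simp only [jE, Jet.mul, Jet.lin, jf, jb, reduceCtorEq, Sum.inr.injEq, Sum.inl.injEq, if_false,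
    sum_const_zero, mul_zero, zero_mul, add_zero, zero_add, sum_ite_eq', mem_univ, if_true]

end entries

theorem eM0_aa (ξ a b : Fin n → ℂ) (c : ℂ) (k l : Fin n) :
    R.ev (K.M0 ξ a c b (.inl (.inr k)) (.inl (.inr l))) = b0 (K.R0 k l) ξ ξ := by
  rw [M0, m0_aa]
  simp only [map_sum, map_mul, ev_kk, b0, R0, DR.eM_apply, dM_apply, mul_assoc]

theorem eM0_hh (ξ a b : Fin n → ℂ) (c : ℂ) (k l : Fin n) :
    R.ev (K.M0 ξ a c b (.inr (.inr k)) (.inr (.inr l))) = K.W0 a c k l := by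
  rw [M0, m0_hh]; rfl

theorem space_P (h : K.Normal) (φ₁ φ₂ : S) (ξ a b : Fin n → ℂ) (c : ℂ) :
    PQ (fun x y => R.ev (K.M0 ξ a c b x y) + (K.jE φ₁ φ₂ ξ a c).q x y) =
      PQ (fun x y => R.ev (K.M0 ξ a c b x y)) +
      ∑ k, (K.jE φ₁ φ₂ ξ a c).q (.inl (.inl k)) (.inl (.inl k)) +
      (conj c * b0 K.S0 (fun k => R.ev (R.d k φ₁)) (fun k => conj (a k)) +
        c * b0 K.S0 (fun k => conj (a k)) (fun k => conj (R.ev (R.db k φ₁)))) * ns ξ +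
      (R.ev φ₁ * ns a + c * conj c * R.ev φ₂) * ∑ k, b0 (K.R0 k k) ξ ξ +
      R.ev φ₁ * ns ξ * ∑ k, K.W0 a c k k +
      n * (R.ev φ₁ * ns ξ * (R.ev φ₁ * ns a + c * conj c * R.ev φ₂)) -
      R.ev φ₁ * (∑ k, ∑ l, conj (ξ k) * a l * R.ev (K.M0 ξ a c b (.inl (.inr k)) (.inr (.inr l))) +
        ∑ k, ∑ l, conj (a k) * ξ l * R.ev (K.M0 ξ a c b (.inr (.inr k)) (.inl (.inr l)))) -
      R.ev φ₁ ^ 2 * ((∑ k, ξ k * a k) * conj (∑ k, ξ k * a k)) := by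
  have m1 : ∀ k l, R.ev (K.M0 ξ a c b (.inr (.inl k)) (.inr (.inl l))) = if k = l then 1 else 0 :=
    fun k l => by rw [M0, m0_bb, eH0 h]
  have m2 : ∀ k l, R.ev (K.M0 ξ a c b (.inr (.inl k)) (.inr (.inr l))) = conj c * K.S0 k l :=
    fun k l => by rw [M0, m0_bh, eVb h]
  have m3 : ∀ k l, R.ev (K.M0 ξ a c b (.inr (.inr k)) (.inr (.inl l))) = c * K.S0 k l :=
    fun k l => by rw [M0, m0_hb, eV h]
  have m6 : ∀ k l, R.ev (K.M0 ξ a c b (.inl (.inr k)) (.inr (.inl l))) = 0 :=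
    fun k l => by rw [M0, m0_ab]; simp only [map_sum, map_mul, eH1 h, mul_zero, sum_const_zero]
  have m7 : ∀ k l, R.ev (K.M0 ξ a c b (.inr (.inl k)) (.inl (.inr l))) = 0 :=
    fun k l => by rw [M0, m0_ba]; simp only [map_sum, map_mul, eH1b h, mul_zero, sum_const_zero]
  rw [PQ_eq, PQ_eq]
  simp only [jE1, jE2, jE3, jE4, jE5, jE6, jE7, jE8, m1, m2, m3, eM0_hh, eM0_aa, m6, m7]
  generalize R.ev φ₁ * ns a + c * conj c * R.ev φ₂ = Φ
  generalize (K.jE φ₁ φ₂ ξ a c).q = J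
  generalize (ns ξ : ℂ) = X
  generalize R.ev φ₁ = f
  have s1 : ∑ k, J (.inl (.inl k)) (.inl (.inl k)) =
      ∑ k, ∑ l, J (.inl (.inl k)) (.inl (.inl l)) * if k = l then 1 else 0 := by simp
  have s2 : Φ * ∑ k, b0 (K.R0 k k) ξ ξ =
      ∑ k, ∑ l, b0 (K.R0 k l) ξ ξ * if k = l then Φ else 0 := by simp [mul_sum, mul_comm]
  have s3 : f * X * ∑ k, K.W0 a c k k =
      ∑ k, ∑ l, (if k = l then f * X else 0) * K.W0 a c k l := by simp [mul_sum]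
  have s4 : n * (f * X * Φ) = ∑ k : Fin n, ∑ l : Fin n,
      (if k = l then f * X else 0) * if k = l then Φ else 0 := by simp
  have s5 : (∑ k, ξ k * a k) * conj (∑ k, ξ k * a k) =
      ∑ k, ∑ l, conj (ξ k) * conj (a k) * (ξ l * a l) := by
    rw [mul_comm, map_sum, sum_mul_sum]; simp only [map_mul]
  have s6 : b0 K.S0 (fun k => R.ev (R.d k φ₁)) (fun k => conj (a k)) =
      ∑ k, ∑ l, R.ev (R.d k φ₁) * a l * K.S0 k l := by simp only [b0, Complex.conj_conj]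
  have s7 : b0 K.S0 (fun k => conj (a k)) (fun k => conj (R.ev (R.db k φ₁))) =
      ∑ k, ∑ l, conj (a k) * R.ev (R.db l φ₁) * K.S0 k l := by simp only [b0, Complex.conj_conj]
  rw [s1, s2, s3, s4, s5, s6, s7]
  generalize (fun k l => b0 (K.R0 k l) ξ ξ) = Rr
  simp only [mul_add, add_mul, mul_sum, sum_mul, ← sum_add_distrib, ← sum_sub_distrib]
  refine sum_congr rfl fun k _ => sum_congr rfl fun l _ => ?_
  ring

theorem qf_ah (M : I4 n → I4 n → ℂ) (α η : Fin n → ℂ) :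
    qf M (Sum.elim (Sum.elim 0 α) (Sum.elim 0 η)) =
      ∑ k, ∑ l, α k * conj (α l) * M (.inl (.inr k)) (.inl (.inr l)) +
      ∑ k, ∑ l, α k * conj (η l) * M (.inl (.inr k)) (.inr (.inr l)) +
      ∑ k, ∑ l, η k * conj (α l) * M (.inr (.inr k)) (.inl (.inr l)) +
      ∑ k, ∑ l, η k * conj (η l) * M (.inr (.inr k)) (.inr (.inr l)) := by
  simp only [qf, Fintype.sum_sum_type, Sum.elim_inl, Sum.elim_inr, Pi.zero_apply, zero_mul,
    map_zero, mul_zero, sum_const_zero, zero_add, sum_add_distrib]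
  ring

/-- the mixed term -/
def tau (K : KM R) (ξ a b : Fin n → ℂ) (c : ℂ) : ℂ :=
  ∑ k, ∑ l, conj (ξ k) * a l * R.ev (K.M0 ξ a c b (.inl (.inr k)) (.inr (.inr l))) +
    ∑ k, ∑ l, conj (a k) * ξ l * R.ev (K.M0 ξ a c b (.inr (.inr k)) (.inl (.inr l)))

theorem raw_id (h : K.Normal) {lam : ℝ} (hF : K.Flow lam) {φ₁ φ₂ : S} (r1 : R.cj φ₁ = φ₁)
    {c : ℂ} {ξ a b : Fin n → ℂ} {p1 Φ : ℝ} (e1 : R.ev φ₁ = p1)
    (hΦ' : R.ev φ₁ * ns a + c * conj c * R.ev φ₂ = Φ)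
    (hz : R.ev (K.Ff φ₁ φ₂ (cst ξ) (cst a) c (cst b)) = 0) :
    ((ns ξ * ns a : ℝ) : ℂ) * R.ev (Ev.bx K φ₁) +
      ((ns ξ * Complex.normSq c : ℝ) : ℂ) * R.ev (Ev.bx K φ₂) =
      R.ev (R.D (K.Ff φ₁ φ₂ (cst ξ) (cst a) c (cst b))) -
      (PQ fun x y => R.ev (K.M0 ξ a c b x y) + (K.jE φ₁ φ₂ ξ a c).q x y) +
      ((lam * p1 * ns ξ * ns a + n * p1 * ns ξ * Φ -
        p1 ^ 2 * Complex.normSq (∑ k, ξ k * a k) : ℝ) : ℂ) + (Φ : ℂ) * ∑ k, b0 (K.R0 k k) ξ ξ +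
      (ns ξ : ℂ) * (conj (c * b0 K.S0 (fun k => conj (a k)) fun k => R.ev (R.d k φ₁)) +
        c * b0 K.S0 (fun k => conj (a k)) fun k => R.ev (R.d k φ₁)) +
      ((p1 * ns ξ : ℝ) : ℂ) * ∑ k, K.W0 a c k k - (p1 : ℂ) * K.tau ξ a b c := by
  have hF0 : R.ev (K.F0 (cst ξ) (cst a) c (cst b)) = -(Φ * ns ξ) := by
    rw [Ff] at hz
    simp only [map_add, map_mul, ev_bf_cst, h.g0, H0 h, b0_one_self, ev_kk] at hz
    rw [← hΦ']
    linear_combination hz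
  have hd : ∀ k, conj (R.ev (R.db k φ₁)) = R.ev (R.d k φ₁) := fun k => by
    rw [← R.ev_cj, R.cj_db, r1]
  have hg3' : conj c * b0 K.S0 (fun k => R.ev (R.d k φ₁)) (fun k => conj (a k)) =
      conj (c * b0 K.S0 (fun k => conj (a k)) fun k => R.ev (R.d k φ₁)) := by
    rw [map_mul]
    congr 1
    simp only [b0, map_sum, map_mul, Complex.conj_conj, S0_herm]
    rw [sum_comm]
    exact sum_congr rfl fun _ _ => sum_congr rfl fun _ _ => by ring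
  have a1 : b0 K.S0 ξ ξ = lam * ns ξ + ∑ k, b0 (K.R0 k k) ξ ξ := by
    rw [S0_eq h hF, b0_add, b0_smul, b0_one_self, b0_sum]
  have a2 : b0 K.S0ᵀ a a = lam * ns a + ∑ k, b0 (K.R0 k k)ᵀ a a := by
    rw [S0_eq h hF, transpose_add, transpose_smul, transpose_one, transpose_sum, b0_add, b0_smul,
      b0_one_self, b0_sum]
  have a3 : ∑ k, (K.jE φ₁ φ₂ ξ a c).q (.inl (.inl k)) (.inl (.inl k)) =
      (R.ev (K.lap φ₁) * ns a - R.ev φ₁ * ∑ k, b0 (K.R0 k k)ᵀ a a +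
        c * conj c * R.ev (K.lap φ₂)) * ns ξ + Φ * ∑ k, b0 (K.R0 k k) ξ ξ := by
    simp only [jE_ee h, hΦ', ev_lap h, sum_add_distrib, sum_sub_distrib, ← sum_mul, ← mul_sum]
  rw [time_Ff h hF, space_P h, a1, a2, a3, hF0, hΦ', hg3']
  simp only [hd, Ev.bx, map_sub, Complex.mul_conj, e1, tau]
  push_cast
  ring

theorem raw_q (φ₁ φ₂ : S) (c : ℂ) (ξ a b : Fin n → ℂ) {p1 Φ : ℝ} (e1 : R.ev φ₁ = p1)
    (hΦ' : R.ev φ₁ * ns a + c * conj c * R.ev φ₂ = Φ) :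
    qf (fun x y => R.ev (K.M0 ξ a c b x y) + (K.jE φ₁ φ₂ ξ a c).q x y)
      (Sum.elim (Sum.elim 0 fun k => ns a * conj (ξ k)) (Sum.elim 0 fun k => ns ξ * conj (a k))) =
      ((ns a ^ 2 : ℝ) : ℂ) * (∑ k, ∑ l, conj (ξ k) * conj (conj (ξ l)) * b0 (K.R0 k l) ξ ξ) +
      ((ns ξ ^ 2 : ℝ) : ℂ) * b0 (K.W0 a c) (fun k => conj (a k)) (fun k => conj (a k)) +
      ((ns ξ * ns a : ℝ) : ℂ) * K.tau ξ a b c +
      ((ns a ^ 2 * (p1 * ns ξ * ns ξ) + ns ξ ^ 2 * (Φ * ns a) +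
        ns ξ * ns a * (2 * p1 * Complex.normSq (∑ k, ξ k * a k)) : ℝ) : ℂ) := by
  have s1 : (ns ξ : ℂ) = ∑ k, ∑ l, conj (ξ k) * ξ l * if k = l then 1 else 0 := by
    simp [ns_eq, mul_comm]
  have s2 : (ns a : ℂ) = ∑ k, ∑ l, conj (a k) * a l * if k = l then 1 else 0 := by
    simp [ns_eq, mul_comm]
  have s3 : (Complex.normSq (∑ k, ξ k * a k) : ℂ) =
      ∑ k, ∑ l, conj (ξ k) * conj (a k) * (ξ l * a l) := by
    rw [← Complex.mul_conj, mul_comm, map_sum, sum_mul_sum]; simp only [map_mul]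
  have s4 : ∀ (k l : Fin n) (z : ℂ), (if k = l then z else 0) = z * if k = l then 1 else 0 :=
    fun k l z => by split_ifs <;> simp
  rw [qf_ah]
  simp only [jE5, jE6, jE7, jE8, eM0_aa, eM0_hh, hΦ']
  simp only [e1, map_mul, Complex.conj_ofReal, Complex.conj_conj]
  push_cast
  have s5 : (ns a : ℂ) ^ 2 * (p1 * ns ξ * ns ξ) + (ns ξ : ℂ) ^ 2 * (Φ * ns a) +
      (ns ξ : ℂ) * ns a * (2 * p1 * (Complex.normSq (∑ k, ξ k * a k) : ℂ)) =
      (ns a : ℂ) ^ 2 * (p1 * ns ξ * ∑ k, ∑ l, conj (ξ k) * ξ l * if k = l then 1 else 0) +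
      (ns ξ : ℂ) ^ 2 * (Φ * ∑ k, ∑ l, conj (a k) * a l * if k = l then 1 else 0) +
      (ns ξ : ℂ) * ns a * (2 * p1 * ∑ k, ∑ l, conj (ξ k) * conj (a k) * (ξ l * a l)) := by
    rw [← s1, ← s2, ← s3]
  rw [s5, tau]
  simp only [s4 _ _ (p1 * ns ξ : ℂ), s4 _ _ (Φ : ℂ)]
  generalize (ns ξ : ℂ) = X
  generalize (ns a : ℂ) = Y
  generalize (fun k l => b0 (K.R0 k l) ξ ξ) = Rr
  simp only [b0, Complex.conj_conj, mul_add, mul_sum, ← sum_add_distrib]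
  refine sum_congr rfl fun k _ => sum_congr rfl fun l _ => ?_
  ring_nf

theorem PQ_nonneg {M : I4 n → I4 n → ℂ} (h : ∀ u, 0 ≤ qf M u) : 0 ≤ (PQ M).re := Q_nonneg h

theorem raw_num1 {X Y A B t s Kc ω Φ p1 : ℝ} (hX : 0 < X) (hY : 0 < Y)
    (q1 : 0 ≤ Y ^ 2 * A + X ^ 2 * B + X * Y * t +
      (Y ^ 2 * (p1 * X * X) + X ^ 2 * (Φ * Y) + X * Y * (2 * p1 * s)))
    (q3 : A ≤ Kc * X * X) (q4 : B ≤ ω * Y) : -t - 2 * p1 * s ≤ X * Y * (Kc + p1) + X * (ω + Φ) := by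
  have q5 : 0 ≤ X * Y * (X * Y * (Kc + p1) + X * (ω + Φ) + t + 2 * p1 * s) := by
    have u1 := mul_le_mul_of_nonneg_left q3 (sq_nonneg Y)
    have u2 := mul_le_mul_of_nonneg_left q4 (sq_nonneg X)
    linarith
  have := nonneg_of_mul_nonneg_right q5 (mul_pos hX hY)
  linarith

theorem raw_num2 {X Y Z B1 B2 T P lam N s ρ g tW t Kc ω Φ p1 : ℝ} (hX : 0 < X) (hΦ0 : 0 ≤ Φ)
    (hp1 : 0 ≤ p1) (hT : T ≤ 0) (hP : 0 ≤ P)
    (id2 : X * Y * B1 + X * Z * B2 = T - P + (lam * p1 * X * Y + N * p1 * X * Φ - p1 ^ 2 * s) +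
      Φ * ρ + X * (g + g) + p1 * X * tW - p1 * t)
    (b1 : ρ ≤ N * Kc * X) (b2 : tW ≤ N * ω) (b3 : s ≤ X * Y)
    (b4 : -t - 2 * p1 * s ≤ X * Y * (Kc + p1) + X * (ω + Φ)) :
    Y * B1 + Z * B2 ≤ lam * p1 * Y + N * Kc * Φ + (N + 1) * p1 * (ω + Φ) + p1 * Y * (Kc + 2 * p1) +
      2 * g := by
  refine le_of_mul_le_mul_left ?_ hX
  have u1 := mul_le_mul_of_nonneg_left b1 hΦ0
  have u2 := mul_le_mul_of_nonneg_left b2 (mul_nonneg hp1 hX.le)
  have u3 := mul_le_mul_of_nonneg_left b3 (sq_nonneg p1)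
  have u4 := mul_le_mul_of_nonneg_left b4 hp1
  linarith

/-- **null vector inequality**, normal frame -/
theorem raw (h : K.Normal) {lam : ℝ} (hF : K.Flow lam) {φ₁ φ₂ : S} (r1 : R.cj φ₁ = φ₁)
    (r2 : R.cj φ₂ = φ₂) {c : ℂ} (hC : K.Cone φ₁ φ₂ c) {ξ a b : Fin n → ℂ} (hξ : ξ ≠ 0)
    (h0 : (R.ev (K.Ff φ₁ φ₂ (cst ξ) (cst a) c (cst b))).re = 0) {p1 p2 : ℝ}
    (e1 : R.ev φ₁ = p1) (e2 : R.ev φ₂ = p2) (hp1 : 0 ≤ p1) (hp2 : 0 ≤ p2) {Kc ω : ℝ}
    (hK0 : 0 ≤ Kc) (hω0 : 0 ≤ ω)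
    (hR : ∀ a' ξ' : Fin n → ℂ,
      (∑ k, ∑ l, a' k * conj (a' l) * b0 (K.R0 k l) ξ' ξ').re ≤ Kc * ns a' * ns ξ')
    (hW : ∀ η, (b0 (K.W0 a c) η η).re ≤ ω * ns η) :
    ns a * (R.ev (Ev.bx K φ₁)).re + Complex.normSq c * (R.ev (Ev.bx K φ₂)).re ≤
      lam * p1 * ns a + n * Kc * (p1 * ns a + Complex.normSq c * p2) +
      (n + 1) * p1 * (ω + (p1 * ns a + Complex.normSq c * p2)) + p1 * ns a * (Kc + 2 * p1) +
      2 * (c * b0 K.S0 (fun k => conj (a k)) fun k => R.ev (R.d k φ₁)).re := by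
  have hX := ns_pos hξ
  have hY := ns_nonneg a
  have hpsd := psd h r1 r2 hC hξ h0
  have hP := PQ_nonneg hpsd
  have hT := R.mp1 _ (hC.pos (cst ξ) (hol_cst a) (cst b)) h0
  have hz : R.ev (K.Ff φ₁ φ₂ (cst ξ) (cst a) c (cst b)) = 0 :=
    Complex.ext h0 (R.im_ev (cj_Ff r1 r2 _ (hol_cst a) _ _))
  obtain ⟨Φ, hΦ⟩ : ∃ Φ : ℝ, Φ = p1 * ns a + Complex.normSq c * p2 := ⟨_, rfl⟩
  have hΦ0 : 0 ≤ Φ :=
    hΦ ▸ add_nonneg (mul_nonneg hp1 hY) (mul_nonneg (Complex.normSq_nonneg _) hp2)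
  have hΦ' : R.ev φ₁ * ns a + c * conj c * R.ev φ₂ = Φ := by
    rw [e1, e2, Complex.mul_conj, hΦ]; push_cast; ring
  rw [← hΦ]
  have id2 := congrArg Complex.re (raw_id h hF r1 e1 hΦ' hz)
  simp only [Complex.add_re, Complex.sub_re, Complex.re_ofReal_mul, Complex.ofReal_re,
    Complex.conj_re] at id2
  have b1 : (∑ k, b0 (K.R0 k k) ξ ξ).re ≤ n * Kc * ns ξ := by
    rw [Complex.re_sum]
    calc _ ≤ ∑ _k : Fin n, Kc * ns ξ := sum_le_sum fun k _ => by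
          have := hR (Pi.single k 1) ξ
          rw [ns_single, mul_one] at this
          simpa [Pi.single_apply, apply_ite conj] using this
      _ = _ := by simp [mul_assoc]
  have b2 : (∑ k, K.W0 a c k k).re ≤ n * ω := by
    rw [Complex.re_sum]
    calc _ ≤ ∑ _k : Fin n, ω := sum_le_sum fun k _ => by
          have := hW (Pi.single k 1)
          rwa [ns_single, mul_one, b0_single] at this
      _ = _ := by simp
  have b3 := normSq_sum_le ξ a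
  have b4 : -(K.tau ξ a b c).re - 2 * p1 * Complex.normSq (∑ k, ξ k * a k) ≤
      ns ξ * ns a * (Kc + p1) + ns ξ * (ω + Φ) := by
    by_cases ha : a = 0
    · have : K.tau ξ a b c = 0 := by simp [tau, ha]
      have h2 : Complex.normSq (∑ k, ξ k * a k) = 0 := by simp [ha]
      rw [this, h2]
      have : 0 ≤ ns ξ * ns a * (Kc + p1) + ns ξ * (ω + Φ) := by positivity
      simpa using this
    · have hY' := ns_pos ha
      have q1 := (Complex.nonneg_iff.1 (hpsd (Sum.elim (Sum.elim 0 fun k => ns a * conj (ξ k))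
        (Sum.elim 0 fun k => ns ξ * conj (a k))))).1
      rw [raw_q φ₁ φ₂ c ξ a b e1 hΦ'] at q1
      simp only [Complex.add_re, Complex.re_ofReal_mul, Complex.ofReal_re] at q1
      have q3 := hR (fun k => conj (ξ k)) ξ
      have q4 := hW fun k => conj (a k)
      rw [ns_conj] at q3 q4
      exact raw_num1 hX hY' q1 q3 q4
  exact raw_num2 hX hΦ0 hp1 hT hP id2 b1 b2 b3 b4

end KM

end

end Crest.Agent.T223.Cn
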