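import Crest.Agent.T223.CnY_87

/-!
# Row 223 (helper87), CONE module, part Z: invariant form, rescaling, the Harnack cone

`KM.inv_ineq` : the null vector inequality in invariant form;
`Tm R` : a time function;  `Tm.dr`, `KM.rs` : the rescaled flow `g / θ` with time `log θ`;
`KM.ly` : Cao's Harnack form;  `KM.lyh_ring` : its null vector inequality with a barrier.
-/

set_option autoImplicit false
set_option linter.unusedSectionVars false

open Finset Matrix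
open scoped ComplexConjugate ComplexOrder

namespace Crest.Agent.T223.Cn

noncomputable section

variable {n : ℕ} {S : Type} [CommRing S] [Algebra ℂ S] {R : DR n S}

/-! ### Hermitian forms -/

theorem b0_vec (M : Matrix (Fin n) (Fin n) ℂ) (u w : Fin n → ℂ) :
    b0 M u w = ∑ j, (Mᵀ *ᵥ u) j * conj (w j) := by
  simp only [b0, Matrix.mulVec, dotProduct, transpose_apply, sum_mul]
  rw [sum_comm]
  exact sum_congr rfl fun _ _ => sum_congr rfl fun _ _ => by ring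

theorem b0_polar {M : Matrix (Fin n) (Fin n) ℂ} (hM : ∀ k l, conj (M k l) = M l k) {m : ℝ}
    (h : ∀ u, |(b0 M u u).re| ≤ m * ns u) (u w : Fin n → ℂ) :
    2 * (b0 M u w).re ≤ m * (ns u + ns w) := by
  have e0 : b0 M w u = conj (b0 M u w) := by
    simp only [b0, map_sum, map_mul, Complex.conj_conj, hM]
    rw [sum_comm]
    exact sum_congr rfl fun _ _ => sum_congr rfl fun _ _ => by ring
  have e1 : b0 M (u + w) (u + w) - b0 M (u - w) (u - w) = 2 * (b0 M u w + b0 M w u) := by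
    simp only [b0, Pi.add_apply, Pi.sub_apply, map_add, map_sub, mul_sum, ← sum_add_distrib,
      ← sum_sub_distrib]
    exact sum_congr rfl fun _ _ => sum_congr rfl fun _ _ => by ring
  have e2 : ns (u + w) + ns (u - w) = 2 * (ns u + ns w) := by
    simp only [ns, Pi.add_apply, Pi.sub_apply, mul_sum, ← sum_add_distrib]
    exact sum_congr rfl fun _ _ => by simp only [Complex.normSq_add, Complex.normSq_sub]; ring
  have e3 := congrArg Complex.re e1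
  rw [e0] at e3
  simp only [Complex.sub_re, Complex.mul_re, Complex.add_re, Complex.conj_re, Complex.re_ofNat,
    Complex.im_ofNat, zero_mul, sub_zero] at e3
  have h1 := (abs_le.1 (h (u + w))).2
  have h2 := (abs_le.1 (h (u - w))).1
  have : m * ns (u + w) + m * ns (u - w) = m * (2 * (ns u + ns w)) := by rw [← e2]; ring
  linarith

theorem ns_mulVec_le {M : Matrix (Fin n) (Fin n) ℂ} (hM : ∀ k l, conj (M k l) = M l k) {m : ℝ}
    (hm : 0 < m) (h : ∀ u, |(b0 M u u).re| ≤ m * ns u) (u : Fin n → ℂ) :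
    ns (Mᵀ *ᵥ u) ≤ m ^ 2 * ns u := by
  have h1 := b0_polar hM h (fun i => m * u i) (Mᵀ *ᵥ u)
  have e : b0 M (fun i => m * u i) (Mᵀ *ᵥ u) = ((m * ns (Mᵀ *ᵥ u) : ℝ) : ℂ) := by
    push_cast
    rw [ns_eq, ← b0_vec]
    simp only [b0, mul_sum]
    exact sum_congr rfl fun _ _ => sum_congr rfl fun _ _ => by ring
  rw [e, Complex.ofReal_re, ns_smul, Complex.normSq_ofReal] at h1
  refine le_of_mul_le_mul_left ?_ hm
  nlinarith

theorem two_re_le (c z : ℂ) {s : ℝ} (hs : 0 < s) :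
    2 * (c * z).re ≤ s * Complex.normSq c + Complex.normSq z / s := by
  have h := Complex.normSq_nonneg (s * c - conj z)
  rw [Complex.normSq_sub, Complex.normSq_mul, Complex.normSq_ofReal, Complex.normSq_conj,
    Complex.conj_conj, mul_assoc (s : ℂ), Complex.re_ofReal_mul] at h
  rw [← sub_le_iff_le_add', le_div_iff₀ hs]
  nlinarith

/-! ### values at the base point -/

theorem ev_dv_congr {a a' : Fin n → S} (e : ∀ k, R.ev (a k) = R.ev (a' k)) (c : ℂ) (f : S) :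
    R.ev (R.dv a c f) = R.ev (R.dv a' c f) := by
  simp only [R.dv_apply, map_add, map_sum, map_mul, e]

theorem ev_dbv_congr {a a' : Fin n → S} (e : ∀ k, R.ev (a k) = R.ev (a' k)) (c : ℂ) (f : S) :
    R.ev (R.dbv a c f) = R.ev (R.dbv a' c f) := by
  simp only [R.dbv_apply, map_add, map_sum, map_mul, R.ev_cj, e]

theorem ev_dv_dbv_congr {a a' : Fin n → S} (ha : ∀ k, R.Hol (a k)) (ha' : ∀ k, R.Hol (a' k))
    (e : ∀ k, R.ev (a k) = R.ev (a' k)) (c : ℂ) (f : S) :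
    R.ev (R.dv a c (R.dbv a c f)) = R.ev (R.dv a' c (R.dbv a' c f)) := by
  rw [ev_dv_congr e, R.dv_apply, R.dv_apply]
  simp only [map_add, map_sum, map_mul, map_smul, DR.d_dbv ha, DR.d_dbv ha', DR.D_dbv ha,
    DR.D_dbv ha', ev_dbv_congr e]

namespace KM

variable {K : KM R}

theorem ev_th_congr {v v' a a' : Fin n → S} (ha : ∀ k, R.Hol (a k)) (ha' : ∀ k, R.Hol (a' k))
    (e : ∀ k, R.ev (a k) = R.ev (a' k)) (e' : ∀ k, R.ev (v k) = R.ev (v' k)) (c : ℂ) :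
    R.ev (K.th v a c) = R.ev (K.th v' a' c) := by
  have h1 : R.eM (dM (R.dv a c) (dM (R.dbv a c) K.g)) =
      R.eM (dM (R.dv a' c) (dM (R.dbv a' c) K.g)) := by
    ext i j; exact ev_dv_dbv_congr ha ha' e c _
  have h2 : R.eM (dM (R.dv a c) K.g) = R.eM (dM (R.dv a' c) K.g) := by
    ext i j; exact ev_dv_congr e c _
  have h3 : R.eM (dM (R.dbv a c) K.g) = R.eM (dM (R.dbv a' c) K.g) := by
    ext i j; exact ev_dbv_congr e c _
  simp only [th, ev_bf, Th, R.eM_add, R.eM_neg, R.eM_mul, h1, h2, h3, e']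

theorem ev_bf_g (h : K.Normal) (v : Fin n → S) :
    R.ev (R.bf K.g v v) = ns fun i => R.ev (v i) := by
  rw [ev_bf, h.g0, b0_one_self]

theorem ev_Hcv (h : K.Normal) (ξ : Fin n → ℂ) (i : Fin n) :
    R.ev ((K.H *ᵥ R.cv (cst ξ)) i) = conj (ξ i) := by
  simp [Matrix.mulVec, dotProduct, eH0 h, cst, cj_kk]

theorem ev_beta (h : K.Normal) (ξ a b : Fin n → ℂ) (c : ℂ) (i : Fin n) :
    R.ev ((cst b + (K.g * (dM (R.dv (cst a) c) K.H)ᵀ) *ᵥ cst ξ : Fin n → S) i) =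
      b i + c * (K.S0ᵀ *ᵥ ξ) i := by
  have e : R.eM (K.g * (dM (R.dv (cst a) c) K.H)ᵀ) = c • K.S0ᵀ := by
    rw [R.eM_mul, h.g0, Matrix.one_mul]
    ext k l
    exact eV h a c l k
  have e' : ∀ k l, R.ev ((K.g * (dM (R.dv (cst a) c) K.H)ᵀ) k l) = c * K.S0 l k :=
    fun k l => congrFun (congrFun e k) l
  simp only [Pi.add_apply, map_add, Matrix.mulVec, dotProduct, map_sum, map_mul, e', cst, ev_kk,
    mul_sum, transpose_apply, mul_assoc]

theorem W0_eq (h : K.Normal) (a η : Fin n → ℂ) (c : ℂ) : b0 (K.W0 a c) η η =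
    R.ev (K.th (K.H *ᵥ R.cv (cst η)) (cst a) c) + (Complex.normSq c * ns (K.S0ᵀ *ᵥ η) : ℝ) := by
  have h1 := congrArg R.ev (K.F0_eq (cst η) (cst a) c (cst 0))
  rw [map_add, ev_bf, H0 h, b0_one_self] at h1
  simp only [ev_beta h, Pi.zero_apply, zero_add, ns_smul] at h1
  rw [← h1, F0]
  simp only [map_add, ev_bf_cst, W0]
  simp [b0]

theorem W0_zero (a η : Fin n → ℂ) :
    b0 (K.W0 a 0) η η = ∑ k, ∑ l, a k * conj (a l) * b0 (K.R0 k l) η η := by
  have : K.W0 a 0 = ∑ k, ∑ l, (a k * conj (a l)) • K.R0 k l := by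
    ext i j
    simp only [W0, R0, DR.eM_apply, dM_apply, ev_dv_dbv, Matrix.sum_apply, Matrix.smul_apply,
      smul_eq_mul]
  simp only [this, b0_sum, b0_smul]

/-- **null vector inequality**, normal frame, geometric hypotheses -/
theorem norm_ineq (h : K.Normal) {lam : ℝ} (hF : K.Flow lam) {φ₁ φ₂ : S} (r1 : R.cj φ₁ = φ₁)
    (r2 : R.cj φ₂ = φ₂) {c : ℂ} (hC : K.Cone φ₁ φ₂ c) {v a : Fin n → S} (ha : ∀ k, R.Hol (a k))
    (hv : (R.ev (R.bf K.g v v)).re ≠ 0)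
    (h0 : (R.ev (K.th v a c + (φ₁ * R.bf K.g a a + φ₂ * kk (c * conj c)) * R.bf K.g v v)).re = 0)
    {p1 p2 : ℝ} (e1 : R.ev φ₁ = p1) (e2 : R.ev φ₂ = p2) (hp1 : 0 < p1) (hp2 : 0 ≤ p2)
    {Kc ω m : ℝ} (hK0 : 0 ≤ Kc) (hω0 : 0 ≤ ω) (hm0 : 0 < m) (hm : |lam| + n * Kc ≤ m)
    (hR : ∀ v' a' : Fin n → S, (∀ k, R.Hol (a' k)) → |(R.ev (K.th v' a' 0)).re| ≤
      Kc * (R.ev (R.bf K.g a' a')).re * (R.ev (R.bf K.g v' v')).re)
    (hW : ∀ v', (R.ev (K.th v' a c)).re ≤ ω * (R.ev (R.bf K.g v' v')).re)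
    {Y Φ : ℝ} (hY : (R.ev (R.bf K.g a a)).re = Y) (hΦ : Φ = p1 * Y + Complex.normSq c * p2) :
    Y * (R.ev (Ev.bx K φ₁)).re + Complex.normSq c * (R.ev (Ev.bx K φ₂)).re ≤
      lam * p1 * Y + n * Kc * Φ + (n + 1) * p1 * (ω + m ^ 2 * Complex.normSq c + Φ) +
      p1 * Y * (Kc + 2 * p1) + m ^ 2 * p1 * Complex.normSq c +
      Y * (R.ev (Ev.g2 K φ₁ φ₁)).re / p1 := by
  obtain ⟨a0, ha0⟩ : ∃ a0 : Fin n → ℂ, a0 = fun k => R.ev (a k) := ⟨_, rfl⟩
  obtain ⟨ξ, hξ⟩ : ∃ ξ : Fin n → ℂ, ξ = fun k => conj (R.ev (v k)) := ⟨_, rfl⟩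
  have ea : ∀ k, R.ev (cst a0 k : S) = R.ev (a k) := fun k => by simp [cst, ha0]
  have eY : ns a0 = Y := by rw [← hY, ev_bf_g h, Complex.ofReal_re, ha0]
  have eX : R.ev (R.bf K.g v v) = ns ξ := by rw [ev_bf_g h, hξ, ns_conj]
  have eH : ∀ η, (R.ev (R.bf K.g (K.H *ᵥ R.cv (cst η)) (K.H *ᵥ R.cv (cst η)))).re = ns η :=
    fun η => by rw [← K.bf_H, ev_bf_cst, H0 h, b0_one_self, Complex.ofReal_re]
  have hξ0 : ξ ≠ 0 := fun e => hv (by rw [eX, e]; simp [ns])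
  have hR' : ∀ a' ξ' : Fin n → ℂ,
      |(∑ k, ∑ l, a' k * conj (a' l) * b0 (K.R0 k l) ξ' ξ').re| ≤ Kc * ns a' * ns ξ' := by
    intro a' ξ'
    have := hR (K.H *ᵥ R.cv (cst ξ')) (cst a') (hol_cst a')
    rw [eH, ev_bf_cst, h.g0, b0_one_self, Complex.ofReal_re] at this
    rw [← W0_zero, W0_eq h]
    simpa using this
  have hS : ∀ u, |(b0 K.S0 u u).re| ≤ m * ns u := by
    intro u
    rw [S0_eq h hF, b0_add, b0_smul, b0_one_self, b0_sum, Complex.add_re, Complex.re_sum,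
      ← Complex.ofReal_mul, Complex.ofReal_re]
    have h1 : |∑ k, (b0 (K.R0 k k) u u).re| ≤ n * Kc * ns u :=
      calc _ ≤ ∑ k, |(b0 (K.R0 k k) u u).re| := abs_sum_le_sum_abs _ _
        _ ≤ ∑ _k : Fin n, Kc * ns u := sum_le_sum fun k _ => by
          have := hR' (Pi.single k 1) u
          rw [ns_single, mul_one] at this
          simpa [Pi.single_apply, apply_ite conj] using this
        _ = _ := by simp [mul_assoc]
    have h2 : |lam * ns u| = |lam| * ns u := by rw [abs_mul, abs_of_nonneg (ns_nonneg u)]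
    have h3 := abs_add_le (lam * ns u) (∑ k, (b0 (K.R0 k k) u u).re)
    have h4 := mul_le_mul_of_nonneg_right hm (ns_nonneg u)
    linarith
  have hβ := ns_mulVec_le K.S0_herm hm0 hS
  have hW' : ∀ η, (b0 (K.W0 a0 c) η η).re ≤ (ω + m ^ 2 * Complex.normSq c) * ns η := by
    intro η
    have h1 := hW (K.H *ᵥ R.cv (cst η))
    rw [eH, ← ev_th_congr (hol_cst a0) ha ea (fun _ => rfl)] at h1
    have h2 := mul_le_mul_of_nonneg_left (hβ η) (Complex.normSq_nonneg c)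
    rw [W0_eq h, Complex.add_re, Complex.ofReal_re]
    linarith
  have h0' : (R.ev (K.Ff φ₁ φ₂ (cst ξ) (cst a0) c (cst fun i => -(c * (K.S0ᵀ *ᵥ ξ) i)))).re = 0 := by
    rw [← h0, Ff, K.F0_eq]
    have := ev_th_congr (K := K) (v := K.H *ᵥ R.cv (cst ξ)) (v' := v) (hol_cst a0) ha ea
      (fun k => by rw [ev_Hcv h, hξ, Complex.conj_conj]) c
    simp only [map_add, map_mul, this, eX, ev_bf_g h, ea]
    rw [ev_bf, ev_bf_cst, H0 h, b0_one_self, b0_one_self]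
    simp only [ev_beta h, neg_add_cancel]
    simp [ns]
  have hc := Complex.normSq_nonneg c
  have key := raw h hF r1 r2 hC hξ0 h0' e1 e2 hp1.le hp2 hK0 (by positivity)
    (fun a' ξ' => (abs_le.1 (hR' a' ξ')).2) hW'
  have t1 := two_re_le c (b0 K.S0 (fun k => conj (a0 k)) fun k => R.ev (R.d k φ₁))
    (s := m ^ 2 * p1) (by positivity)
  have eG : (R.ev (Ev.g2 K φ₁ φ₁)).re = ns fun k => R.ev (R.d k φ₁) := by
    have hd : ∀ k, R.ev (R.db k φ₁) = conj (R.ev (R.d k φ₁)) := fun k => by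
      rw [← R.ev_cj, R.cj_d, r1]
    rw [Ev.ev_g2 h]
    simp only [hd]
    rw [← ns_eq, Complex.ofReal_re]
  have t2 : Complex.normSq (b0 K.S0 (fun k => conj (a0 k)) fun k => R.ev (R.d k φ₁)) /
      (m ^ 2 * p1) ≤ Y * (R.ev (Ev.g2 K φ₁ φ₁)).re / p1 := by
    rw [div_le_div_iff₀ (by positivity) hp1, b0_vec, eG]
    have u1 := normSq_sum_le (K.S0ᵀ *ᵥ fun k => conj (a0 k)) fun k => conj (R.ev (R.d k φ₁))
    have u2 := hβ fun k => conj (a0 k)
    rw [ns_conj] at u1 u2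
    rw [eY] at u2
    have u3 := mul_le_mul_of_nonneg_right u2 (ns_nonneg fun k => R.ev (R.d k φ₁))
    have u4 := mul_le_mul_of_nonneg_right (u1.trans u3) hp1.le
    linarith
  rw [eY, ← hΦ] at key
  linarith

/-- **null vector inequality**, invariant form -/
theorem inv_ineq {lam : ℝ} (hF : K.Flow lam) {φ₁ φ₂ : S} (r1 : R.cj φ₁ = φ₁)
    (r2 : R.cj φ₂ = φ₂) {c : ℂ} (hC : K.Cone φ₁ φ₂ c) {v a : Fin n → S} (ha : ∀ k, R.Hol (a k))
    (hv : (R.ev (R.bf K.g v v)).re ≠ 0)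
    (h0 : (R.ev (K.th v a c + (φ₁ * R.bf K.g a a + φ₂ * kk (c * conj c)) * R.bf K.g v v)).re = 0)
    {p1 p2 : ℝ} (e1 : R.ev φ₁ = p1) (e2 : R.ev φ₂ = p2) (hp1 : 0 < p1) (hp2 : 0 ≤ p2)
    {Kc ω m : ℝ} (hK0 : 0 ≤ Kc) (hω0 : 0 ≤ ω) (hm0 : 0 < m) (hm : |lam| + n * Kc ≤ m)
    (hR : ∀ v' a' : Fin n → S, (∀ k, R.Hol (a' k)) → |(R.ev (K.th v' a' 0)).re| ≤
      Kc * (R.ev (R.bf K.g a' a')).re * (R.ev (R.bf K.g v' v')).re)
    (hW : ∀ v', (R.ev (K.th v' a c)).re ≤ ω * (R.ev (R.bf K.g v' v')).re)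
    {Y Φ : ℝ} (hY : (R.ev (R.bf K.g a a)).re = Y) (hΦ : Φ = p1 * Y + Complex.normSq c * p2) :
    Y * (R.ev (Ev.bx K φ₁)).re + Complex.normSq c * (R.ev (Ev.bx K φ₂)).re ≤
      lam * p1 * Y + n * Kc * Φ + (n + 1) * p1 * (ω + m ^ 2 * Complex.normSq c + Φ) +
      p1 * Y * (Kc + 2 * p1) + m ^ 2 * p1 * Complex.normSq c +
      Y * (R.ev (Ev.g2 K φ₁ φ₁)).re / p1 := by
  obtain ⟨F, hN⟩ := K.exists_normal
  have eAB : ∀ x : Fin n → S, F.A *ᵥ (F.B *ᵥ x) = x := fun x => by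
    rw [Matrix.mulVec_mulVec, F.AB, Matrix.one_mulVec]
  have hB : ∀ k, F.dr.Hol ((F.B *ᵥ a) k) := fun k =>
    (F.hol_iff _).2 (DR.Hol.sum univ fun p => (F.holB k p).mul (ha p))
  have key := norm_ineq (K := K.fr F) hN (hF.fr F) (φ₁ := φ₁) (φ₂ := φ₂) r1 r2 (c := c)
    (fun v a ha => by
      rw [K.fr_th F v ha, fr_g, F.bf_pb, F.bf_pb]
      exact hC _ _ (F.hol_mulVec ha))
    (v := F.B *ᵥ v) hB (by rw [fr_g, F.bf_pb, eAB]; exact hv)
    (by rw [K.fr_th F _ hB, fr_g, F.bf_pb, F.bf_pb, eAB, eAB]; exact h0) e1 e2 hp1 hp2 hK0 hω0 hm0 hm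
    (fun v' a' ha' => by
      rw [K.fr_th F v' ha', fr_g, F.bf_pb, F.bf_pb]
      exact hR _ _ (F.hol_mulVec ha'))
    (fun v' => by
      rw [K.fr_th F v' hB, fr_g, F.bf_pb, eAB]
      exact hW _)
    (by rw [fr_g, F.bf_pb, eAB]; exact hY) hΦ
  rwa [Ev.fr_bx, Ev.fr_bx, Ev.fr_g2] at key

end KM

/-! ### rescaling -/

theorem Th_smul {ι : Type} [Fintype ι] [DecidableEq ι] (δ δ' : Der S) {g gi : Matrix ι ι S}
    (hg : g * gi = 1) {u w : S} (huw : u * w = 1) {c c' : ℂ} (h1 : δ u = -(kk c * u))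
    (h2 : δ' u = -(kk c' * u)) : Th δ δ' (u • g) (w • gi) = u • Th δ δ' g gi := by
  have hg' : gi * g = 1 := mul_eq_one_comm.1 hg
  have e1 : dM δ (u • g) = u • (dM δ g - (kk c : S) • g) := by
    rw [dM_smul, h1]; module
  have e2 : dM δ' (u • g) = u • (dM δ' g - (kk c' : S) • g) := by
    rw [dM_smul, h2]; module
  have e3 : dM δ (dM δ' (u • g)) = u • (dM δ (dM δ' g) - (kk c' : S) • dM δ g
      - (kk c : S) • (dM δ' g - (kk c' : S) • g)) := by
    rw [e2, dM_smul, h1, dM_sub, dM_smul, D_alg]; module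
  have e4 : u • (dM δ g - (kk c : S) • g) * w • gi * u • (dM δ' g - (kk c' : S) • g) =
      u • (dM δ g * gi * dM δ' g - (kk c' : S) • dM δ g
        - (kk c : S) • (dM δ' g - (kk c' : S) • g)) := by
    simp only [Matrix.smul_mul, Matrix.mul_smul, smul_smul, mul_comm w u, huw, mul_one]
    congr 1
    rw [Matrix.sub_mul, Matrix.smul_mul, hg, Matrix.sub_mul, Matrix.smul_mul, Matrix.one_mul,
      Matrix.mul_sub, Matrix.mul_smul, Matrix.mul_assoc (dM δ g) gi g, hg', Matrix.mul_one]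
  unfold Th
  rw [e3, e1, e2, e4]
  module

/-- a time function `θ = t - T₀` -/
structure Tm (R : DR n S) where
  θ : S
  θi : S
  τ : ℝ
  mul : θ * θi = 1
  cj : R.cj θ = θ
  d : ∀ k, R.d k θ = 0
  D : R.D θ = 1
  ev : R.ev θ = τ
  pos : 0 < τ

namespace Tm

variable (T : Tm R)

theorem mul' : T.θi * T.θ = 1 := by rw [mul_comm, T.mul]

theorem db (k : Fin n) : R.db k T.θ = 0 := by rw [← T.cj, ← R.cj_d, T.d, map_zero]

theorem cji : R.cj T.θi = T.θi := by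
  have h := congrArg R.cj T.mul
  rw [map_mul, T.cj, map_one] at h
  rw [← one_mul (R.cj T.θi), ← T.mul', mul_assoc, h, mul_one]

theorem deri (δ : Der S) : δ T.θi = -(T.θi * T.θi * δ T.θ) := by
  have h := congrArg δ T.mul
  rw [D_mul, D_one] at h
  linear_combination T.θi * h - δ T.θi * T.mul

theorem evi : R.ev T.θi = (T.τ⁻¹ : ℝ) := by
  have h := congrArg R.ev T.mul
  rw [map_mul, T.ev, map_one] at h
  rw [Complex.ofReal_inv]
  exact eq_inv_of_mul_eq_one_right h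

/-- the same ring with the time `log θ` -/
def dr : DR n S where
  d := R.d
  db := R.db
  D := T.θ • R.D
  cj := R.cj
  ev := R.ev
  ζ := R.ζ
  Pos f := R.Pos (T.θ * f)
  cj_cj := R.cj_cj
  cj_smul := R.cj_smul
  cj_d := R.cj_d
  cj_D f := by simp only [Derivation.smul_apply, smul_eq_mul, map_mul, T.cj, R.cj_D]
  ev_cj := R.ev_cj
  dd := R.dd
  ddb := R.ddb
  Dd k f := by simp only [Derivation.smul_apply, smul_eq_mul, D_mul, T.d, R.Dd, zero_mul, zero_add]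
  d_ζ := R.d_ζ
  db_ζ := R.db_ζ
  D_ζ l := by simp only [Derivation.smul_apply, R.D_ζ, smul_zero]
  ev_ζ := R.ev_ζ
  unit := R.unit
  pos_add f g hf hg := by rw [mul_add]; exact R.pos_add _ _ hf hg
  mp1 f hf h0 := by
    have := R.mp1 _ hf (by rw [map_mul, T.ev, Complex.re_ofReal_mul, h0, mul_zero])
    rwa [D_mul, T.D, one_mul, map_add, Complex.add_re, h0, zero_add] at this
  mp2 f hf h0 e := by
    have := R.mp2 _ hf (by rw [map_mul, T.ev, Complex.re_ofReal_mul, h0, mul_zero]) e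
    simp only [D_mul, T.d, T.db, zero_mul, zero_add, map_mul, T.ev, mul_left_comm _ (T.τ : ℂ),
      ← mul_sum, Complex.re_ofReal_mul] at this
    exact nonneg_of_mul_nonneg_right this T.pos |> fun h => h

theorem dr_D (f : S) : T.dr.D f = T.θ * R.D f := rfl

theorem hol_iff (f : S) : T.dr.Hol f ↔ R.Hol f := by
  refine and_congr Iff.rfl ⟨fun h => ?_, fun h => by rw [dr_D, h, mul_zero]⟩
  rw [← one_mul (R.D f), ← T.mul', mul_assoc, ← dr_D, h, mul_zero]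

theorem dr_dv (a : Fin n → S) (c : ℂ) (f : S) :
    T.dr.dv a c f = R.dv a 0 f + kk c * T.θ * R.D f := by
  rw [T.dr.dv_apply, R.dv_apply, zero_smul, add_zero, dr_D, Algebra.smul_def, mul_assoc]
  rfl

theorem dr_dbv (a : Fin n → S) (c : ℂ) (f : S) :
    T.dr.dbv a c f = R.dbv a 0 f + kk (conj c) * T.θ * R.D f := by
  rw [T.dr.dbv_apply, R.dbv_apply, map_zero, zero_smul, add_zero, dr_D, Algebra.smul_def, mul_assoc]
  rfl

theorem dv_θ (a : Fin n → S) : R.dv a 0 T.θ = 0 := by simp [R.dv_apply, T.d]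

theorem dbv_θ (a : Fin n → S) : R.dbv a 0 T.θ = 0 := by simp [R.dbv_apply, T.db]

end Tm

theorem dM_dv (a : Fin n → S) (M : Matrix (Fin n) (Fin n) S) :
    dM (R.dv a 0) M = ∑ k, a k • dM (R.d k) M := by
  ext i j; simp [R.dv_apply, Matrix.sum_apply]

theorem bf_sum {ι : Type*} (s : Finset ι) (M : ι → Matrix (Fin n) (Fin n) S) (x y : Fin n → S) :
    R.bf (∑ i ∈ s, M i) x y = ∑ i ∈ s, R.bf (M i) x y := by
  simp only [DR.bf, Matrix.sum_mulVec, dotProduct_sum]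

namespace KM

variable (K : KM R) (T : Tm R)

theorem cj_ric (k l : Fin n) : R.cj (K.ric k l) = K.ric l k := by
  have h : R.cj (Ev.be K (R.db l)) = Ev.be K (R.d l) := by
    simp only [Ev.be, tr, Matrix.trace, diag_apply, Matrix.mul_apply, map_sum, map_mul, dM_apply,
      K.cj_gi, R.cj_db, K.cj_g]
    exact sum_comm
  rw [Ev.ric_eq, Ev.ric_eq, map_neg, R.cj_d, h, Ev.be_symm K (R.ddb l k)]

/-- the rescaled metric `g / θ` -/
def rs : KM T.dr where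
  g := T.θi • K.g
  gi := T.θ • K.gi
  inv := by rw [Matrix.smul_mul, Matrix.mul_smul, smul_smul, T.mul', K.inv, one_smul]
  herm := by
    ext i j
    change R.cj (T.θi * K.g i j) = T.θi * K.g j i
    rw [map_mul, T.cji, K.cj_g]
  pos v := by
    change R.Pos (T.θ * R.bf (T.θi • K.g) v v)
    rw [R.bf_smul, ← mul_assoc, T.mul, one_mul]
    exact K.pos v
  pd := by
    have : T.dr.eM (T.θi • K.g) = ((T.τ⁻¹ : ℝ) : ℂ) • R.eM K.g := by
      ext i j
      change R.ev (T.θi * K.g i j) = _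
      rw [map_mul, T.evi]; rfl
    rw [this]
    exact K.pd.smul (by exact_mod_cast inv_pos.2 T.pos)
  closed a b c := by
    change R.d c (T.θi * K.g a b) = R.d a (T.θi * K.g c b)
    simp only [D_mul, T.deri, T.d, mul_zero, neg_zero, zero_mul, zero_add, K.closed a b c]

theorem rs_bf (x y : Fin n → S) : T.dr.bf (K.rs T).g x y = T.θi * R.bf K.g x y := R.bf_smul _ _ _ _

theorem rs_tr (M : Matrix (Fin n) (Fin n) S) : (K.rs T).tr M = T.θ * K.tr M := by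
  change (T.θ • K.gi * M).trace = _
  rw [Matrix.smul_mul, Matrix.trace_smul]; rfl

theorem rs_ric : (K.rs T).ric = K.ric := by
  ext k l
  change (K.rs T).tr (Th (R.d k) (R.db l) (T.θi • K.g) (T.θ • K.gi)) = _
  rw [Th_smul _ _ K.inv T.mul' (c := 0) (c' := 0) (by simp [T.deri, T.d]) (by simp [T.deri, T.db]),
    rs_tr, K.tr_smul, ← mul_assoc, T.mul, one_mul]
  rfl

theorem rs_bx (f : S) : Ev.bx (K.rs T) f = T.θ * Ev.bx K f := by
  unfold Ev.bx lap
  rw [rs_tr, T.dr_D, mul_sub]; rfl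

theorem rs_g2 (f f' : S) : Ev.g2 (K.rs T) f f' = T.θ * Ev.g2 K f f' := K.rs_tr T _

theorem bx_θ (f : S) : Ev.bx K (T.θ * f) = T.θ * Ev.bx K f + f := by
  have h1 : Ev.bx K T.θ = 1 := by simp [Ev.bx, Ev.lap_eq, T.D, T.db]
  rw [Ev.bx_mul, h1]
  simp [Ev.g2_eq, T.d, T.db]

theorem g2_θ (f : S) : Ev.g2 K (T.θ * f) (T.θ * f) = T.θ * T.θ * Ev.g2 K f f := by
  simp only [Ev.g2_eq, D_mul, T.d, T.db, zero_mul, zero_add, mul_sum]
  exact sum_congr rfl fun _ _ => sum_congr rfl fun _ _ => by ring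

theorem bx_kk (c : ℂ) (f : S) : Ev.bx K (kk c * f) = kk c * Ev.bx K f := by
  simp only [Ev.bx, Ev.lap_eq, D_mul, D_alg, zero_mul, zero_add, mul_sub, mul_sum]
  congr 1
  exact sum_congr rfl fun _ _ => sum_congr rfl fun _ _ => by ring

/-- `∇_k Ric` -/
def nab (k : Fin n) : Matrix (Fin n) (Fin n) S :=
  dM (R.d k) K.ric - dM (R.d k) K.g * K.gi * K.ric

/-- Cao's Harnack form, `u = 1 / τ` -/
def ly (u : S) (v a : Fin n → S) (e : S) : S :=
  e * R.cj e * R.bf (dM R.D K.ric + K.ric * K.gi * K.ric + u • K.ric) v v +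
    (R.cj e * ∑ k, a k * R.bf (K.nab k) v v + R.cj (R.cj e * ∑ k, a k * R.bf (K.nab k) v v)) +
    K.th v a 0

variable {K}

theorem Flow.rs (h : K.Flow 0) : (K.rs T).Flow 1 := by
  unfold Flow
  rw [rs_ric]
  ext i j
  have h1 : R.D (K.g i j) = -K.ric i j := congrFun (congrFun (Ev.D_g h) i) j
  change T.θ * R.D (T.θi * K.g i j) = -(((1 : ℝ) : ℂ) • (T.θi * K.g i j)) - K.ric i j
  rw [D_mul, T.deri, T.D, h1, Complex.ofReal_one, one_smul]
  linear_combination (-(T.θi * K.g i j) - K.ric i j) * T.mul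

theorem rs_th (h : K.Flow 0) (v : Fin n → S) {a : Fin n → S} (ha : ∀ k, R.Hol (a k)) (c : ℂ) :
    (K.rs T).th v a c = T.θi * K.ly T.θi v a (kk c * T.θ) := by
  have hg := Ev.D_g h
  have ce : R.cj (kk c * T.θ) = kk (conj c) * T.θ := by rw [map_mul, cj_kk, T.cj]
  have u1 : T.dr.dv a c T.θi = -(kk c * T.θi) := by
    rw [T.dr_dv, T.deri, T.deri, T.dv_θ, T.D]
    linear_combination (-(kk c * T.θi)) * T.mul
  have u2 : T.dr.dbv a c T.θi = -(kk (conj c) * T.θi) := by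
    rw [T.dr_dbv, T.deri, T.deri, T.dbv_θ, T.D]
    linear_combination (-(kk (conj c) * T.θi)) * T.mul
  have m1 : ∀ M : Matrix (Fin n) (Fin n) S,
      dM (T.dr.dv a c) M = dM (R.dv a 0) M + (kk c * T.θ) • dM R.D M := fun M => by
    ext i j; exact T.dr_dv a c _
  have m2 : ∀ M : Matrix (Fin n) (Fin n) S,
      dM (T.dr.dbv a c) M = dM (R.dbv a 0) M + (kk (conj c) * T.θ) • dM R.D M := fun M => by
    ext i j; exact T.dr_dbv a c _
  have m3 : dM R.D (dM (R.dbv a 0) K.g) = -dM (R.dbv a 0) K.ric := by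
    rw [← dM_neg, ← hg]
    ext i j; exact DR.D_dbv ha 0 _
  have m4 : T.dr.dv a c (kk (conj c) * T.θ) = kk c * T.θ * (kk (conj c) * T.θ) * T.θi := by
    rw [T.dr_dv, D_mul, D_mul, D_alg, D_alg, T.dv_θ, T.D]
    linear_combination (-(kk c * T.θ * kk (conj c))) * T.mul
  have m5 : ∑ k, a k • K.nab k = dM (R.dv a 0) K.ric - dM (R.dv a 0) K.g * K.gi * K.ric := by
    simp only [nab, dM_dv, smul_sub, sum_sub_distrib, Matrix.sum_mul, Matrix.smul_mul]
  have c1 : ∀ M : Matrix (Fin n) (Fin n) S, R.cM M = Mᵀ →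
      R.cM (dM (R.dv a 0) M) = (dM (R.dbv a 0) M)ᵀ := fun M hM => by
    ext i j
    have : R.cj (M i j) = M j i := congrFun (congrFun hM i) j
    simp only [DR.cM_apply, dM_apply, transpose_apply, R.cj_dv, this]
  have hr : R.cM K.ric = K.ricᵀ := by ext i j; exact K.cj_ric i j
  have m6 : (R.cM (dM (R.dv a 0) K.ric - dM (R.dv a 0) K.g * K.gi * K.ric))ᵀ =
      dM (R.dbv a 0) K.ric - K.ric * K.gi * dM (R.dbv a 0) K.g := by
    have : ∀ M N : Matrix (Fin n) (Fin n) S, R.cM (M - N) = R.cM M - R.cM N := fun M N => by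
      ext i j; simp
    rw [this, R.cM_mul, R.cM_mul, c1 _ hr, c1 _ K.herm, K.herm_gi, hr]
    simp only [transpose_sub, transpose_mul, transpose_transpose, Matrix.mul_assoc]
  have m7 : ∑ k, a k * R.bf (K.nab k) v v =
      R.bf (dM (R.dv a 0) K.ric - dM (R.dv a 0) K.g * K.gi * K.ric) v v := by
    simp only [← m5, bf_sum, R.bf_smul]
  change R.bf (Th (T.dr.dv a c) (T.dr.dbv a c) (T.θi • K.g) (T.θ • K.gi)) v v = _
  rw [Th_smul _ _ K.inv T.mul' u1 u2, R.bf_smul, ly, m7, map_mul R.cj (R.cj _), R.cj_cj, cj_bf,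
    m6, ce, th]
  simp only [← R.bf_smul, ← R.bf_add]
  congr 2
  unfold Th
  rw [m2 K.g, hg, dM_add, dM_smul, m4, m1, m1, m1, m3, hg, dM_neg, dM_neg]
  simp only [Matrix.mul_add, Matrix.add_mul, Matrix.mul_smul, Matrix.smul_mul, Matrix.mul_neg,
    Matrix.neg_mul]
  module

theorem lyh_num {N n τ B p q Y Z G Kc K' c2 : ℝ} (hτ : 0 < τ) (hp : 0 < p) (hq : 0 < q)
    (hn : 0 ≤ n) (hY : 0 ≤ Y) (hG : 0 ≤ G) (hK : 0 ≤ Kc) (hc : 0 ≤ c2) (hZ : Z = c2 * τ ^ 2)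
    (hN : N = Y + q * Z) (hN0 : 0 < N)
    (h : τ⁻¹ * Y * (τ * (τ * B + p)) + c2 * (τ * (q * (τ * (τ * B + p) + τ * p))) ≤
      1 * (τ * p) * (τ⁻¹ * Y) + n * (τ * Kc) * (p * N) +
      (n + 1) * (τ * p) * (K' * N + (1 + n * (τ * Kc)) ^ 2 * c2 + p * N) +
      τ * p * (τ⁻¹ * Y) * (τ * Kc + 2 * (τ * p)) + (1 + n * (τ * Kc)) ^ 2 * (τ * p) * c2 +
      τ⁻¹ * Y * (τ * (τ * τ * G)) / (τ * p)) :
    B ≤ p * (n * Kc + (n + 1) * (K' + p) + (n + 2) * (τ⁻¹ + n * Kc) ^ 2 / q + Kc + 2 * p) + G / p := by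
  have hZ0 : 0 ≤ Z := by rw [hZ]; positivity
  have hYN : Y ≤ N := by rw [hN]; nlinarith
  have hZN : Z ≤ N / q := by rw [le_div_iff₀ hq, hN]; nlinarith
  have e1 : τ⁻¹ * Y * (τ * (τ * B + p)) + c2 * (τ * (q * (τ * (τ * B + p) + τ * p))) =
      τ * N * B + p * Y + 2 * p * q * Z := by
    rw [hN, hZ]; field_simp; ring
  have e2 : 1 * (τ * p) * (τ⁻¹ * Y) + n * (τ * Kc) * (p * N) +
      (n + 1) * (τ * p) * (K' * N + (1 + n * (τ * Kc)) ^ 2 * c2 + p * N) +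
      τ * p * (τ⁻¹ * Y) * (τ * Kc + 2 * (τ * p)) + (1 + n * (τ * Kc)) ^ 2 * (τ * p) * c2 +
      τ⁻¹ * Y * (τ * (τ * τ * G)) / (τ * p) =
      p * Y + τ * N * (p * (n * Kc + (n + 1) * (K' + p))) +
      τ * p * (n + 2) * (τ⁻¹ + n * Kc) ^ 2 * Z + τ * (p * (Kc + 2 * p) + G / p) * Y := by
    rw [hZ]; field_simp; ring
  rw [e1, e2] at h
  have u1 := mul_le_mul_of_nonneg_left hZN
    (show 0 ≤ τ * p * (n + 2) * (τ⁻¹ + n * Kc) ^ 2 by positivity)
  have u2 := mul_le_mul_of_nonneg_left hYN (show 0 ≤ τ * (p * (Kc + 2 * p) + G / p) by positivity)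
  have u3 : 0 ≤ 2 * p * q * Z := by positivity
  refine le_of_mul_le_mul_left ?_ (mul_pos hτ hN0)
  have e3 : τ * N * (p * (n * Kc + (n + 1) * (K' + p) + (n + 2) * (τ⁻¹ + n * Kc) ^ 2 / q + Kc +
      2 * p) + G / p) = τ * N * (p * (n * Kc + (n + 1) * (K' + p))) +
      τ * p * (n + 2) * (τ⁻¹ + n * Kc) ^ 2 * (N / q) + τ * (p * (Kc + 2 * p) + G / p) * N := by ring
  rw [e3]
  linarith

/-- **null vector inequality for the Harnack form** -/
theorem lyh_ring (hF : K.Flow 0) {φ : S} (r : R.cj φ = φ) {p q : ℝ} (e : R.ev φ = p) (hp : 0 < p)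
    (hq : 0 < q) {c : ℂ}
    (hC : ∀ v a : Fin n → S, (∀ k, R.Hol (a k)) → R.Pos (K.ly T.θi v a (kk c * T.θ) +
      φ * (R.bf K.g a a + kk q * (kk (c * conj c) * (T.θ * T.θ))) * R.bf K.g v v))
    {v a : Fin n → S} (ha : ∀ k, R.Hol (a k)) (hv : (R.ev (R.bf K.g v v)).re ≠ 0)
    (h0 : (R.ev (K.ly T.θi v a (kk c * T.θ) +
      φ * (R.bf K.g a a + kk q * (kk (c * conj c) * (T.θ * T.θ))) * R.bf K.g v v)).re = 0)
    {Kc K' : ℝ} (hK0 : 0 ≤ Kc) (hK' : 0 ≤ K')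
    (hR : ∀ v' a' : Fin n → S, (∀ k, R.Hol (a' k)) → |(R.ev (K.th v' a' 0)).re| ≤
      Kc * (R.ev (R.bf K.g a' a')).re * (R.ev (R.bf K.g v' v')).re)
    {Y N G : ℝ} (hY : (R.ev (R.bf K.g a a)).re = Y) (hY0 : 0 ≤ Y)
    (hN : N = Y + q * (Complex.normSq c * T.τ ^ 2)) (hN0 : 0 < N)
    (hG : (R.ev (Ev.g2 K φ φ)).re = G) (hG0 : 0 ≤ G)
    (hW : ∀ v', (R.ev (K.ly T.θi v' a (kk c * T.θ))).re ≤ K' * N * (R.ev (R.bf K.g v' v')).re) :
    (R.ev (Ev.bx K φ)).re ≤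
      p * (n * Kc + (n + 1) * (K' + p) + (n + 2) * (T.τ⁻¹ + n * Kc) ^ 2 / q + Kc + 2 * p) + G / p := by
  have hτ := T.pos
  have E : ∀ v a : Fin n → S, (∀ k, R.Hol (a k)) → T.θ * ((K.rs T).th v a c +
      (T.θ * φ * T.dr.bf (K.rs T).g a a + kk q * (T.θ * (T.θ * φ)) * kk (c * conj c)) *
        T.dr.bf (K.rs T).g v v) = K.ly T.θi v a (kk c * T.θ) +
      φ * (R.bf K.g a a + kk q * (kk (c * conj c) * (T.θ * T.θ))) * R.bf K.g v v := by
    intro v a ha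
    rw [rs_th T hF v ha, rs_bf, rs_bf]
    linear_combination (K.ly T.θi v a (kk c * T.θ) + φ * R.bf K.g a a * R.bf K.g v v *
      (T.θ * T.θi + 1) + φ * kk q * kk (c * conj c) * T.θ * T.θ * R.bf K.g v v) * T.mul
  have eb : ∀ x : Fin n → S, (T.dr.ev (T.dr.bf (K.rs T).g x x)).re =
      T.τ⁻¹ * (R.ev (R.bf K.g x x)).re := fun x => by
    rw [rs_bf]
    change (R.ev _).re = _
    rw [map_mul, T.evi, Complex.re_ofReal_mul]
  have et : ∀ (v : Fin n → S) {a : Fin n → S} (_ : ∀ k, R.Hol (a k)) (c : ℂ),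
      (T.dr.ev ((K.rs T).th v a c)).re = T.τ⁻¹ * (R.ev (K.ly T.θi v a (kk c * T.θ))).re :=
    fun v a ha c => by
      rw [rs_th T hF v ha]
      change (R.ev _).re = _
      rw [map_mul, T.evi, Complex.re_ofReal_mul]
  have key := inv_ineq (K := K.rs T) (hF.rs T) (φ₁ := T.θ * φ) (φ₂ := kk q * (T.θ * (T.θ * φ)))
    (by change R.cj _ = _; rw [map_mul, T.cj, r])
    (by change R.cj _ = _; simp only [map_mul, T.cj, r, cj_kk, Complex.conj_ofReal]) (c := c)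
    (fun v a ha => by
      have ha' := fun k => (T.hol_iff _).1 (ha k)
      change R.Pos (T.θ * _)
      rw [E v a ha']
      exact hC v a ha')
    (v := v) (a := a) (fun k => (T.hol_iff _).2 (ha k))
    (by rw [eb]; exact mul_ne_zero (inv_ne_zero hτ.ne') hv)
    (by
      rw [← E v a ha, map_mul, T.ev, Complex.re_ofReal_mul] at h0
      exact (mul_eq_zero.1 h0).resolve_left hτ.ne')
    (p1 := T.τ * p) (p2 := q * (T.τ * (T.τ * p)))
    (by change R.ev _ = _; rw [map_mul, T.ev, e, Complex.ofReal_mul])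
    (by change R.ev _ = _; simp only [map_mul, T.ev, e, ev_kk, Complex.ofReal_mul])
    (by positivity) (by positivity) (Kc := T.τ * Kc) (ω := K' * N) (m := 1 + n * (T.τ * Kc))
    (by positivity) (by positivity) (by positivity) (by simp)
    (fun v' a' ha' => by
      have ha'' := fun k => (T.hol_iff _).1 (ha' k)
      have h1 := hR v' a' ha''
      have h2 : K.ly T.θi v' a' (kk 0 * T.θ) = K.th v' a' 0 := by simp [ly]
      rw [et v' ha'', eb, eb, h2, abs_mul, abs_of_pos (inv_pos.2 hτ)]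
      refine (mul_le_mul_of_nonneg_left h1 (inv_pos.2 hτ).le).trans_eq ?_
      field_simp)
    (fun v' => by
      rw [et v' ha, eb]
      exact (mul_le_mul_of_nonneg_left (hW v') (inv_pos.2 hτ).le).trans_eq (by ring))
    (Y := T.τ⁻¹ * Y) (Φ := p * N) (by rw [eb, hY]) (by rw [hN]; field_simp)
  have b1 : (T.dr.ev (Ev.bx (K.rs T) (T.θ * φ))).re = T.τ * (T.τ * (R.ev (Ev.bx K φ)).re + p) := by
    rw [rs_bx, bx_θ]
    change (R.ev _).re = _
    simp only [map_mul, map_add, T.ev, e, Complex.re_ofReal_mul, Complex.add_re, Complex.ofReal_re]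
  have b2 : (T.dr.ev (Ev.bx (K.rs T) (kk q * (T.θ * (T.θ * φ))))).re =
      T.τ * (q * (T.τ * (T.τ * (R.ev (Ev.bx K φ)).re + p) + T.τ * p)) := by
    rw [rs_bx, bx_kk, bx_θ, bx_θ]
    change (R.ev _).re = _
    simp only [map_mul, map_add, T.ev, e, ev_kk, Complex.re_ofReal_mul, Complex.add_re,
      Complex.ofReal_re]
  have b3 : (T.dr.ev (Ev.g2 (K.rs T) (T.θ * φ) (T.θ * φ))).re = T.τ * (T.τ * T.τ * G) := by
    rw [rs_g2, g2_θ]
    change (R.ev _).re = _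
    simp only [map_mul, T.ev, ← Complex.ofReal_mul, Complex.re_ofReal_mul, hG]
  rw [b1, b2, b3] at key
  exact lyh_num hτ hp hq n.cast_nonneg hY0 hG0 hK0 (Complex.normSq_nonneg c) rfl hN hN0 key

end KM

end

end Crest.Agent.T223.Cn
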