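import Crest.Agent.T223.CovOne_25

/-!
# T223, module COVER (helper25): Harnack bound, holomorphic inverses, the chart structure
-/

set_option autoImplicit false

open Set Filter Topology Complex MeasureTheory Metric
open scoped ContDiff Matrix ComplexConjugate ComplexOrder

namespace Crest.Agent.T223.Cov

open Crest.Agent.R275.Geo
open Crest.Agent.R273.Hess_333 Crest.Agent.R273.HessB_333

variable {n : ℕ}

/-- Harnack bound in one variable -/
theorem harn1 {f : ℂ → ℂ} {D : ℝ} (hf : DifferentiableOn ℂ f (ball 0 2))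
    (h0 : ∀ x ∈ ball (0 : ℂ) 2, f x ≠ 0) (hD : ∀ x ∈ ball (0 : ℂ) 2, ‖f x‖ ≤ D) :
    3 * Real.log ‖f 0‖ - 2 * Real.log D - 2 ≤ Real.log ‖f 1‖ := by
  have h00 : (0 : ℂ) ∈ ball (0 : ℂ) 2 := mem_ball_self (by norm_num)
  have h1 : (1 : ℂ) ∈ ball (0 : ℂ) 2 := by simp
  have hq : DifferentiableOn ℂ (fun x => deriv f x / f x) (ball 0 2) :=
    (hf.deriv isOpen_ball).div hf h0
  obtain ⟨L, hL0, hL⟩ := hq.isExactOn_ball.with_val_at 0 0
  have hLd : DifferentiableOn ℂ L (ball 0 2) := fun x hx =>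
    (hL x hx).differentiableAt.differentiableWithinAt
  have hG : ∀ x ∈ ball (0 : ℂ) 2, HasDerivAt (fun y => f y * exp (-L y)) 0 x := by
    intro x hx
    have h2 := ((hf x hx).differentiableAt (isOpen_ball.mem_nhds hx)).hasDerivAt
    have h3 := h2.mul (hL x hx).neg.cexp
    have h4 : deriv f x * cexp ((-L) x) + f x * (cexp ((-L) x) * -(deriv f x / f x)) = 0 := by
      have := h0 x hx
      field_simp
      ring
    rw [h4] at h3
    exact h3
  have hc : ∀ x ∈ ball (0 : ℂ) 2, Real.log ‖f x‖ = Real.log ‖f 0‖ + (L x).re := by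
    intro x hx
    have h2 := isOpen_ball.is_const_of_deriv_eq_zero (convex_ball (0 : ℂ) 2).isPreconnected
      (fun y hy => (hG y hy).differentiableAt.differentiableWithinAt)
      (fun y hy => (hG y hy).deriv) hx h00
    rw [hL0, neg_zero, Complex.exp_zero, mul_one] at h2
    rw [← h2, norm_mul, Real.log_mul (norm_ne_zero_iff.2 (h0 x hx))
      (norm_ne_zero_iff.2 (Complex.exp_ne_zero _)), Complex.norm_exp, Real.log_exp, neg_re]
    ring
  have hle : ∀ x ∈ ball (0 : ℂ) 2, Real.log ‖f x‖ ≤ Real.log D := fun x hx =>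
    Real.log_le_log (norm_pos_iff.2 (h0 x hx)) (hD x hx)
  have hM : 0 < Real.log D - Real.log ‖f 0‖ + 1 := by linarith [hle 0 h00]
  have hb := borelCaratheodory_zero hM hLd (fun x hx => by
    have := hc x hx
    have := hle x hx
    show (L x).re ≤ _
    linarith) (by norm_num) h1 hL0
  rw [norm_one] at hb
  have h2 := hc 1 h1
  have h3 := neg_le_abs (L 1).re
  have h4 := abs_re_le_norm (L 1)
  norm_num at hb
  linarith

/-- Harnack bound -/
theorem harn {h : Cn n → ℂ} {D : ℝ} (hf : DifferentiableOn ℂ h (ball 0 2))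
    (h0 : ∀ x ∈ ball (0 : Cn n) 2, h x ≠ 0) (hD : ∀ x ∈ ball (0 : Cn n) 2, ‖h x‖ ≤ D) {z : Cn n}
    (hz : ‖z‖ ≤ 1) : 3 * Real.log ‖h 0‖ - 2 * Real.log D - 2 ≤ Real.log ‖h z‖ := by
  have hm : MapsTo (fun ζ : ℂ => ζ • z) (ball 0 2) (ball 0 2) := by
    intro ζ hζ
    rw [mem_ball_zero_iff] at hζ ⊢
    rw [norm_smul]
    nlinarith [norm_nonneg ζ, norm_nonneg z]
  have := harn1 (f := fun ζ : ℂ => h (ζ • z)) (D := D) (hf.comp (by fun_prop) hm)
    (fun x hx => h0 _ (hm hx)) (fun x hx => hD _ (hm hx))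
  simpa using this

/-- holomorphic embeddings of the ball -/
structure Emb (χ : Cn n → Cn n) (r : ℝ) : Prop where
  diff : DifferentiableOn ℂ χ (ball 0 r)
  inj : InjOn χ (ball 0 r)
  det : ∀ w ∈ ball (0 : Cn n) r, (fderiv ℂ χ w).det ≠ 0

/-- the inverse of the embedding -/
noncomputable def inv (χ : Cn n → Cn n) (r : ℝ) : Cn n → Cn n := Function.invFunOn χ (ball 0 r)

theorem Emb.strict {χ : Cn n → Cn n} {r : ℝ} (h : Emb χ r) {w : Cn n} (hw : w ∈ ball 0 r) :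
    HasStrictFDerivAt χ ((fderiv ℂ χ w).toContinuousLinearEquivOfDetNeZero (h.det w hw) :
      Cn n →L[ℂ] Cn n) w := by
  rw [ContinuousLinearMap.coe_toContinuousLinearEquivOfDetNeZero]
  exact ((contDiffOn_hol isOpen_ball h.diff).contDiffAt
    (isOpen_ball.mem_nhds hw)).hasStrictFDerivAt (by simp)

theorem Emb.isOpen {χ : Cn n → Cn n} {r : ℝ} (h : Emb χ r) {V : Set (Cn n)} (hV : IsOpen V)
    (hVr : V ⊆ ball 0 r) : IsOpen (χ '' V) := by
  refine isOpen_iff_mem_nhds.2 ?_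
  rintro _ ⟨w, hw, rfl⟩
  rw [← (h.strict (hVr hw)).map_nhds_eq_of_equiv]
  exact image_mem_map (hV.mem_nhds hw)

theorem Emb.left {χ : Cn n → Cn n} {r : ℝ} (h : Emb χ r) {w : Cn n} (hw : w ∈ ball 0 r) :
    inv χ r (χ w) = w := h.inj.leftInvOn_invFunOn hw

theorem inv_mem {χ : Cn n → Cn n} {r : ℝ} {z : Cn n} (hz : z ∈ χ '' ball 0 r) :
    inv χ r z ∈ ball 0 r := Function.invFunOn_mem hz

theorem inv_right {χ : Cn n → Cn n} {r : ℝ} {z : Cn n} (hz : z ∈ χ '' ball 0 r) :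
    χ (inv χ r z) = z := Function.invFunOn_eq hz

theorem Emb.ev_left {χ : Cn n → Cn n} {r : ℝ} (h : Emb χ r) {w : Cn n} (hw : w ∈ ball 0 r) :
    ∀ᶠ x in 𝓝 w, inv χ r (χ x) = x :=
  eventually_of_mem (isOpen_ball.mem_nhds hw) fun _ hx => h.left hx

theorem Emb.inv_diff {χ : Cn n → Cn n} {r : ℝ} (h : Emb χ r) :
    DifferentiableOn ℂ (inv χ r) (χ '' ball 0 r) := by
  rintro _ ⟨w, hw, rfl⟩
  exact ((h.strict hw).to_local_left_inverse
    (h.ev_left hw)).hasFDerivAt.differentiableAt.differentiableWithinAt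

theorem Emb.det_inv {χ : Cn n → Cn n} {r : ℝ} (h : Emb χ r) {w : Cn n} (hw : w ∈ ball 0 r) :
    (fderiv ℂ (inv χ r) (χ w)).det * (fderiv ℂ χ w).det = 1 :=
  det_mul_of_inv ((h.diff w hw).differentiableAt (isOpen_ball.mem_nhds hw))
    ((h.inv_diff _ (mem_image_of_mem χ hw)).differentiableAt
      ((h.isOpen isOpen_ball subset_rfl).mem_nhds (mem_image_of_mem χ hw))) (h.ev_left hw)

variable {M : Type} [TopologicalSpace M]

theorem Ch.det_ne {ψ : Cn n → M} {r Λ : ℝ} (h : Ch ψ r Λ) {T : Cn n → Cn n} {U : Set (Cn n)}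
    (hU : IsOpen U) (hUr : U ⊆ ball 0 r) (hT : Deck ψ r T U) {w : Cn n} (hw : w ∈ U) :
    (fderiv ℂ T w).det ≠ 0 := by
  obtain ⟨δ, hδ, S, hS, hSw⟩ := h.germ (T w) (hT.maps hw) w (hUr hw) (hT.eq w hw)
  have hTw : DifferentiableAt ℂ T w := (hT.diff w hw).differentiableAt (hU.mem_nhds hw)
  have h1 : U ∩ T ⁻¹' ball (T w) δ ∈ 𝓝 w :=
    inter_mem (hU.mem_nhds hw) (hTw.continuousAt (ball_mem_nhds _ hδ))
  obtain ⟨ε, hε, hεs⟩ := Metric.mem_nhds_iff.1 h1
  have h2 : EqOn (S ∘ T) id (ball w ε) :=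
    h.uniqD (convex_ball w ε).isPreconnected
      (hS.comp (hT.mono fun x hx => (hεs hx).1) fun x hx => (hεs hx).2)
      (deck_id fun x hx => hUr (hεs hx).1) (mem_ball_self hε) hSw
  exact right_ne_zero_of_mul_eq_one (det_mul_of_inv hTw
    ((hS.diff _ (mem_ball_self hδ)).differentiableAt (ball_mem_nhds _ hδ))
    (eventually_of_mem (ball_mem_nhds w hε) h2))

/-- the chart structure of `Ψ ∘ χ` -/
theorem ch_of [T2Space M] {Ψ : Cn n → M} {χ : Cn n → Cn n} {r Λ : ℝ} (hΨ : IsLocalHomeomorph Ψ)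
    (hχ : Emb χ r)
    (hd : ∀ (U : Set (Cn n)) (θ : Cn n → Cn n), IsOpen U → ContinuousOn θ U →
      (∀ z ∈ U, Ψ (θ z) = Ψ z) → DifferentiableOn ℂ θ U)
    (hl : ∀ (U : Set (Cn n)) (θ : Cn n → Cn n), IsOpen U → U ⊆ ball 0 r →
      MapsTo θ U (ball 0 r) → DifferentiableOn ℂ θ U →
      (∀ w ∈ U, Ψ (χ (θ w)) = Ψ (χ w)) → ∀ w ∈ U, ‖fderiv ℂ θ w‖ ≤ Λ) :
    Ch (fun w => Ψ (χ w)) r (max Λ 1) where
  one := le_max_right _ _
  cont := hΨ.continuous.comp_continuousOn hχ.diff.continuousOn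
  uniq := by
    intro S θ θ' hS h1 h2 m1 m2 he a ha hea w hw
    have := (T2Space.isSeparatedMap Ψ).eqOn_of_comp_eqOn hΨ.isLocallyInjective hS
      (g₁ := χ ∘ θ) (g₂ := χ ∘ θ') (hχ.diff.continuousOn.comp h1 m1)
      (hχ.diff.continuousOn.comp h2 m2) he ha (by simp [hea])
    exact hχ.inj (m1 hw) (m2 hw) (this hw)
  germ := by
    intro y hy y' hy' he
    obtain ⟨e, he1, he2⟩ := hΨ (χ y')
    let U : Set (Cn n) := Ψ ⁻¹' e.target
    have hU : IsOpen U := e.open_target.preimage hΨ.continuous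
    let θ : Cn n → Cn n := fun z => e.symm (Ψ z)
    have hθc : ContinuousOn θ U :=
      e.continuousOn_symm.comp hΨ.continuous.continuousOn (mapsTo_preimage _ _)
    have hθe : ∀ z ∈ U, Ψ (θ z) = Ψ z := fun z hz => by
      have := e.right_inv hz
      rwa [← he2] at this
    have hθd := hd U θ hU hθc hθe
    have hyU : χ y ∈ U := by
      show Ψ (χ y) ∈ e.target
      rw [he, he2]; exact e.map_source he1
    have hθy : θ (χ y) = χ y' := by
      show e.symm (Ψ (χ y)) = χ y'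
      rw [he, he2]; exact e.left_inv he1
    have hO := hχ.isOpen isOpen_ball subset_rfl
    have hχy : ContinuousAt χ y := hχ.diff.continuousOn.continuousAt (isOpen_ball.mem_nhds hy)
    have hθy' : ContinuousAt θ (χ y) := hθc.continuousAt (hU.mem_nhds hyU)
    have h1 : ball 0 r ∩ χ ⁻¹' (U ∩ θ ⁻¹' (χ '' ball 0 r)) ∈ 𝓝 y := by
      refine inter_mem (isOpen_ball.mem_nhds hy) (hχy (inter_mem (hU.mem_nhds hyU) (hθy' ?_)))
      rw [hθy]
      exact hO.mem_nhds (mem_image_of_mem χ hy')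
    obtain ⟨δ, hδ, hδs⟩ := Metric.mem_nhds_iff.1 h1
    refine ⟨δ, hδ, inv χ r ∘ θ ∘ χ, ⟨?_, ?_, ?_⟩, ?_⟩
    · exact hχ.inv_diff.comp (hθd.comp (hχ.diff.mono fun x hx => (hδs hx).1)
        fun x hx => (hδs hx).2.1) fun x hx => (hδs hx).2.2
    · exact fun x hx => inv_mem (hδs hx).2.2
    · intro x hx
      show Ψ (χ (inv χ r (θ (χ x)))) = Ψ (χ x)
      rw [inv_right (hδs hx).2.2, hθe _ (hδs hx).2.1]
    · show inv χ r (θ (χ y)) = y'
      rw [hθy, hχ.left hy']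
  lip := fun U T hU hUr hT w hw => (hl U T hU hUr hT.maps hT.diff hT.eq w hw).trans
    (le_max_left _ _)

theorem det_comp_eq {F G F' G' : Cn n → Cn n} {w : Cn n} (hG : DifferentiableAt ℂ G w)
    (hF : DifferentiableAt ℂ F (G w)) (hG' : DifferentiableAt ℂ G' w)
    (hF' : DifferentiableAt ℂ F' (G' w)) (h : ∀ᶠ x in 𝓝 w, F (G x) = F' (G' x)) :
    (fderiv ℂ F (G w)).det * (fderiv ℂ G w).det =
      (fderiv ℂ F' (G' w)).det * (fderiv ℂ G' w).det := by
  have h1 : HasFDerivAt (F ∘ G) ((fderiv ℂ F (G w)).comp (fderiv ℂ G w)) w :=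
    hF.hasFDerivAt.comp w hG.hasFDerivAt
  have h2 : HasFDerivAt (F ∘ G) ((fderiv ℂ F' (G' w)).comp (fderiv ℂ G' w)) w :=
    (hF'.hasFDerivAt.comp w hG'.hasFDerivAt).congr_of_eventuallyEq h
  have h3 := congrArg ContinuousLinearMap.det (h1.unique h2)
  exact (LinearMap.det_comp (fderiv ℂ F (G w) : Cn n →ₗ[ℂ] Cn n)
    (fderiv ℂ G w : Cn n →ₗ[ℂ] Cn n)).symm.trans (h3.trans
      (LinearMap.det_comp (fderiv ℂ F' (G' w) : Cn n →ₗ[ℂ] Cn n)
        (fderiv ℂ G' w : Cn n →ₗ[ℂ] Cn n)))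

/-- invariance of the potential in the chart -/
theorem inv_pot {Ψ : Cn n → M} {χ : Cn n → Cn n} {u : Cn n → ℝ} {r Λ : ℝ} (hχ : Emb χ r)
    (hc : Ch (fun w => Ψ (χ w)) r Λ)
    (hd : ∀ (U : Set (Cn n)) (θ : Cn n → Cn n), IsOpen U → ContinuousOn θ U →
      (∀ z ∈ U, Ψ (θ z) = Ψ z) → DifferentiableOn ℂ θ U ∧
        ∀ z ∈ U, u (θ z) = u z + Real.log (‖(fderiv ℂ θ z).det‖ ^ 2))
    {V : Set (Cn n)} (hV : IsOpen V) (hVr : V ⊆ ball 0 r) {T : Cn n → Cn n}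
    (hT : Deck (fun w => Ψ (χ w)) r T V) {w : Cn n} (hw : w ∈ V) :
    u (χ (T w)) - Real.log (‖(fderiv ℂ χ (T w)).det‖ ^ 2) =
      u (χ w) - Real.log (‖(fderiv ℂ χ w).det‖ ^ 2) + Real.log (‖(fderiv ℂ T w).det‖ ^ 2) := by
  have hU := hχ.isOpen hV hVr
  have hm : MapsTo (inv χ r) (χ '' V) V := by
    rintro _ ⟨x, hx, rfl⟩
    rw [hχ.left (hVr hx)]; exact hx
  let θ : Cn n → Cn n := χ ∘ T ∘ inv χ r
  have hθc : ContinuousOn θ (χ '' V) :=
    hχ.diff.continuousOn.comp (hT.diff.continuousOn.comp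
      (hχ.inv_diff.continuousOn.mono (image_mono hVr)) hm) (hT.maps.comp hm)
  have hθχ : ∀ x ∈ V, θ (χ x) = χ (T x) := fun x hx => by
    show χ (T (inv χ r (χ x))) = _
    rw [hχ.left (hVr hx)]
  obtain ⟨h1, h2⟩ := hd _ θ hU hθc (by
    rintro _ ⟨x, hx, rfl⟩
    rw [hθχ x hx]; exact hT.eq x hx)
  have hwU : χ w ∈ χ '' V := mem_image_of_mem χ hw
  have h3 := h2 _ hwU
  rw [hθχ w hw] at h3
  have h4 := det_comp_eq (F := θ) (G := χ) (F' := χ) (G' := T) (w := w)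
    ((hχ.diff w (hVr hw)).differentiableAt (isOpen_ball.mem_nhds (hVr hw)))
    ((h1 _ hwU).differentiableAt (hU.mem_nhds hwU))
    ((hT.diff w hw).differentiableAt (hV.mem_nhds hw))
    ((hχ.diff _ (hT.maps hw)).differentiableAt (isOpen_ball.mem_nhds (hT.maps hw)))
    (eventually_of_mem (hV.mem_nhds hw) hθχ)
  have a1 := hχ.det w (hVr hw)
  have a2 := hχ.det _ (hT.maps hw)
  have a3 := hc.det_ne hV hVr hT hw
  have a4 : (fderiv ℂ θ (χ w)).det ≠ 0 := left_ne_zero_of_mul (h4 ▸ mul_ne_zero a2 a3)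
  have h5 := congrArg (fun z : ℂ => Real.log ‖z‖) h4
  simp only [norm_mul] at h5
  rw [Real.log_mul (norm_ne_zero_iff.2 a4) (norm_ne_zero_iff.2 a1),
    Real.log_mul (norm_ne_zero_iff.2 a2) (norm_ne_zero_iff.2 a3)] at h5
  simp only [Real.log_pow] at h3 ⊢
  push_cast at h3 ⊢
  linarith

end Crest.Agent.T223.Cov
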