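import Crest.Agent.T223.CovLift_25

/-!
# T223, module COVER (helper25): a deck map with a small finite orbit is the identity

The function `∑ ‖T i w‖ ^ 2` is invariant and strictly midpoint convex on a small ball; its
minimum point is a fixed point.
-/

set_option autoImplicit false

open Set Filter Topology Complex Metric Asymptotics

namespace Crest.Agent.T223.Cov

open Crest.Agent.R275.Geo

variable {n : ℕ} {M : Type}

/-- second order estimate at the midpoint -/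
theorem mid_est {T : Cn n → Cn n} {r s : ℝ} (hs : 0 < s) (hT : DifferentiableOn ℂ T (ball 0 s))
    (hm : MapsTo T (ball 0 s) (ball 0 r)) {m v : Cn n} (hm0 : ‖m‖ ≤ s / 2) (hv : ‖v‖ < s / 2) :
    ‖T (m + v) + T (m - v) - (2 : ℝ) • T m‖ ≤ 16 * r / s ^ 2 * ‖v‖ ^ 2 := by
  let g : Cn n → Cn n := fun x => T (m + x) + T (m - x) - (2 : ℝ) • T m
  have hp : MapsTo (fun x => m + x) (ball (0 : Cn n) (s / 2)) (ball 0 s) := by
    intro x hx
    rw [mem_ball_zero_iff] at hx ⊢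
    linarith [norm_add_le m x]
  have hq : MapsTo (fun x => m - x) (ball (0 : Cn n) (s / 2)) (ball 0 s) := by
    intro x hx
    rw [mem_ball_zero_iff] at hx ⊢
    linarith [norm_sub_le m x]
  have hm1 : m ∈ ball (0 : Cn n) s := by rw [mem_ball_zero_iff]; linarith
  have hg0 : g 0 = 0 := by simp [g, two_smul]
  have hgd : DifferentiableOn ℂ g (ball 0 (s / 2)) := by
    have h1 : DifferentiableOn ℂ (fun x => T (m + x)) (ball 0 (s / 2)) :=
      hT.comp (by fun_prop) hp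
    have h2 : DifferentiableOn ℂ (fun x => T (m - x)) (ball 0 (s / 2)) :=
      hT.comp (by fun_prop) hq
    exact (h1.add h2).sub_const _
  have hgm : MapsTo g (ball 0 (s / 2)) (closedBall (g 0) (4 * r)) := by
    intro x hx
    rw [hg0, mem_closedBall_zero_iff]
    have h1 := mem_ball_zero_iff.1 (hm (hp hx))
    have h2 := mem_ball_zero_iff.1 (hm (hq hx))
    have h3 := mem_ball_zero_iff.1 (hm hm1)
    have h4 : ‖g x‖ ≤ ‖T (m + x)‖ + ‖T (m - x)‖ + ‖(2 : ℝ) • T m‖ :=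
      (norm_sub_le _ _).trans (by linarith [norm_add_le (T (m + x)) (T (m - x))])
    rw [norm_smul, Real.norm_ofNat] at h4
    linarith
  have hTd : HasFDerivAt T (fderiv ℂ T m) m :=
    ((hT m hm1).differentiableAt (isOpen_ball.mem_nhds hm1)).hasFDerivAt
  have hgf : HasFDerivAt g (0 : Cn n →L[ℂ] Cn n) 0 := by
    have h1 : HasFDerivAt (fun x => T (m + x)) ((fderiv ℂ T m).comp (ContinuousLinearMap.id ℂ _))
        0 := by
      refine HasFDerivAt.comp (0 : Cn n) (g := T) (f := fun x => m + x) ?_ ?_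
      · simpa using hTd
      · exact (hasFDerivAt_id (0 : Cn n)).const_add m
    have h2 : HasFDerivAt (fun x => T (m - x))
        ((fderiv ℂ T m).comp (-ContinuousLinearMap.id ℂ _)) 0 := by
      refine HasFDerivAt.comp (0 : Cn n) (g := T) (f := fun x => m - x) ?_ ?_
      · simpa using hTd
      · exact (hasFDerivAt_id (0 : Cn n)).const_sub m
    have h3 := (h1.add h2).sub_const ((2 : ℝ) • T m)
    have h4 : (fderiv ℂ T m).comp (ContinuousLinearMap.id ℂ (Cn n)) +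
        (fderiv ℂ T m).comp (-ContinuousLinearMap.id ℂ (Cn n)) = 0 := by
      ext x; simp
    rw [h4] at h3
    exact h3
  have ho : (fun x => g x - g 0) =o[𝓝 0] fun w : Cn n => ‖w - 0‖ ^ 1 := by
    have := hgf.isLittleO.norm_right
    simpa only [zero_apply, sub_zero, pow_one] using this
  have key := dist_le_mul_div_pow_of_mapsTo_ball_of_isLittleO hgd hgm ho
    (mem_ball_zero_iff.2 hv)
  rw [hg0, dist_zero_right, dist_zero_right] at key
  refine key.trans_eq ?_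
  have h2 : ‖v‖ / (s / 2) = 2 * ‖v‖ / s := by field_simp
  rw [h2, show 1 + 1 = 2 from rfl, div_pow]
  ring

variable [TopologicalSpace M]

/-- deck maps on the ball of radius `s` -/
theorem Ch.lift0 [T2Space M] {ψ : Cn n → M} {r Λ s : ℝ} (h : Ch ψ r Λ) (hs : 0 < s)
    (hsr : 4 * Λ * s ≤ r) {y y' : Cn n} (hy : ‖y‖ < s) (hy' : ‖y'‖ < s) (he : ψ y = ψ y') :
    ∃ T, Deck ψ r T (ball 0 s) ∧ T y = y' := by
  have h1 := h.one
  have h2 : s ≤ Λ * s := by nlinarith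
  obtain ⟨T, hT, hTy⟩ := h.lift (y := y) (y' := y') (s := 2 * s) (by linarith) (by
    intro w hw
    rw [mem_closedBall, dist_eq_norm] at hw
    rw [mem_ball_zero_iff]
    have := norm_add_le (w - y) y
    rw [sub_add_cancel] at this
    linarith) (by
    intro w hw
    rw [mem_closedBall, dist_eq_norm] at hw
    rw [mem_ball_zero_iff]
    have := norm_add_le (w - y') y'
    rw [sub_add_cancel] at this
    linarith) he
  refine ⟨T, hT.mono ?_, hTy⟩
  intro w hw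
  rw [mem_ball_zero_iff] at hw
  rw [mem_ball, dist_eq_norm]
  linarith [norm_sub_le w y]

/-- numerical side conditions -/
structure Sm (r Λ s η : ℝ) : Prop where
  hs : 0 < s
  hsr : 4 * Λ * s ≤ r
  hη : 0 < η
  small : 100 * Λ ^ 5 * r * η < s ^ 2

theorem Sm.sr {r Λ s η : ℝ} (h : Sm r Λ s η) (h1 : 1 ≤ Λ) : 4 * s ≤ r := by
  have := h.hs; have := h.hsr; nlinarith

theorem Sm.pow5 {r Λ s η : ℝ} (h : Sm r Λ s η) (h1 : 1 ≤ Λ) : 80 * Λ ^ 5 * η < s := by
  have h2 := h.hs; have h3 := h.sr h1; have h4 := h.small; have h5 := h.hη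
  have h6 : 0 < 80 * Λ ^ 5 * η := by positivity
  by_contra hc
  push Not at hc
  nlinarith

theorem Sm.pow {r Λ s η : ℝ} (h : Sm r Λ s η) (h1 : 1 ≤ Λ) {k : ℕ} (hk : k ≤ 5) :
    80 * (Λ ^ k * η) < s := by
  have h2 := h.pow5 h1
  have h3 : Λ ^ k ≤ Λ ^ 5 := pow_le_pow_right₀ h1 hk
  have := h.hη
  nlinarith

theorem Sm.mono {r Λ s η : ℝ} (h : Sm r Λ s η) (h1 : 1 ≤ Λ) {k l : ℕ} (hk : k ≤ l) :
    Λ ^ k * η ≤ Λ ^ l * η :=
  mul_le_mul_of_nonneg_right (pow_le_pow_right₀ h1 hk) h.hη.le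

theorem Ch.small {ψ : Cn n → M} {r Λ s η : ℝ} (h : Ch ψ r Λ) (hS : Sm r Λ s η)
    {T : Cn n → Cn n} (hT : Deck ψ r T (ball 0 s)) {α : Cn n} (hα : ‖α‖ ≤ η) (hy : ‖T α‖ ≤ η)
    {w : Cn n} (hw : ‖w‖ < 4 * (Λ ^ 2 * η)) : ‖T w‖ ≤ 6 * (Λ ^ 3 * η) := by
  have h1 := h.one
  have e0 := hS.pow h1 (k := 0) (by norm_num)
  have e2 := hS.pow h1 (k := 2) (by norm_num)
  have m03 := hS.mono h1 (k := 0) (l := 3) (by norm_num)
  have m13 := hS.mono h1 (k := 1) (l := 3) (by norm_num)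
  have hη := hS.hη
  have hs := hS.hs
  simp only [pow_zero, one_mul, pow_one] at e0 m03 m13
  have hl := h.lipD isOpen_ball (convex_ball 0 s) (ball_subset_ball (by linarith [hS.sr h1])) hT
    (a := α) (b := w) (mem_ball_zero_iff.2 (by linarith)) (mem_ball_zero_iff.2 (by linarith))
  have h2 : ‖w - α‖ ≤ 4 * (Λ ^ 2 * η) + η := by linarith [norm_sub_le w α]
  have h3 : Λ * ‖w - α‖ ≤ Λ * (4 * (Λ ^ 2 * η) + η) := mul_le_mul_of_nonneg_left h2 (by linarith)
  have h4 := norm_add_le (T w - T α) (T α)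
  rw [sub_add_cancel] at h4
  have h5 : Λ * (4 * (Λ ^ 2 * η) + η) = 4 * (Λ ^ 3 * η) + Λ * η := by ring
  linarith

/-- a left inverse deck map -/
theorem Ch.inv [T2Space M] {ψ : Cn n → M} {r Λ s η : ℝ} (h : Ch ψ r Λ) (hS : Sm r Λ s η)
    {T : Cn n → Cn n} (hT : Deck ψ r T (ball 0 s)) {α : Cn n} (hα : ‖α‖ ≤ η) (hy : ‖T α‖ ≤ η) :
    ∃ S, Deck ψ r S (ball 0 s) ∧ ∀ w : Cn n, ‖w‖ < 4 * (Λ ^ 2 * η) → S (T w) = w := by
  have h1 := h.one
  have e0 := hS.pow h1 (k := 0) (by norm_num)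
  have e2 := hS.pow h1 (k := 2) (by norm_num)
  have e3 := hS.pow h1 (k := 3) (by norm_num)
  have m02 := hS.mono h1 (k := 0) (l := 2) (by norm_num)
  have hη := hS.hη
  have hs := hS.hs
  simp only [pow_zero, one_mul] at e0 m02
  have hαs : α ∈ ball (0 : Cn n) s := mem_ball_zero_iff.2 (by linarith)
  obtain ⟨S, hS', hSy⟩ := h.lift0 hS.hs hS.hsr (y := T α) (y' := α) (by linarith) (by linarith)
    (hT.eq α hαs)
  refine ⟨S, hS', fun w hw => ?_⟩
  have hsub : ball (0 : Cn n) (4 * (Λ ^ 2 * η)) ⊆ ball 0 s := ball_subset_ball (by linarith)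
  have hm : MapsTo T (ball (0 : Cn n) (4 * (Λ ^ 2 * η))) (ball 0 s) := fun x hx =>
    mem_ball_zero_iff.2 (by
      have := h.small hS hT hα hy (mem_ball_zero_iff.1 hx)
      linarith)
  exact h.uniqD (convex_ball 0 _).isPreconnected (hS'.comp (hT.mono hsub) hm)
    (deck_id (hsub.trans (ball_subset_ball (by linarith [hS.sr h1])))) (a := α)
    (mem_ball_zero_iff.2 (by linarith)) hSy (mem_ball_zero_iff.2 hw)

/-- lower Lipschitz bound -/
theorem Ch.low [T2Space M] {ψ : Cn n → M} {r Λ s η : ℝ} (h : Ch ψ r Λ) (hS : Sm r Λ s η)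
    {T : Cn n → Cn n} (hT : Deck ψ r T (ball 0 s)) {α : Cn n} (hα : ‖α‖ ≤ η) (hy : ‖T α‖ ≤ η)
    {a b : Cn n} (ha : ‖a‖ < 4 * (Λ ^ 2 * η)) (hb : ‖b‖ < 4 * (Λ ^ 2 * η)) :
    ‖a - b‖ ≤ Λ * ‖T a - T b‖ := by
  have h1 := h.one
  have e3 := hS.pow h1 (k := 3) (by norm_num)
  have hs := hS.hs
  obtain ⟨S, hS', hSe⟩ := h.inv hS hT hα hy
  have h2 := h.small hS hT hα hy ha
  have h3 := h.small hS hT hα hy hb
  have := h.lipD isOpen_ball (convex_ball 0 s) (ball_subset_ball (by linarith [hS.sr h1])) hS'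
    (a := T b) (b := T a) (mem_ball_zero_iff.2 (by linarith)) (mem_ball_zero_iff.2 (by linarith))
  rwa [hSe a ha, hSe b hb] at this

/-- strict midpoint convexity of `‖T w‖ ^ 2` -/
theorem Ch.conv [T2Space M] {ψ : Cn n → M} {r Λ s η : ℝ} (h : Ch ψ r Λ) (hS : Sm r Λ s η)
    {T : Cn n → Cn n} (hT : Deck ψ r T (ball 0 s)) {α : Cn n} (hα : ‖α‖ ≤ η) (hy : ‖T α‖ ≤ η)
    {m v : Cn n} (ha : ‖m + v‖ < 4 * (Λ ^ 2 * η)) (hb : ‖m - v‖ < 4 * (Λ ^ 2 * η)) (hv : v ≠ 0) :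
    2 * ‖T m‖ ^ 2 < ‖T (m + v)‖ ^ 2 + ‖T (m - v)‖ ^ 2 := by
  have h1 := h.one
  have e2 := hS.pow h1 (k := 2) (by norm_num)
  have hs := hS.hs
  have hη := hS.hη
  have hr : 0 < r := by linarith [hS.sr h1]
  have hm : ‖m‖ < 4 * (Λ ^ 2 * η) := by
    have : (2 : ℝ) • m = (m + v) + (m - v) := by rw [two_smul]; abel
    have h2 := norm_add_le (m + v) (m - v)
    rw [← this, norm_smul, Real.norm_ofNat] at h2
    linarith
  have hv2 : (m + v) - (m - v) = (2 : ℝ) • v := by rw [two_smul]; abel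
  have hv1 : ‖v‖ < 4 * (Λ ^ 2 * η) := by
    have h2 := norm_sub_le (m + v) (m - v)
    rw [hv2, norm_smul, Real.norm_ofNat] at h2
    linarith
  have hmid := mid_est hs hT.diff hT.maps (m := m) (v := v) (by linarith) (by linarith)
  have hlow := h.low hS hT hα hy ha hb
  rw [hv2, norm_smul, Real.norm_ofNat] at hlow
  have hTm := h.small hS hT hα hy hm
  have hpar := parallelogram_law_with_norm ℂ (T (m + v)) (T (m - v))
  set A := T (m + v)
  set B := T (m - v)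
  set q := 16 * r / s ^ 2 * ‖v‖ ^ 2 with hq
  have hq0 : 0 ≤ q := by positivity
  have hv0 : 0 < ‖v‖ := norm_pos_iff.2 hv
  have h3 : 2 * ‖T m‖ - q ≤ ‖A + B‖ := by
    have h4 := norm_sub_le (A + B) (A + B - (2 : ℝ) • T m)
    rw [sub_sub_cancel, norm_smul, Real.norm_ofNat] at h4
    linarith
  have hp0 := norm_nonneg (T m)
  have h4 : 4 * ‖T m‖ ^ 2 - 4 * ‖T m‖ * q ≤ ‖A + B‖ ^ 2 := by
    by_cases hc : q ≤ 2 * ‖T m‖
    · have : (2 * ‖T m‖ - q) ^ 2 ≤ ‖A + B‖ ^ 2 := pow_le_pow_left₀ (by linarith) h3 2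
      nlinarith
    · push Not at hc
      have h5 : ‖T m‖ ≤ q := by linarith
      nlinarith [sq_nonneg ‖A + B‖]
  have h5 : 4 * ‖v‖ ^ 2 ≤ Λ ^ 2 * ‖A - B‖ ^ 2 := by
    have : (2 * ‖v‖) ^ 2 ≤ (Λ * ‖A - B‖) ^ 2 := pow_le_pow_left₀ (by positivity) hlow 2
    nlinarith
  have h6 : 4 * ‖T m‖ * q < ‖A - B‖ ^ 2 := by
    have hΛ : 0 < Λ ^ 2 := by positivity
    have h7 : 4 * ‖T m‖ * q ≤ 4 * (6 * (Λ ^ 3 * η)) * q := by gcongr
    have h8 : Λ ^ 2 * (4 * (6 * (Λ ^ 3 * η)) * q) < 4 * ‖v‖ ^ 2 := by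
      have h10 : Λ ^ 2 * (4 * (6 * (Λ ^ 3 * η)) * q)
          = (96 * Λ ^ 5 * r * η) / s ^ 2 * (4 * ‖v‖ ^ 2) := by rw [hq]; ring
      have h11 : (96 * Λ ^ 5 * r * η) / s ^ 2 < 1 := by
        rw [div_lt_one (by positivity)]
        have := hS.small
        have : 0 < Λ ^ 5 * r * η := by positivity
        nlinarith
      rw [h10]
      exact mul_lt_of_lt_one_left (by positivity) h11
    have h9 : Λ ^ 2 * (4 * ‖T m‖ * q) < Λ ^ 2 * ‖A - B‖ ^ 2 :=
      lt_of_le_of_lt (mul_le_mul_of_nonneg_left h7 hΛ.le) (lt_of_lt_of_le h8 h5)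
    exact lt_of_mul_lt_mul_left h9 hΛ.le
  nlinarith

/-- FIX: a small periodic orbit is trivial -/
theorem Ch.fix [T2Space M] {ψ : Cn n → M} {r Λ s η : ℝ} (h : Ch ψ r Λ) (hS : Sm r Λ s η)
    {α : Cn n} (hα : ‖α‖ ≤ η) {P : Cn n → Cn n} (hP : Deck ψ r P (ball 0 s)) (hβ : ‖P α‖ ≤ η)
    {T : ℕ → Cn n → Cn n} {k l : ℕ} (hkl : k < l) (hT : ∀ i ≤ l, Deck ψ r (T i) (ball 0 s))
    (hy : ∀ i ≤ l, ‖T i α‖ ≤ η) (hst : ∀ i < l, T (i + 1) α = T i (P α)) (he : T k α = T l α) :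
    P α = α := by
  have h1 := h.one
  have e0 := hS.pow h1 (k := 0) (by norm_num)
  have e2 := hS.pow h1 (k := 2) (by norm_num)
  have e3 := hS.pow h1 (k := 3) (by norm_num)
  have m02 := hS.mono h1 (k := 0) (l := 2) (by norm_num)
  have m12 := hS.mono h1 (k := 1) (l := 2) (by norm_num)
  have hη := hS.hη
  have hs := hS.hs
  have hsr := hS.sr h1
  simp only [pow_zero, one_mul, pow_one] at e0 m02 m12
  set ρ := Λ ^ 2 * η with hρ
  have hαs : α ∈ ball (0 : Cn n) s := mem_ball_zero_iff.2 (by linarith)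
  have hsub : ball (0 : Cn n) (4 * ρ) ⊆ ball 0 s := ball_subset_ball (by linarith)
  have hPm : MapsTo P (ball (0 : Cn n) (4 * ρ)) (ball 0 s) := fun x hx =>
    mem_ball_zero_iff.2 (by
      have := h.small hS hP hα hβ (mem_ball_zero_iff.1 hx)
      linarith)
  have hcomp : ∀ i < l, EqOn (T (i + 1)) (T i ∘ P) (ball 0 (4 * ρ)) := fun i hi =>
    h.uniqD (convex_ball 0 _).isPreconnected ((hT (i + 1) hi).mono hsub)
      ((hT i hi.le).comp (hP.mono hsub) hPm) (a := α) (mem_ball_zero_iff.2 (by linarith))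
      (hst i hi)
  have hkl' : EqOn (T k) (T l) (ball 0 s) :=
    h.uniqD (convex_ball 0 _).isPreconnected (hT k hkl.le) (hT l le_rfl) hαs he
  let f : Cn n → ℝ := fun w => ∑ i ∈ Finset.Ico k l, ‖T i w‖ ^ 2
  have hfP : ∀ w ∈ ball (0 : Cn n) (4 * ρ), f (P w) = f w := by
    intro w hw
    have h2 : f (P w) = ∑ i ∈ Finset.Ico k l, ‖T (i + 1) w‖ ^ 2 :=
      Finset.sum_congr rfl fun i hi => by rw [hcomp i (Finset.mem_Ico.1 hi).2 hw]; rfl
    have h3 := Finset.sum_Ico_add' (fun i => ‖T i w‖ ^ 2) k l 1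
    have h4 := Finset.sum_eq_sum_Ico_succ_bot (f := fun i => ‖T i w‖ ^ 2)
      (show k < l + 1 by omega)
    have h5 := Finset.sum_Ico_succ_top (f := fun i => ‖T i w‖ ^ 2) hkl.le
    have h6 : T k w = T l w := hkl' (hsub hw)
    rw [h2, h3]
    simp only [f]
    rw [h6] at h4
    linarith
  have hcb : closedBall (0 : Cn n) (3 * ρ) ⊆ ball 0 (4 * ρ) :=
    closedBall_subset_ball (by linarith)
  have hfc : ContinuousOn f (closedBall 0 (3 * ρ)) := by
    refine continuousOn_finsetSum _ fun i hi => ?_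
    exact (((hT i (Finset.mem_Ico.1 hi).2.le).diff.continuousOn.mono (hcb.trans hsub)).norm).pow 2
  have hα3 : α ∈ closedBall (0 : Cn n) (3 * ρ) := mem_closedBall_zero_iff.2 (by linarith)
  obtain ⟨a, ha, hmin⟩ := (isCompact_closedBall (0 : Cn n) (3 * ρ)).exists_isMinOn ⟨α, hα3⟩ hfc
  have ha4 : ‖a‖ < 4 * ρ := mem_ball_zero_iff.1 (hcb ha)
  have hne : (Finset.Ico k l).Nonempty := ⟨k, Finset.mem_Ico.2 ⟨le_rfl, hkl⟩⟩
  obtain ⟨i, hi, hia⟩ : ∃ i ∈ Finset.Ico k l, ‖T i a‖ ^ 2 ≤ ‖T i α‖ ^ 2 :=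
    Finset.exists_le_of_sum_le hne (hmin hα3)
  have hil : i ≤ l := (Finset.mem_Ico.1 hi).2.le
  have hia' : ‖T i a‖ ≤ η := ((sq_le_sq₀ (norm_nonneg _) (norm_nonneg _)).1 hia).trans (hy i hil)
  have haα : ‖a - α‖ ≤ 2 * (Λ * η) := by
    have h2 := h.low hS (hT i hil) hα (hy i hil) ha4 (b := α) (by linarith)
    have h3 : ‖T i a - T i α‖ ≤ 2 * η := by linarith [norm_sub_le (T i a) (T i α), hy i hil]
    have h4 : Λ * ‖T i a - T i α‖ ≤ Λ * (2 * η) := mul_le_mul_of_nonneg_left h3 (by linarith)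
    linarith
  have hb : P a ∈ closedBall (0 : Cn n) (3 * ρ) := by
    rw [mem_closedBall_zero_iff]
    have h2 := h.lipD isOpen_ball (convex_ball 0 s) (ball_subset_ball (by linarith)) hP
      (a := α) (b := a) hαs (hsub (hcb ha))
    have h3 : Λ * ‖a - α‖ ≤ Λ * (2 * (Λ * η)) := mul_le_mul_of_nonneg_left haα (by linarith)
    have h4 := norm_add_le (P a - P α) (P α)
    rw [sub_add_cancel] at h4
    have h5 : Λ * (2 * (Λ * η)) = 2 * ρ := by rw [hρ]; ring
    linarith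
  have hfix : P a = a := by
    by_contra hne'
    set m : Cn n := (1 / 2 : ℝ) • (a + P a) with hm
    set v : Cn n := (1 / 2 : ℝ) • (a - P a) with hv
    have e1 : m + v = a := by rw [hm, hv]; module
    have e2' : m - v = P a := by rw [hm, hv]; module
    have hv0 : v ≠ 0 := by
      intro h0
      rw [h0, add_zero] at e1
      rw [h0, sub_zero] at e2'
      exact hne' (e2'.symm.trans e1)
    have hm3 : m ∈ closedBall (0 : Cn n) (3 * ρ) := by
      rw [hm, smul_add]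
      exact convex_closedBall (0 : Cn n) (3 * ρ) ha hb (by norm_num) (by norm_num) (by norm_num)
    have h2 : ∑ i ∈ Finset.Ico k l, 2 * ‖T i m‖ ^ 2
        < ∑ i ∈ Finset.Ico k l, (‖T i a‖ ^ 2 + ‖T i (P a)‖ ^ 2) := by
      refine Finset.sum_lt_sum_of_nonempty hne fun i hi => ?_
      have hil : i ≤ l := (Finset.mem_Ico.1 hi).2.le
      have := h.conv hS (hT i hil) hα (hy i hil) (m := m) (v := v) (by rw [e1]; exact ha4)
        (by rw [e2']; exact mem_ball_zero_iff.1 (hcb hb)) hv0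
      rwa [e1, e2'] at this
    rw [← Finset.mul_sum, Finset.sum_add_distrib] at h2
    have h3 : f a ≤ f m := hmin hm3
    have h4 := hfP a (hcb ha)
    simp only [f] at h3 h4
    linarith
  exact h.uniqD (convex_ball 0 s).isPreconnected hP (deck_id (ball_subset_ball (by linarith)))
    (hsub (hcb ha)) hfix hαs

end Crest.Agent.T223.Cov
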