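import Crest.Agent.R273.HessB_333

/-!
# T223, module COVER (helper25): lifting of deck maps in one chart

`Ch ψ r Λ` : `ψ` is a map of the ball of radius `r` whose local deck maps exist, are unique,
holomorphic and `Λ`-Lipschitz.  `Ch.lift` : deck maps extend to balls of definite size.
-/

set_option autoImplicit false

open Set Filter Topology Complex Metric
open scoped NNReal

namespace Crest.Agent.T223.Cov

open Crest.Agent.R275.Geo

variable {n : ℕ} {M : Type}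

/-- holomorphic deck map on `U` -/
structure Deck (ψ : Cn n → M) (r : ℝ) (T : Cn n → Cn n) (U : Set (Cn n)) : Prop where
  diff : DifferentiableOn ℂ T U
  maps : MapsTo T U (ball 0 r)
  eq : ∀ w ∈ U, ψ (T w) = ψ w

/-- one chart -/
structure Ch [TopologicalSpace M] (ψ : Cn n → M) (r Λ : ℝ) : Prop where
  one : 1 ≤ Λ
  cont : ContinuousOn ψ (ball 0 r)
  uniq : ∀ (S : Set (Cn n)) (θ θ' : Cn n → Cn n), IsPreconnected S → ContinuousOn θ S →
    ContinuousOn θ' S → MapsTo θ S (ball 0 r) → MapsTo θ' S (ball 0 r) →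
    (∀ w ∈ S, ψ (θ w) = ψ (θ' w)) → ∀ a ∈ S, θ a = θ' a → EqOn θ θ' S
  germ : ∀ y ∈ ball (0 : Cn n) r, ∀ y' ∈ ball (0 : Cn n) r, ψ y = ψ y' →
    ∃ δ, 0 < δ ∧ ∃ T, Deck ψ r T (ball y δ) ∧ T y = y'
  lip : ∀ (U : Set (Cn n)) (T : Cn n → Cn n), IsOpen U → U ⊆ ball 0 r → Deck ψ r T U →
    ∀ w ∈ U, ‖fderiv ℂ T w‖ ≤ Λ

theorem Deck.mono {ψ : Cn n → M} {r : ℝ} {T : Cn n → Cn n} {U V : Set (Cn n)}
    (h : Deck ψ r T U) (hV : V ⊆ U) : Deck ψ r T V :=
  ⟨h.diff.mono hV, h.maps.mono_left hV, fun w hw => h.eq w (hV hw)⟩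

theorem Deck.comp {ψ : Cn n → M} {r : ℝ} {T S : Cn n → Cn n} {U V : Set (Cn n)}
    (hS : Deck ψ r S V) (hT : Deck ψ r T U) (h : MapsTo T U V) : Deck ψ r (S ∘ T) U :=
  ⟨hS.diff.comp hT.diff h, hS.maps.comp h, fun w hw => by
    rw [Function.comp_apply, hS.eq _ (h hw), hT.eq w hw]⟩

theorem deck_id {ψ : Cn n → M} {r : ℝ} {U : Set (Cn n)} (hU : U ⊆ ball 0 r) :
    Deck ψ r id U :=
  ⟨differentiableOn_id, fun _ hw => hU hw, fun _ _ => rfl⟩

/-- gluing of deck maps -/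
theorem deck_glue {ψ : Cn n → M} {r : ℝ} {ι : Type} (U : ι → Set (Cn n))
    (T : ι → Cn n → Cn n) (hU : ∀ i, IsOpen (U i)) (hT : ∀ i, Deck ψ r (T i) (U i))
    (hc : ∀ i j, ∀ w ∈ U i, w ∈ U j → T i w = T j w) :
    ∃ S, Deck ψ r S (⋃ i, U i) ∧ ∀ i, EqOn S (T i) (U i) := by
  classical
  let S : Cn n → Cn n := fun w => if h : ∃ i, w ∈ U i then T h.choose w else w
  have hS : ∀ i, EqOn S (T i) (U i) := by
    intro i w hw
    have h : ∃ i, w ∈ U i := ⟨i, hw⟩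
    simp only [S, dif_pos h]
    exact hc _ _ w h.choose_spec hw
  refine ⟨S, ⟨?_, ?_, ?_⟩, hS⟩
  · intro w hw
    obtain ⟨i, hi⟩ := mem_iUnion.1 hw
    have h1 : DifferentiableAt ℂ (T i) w := ((hT i).diff w hi).differentiableAt ((hU i).mem_nhds hi)
    have h2 : S =ᶠ[𝓝 w] T i := eventually_of_mem ((hU i).mem_nhds hi) (hS i)
    exact (h1.congr_of_eventuallyEq h2).differentiableWithinAt
  · intro w hw
    obtain ⟨i, hi⟩ := mem_iUnion.1 hw
    rw [hS i hi]; exact (hT i).maps hi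
  · intro w hw
    obtain ⟨i, hi⟩ := mem_iUnion.1 hw
    rw [hS i hi]; exact (hT i).eq w hi

variable [TopologicalSpace M]

theorem Ch.uniqD {ψ : Cn n → M} {r Λ : ℝ} (h : Ch ψ r Λ) {T S : Cn n → Cn n} {U : Set (Cn n)}
    (hU : IsPreconnected U) (hT : Deck ψ r T U) (hS : Deck ψ r S U) {a : Cn n} (ha : a ∈ U)
    (he : T a = S a) : EqOn T S U :=
  h.uniq U T S hU hT.diff.continuousOn hS.diff.continuousOn hT.maps hS.maps
    (fun w hw => by rw [hT.eq w hw, hS.eq w hw]) a ha he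

theorem Ch.lipD {ψ : Cn n → M} {r Λ : ℝ} (h : Ch ψ r Λ) {T : Cn n → Cn n} {U : Set (Cn n)}
    (hU : IsOpen U) (hc : Convex ℝ U) (hUr : U ⊆ ball 0 r) (hT : Deck ψ r T U) {a b : Cn n}
    (ha : a ∈ U) (hb : b ∈ U) : ‖T b - T a‖ ≤ Λ * ‖b - a‖ :=
  hc.norm_image_sub_le_of_norm_fderiv_le (𝕜 := ℂ)
    (fun x hx => (hT.diff x hx).differentiableAt (hU.mem_nhds hx)) (h.lip U T hU hUr hT) ha hb

/-- a continuous deck map on a closed ball extends to a larger open ball -/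
theorem Ch.ext {ψ : Cn n → M} {r Λ : ℝ} (h : Ch ψ r Λ) {y : Cn n} {ρ : ℝ} (hρ : 0 ≤ ρ)
    (hy : closedBall y ρ ⊆ ball 0 r) {θ : Cn n → Cn n} (hθ : ContinuousOn θ (closedBall y ρ))
    (hm : MapsTo θ (closedBall y ρ) (ball 0 r)) (he : ∀ w ∈ closedBall y ρ, ψ (θ w) = ψ w) :
    ∃ ρ', ρ < ρ' ∧ ∃ T, Deck ψ r T (ball y ρ') ∧ T y = θ y := by
  have hg : ∀ p : closedBall y ρ, ∃ δ, 0 < δ ∧ ∃ T, Deck ψ r T (ball p.1 δ) ∧ T p.1 = θ p.1 :=
    fun p => h.germ p.1 (hy p.2) (θ p.1) (hm p.2) (he p.1 p.2).symm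
  choose δ hδ T hT hTp using hg
  have h1 : ∀ p : closedBall y ρ, EqOn (T p) θ (ball p.1 (δ p) ∩ closedBall y ρ) := by
    intro p
    refine h.uniq _ _ _ ((convex_ball _ _).inter (convex_closedBall _ _)).isPreconnected
      ((hT p).diff.continuousOn.mono inter_subset_left) (hθ.mono inter_subset_right)
      ((hT p).maps.mono_left inter_subset_left) (hm.mono_left inter_subset_right) ?_ p.1
      ⟨mem_ball_self (hδ p), p.2⟩ (hTp p)
    intro w hw
    rw [(hT p).eq w hw.1, he w hw.2]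
  have h2 : ∀ p q : closedBall y ρ, ∀ w ∈ ball p.1 (δ p), w ∈ ball q.1 (δ q) → T p w = T q w := by
    intro p q w hwp hwq
    have hd : dist p.1 q.1 < δ p + δ q := by
      have := dist_triangle p.1 w q.1
      rw [mem_ball] at hwp hwq
      rw [dist_comm] at hwp
      linarith
    have hsum : 0 < δ p + δ q := by linarith [hδ p, hδ q]
    set t : ℝ := δ p / (δ p + δ q) with ht
    have ht0 : 0 < t := div_pos (hδ p) hsum
    have ht1 : 1 - t = δ q / (δ p + δ q) := by rw [ht]; field_simp; ring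
    have ht2 : 0 < 1 - t := by rw [ht1]; exact div_pos (hδ q) hsum
    set m : Cn n := AffineMap.lineMap p.1 q.1 t with hm'
    have hm1 : m ∈ ball p.1 (δ p) := by
      rw [mem_ball, hm', dist_lineMap_left, Real.norm_eq_abs, abs_of_pos ht0, ht,
        div_mul_eq_mul_div, div_lt_iff₀ hsum]
      exact mul_lt_mul_of_pos_left hd (hδ p)
    have hm2 : m ∈ ball q.1 (δ q) := by
      rw [mem_ball, hm', dist_lineMap_right, Real.norm_eq_abs, abs_of_pos ht2, ht1,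
        div_mul_eq_mul_div, div_lt_iff₀ hsum]
      exact mul_lt_mul_of_pos_left hd (hδ q)
    have hm3 : m ∈ closedBall y ρ :=
      (convex_closedBall y ρ).lineMap_mem p.2 q.2 ⟨ht0.le, by linarith⟩
    have := h.uniqD ((convex_ball p.1 (δ p)).inter (convex_ball q.1 (δ q))).isPreconnected
      ((hT p).mono inter_subset_left) ((hT q).mono inter_subset_right) (a := m) ⟨hm1, hm2⟩
      (by rw [h1 p ⟨hm1, hm3⟩, h1 q ⟨hm2, hm3⟩])
    exact this ⟨hwp, hwq⟩
  obtain ⟨S, hS, hSe⟩ := deck_glue (fun p : closedBall y ρ => ball p.1 (δ p)) T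
    (fun _ => isOpen_ball) hT h2
  have hsub : closedBall y ρ ⊆ ⋃ p : closedBall y ρ, ball p.1 (δ p) := fun w hw =>
    mem_iUnion.2 ⟨⟨w, hw⟩, mem_ball_self (hδ _)⟩
  obtain ⟨ε, hε, hεs⟩ := (isCompact_closedBall y ρ).exists_thickening_subset_open
    (isOpen_iUnion fun _ => isOpen_ball) hsub
  rw [thickening_closedBall hε hρ] at hεs
  refine ⟨ε + ρ, by linarith, S, hS.mono hεs, ?_⟩
  have hy0 : y ∈ closedBall y ρ := mem_closedBall_self hρ
  rw [hSe ⟨y, hy0⟩ (mem_ball_self (hδ _))]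
  exact hTp ⟨y, hy0⟩

/-- a deck map on an open ball extends continuously to the closed ball -/
theorem Ch.close [T2Space M] {ψ : Cn n → M} {r Λ : ℝ} (h : Ch ψ r Λ) {y : Cn n} {ρ : ℝ}
    (hρ : 0 < ρ) (hy : closedBall y ρ ⊆ ball 0 r) {T : Cn n → Cn n} (hT : Deck ψ r T (ball y ρ))
    (hy' : closedBall (T y) (Λ * ρ) ⊆ ball 0 r) :
    ∃ θ : Cn n → Cn n, ContinuousOn θ (closedBall y ρ) ∧ MapsTo θ (closedBall y ρ) (ball 0 r) ∧
      (∀ w ∈ closedBall y ρ, ψ (θ w) = ψ w) ∧ θ y = T y := by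
  have hΛ : 0 ≤ Λ := le_trans zero_le_one h.one
  have hb : ball y ρ ⊆ ball 0 r := ball_subset_closedBall.trans hy
  have hl : LipschitzOnWith (⟨Λ, hΛ⟩ : ℝ≥0) T (ball y ρ) := by
    refine LipschitzOnWith.of_dist_le_mul fun a ha b hb' => ?_
    rw [dist_eq_norm, dist_eq_norm]
    exact h.lipD isOpen_ball (convex_ball _ _) hb hT hb' ha
  obtain ⟨g, hg, hge⟩ := hl.extend_finite_dimension
  have hcl : closure (ball y ρ) = closedBall y ρ := closure_ball y hρ.ne'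
  have hm : MapsTo g (closedBall y ρ) (closedBall (T y) (Λ * ρ)) := by
    rw [← hcl, ← (isClosed_closedBall (x := T y) (ε := Λ * ρ)).closure_eq]
    refine MapsTo.closure ?_ hg.continuous
    intro w hw
    rw [← hge hw, mem_closedBall, dist_eq_norm]
    refine (h.lipD isOpen_ball (convex_ball _ _) hb hT (mem_ball_self hρ) hw).trans ?_
    rw [mem_ball, dist_eq_norm] at hw
    exact mul_le_mul_of_nonneg_left hw.le hΛ
  have hm' : MapsTo g (closedBall y ρ) (ball 0 r) := hm.mono_right hy'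
  refine ⟨g, hg.continuous.continuousOn, hm', ?_, (hge (mem_ball_self hρ)).symm⟩
  have h1 : ContinuousOn (ψ ∘ g) (closedBall y ρ) := h.cont.comp hg.continuous.continuousOn hm'
  have h2 : ContinuousOn ψ (closedBall y ρ) := h.cont.mono hy
  have h3 : EqOn (ψ ∘ g) ψ (ball y ρ) := fun w hw => by
    rw [Function.comp_apply, ← hge hw, hT.eq w hw]
  exact h3.of_subset_closure h1 h2 ball_subset_closedBall hcl.symm.subset

/-- LIFT: deck maps exist on balls of definite size -/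
theorem Ch.lift [T2Space M] {ψ : Cn n → M} {r Λ : ℝ} (h : Ch ψ r Λ) {y y' : Cn n} {s : ℝ}
    (hs : 0 < s) (hy : closedBall y s ⊆ ball 0 r) (hy' : closedBall y' (Λ * s) ⊆ ball 0 r)
    (he : ψ y = ψ y') : ∃ T, Deck ψ r T (ball y s) ∧ T y = y' := by
  have hΛ : 0 ≤ Λ := le_trans zero_le_one h.one
  let A : Set ℝ := {ρ | 0 < ρ ∧ ρ ≤ s ∧ ∃ T, Deck ψ r T (ball y ρ) ∧ T y = y'}
  have hAb : BddAbove A := ⟨s, fun ρ hρ => hρ.2.1⟩
  have hAn : A.Nonempty := by
    obtain ⟨δ, hδ, T, hT, hTy⟩ := h.germ y (hy (mem_closedBall_self hs.le)) y'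
      (hy' (mem_closedBall_self (by positivity))) he
    exact ⟨min δ s, lt_min hδ hs, min_le_right _ _, T,
      hT.mono (ball_subset_ball (min_le_left _ _)), hTy⟩
  have hpos : 0 < sSup A := by
    obtain ⟨ρ, hρ⟩ := hAn
    exact lt_of_lt_of_le hρ.1 (le_csSup hAb hρ)
  have hle : sSup A ≤ s := csSup_le hAn fun ρ hρ => hρ.2.1
  have hsup : ∃ T, Deck ψ r T (ball y (sSup A)) ∧ T y = y' := by
    have hg : ∀ ρ : A, ∃ T, Deck ψ r T (ball y ρ.1) ∧ T y = y' := fun ρ => ρ.2.2.2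
    choose T hT hTy using hg
    obtain ⟨S, hS, hSe⟩ := deck_glue (fun ρ : A => ball y ρ.1) T (fun _ => isOpen_ball) hT (by
      intro p q w hwp hwq
      have := h.uniqD ((convex_ball y p.1).inter (convex_ball y q.1)).isPreconnected
        ((hT p).mono inter_subset_left) ((hT q).mono inter_subset_right) (a := y)
        ⟨mem_ball_self p.2.1, mem_ball_self q.2.1⟩ (by rw [hTy, hTy])
      exact this ⟨hwp, hwq⟩)
    refine ⟨S, hS.mono ?_, ?_⟩
    · intro w hw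
      obtain ⟨ρ, hρ, hlt⟩ := exists_lt_of_lt_csSup hAn (mem_ball.1 hw)
      exact mem_iUnion.2 ⟨⟨ρ, hρ⟩, hlt⟩
    · obtain ⟨ρ, hρ⟩ := hAn
      rw [hSe ⟨ρ, hρ⟩ (mem_ball_self hρ.1), hTy]
  rcases hle.eq_or_lt with heq | hlt
  · rwa [heq] at hsup
  · exfalso
    obtain ⟨T, hT, hTy⟩ := hsup
    have hy1 : closedBall y (sSup A) ⊆ ball 0 r := (closedBall_subset_closedBall hle).trans hy
    obtain ⟨θ, h1, h2, h3, h4⟩ := h.close hpos hy1 hT (by
      rw [hTy]
      exact (closedBall_subset_closedBall (mul_le_mul_of_nonneg_left hle hΛ)).trans hy')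
    obtain ⟨ρ', hρ', S, hS, hSy⟩ := h.ext hpos.le hy1 h1 h2 h3
    have : min ρ' s ∈ A := ⟨lt_min (hpos.trans hρ') hs, min_le_right _ _, S,
      hS.mono (ball_subset_ball (min_le_left _ _)), by rw [hSy, h4, hTy]⟩
    have h5 := le_csSup hAb this
    have h6 : sSup A < min ρ' s := lt_min hρ' hlt
    linarith

end Crest.Agent.T223.Cov
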