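import Crest.Agent.R273.FIa0_597
import Crest.Agent.R273.FS_333

/-!
# T223, module COVER, part 1 (helper25): Monge-Ampere mass of a bounded smooth psh function

* `int_wd_zero` : the integral of a Wirtinger derivative of a compactly supported function vanishes
* `null_lag`    : `∫ (det (κ + ∂∂̄φ) - κⁿ) = 0` for `φ` smooth with compact support
* `mass_le`     : `v` smooth psh on `B(0,r)`, `v ≤ A`, `v ≥ -B` on `E ⊆ B(0,r/4)` gives
  `∫_E det ∂∂̄v ≤ (6 (A+B+2)/r²)ⁿ vol B(0,r)`
-/

set_option autoImplicit false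
set_option linter.unusedSectionVars false

open Set Filter Topology Complex MeasureTheory Metric
open scoped ContDiff Matrix ComplexConjugate ComplexOrder

namespace Crest.Agent.T223.Cov

open Crest.Agent.R275.Geo Crest.Agent.R275.EDR890
open Crest.Agent.R273.Defs_333 Crest.Agent.R273.Hess_333 Crest.Agent.R273.HessB_333
open Crest.Agent.R273.Piola_5 Crest.Agent.R273.FIa0_597

noncomputable section

variable {n : ℕ}

theorem int_fderiv_zero (μ : Measure (Cn n)) [μ.IsAddHaarMeasure] {f : Cn n → ℂ}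
    (hf : ContDiff ℝ ∞ f) (hc : HasCompactSupport f) (v : Cn n) :
    ∫ z, fderiv ℝ f z v ∂μ = 0 := by
  have hd : Continuous fun z => fderiv ℝ f z v :=
    (hf.continuous_fderiv (by simp)).clm_apply continuous_const
  have hdc : HasCompactSupport fun z => fderiv ℝ f z v := hc.fderiv_apply (𝕜 := ℝ) v
  have h := integral_mul_fderiv_eq_neg_fderiv_mul_of_integrable (μ := μ) (𝕜 := ℂ)
    (f := fun _ : Cn n => (1 : ℂ)) (g := f) (v := v) (by simp)
    (by simpa using hd.integrable_of_hasCompactSupport hdc)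
    (by simpa using hf.continuous.integrable_of_hasCompactSupport hc)
    (fun x _ => differentiableAt_const _) (fun x _ => hf.differentiable (by simp) x)
  simpa using h

theorem contDiff_wd {f : Cn n → ℂ} (hf : ContDiff ℝ ∞ f) (s : WI n) : ContDiff ℝ ∞ (wd s f) :=
  contDiff_iff_contDiffAt.2 fun _ => contDiffAt_wd hf.contDiffAt s

theorem hcs_wd {f : Cn n → ℂ} (hc : HasCompactSupport f) (s : WI n) :
    HasCompactSupport (wd s f) :=
  (hc.fderiv (𝕜 := ℝ)).comp_left (g := wdL s) (wdL_zero s)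

theorem int_wd_zero (μ : Measure (Cn n)) [μ.IsAddHaarMeasure] {f : Cn n → ℂ}
    (hf : ContDiff ℝ ∞ f) (hc : HasCompactSupport f) (s : WI n) :
    ∫ z, wd s f z ∂μ = 0 := by
  have hi : ∀ v : Cn n, Integrable (fun z => fderiv ℝ f z v) μ := fun v =>
    ((hf.continuous_fderiv (by simp)).clm_apply continuous_const).integrable_of_hasCompactSupport
      (hc.fderiv_apply (𝕜 := ℝ) v)
  simp only [wd, wdL, smul_eq_mul]
  rw [integral_const_mul, integral_add (hi _) ((hi _).const_mul _), integral_const_mul,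
    int_fderiv_zero μ hf hc, int_fderiv_zero μ hf hc]
  simp

theorem contDiff_det {m : Cn n → Matrix (Fin n) (Fin n) ℂ}
    (hm : ∀ a b, ContDiff ℝ ∞ fun w => m w a b) : ContDiff ℝ ∞ fun w => (m w).det := by
  simp only [Matrix.det_apply']
  exact ContDiff.sum fun σ _ => contDiff_const.mul (contDiff_prod fun i _ => hm _ _)

theorem contDiff_adj {m : Cn n → Matrix (Fin n) (Fin n) ℂ}
    (hm : ∀ a b, ContDiff ℝ ∞ fun w => m w a b) (a b : Fin n) :
    ContDiff ℝ ∞ fun w => (m w).adjugate a b := by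
  simp only [Matrix.adjugate_apply]
  refine contDiff_det fun c d => ?_
  simp only [Matrix.updateRow_apply]
  split_ifs
  · exact contDiff_const
  · exact hm _ _

/-- columns `< k` of `κ + ∂∂̄φ`, the others of `κ` -/
def mk (κ : ℂ) (φ : Cn n → ℝ) (k : ℕ) (w : Cn n) : Matrix (Fin n) (Fin n) ℂ :=
  Matrix.of fun a b => (κ • (1 : Matrix (Fin n) (Fin n) ℂ)) a b +
    (if b.val < k then 1 else 0 : ℂ) * hess φ w a b

theorem contDiff_hess {φ : Cn n → ℝ} (hφ : ContDiff ℝ ∞ φ) (a b : Fin n) :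
    ContDiff ℝ ∞ fun w => hess φ w a b :=
  contDiff_iff_contDiffAt.2 fun _ => contDiffAt_hess hφ.contDiffAt a b

theorem contDiff_mk {κ : ℂ} {φ : Cn n → ℝ} (hφ : ContDiff ℝ ∞ φ) (k : ℕ) (a b : Fin n) :
    ContDiff ℝ ∞ fun w => mk κ φ k w a b :=
  contDiff_const.add (contDiff_const.mul (contDiff_hess hφ a b))

theorem wd_mk {κ : ℂ} {φ : Cn n → ℝ} (hφ : ContDiff ℝ ∞ φ) (k : ℕ) (a b : Fin n) (s : WI n)
    (z : Cn n) : wd s (fun w => mk κ φ k w a b) z =
      (if b.val < k then 1 else 0 : ℂ) * wd s (fun w => hess φ w a b) z := by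
  have hd : DifferentiableAt ℝ (fun w => hess φ w a b) z :=
    (contDiff_hess hφ a b).differentiable (by simp) z
  have h1 := wd_add (f := fun _ : Cn n => (κ • (1 : Matrix (Fin n) (Fin n) ℂ)) a b)
    (g := fun w => (if b.val < k then 1 else 0 : ℂ) • hess φ w a b) (z := z)
    (differentiableAt_const _) (hd.fun_const_smul _) s
  rw [wd_const, zero_add, wd_const_smul _ hd] at h1
  exact h1

theorem det_mk_succ {κ : ℂ} {φ : Cn n → ℝ} (k : Fin n) (w : Cn n) :
    (mk κ φ (k.val + 1) w).det = (mk κ φ k.val w).det +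
      ∑ a, (mk κ φ k.val w).adjugate k a * hess φ w a k := by
  have h1 : mk κ φ (k.val + 1) w = (mk κ φ k.val w).updateCol k
      ((fun a => mk κ φ k.val w a k) + fun a => hess φ w a k) := by
    ext a b
    rw [Matrix.updateCol_apply]
    by_cases hb : b = k
    · subst hb
      simp [mk]
    · have h2 : b.val ≠ k.val := fun h => hb (Fin.ext h)
      have h3 : b.val < k.val + 1 ↔ b.val < k.val := by omega
      simp only [mk, Matrix.of_apply, hb, h3, if_false]
  rw [h1, Matrix.det_updateCol_add, Matrix.updateCol_eq_self, sum_adj_col]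

theorem hcs_cu {φ : Cn n → ℝ} (hc : HasCompactSupport φ) : HasCompactSupport (cu φ) :=
  hc.comp_left (g := fun t : ℝ => (t : ℂ)) (by simp)

theorem contDiff_cu {φ : Cn n → ℝ} (hφ : ContDiff ℝ ∞ φ) : ContDiff ℝ ∞ (cu φ) :=
  contDiff_iff_contDiffAt.2 fun _ => contDiffAt_cu hφ.contDiffAt

theorem div_mk {κ : ℂ} {φ : Cn n → ℝ} (hφ : ContDiff ℝ ∞ φ) (k : Fin n) (z : Cn n) :
    ∑ a, (mk κ φ k.val z).adjugate k a * hess φ z a k =
      ∑ a, wd (false, a) (fun w => (mk κ φ k.val w).adjugate k a * wd (true, k) (cu φ) w) z := by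
  have hp := piola (m := mk κ φ k.val) (z := z)
    (fun i j => (contDiff_mk hφ _ i j).differentiable (by simp) z)
    (fun a b c => by rw [wd_mk hφ, wd_mk hφ, wd_hess hφ.contDiffAt]) k
  have h1 : ∀ a, wd (false, a)
      (fun w => (mk κ φ k.val w).adjugate k a * wd (true, k) (cu φ) w) z =
      wd (false, a) (fun w => (mk κ φ k.val w).adjugate k a) z * wd (true, k) (cu φ) z +
        (mk κ φ k.val z).adjugate k a * hess φ z a k := fun a =>
    wd_mul ((contDiff_adj (contDiff_mk hφ _) k a).differentiable (by simp) z)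
      ((contDiff_wd (contDiff_cu hφ) _).differentiable (by simp) z) _
  rw [Finset.sum_congr rfl fun a _ => h1 a, Finset.sum_add_distrib, ← Finset.sum_mul, hp]
  simp

theorem null_lag_aux (μ : Measure (Cn n)) [μ.IsAddHaarMeasure] (κ : ℂ) {φ : Cn n → ℝ}
    (hφ : ContDiff ℝ ∞ φ) (hc : HasCompactSupport φ) (k : ℕ) (hk : k ≤ n) :
    Integrable (fun w => (mk κ φ k w).det - κ ^ n) μ ∧
      ∫ w, ((mk κ φ k w).det - κ ^ n) ∂μ = 0 := by
  induction k with
  | zero =>
    have : ∀ w, (mk κ φ 0 w).det - κ ^ n = 0 := by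
      intro w
      have h1 : mk κ φ 0 w = κ • (1 : Matrix (Fin n) (Fin n) ℂ) := by
        ext a b
        simp [mk]
      rw [h1]
      simp
    simp [this]
  | succ k ih =>
    obtain ⟨i1, i2⟩ := ih (by omega)
    set k' : Fin n := ⟨k, by omega⟩ with hk'
    set F : Fin n → Cn n → ℂ := fun a w =>
      (mk κ φ k'.val w).adjugate k' a * wd (true, k') (cu φ) w with hF
    have hFs : ∀ a, ContDiff ℝ ∞ (F a) := fun a =>
      (contDiff_adj (contDiff_mk hφ _) k' a).mul (contDiff_wd (contDiff_cu hφ) _)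
    have hFc : ∀ a, HasCompactSupport (F a) := fun a => (hcs_wd (hcs_cu hc) _).mul_left
    have hI : ∀ a, Integrable (wd (false, a) (F a)) μ := fun a =>
      (contDiff_wd (hFs a) _).continuous.integrable_of_hasCompactSupport (hcs_wd (hFc a) _)
    have e : ∀ w, (mk κ φ (k + 1) w).det - κ ^ n =
        ((mk κ φ k w).det - κ ^ n) + ∑ a, wd (false, a) (F a) w := by
      intro w
      have h1 := det_mk_succ (κ := κ) (φ := φ) k' w
      rw [div_mk hφ] at h1
      change (mk κ φ (k + 1) w).det = (mk κ φ k w).det + ∑ a, wd (false, a) (F a) w at h1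
      rw [h1]
      ring
    simp only [e]
    have hS : Integrable (fun w => ∑ a, wd (false, a) (F a) w) μ :=
      integrable_finsetSum _ fun a _ => hI a
    refine ⟨i1.add hS, ?_⟩
    rw [integral_add i1 hS, i2, integral_finsetSum _ fun a _ => hI a]
    simp [int_wd_zero μ (hFs _) (hFc _)]

/-- the complex Monge-Ampere operator is a null Lagrangian -/
theorem null_lag (μ : Measure (Cn n)) [μ.IsAddHaarMeasure] (κ : ℂ) {φ : Cn n → ℝ}
    (hφ : ContDiff ℝ ∞ φ) (hc : HasCompactSupport φ) :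
    Integrable (fun w => (κ • (1 : Matrix (Fin n) (Fin n) ℂ) + hess φ w).det - κ ^ n) μ ∧
      ∫ w, ((κ • (1 : Matrix (Fin n) (Fin n) ℂ) + hess φ w).det - κ ^ n) ∂μ = 0 := by
  have h := null_lag_aux μ κ hφ hc n le_rfl
  have e : ∀ w, mk κ φ n w = κ • (1 : Matrix (Fin n) (Fin n) ℂ) + hess φ w := by
    intro w
    ext a b
    simp [mk]
  simpa only [e] using h

/-! ### a smooth convex function, `0` on the left, slope `1` on the right -/

/-- primitive of the smooth transition -/
def eta (t : ℝ) : ℝ := ∫ x in (0 : ℝ)..t, Real.smoothTransition x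

theorem eta_deriv (t : ℝ) : HasDerivAt eta (Real.smoothTransition t) t :=
  (Real.smoothTransition.continuous.integral_hasStrictDerivAt 0 t).hasDerivAt

theorem eta_smooth : ContDiff ℝ ∞ eta := by
  rw [contDiff_infty_iff_deriv]
  refine ⟨fun t => (eta_deriv t).differentiableAt, ?_⟩
  have : deriv eta = Real.smoothTransition := funext fun t => (eta_deriv t).deriv
  rw [this]
  exact Real.smoothTransition.contDiff

theorem eta_zero {t : ℝ} (ht : t ≤ 0) : eta t = 0 := by
  unfold eta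
  rw [intervalIntegral.integral_congr (g := fun _ => (0 : ℝ))]
  · simp
  · intro x hx
    rw [uIcc_of_ge ht] at hx
    exact Real.smoothTransition.zero_of_nonpos hx.2

theorem st_deriv (t : ℝ) : HasDerivAt Real.smoothTransition (deriv Real.smoothTransition t) t :=
  ((Real.smoothTransition.contDiff (n := 1)).differentiable (by simp) t).hasDerivAt

theorem st_deriv_zero {t : ℝ} (ht : 1 < t) : deriv Real.smoothTransition t = 0 := by
  have : Real.smoothTransition =ᶠ[𝓝 t] fun _ => (1 : ℝ) := by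
    filter_upwards [lt_mem_nhds ht] with x hx
    exact Real.smoothTransition.one_of_one_le hx.le
  rw [this.deriv_eq]
  simp

theorem hess_normSq (z : Cn n) : hess (fun w : Cn n => ‖w‖ ^ 2) z = 1 := by
  have h1 : (fun w : Cn n => ‖w‖ ^ 2) = Crest.Agent.R273.FS_333.sq (fun (w : Cn n) k => w k) := by
    funext w
    rw [EuclideanSpace.norm_sq_eq]
    rfl
  have hd : ∀ k : Fin n, ∀ w : Cn n, HasFDerivAt (fun w : Cn n => w k)
      (EuclideanSpace.proj k : Cn n →L[ℂ] ℂ) w := fun k w =>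
    (EuclideanSpace.proj k : Cn n →L[ℂ] ℂ).hasFDerivAt
  ext a b
  rw [h1, Crest.Agent.R273.FS_333.hess_sq isOpen_univ
    (fun k w _ => (hd k w).differentiableAt.differentiableWithinAt) (mem_univ z)]
  simp only [(hd _ z).fderiv]
  by_cases hab : a = b
  · subst hab
    simp [Pi.single_apply]
  · simp [Pi.single_apply, hab, Ne.symm hab]

theorem hess_cst (c : ℝ) (z : Cn n) : hess (fun _ : Cn n => c) z = 0 := by
  ext a b
  have h1 : wd (true, b) (cu fun _ : Cn n => c) = fun _ => 0 := by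
    funext w
    exact wd_const (c : ℂ) w _
  rw [hess_apply, h1, wd_const]
  rfl

theorem hess_quad (κ c : ℝ) (z : Cn n) :
    hess (fun w : Cn n => κ * ‖w‖ ^ 2 + c) z = (κ : ℂ) • (1 : Matrix (Fin n) (Fin n) ℂ) := by
  have h1 : ContDiffAt ℝ ∞ (fun w : Cn n => ‖w‖ ^ 2) z := (contDiff_norm_sq ℂ).contDiffAt
  rw [hess_add (contDiffAt_const.mul h1) contDiffAt_const, hess_const_mul κ h1, hess_normSq,
    hess_cst, add_zero]

theorem hess_eta {v : Cn n → ℝ} {z : Cn n} (hv : ContDiffAt ℝ ∞ v z) (κ c : ℝ) :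
    (κ : ℂ) • (1 : Matrix (Fin n) (Fin n) ℂ) +
      hess (fun w => eta (v w - (κ * ‖w‖ ^ 2 + c))) z =
      ((1 - Real.smoothTransition (v z - (κ * ‖z‖ ^ 2 + c))) * κ : ℝ) •
          (1 : Matrix (Fin n) (Fin n) ℂ) +
        Real.smoothTransition (v z - (κ * ‖z‖ ^ 2 + c)) • hess v z +
        deriv Real.smoothTransition (v z - (κ * ‖z‖ ^ 2 + c)) •
          Matrix.vecMulVec (gr (fun w => v w - (κ * ‖w‖ ^ 2 + c)) z)
            (star (gr (fun w => v w - (κ * ‖w‖ ^ 2 + c)) z)) := by
  have hq : ContDiffAt ℝ ∞ (fun w : Cn n => κ * ‖w‖ ^ 2 + c) z :=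
    (contDiffAt_const.mul (contDiff_norm_sq ℂ).contDiffAt).add contDiffAt_const
  have hg : ContDiffAt ℝ ∞ (fun w => v w - (κ * ‖w‖ ^ 2 + c)) z := hv.sub hq
  ext a b
  rw [Matrix.add_apply, hess_comp_real (φ := eta) (φ' := Real.smoothTransition) hg
    (Eventually.of_forall eta_deriv) (st_deriv _), hess_sub hv hq, hess_quad]
  simp only [Matrix.add_apply, Matrix.smul_apply, Matrix.sub_apply, Matrix.vecMulVec_apply,
    star_gr (hg.differentiableAt (by simp)), Complex.real_smul, smul_eq_mul, gr]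
  push_cast
  ring

/-- **mass bound** -/
theorem mass_le (μ : Measure (Cn n)) [μ.IsAddHaarMeasure] {v : Cn n → ℝ} {r A B : ℝ}
    (hr : 0 < r) (hv : ContDiffOn ℝ ∞ v (ball 0 r))
    (hp : ∀ w ∈ ball (0 : Cn n) r, (hess v w).PosSemidef) (hA : ∀ w ∈ ball (0 : Cn n) r, v w ≤ A)
    {E : Set (Cn n)} (hE : MeasurableSet E) (hEr : E ⊆ ball 0 (r / 4)) (hB : ∀ w ∈ E, -B ≤ v w)
    (hAB : 0 ≤ A + B) :
    ∫⁻ w in E, ENNReal.ofReal (hess v w).det.re ∂μ ≤
      ENNReal.ofReal ((6 * (A + B + 2) / r ^ 2) ^ n) * μ (ball 0 r) := by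
  classical
  set κ : ℝ := 6 * (A + B + 2) / r ^ 2 with hκ
  have hκ0 : 0 < κ := by positivity
  have hκr : κ * r ^ 2 = 6 * (A + B + 2) := by rw [hκ]; field_simp
  set c : ℝ := -(κ * r ^ 2 / 16) - B - 2 with hc
  set φ0 : Cn n → ℝ := fun w => eta (v w - (κ * ‖w‖ ^ 2 + c)) with hφ0
  set φ : Cn n → ℝ := (ball (0 : Cn n) r).indicator φ0 with hφ
  have hz : ∀ w : Cn n, r / 2 ≤ ‖w‖ → φ w = 0 := by
    intro w hw
    by_cases hb : w ∈ ball (0 : Cn n) r
    · rw [hφ, indicator_of_mem hb]
      apply eta_zero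
      have h1 : (r / 2) ^ 2 ≤ ‖w‖ ^ 2 := by gcongr
      have h2 : κ * (r / 2) ^ 2 ≤ κ * ‖w‖ ^ 2 := by gcongr
      have h3 := hA w hb
      nlinarith
    · rw [hφ, indicator_of_notMem hb]
  have hloc : ∀ w ∈ ball (0 : Cn n) r, φ =ᶠ[𝓝 w] φ0 := by
    intro w hw
    filter_upwards [isOpen_ball.mem_nhds hw] with y hy
    rw [hφ, indicator_of_mem hy]
  have hloc0 : ∀ w : Cn n, r / 2 < ‖w‖ → φ =ᶠ[𝓝 w] fun _ => 0 := by
    intro w hw
    filter_upwards [continuous_norm.continuousAt.eventually (lt_mem_nhds hw)] with y hy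
    exact hz y hy.le
  have hva : ∀ w ∈ ball (0 : Cn n) r, ContDiffAt ℝ ∞ v w := fun w hw =>
    hv.contDiffAt (isOpen_ball.mem_nhds hw)
  have hφs : ContDiff ℝ ∞ φ := by
    refine contDiff_iff_contDiffAt.2 fun w => ?_
    by_cases hb : w ∈ ball (0 : Cn n) r
    · refine ContDiffAt.congr_of_eventuallyEq ?_ (hloc w hb)
      exact eta_smooth.contDiffAt.comp w ((hva w hb).sub
        ((contDiffAt_const.mul (contDiff_norm_sq ℂ).contDiffAt).add contDiffAt_const))
    · have h1 : r / 2 < ‖w‖ := by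
        rw [mem_ball_zero_iff, not_lt] at hb
        linarith
      exact contDiffAt_const.congr_of_eventuallyEq (hloc0 w h1)
  have hφc : HasCompactSupport φ := by
    refine HasCompactSupport.intro (isCompact_closedBall (0 : Cn n) (r / 2)) fun w hw => hz w ?_
    rw [mem_closedBall_zero_iff, not_le] at hw
    exact hw.le
  obtain ⟨hI, h0⟩ := null_lag μ (κ : ℂ) hφs hφc
  set D : Cn n → ℂ := fun w => ((κ : ℂ) • (1 : Matrix (Fin n) (Fin n) ℂ) + hess φ w).det with hD
  have hDn : ∀ w ∈ ball (0 : Cn n) r, 0 ≤ (D w).re := by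
    intro w hw
    have h1 : ((κ : ℂ) • (1 : Matrix (Fin n) (Fin n) ℂ) + hess φ w).PosSemidef := by
      rw [hess_congr (hloc w hw), hφ0, hess_eta (hva w hw)]
      refine ((Matrix.PosSemidef.one.smul ?_).add ((hp w hw).smul ?_)).add
        ((Matrix.posSemidef_vecMulVec_self_star _).smul ?_)
      · exact mul_nonneg (sub_nonneg.2 (Real.smoothTransition.le_one _)) hκ0.le
      · exact Real.smoothTransition.nonneg _
      · exact Real.smoothTransition.monotone.deriv_nonneg
    exact (Complex.le_def.1 h1.det_nonneg).1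
  have hEb : E ⊆ ball 0 r := hEr.trans (ball_subset_ball (by linarith))
  have hDE : ∀ w ∈ E, D w = (hess v w).det := by
    intro w hw
    have h1 : 1 < v w - (κ * ‖w‖ ^ 2 + c) := by
      have h2 : ‖w‖ < r / 4 := mem_ball_zero_iff.1 (hEr hw)
      have h3 : ‖w‖ ^ 2 ≤ (r / 4) ^ 2 := by gcongr
      have h4 : κ * ‖w‖ ^ 2 ≤ κ * (r / 4) ^ 2 := by gcongr
      have h5 := hB w hw
      nlinarith
    simp only [hD]
    rw [hess_congr (hloc w (hEb hw)), hφ0, hess_eta (hva w (hEb hw)),
      Real.smoothTransition.one_of_one_le h1.le, st_deriv_zero h1]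
    simp
  have hD0 : ∀ w ∉ ball (0 : Cn n) r, D w - (κ : ℂ) ^ n = 0 := by
    intro w hb
    have h1 : r / 2 < ‖w‖ := by
      rw [mem_ball_zero_iff, not_lt] at hb
      linarith
    simp only [hD]
    rw [hess_congr (hloc0 w h1), hess_cst]
    simp
  have hfin : μ (ball (0 : Cn n) r) ≠ ⊤ := measure_ball_lt_top.ne
  have hIre : Integrable (fun w => (D w).re - κ ^ n) μ := by
    refine hI.re.congr (Eventually.of_forall fun w => ?_)
    simp only [hD, RCLike.re_to_complex, Complex.sub_re]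
    rw [← Complex.ofReal_pow, Complex.ofReal_re]
  have h0re : ∫ w in ball (0 : Cn n) r, ((D w).re - κ ^ n) ∂μ = 0 := by
    rw [setIntegral_eq_integral_of_forall_compl_eq_zero]
    · have h1 := integral_re hI
      rw [h0] at h1
      simp only [RCLike.re_to_complex, Complex.sub_re, Complex.zero_re] at h1
      rw [← h1]
      congr 1
      funext w
      rw [← Complex.ofReal_pow, Complex.ofReal_re]
    · intro w hw
      have := congrArg Complex.re (hD0 w hw)
      rwa [Complex.sub_re, ← Complex.ofReal_pow, Complex.ofReal_re, Complex.zero_re] at this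
  have hcI : IntegrableOn (fun _ : Cn n => κ ^ n) (ball 0 r) μ := integrableOn_const hfin
  have hDI : IntegrableOn (fun w => (D w).re) (ball 0 r) μ := by
    have := hIre.integrableOn (s := ball 0 r).add hcI
    refine this.congr (Eventually.of_forall fun w => ?_)
    simp
  have hval : ∫ w in ball (0 : Cn n) r, (D w).re ∂μ = κ ^ n * μ.real (ball 0 r) := by
    rw [integral_sub hDI hcI] at h0re
    rw [sub_eq_zero.1 h0re, setIntegral_const, smul_eq_mul, mul_comm]
  calc ∫⁻ w in E, ENNReal.ofReal (hess v w).det.re ∂μ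
      = ∫⁻ w in E, ENNReal.ofReal (D w).re ∂μ :=
        setLIntegral_congr_fun hE fun w hw => by simp only [hDE w hw]
    _ ≤ ∫⁻ w in ball (0 : Cn n) r, ENNReal.ofReal (D w).re ∂μ := lintegral_mono_set hEb
    _ = ENNReal.ofReal (∫ w in ball (0 : Cn n) r, (D w).re ∂μ) :=
        (ofReal_integral_eq_lintegral_ofReal hDI
          ((ae_restrict_iff' measurableSet_ball).2 (Eventually.of_forall hDn))).symm
    _ = ENNReal.ofReal (κ ^ n) * μ (ball 0 r) := by
        rw [hval, ENNReal.ofReal_mul (by positivity), Measure.real, ENNReal.ofReal_toReal hfin]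

end

end Crest.Agent.T223.Cov
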