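import Crest.Agent.T223.CovTr_25
import Crest.Agent.T223.CovFix_25

/-!
# T223, module COVER (helper25): injectivity near the centre of one chart

The orbit of a point under the lifted deck map is finite since disjoint translates of `K` all
carry the same Monge-Ampere mass, and the total mass is bounded.
-/

set_option autoImplicit false

open Set Filter Topology Complex MeasureTheory Metric
open scoped ContDiff Matrix ComplexConjugate ComplexOrder

namespace Crest.Agent.T223.Cov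

open Crest.Agent.R275.Geo
open Crest.Agent.R273.Hess_333 Crest.Agent.R273.HessB_333

variable {n : ℕ} {M : Type} [TopologicalSpace M]

theorem det_mul_of_inv {S T : Cn n → Cn n} {w : Cn n} (hT : DifferentiableAt ℂ T w)
    (hS : DifferentiableAt ℂ S (T w)) (h : ∀ᶠ x in 𝓝 w, S (T x) = x) :
    (fderiv ℂ S (T w)).det * (fderiv ℂ T w).det = 1 := by
  have h1 : HasFDerivAt (S ∘ T) ((fderiv ℂ S (T w)).comp (fderiv ℂ T w)) w :=
    hS.hasFDerivAt.comp w hT.hasFDerivAt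
  have h2 : HasFDerivAt (S ∘ T) (ContinuousLinearMap.id ℂ (Cn n)) w :=
    (hasFDerivAt_id w).congr_of_eventuallyEq h
  have h3 := congrArg ContinuousLinearMap.det (h1.unique h2)
  simp only [ContinuousLinearMap.det, ContinuousLinearMap.coe_id, LinearMap.det_id] at h3
  exact (LinearMap.det_comp (fderiv ℂ S (T w) : Cn n →ₗ[ℂ] Cn n)
    (fderiv ℂ T w : Cn n →ₗ[ℂ] Cn n)).symm.trans h3

theorem Ch.det_low [T2Space M] {ψ : Cn n → M} {r Λ s η D : ℝ} (h : Ch ψ r Λ) (hS : Sm r Λ s η)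
    (hD : ∀ L : Cn n →L[ℂ] Cn n, ‖L‖ ≤ Λ → ‖L.det‖ ≤ D)
    {T : Cn n → Cn n} (hT : Deck ψ r T (ball 0 s)) {α : Cn n} (hα : ‖α‖ ≤ η) (hy : ‖T α‖ ≤ η)
    {w : Cn n} (hw : ‖w‖ < 4 * (Λ ^ 2 * η)) :
    (fderiv ℂ T w).det ≠ 0 ∧ -(2 * Real.log D) ≤ Real.log (‖(fderiv ℂ T w).det‖ ^ 2) := by
  have h1 := h.one
  have e2 := hS.pow h1 (k := 2) (by norm_num)
  have e3 := hS.pow h1 (k := 3) (by norm_num)
  have hs := hS.hs
  obtain ⟨S, hS', hSe⟩ := h.inv hS hT hα hy
  have hw1 : w ∈ ball (0 : Cn n) s := mem_ball_zero_iff.2 (by linarith)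
  have hw2 : T w ∈ ball (0 : Cn n) s := mem_ball_zero_iff.2 (by
    have := h.small hS hT hα hy hw
    linarith)
  have h2 := det_mul_of_inv ((hT.diff w hw1).differentiableAt (isOpen_ball.mem_nhds hw1))
    ((hS'.diff _ hw2).differentiableAt (isOpen_ball.mem_nhds hw2))
    (eventually_of_mem (isOpen_ball.mem_nhds (mem_ball_zero_iff.2 hw)) fun x hx =>
      hSe x (mem_ball_zero_iff.1 hx))
  have h3 := hD _ (h.lip _ S isOpen_ball (ball_subset_ball (by linarith [hS.sr h1])) hS' _ hw2)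
  have h4 := right_ne_zero_of_mul_eq_one h2
  have h5 := left_ne_zero_of_mul_eq_one h2
  refine ⟨h4, ?_⟩
  have h6 := congrArg (fun z : ℂ => Real.log ‖z‖) h2
  simp only [norm_mul, norm_one, Real.log_one] at h6
  rw [Real.log_mul (norm_ne_zero_iff.2 h5) (norm_ne_zero_iff.2 h4)] at h6
  have h7 := Real.log_le_log (norm_pos_iff.2 h5) h3
  rw [Real.log_pow]
  push_cast
  linarith

/-- ONE: injectivity near the centre of one chart -/
theorem Ch.inj [T2Space M] (μ : Measure (Cn n)) [μ.IsAddHaarMeasure] {ψ : Cn n → M}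
    {r Λ s η : ℝ} (h : Ch ψ r Λ) (hS : Sm r Λ s η) {v : Cn n → ℝ} {A B D ε : ℝ} {N : ℕ}
    {K : Set (Cn n)} (hv : ContDiffOn ℝ ∞ v (ball 0 r))
    (hp : ∀ w ∈ ball (0 : Cn n) r, (hess v w).PosSemidef) (hA : ∀ w ∈ ball (0 : Cn n) r, v w ≤ A)
    (hinv : ∀ T, Deck ψ r T (ball 0 s) → ∀ w ∈ ball (0 : Cn n) s,
      v (T w) = v w + Real.log (‖(fderiv ℂ T w).det‖ ^ 2))
    (hK : IsCompact K) (hKε : ∀ w ∈ K, ‖w‖ ≤ ε) (hKi : InjOn ψ K) (hB : ∀ w ∈ K, -B ≤ v w)
    (hD : ∀ L : Cn n →L[ℂ] Cn n, ‖L‖ ≤ Λ → ‖L.det‖ ≤ D) (hAB : 0 ≤ A + (B + 2 * Real.log D))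
    (hN : ENNReal.ofReal ((6 * (A + (B + 2 * Real.log D) + 2) / r ^ 2) ^ n) * μ (ball 0 r) <
      N * ∫⁻ w in K, ENNReal.ofReal (hess v w).det.re ∂μ)
    (hε : ε + 2 * Λ * ε * N ≤ η) {α β : Cn n} (hα : ‖α‖ ≤ ε) (hβ : ‖β‖ ≤ ε)
    (he : ψ α = ψ β) : α = β := by
  classical
  have h1 := h.one
  have e0 := hS.pow h1 (k := 0) (by norm_num)
  have e3 := hS.pow h1 (k := 3) (by norm_num)
  have m02 := hS.mono h1 (k := 0) (l := 2) (by norm_num)
  have hη := hS.hη
  have hs := hS.hs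
  have hsr := hS.sr h1
  simp only [pow_zero, one_mul] at e0 m02
  have hε0 : 0 ≤ ε := (norm_nonneg _).trans hα
  have hΛε : 0 ≤ 2 * Λ * ε := by positivity
  have hεη : ε ≤ η := by
    have : 0 ≤ 2 * Λ * ε * N := by positivity
    linarith
  have hαs : α ∈ ball (0 : Cn n) s := mem_ball_zero_iff.2 (by linarith)
  have hβs : β ∈ ball (0 : Cn n) s := mem_ball_zero_iff.2 (by linarith)
  have hsub : ball (0 : Cn n) s ⊆ ball 0 r := ball_subset_ball (by linarith)
  have hG : ∀ y : Cn n, ∃ T : Cn n → Cn n, ‖y‖ ≤ η → ψ α = ψ y →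
      Deck ψ r T (ball 0 s) ∧ T α = y := by
    intro y
    by_cases hy : ‖y‖ ≤ η ∧ ψ α = ψ y
    · obtain ⟨T, hT⟩ := h.lift0 hS.hs hS.hsr (y := α) (y' := y) (by linarith) (by linarith [hy.1])
        hy.2
      exact ⟨T, fun _ _ => hT⟩
    · exact ⟨id, fun a b => absurd ⟨a, b⟩ hy⟩
  choose G hG using hG
  let y : ℕ → Cn n := fun i => (fun x => G x β)^[i] α
  have hys : ∀ i, y (i + 1) = G (y i) β := fun i => Function.iterate_succ_apply' _ _ _
  have hbd : ∀ i : ℕ, i ≤ N → ε + 2 * Λ * ε * i ≤ η := fun i hi => by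
    have : 2 * Λ * ε * i ≤ 2 * Λ * ε * N := mul_le_mul_of_nonneg_left (by exact_mod_cast hi) hΛε
    linarith
  have hy : ∀ i : ℕ, i ≤ N → ‖y i‖ ≤ ε + 2 * Λ * ε * i ∧ ψ α = ψ (y i) := by
    intro i
    induction i with
    | zero => intro _; exact ⟨by simpa [y] using hα, rfl⟩
    | succ i ih =>
      intro hi
      obtain ⟨h2, h3⟩ := ih (by omega)
      obtain ⟨h4, h5⟩ := hG (y i) (h2.trans (hbd i (by omega))) h3
      rw [hys]
      refine ⟨?_, by rw [h4.eq β hβs, he]⟩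
      have h6 := h.lipD isOpen_ball (convex_ball 0 s) hsub h4 hαs hβs
      have h7 : Λ * ‖β - α‖ ≤ Λ * (2 * ε) :=
        mul_le_mul_of_nonneg_left (by linarith [norm_sub_le β α]) (by linarith)
      have h8 := norm_add_le (G (y i) β - G (y i) α) (G (y i) α)
      rw [sub_add_cancel, h5] at h8
      rw [h5] at h6
      push_cast
      linarith
  have hyη : ∀ i ≤ N, ‖y i‖ ≤ η := fun i hi => (hy i hi).1.trans (hbd i hi)
  have hT : ∀ i ≤ N, Deck ψ r (G (y i)) (ball 0 s) ∧ G (y i) α = y i := fun i hi =>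
    hG (y i) (hyη i hi) (hy i hi).2
  have hTη : ∀ i ≤ N, ‖G (y i) α‖ ≤ η := fun i hi => by rw [(hT i hi).2]; exact hyη i hi
  obtain ⟨hP, hPα⟩ := hG β (by linarith) he
  by_cases hrep : ∃ k l, k < l ∧ l ≤ N ∧ y k = y l
  · obtain ⟨k, l, hkl, hl, hykl⟩ := hrep
    have := h.fix hS (α := α) (by linarith) hP (by rw [hPα]; linarith) (T := fun i => G (y i)) hkl
      (fun i hi => (hT i (hi.trans hl)).1) (fun i hi => hTη i (hi.trans hl))
      (fun i hi => by rw [(hT (i + 1) (by omega)).2, hPα, hys])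
      (by rw [(hT k (by omega)).2, (hT l hl).2, hykl])
    rw [hPα] at this
    exact this.symm
  exfalso
  have hK4 : ∀ w ∈ K, ‖w‖ < 4 * (Λ ^ 2 * η) := fun w hw => by linarith [hKε w hw]
  have hKs : K ⊆ ball 0 s := fun w hw => mem_ball_zero_iff.2 (by linarith [hKε w hw])
  let E : ℕ → Set (Cn n) := fun i => G (y i) '' K
  have hEm : ∀ i ∈ Finset.range N, MeasurableSet (E i) := fun i hi =>
    (hK.image_of_continuousOn ((hT i (Finset.mem_range.1 hi).le).1.diff.continuousOn.mono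
      hKs)).measurableSet
  have hEd : Set.PairwiseDisjoint (↑(Finset.range N) : Set ℕ) E := by
    intro i hi j hj hij
    have hi' : i ≤ N := (Finset.mem_range.1 (Finset.mem_coe.1 hi)).le
    have hj' : j ≤ N := (Finset.mem_range.1 (Finset.mem_coe.1 hj)).le
    refine Set.disjoint_left.2 ?_
    rintro _ ⟨a, ha, rfl⟩ ⟨b, hb, hab⟩
    have h2 : b = a := hKi hb ha (by
      rw [← (hT j hj').1.eq b (hKs hb), hab, (hT i hi').1.eq a (hKs ha)])
    subst h2
    have h3 := h.uniqD (convex_ball 0 s).isPreconnected (hT j hj').1 (hT i hi').1 (hKs hb) hab hαs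
    rw [(hT j hj').2, (hT i hi').2] at h3
    rcases lt_or_gt_of_ne hij with h4 | h4
    · exact hrep ⟨i, j, h4, hj', h3.symm⟩
    · exact hrep ⟨j, i, h4, hi', h3⟩
  have hEmass : ∀ i ∈ Finset.range N, ∫⁻ z in E i, ENNReal.ofReal (hess v z).det.re ∂μ =
      ∫⁻ w in K, ENNReal.ofReal (hess v w).det.re ∂μ := by
    intro i hi
    have hi' : i ≤ N := (Finset.mem_range.1 hi).le
    refine mass_tr μ isOpen_ball (hT i hi').1.diff hK.measurableSet hKs ?_ ?_ ?_ ?_
      (hinv _ (hT i hi').1)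
    · intro a ha b hb hab
      exact hKi ha hb (by rw [← (hT i hi').1.eq a (hKs ha), hab, (hT i hi').1.eq b (hKs hb)])
    · exact fun w hw => (h.det_low hS hD (hT i hi').1 (by linarith) (hTη i hi') (hK4 w hw)).1
    · exact fun w hw => hv.contDiffAt (isOpen_ball.mem_nhds ((hT i hi').1.maps (hKs hw)))
    · exact fun w hw => hv.contDiffAt (isOpen_ball.mem_nhds (hsub (hKs hw)))
  have hle := mass_le μ (A := A) (B := B + 2 * Real.log D) (by linarith) hv hp hA
    (E := ⋃ i ∈ Finset.range N, E i) (Finset.measurableSet_biUnion _ hEm) ?_ ?_ hAB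
  · rw [lintegral_biUnion_finset hEd hEm, Finset.sum_congr rfl hEmass, Finset.sum_const,
      Finset.card_range, nsmul_eq_mul] at hle
    exact absurd hN (not_lt.2 hle)
  · intro z hz
    obtain ⟨i, hi, w, hw, rfl⟩ := mem_iUnion₂.1 hz
    have hi' : i ≤ N := (Finset.mem_range.1 hi).le
    have := h.small hS (hT i hi').1 (α := α) (by linarith) (hTη i hi') (hK4 w hw)
    exact mem_ball_zero_iff.2 (by linarith)
  · intro z hz
    obtain ⟨i, hi, w, hw, rfl⟩ := mem_iUnion₂.1 hz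
    have hi' : i ≤ N := (Finset.mem_range.1 hi).le
    have h2 := (h.det_low hS hD (hT i hi').1 (α := α) (by linarith) (hTη i hi') (hK4 w hw)).2
    rw [hinv _ (hT i hi').1 w (hKs hw)]
    linarith [hB w hw]

end Crest.Agent.T223.Cov
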