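import Crest.Agent.T223.CovAn_25
import Crest.Agent.T223.CovDef_25

/-!
# T223, module COVER (helper25): the covering statement
-/

set_option autoImplicit false

open Set Filter Topology Complex MeasureTheory Metric
open scoped ContDiff Matrix ComplexConjugate ComplexOrder

namespace Crest.Agent.T223.Cov

open Crest.Agent.R275.Geo
open Crest.Agent.R273.Hess_333 Crest.Agent.R273.HessB_333

variable {n : ℕ}

/-- a small ball with positive mass on which `Ψ` is injective -/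
theorem exists_ball (μ : Measure (Cn n)) [μ.IsAddHaarMeasure] {M : Type} [TopologicalSpace M]
    {Ψ : Cn n → M} (hΨ : IsLocalHomeomorph Ψ) {u : Cn n → ℝ} (hu : ContDiff ℝ ∞ u)
    (hp : (hess u 0).PosSemidef) (hd : (hess u 0).det ≠ 0) :
    ∃ ρ m : ℝ, 0 < ρ ∧ ρ ≤ 1 ∧ 0 < m ∧ InjOn Ψ (closedBall 0 ρ) ∧
      ENNReal.ofReal m ≤ ∫⁻ z in closedBall 0 ρ, ENNReal.ofReal (hess u z).det.re ∂μ := by
  have h1 : 0 < (hess u 0).det := lt_of_le_of_ne hp.det_nonneg hd.symm
  have h2 : 0 < (hess u 0).det.re := (Complex.pos_iff.1 h1).1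
  have hc : Continuous fun z => (hess u z).det.re :=
    Complex.continuous_re.comp (contDiff_det (fun a b => contDiff_hess hu a b)).continuous
  obtain ⟨V, hV, hVi⟩ := isLocallyInjective_iff_nhds.1 hΨ.isLocallyInjective 0
  have h3 : ∀ᶠ z in 𝓝 (0 : Cn n), (hess u 0).det.re / 2 < (hess u z).det.re :=
    hc.continuousAt.eventually (lt_mem_nhds (by linarith))
  obtain ⟨ε, hε, hεs⟩ := Metric.nhds_basis_closedBall.mem_iff.1 (inter_mem hV h3)
  have hρ : 0 < min ε 1 := lt_min hε one_pos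
  have hsub : closedBall (0 : Cn n) (min ε 1) ⊆ closedBall 0 ε :=
    closedBall_subset_closedBall (min_le_left _ _)
  have hv0 : 0 < μ (closedBall 0 (min ε 1)) := measure_closedBall_pos μ _ hρ
  have hv1 : μ (closedBall 0 (min ε 1)) ≠ ⊤ := measure_closedBall_lt_top.ne
  refine ⟨min ε 1, (hess u 0).det.re / 2 * (μ (closedBall 0 (min ε 1))).toReal, hρ,
    min_le_right _ _, mul_pos (by linarith) (ENNReal.toReal_pos hv0.ne' hv1),
    hVi.mono fun z hz => (hεs (hsub hz)).1, ?_⟩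
  rw [ENNReal.ofReal_mul (by linarith), ENNReal.ofReal_toReal hv1, ← setLIntegral_const]
  exact setLIntegral_mono' measurableSet_closedBall fun z hz =>
    ENNReal.ofReal_le_ofReal (le_of_lt (hεs (hsub hz)).2)

/-- lower bound for the Jacobian of the inverse chart -/
theorem Emb.jac_low {χ : Cn n → Cn n} {r D c : ℝ} (h : Emb χ r) (hr : 0 < r) (h0 : χ 0 = 0)
    (hR : closedBall (0 : Cn n) 4 ⊆ χ '' ball 0 r)
    (hD : ∀ L : Cn n →L[ℂ] Cn n, ‖L‖ ≤ r → ‖L.det‖ ≤ D)
    (hc : Real.log ‖(fderiv ℂ χ 0).det‖ ≤ c) {z : Cn n} (hz : ‖z‖ ≤ 1) :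
    Real.log (‖(fderiv ℂ χ (inv χ r z)).det‖ ^ 2) ≤ 6 * c + 4 * Real.log D + 4 := by
  have hs2 : ball (0 : Cn n) 2 ⊆ χ '' ball 0 r :=
    (ball_subset_closedBall.trans (closedBall_subset_closedBall (by norm_num))).trans hR
  have hdet : ∀ x ∈ ball (0 : Cn n) 2,
      (fderiv ℂ (inv χ r) x).det * (fderiv ℂ χ (inv χ r x)).det = 1 := fun x hx => by
    have := h.det_inv (inv_mem (hs2 hx))
    rwa [inv_right (hs2 hx)] at this
  have hlog : ∀ x ∈ ball (0 : Cn n) 2, Real.log ‖(fderiv ℂ (inv χ r) x).det‖ =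
      -Real.log ‖(fderiv ℂ χ (inv χ r x)).det‖ := fun x hx => by
    have h6 := congrArg (fun z : ℂ => Real.log ‖z‖) (hdet x hx)
    simp only [norm_mul, norm_one, Real.log_one] at h6
    rw [Real.log_mul (norm_ne_zero_iff.2 (left_ne_zero_of_mul_eq_one (hdet x hx)))
      (norm_ne_zero_iff.2 (right_ne_zero_of_mul_eq_one (hdet x hx)))] at h6
    linarith
  have key := harn (h := fun x => (fderiv ℂ (inv χ r) x).det) (D := D)
    (diff_det isOpen_ball (h.inv_diff.mono hs2))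
    (fun x hx => left_ne_zero_of_mul_eq_one (hdet x hx)) (fun x hx => hD _ (by
      have hs : ball x 2 ⊆ χ '' ball 0 r := by
        refine Subset.trans ?_ hR
        intro y hy
        rw [mem_ball_zero_iff] at hx
        rw [mem_ball, dist_eq_norm] at hy
        rw [mem_closedBall_zero_iff]
        have := norm_add_le (y - x) x
        rw [sub_add_cancel] at this
        linarith
      have := norm_fderiv_le_div_of_mapsTo_ball (R₂ := 2 * r) (h.inv_diff.mono hs) (by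
        intro y hy
        rw [mem_closedBall, dist_eq_norm]
        have h1 := mem_ball_zero_iff.1 (inv_mem (hs hy))
        have h2 := mem_ball_zero_iff.1 (inv_mem (hs2 hx))
        linarith [norm_sub_le (inv χ r y) (inv χ r x)]) (by norm_num)
      linarith)) hz
  have hi0 : inv χ r 0 = 0 := by
    have := h.left (mem_ball_self hr)
    rwa [h0] at this
  rw [hlog 0 (mem_ball_self (by norm_num)), hlog z (mem_ball_zero_iff.2 (by linarith)), hi0] at key
  rw [Real.log_pow]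
  push_cast
  linarith

/-- **COVER** -/
theorem covStmt (n : ℕ) : CovStmt n := by
  intro M _ _ Ψ χ u μ r Λ C hr hΨ hχd hχi hχdet hχ0 hμ hshr hdeck hlip hu hpsd hu0 hup hcen
    α' β' he
  let ν : Measure (Cn n) := Measure.addHaar
  have hE : ∀ j, Emb (χ j) r := fun j => ⟨hχd j, hχi j, hχdet j⟩
  set Λ' := max Λ 1 with hΛ'
  have hΛ1 : 1 ≤ Λ' := le_max_right _ _
  have hCh : ∀ j, Ch (fun w => Ψ (χ j w)) r Λ' := fun j =>
    ch_of hΨ (hE j) (fun U θ a b c => (hdeck U θ a b c).1) (hlip j)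
  set s := r / (4 * Λ') with hs
  have hs0 : 0 < s := by positivity
  set η := s ^ 2 / (200 * Λ' ^ 5 * r) with hη
  have hη0 : 0 < η := by positivity
  have hS : Sm r Λ' s η := ⟨hs0, by rw [hs]; field_simp; exact le_rfl, hη0, by
    have : 100 * Λ' ^ 5 * r * η = s ^ 2 / 2 := by rw [hη]; field_simp; norm_num
    rw [this]
    have : 0 < s ^ 2 := by positivity
    linarith⟩
  obtain ⟨ρ, m0, hρ, hρ1, hm0, hinj, hmass⟩ := exists_ball ν hΨ hu (hpsd 0) hu0
  obtain ⟨D, hD1, hD⟩ := det_bound n Λ'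
  obtain ⟨D', hD1', hD'⟩ := det_bound n r
  have hlD : 0 ≤ Real.log D := Real.log_nonneg hD1
  have hlD' : 0 ≤ Real.log D' := Real.log_nonneg hD1'
  obtain ⟨U0, hU0⟩ := (isCompact_closedBall (0 : Cn n) 1).exists_bound_of_continuousOn
    hu.continuous.continuousOn
  have hU00 : 0 ≤ U0 := (norm_nonneg _).trans (hU0 0 (mem_closedBall_self zero_le_one))
  set C0 := max C 0 with hC0
  have hC00 : 0 ≤ C0 := le_max_right _ _
  set C1 := 7 * C0 + (U0 + 4 * Real.log D' + 4 + 2 * Real.log D + 2) with hC1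
  have hC10 : 0 ≤ C1 := by positivity
  have hv1 : ν (ball 0 r) ≠ ⊤ := measure_ball_lt_top.ne
  set C2 := (6 * C1 / r ^ 2) ^ n * (ν (ball 0 r)).toReal with hC2
  have hC20 : 0 ≤ C2 := by positivity
  set δ := η / (1 + 2 * Λ' * (C2 / m0 + 1)) with hδ
  have hδ0 : 0 < δ := by positivity
  obtain ⟨j, hj⟩ := hshr (max 4 (max ‖α'‖ ‖β'‖)) δ hδ0
  set m := μ j with hm
  have hm1 : 1 ≤ m := hμ j
  have hmn : 1 ≤ m ^ n := one_le_pow₀ hm1
  have hCm : C * m ≤ C0 * m := mul_le_mul_of_nonneg_right (le_max_left _ _) (by linarith)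
  have hjr : closedBall (0 : Cn n) (max 4 (max ‖α'‖ ‖β'‖)) ⊆ χ j '' ball 0 r :=
    hj.trans (image_mono (ball_subset_ball (min_le_left _ _)))
  have hsm : ∀ z ∈ closedBall (0 : Cn n) (max 4 (max ‖α'‖ ‖β'‖)), ‖inv (χ j) r z‖ ≤ δ / m ^ n := by
    intro z hz
    obtain ⟨w, hw, rfl⟩ := hj hz
    rw [(hE j).left (ball_subset_ball (min_le_left _ _) hw)]
    exact ((mem_ball_zero_iff.1 hw).trans_le (min_le_right _ _)).le
  have h4 : closedBall (0 : Cn n) 4 ⊆ closedBall 0 (max 4 (max ‖α'‖ ‖β'‖)) :=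
    closedBall_subset_closedBall (le_max_left _ _)
  have hK0 : closedBall (0 : Cn n) ρ ⊆ closedBall 0 (max 4 (max ‖α'‖ ‖β'‖)) :=
    (closedBall_subset_closedBall (by linarith)).trans h4
  have hα' : α' ∈ closedBall (0 : Cn n) (max 4 (max ‖α'‖ ‖β'‖)) :=
    mem_closedBall_zero_iff.2 ((le_max_left _ _).trans (le_max_right _ _))
  have hβ' : β' ∈ closedBall (0 : Cn n) (max 4 (max ‖α'‖ ‖β'‖)) :=
    mem_closedBall_zero_iff.2 ((le_max_right _ _).trans (le_max_right _ _))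
  let v : Cn n → ℝ := fun w => u (χ j w) - Real.log (‖(fderiv ℂ (χ j) w).det‖ ^ 2)
  have hvs : ∀ w ∈ ball (0 : Cn n) r, ContDiffAt ℝ ∞ v w := fun w hw =>
    (hu.contDiffAt.comp w (contDiffAt_hol isOpen_ball (hχd j) hw)).sub
      (contDiffAt_logdet isOpen_ball (hχd j) hw (hχdet j w hw))
  have hrel : ∀ x ∈ ball (0 : Cn n) r,
      u (χ j x) = v x + Real.log (‖(fderiv ℂ (χ j) x).det‖ ^ 2) := fun x _ => by
    simp only [v]; ring
  let K : Set (Cn n) := inv (χ j) r '' closedBall 0 ρ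
  have hKc : IsCompact K := (isCompact_closedBall _ _).image_of_continuousOn
    ((hE j).inv_diff.continuousOn.mono (hK0.trans hjr))
  have hKr : K ⊆ ball 0 r := by
    rintro _ ⟨z, hz, rfl⟩
    exact inv_mem (hjr (hK0 hz))
  have hKim : χ j '' K = closedBall 0 ρ := by
    rw [image_image]
    exact (image_congr fun z hz => inv_right (hjr (hK0 hz))).trans (image_id' _)
  have hKm := mass_tr ν isOpen_ball (hχd j) (a := u) (b := v) hKc.measurableSet hKr
    ((hχi j).mono hKr) (fun w hw => hχdet j w (hKr hw)) (fun w _ => hu.contDiffAt)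
    (fun w hw => hvs w (hKr hw)) hrel
  rw [hKim] at hKm
  set N : ℕ := ⌊C2 * m ^ n / m0⌋₊ + 1 with hN
  have hN1 : C2 * m ^ n / m0 < N := by rw [hN]; push_cast; exact Nat.lt_floor_add_one _
  have hN2 : (N : ℝ) ≤ (C2 / m0 + 1) * m ^ n := by
    rw [hN]; push_cast
    have h1 : (⌊C2 * m ^ n / m0⌋₊ : ℝ) ≤ C2 * m ^ n / m0 := Nat.floor_le (by positivity)
    have h2 : (C2 / m0 + 1) * m ^ n = C2 * m ^ n / m0 + m ^ n := by ring
    linarith
  have key := (hCh j).inj ν hS (v := v) (A := C0 * m)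
    (B := U0 + (6 * (C0 * m) + 4 * Real.log D' + 4)) (D := D) (ε := δ / m ^ n) (N := N) (K := K)
    (fun w hw => (hvs w hw).contDiffWithinAt) ?_ (fun w hw => (hup j w hw).trans hCm) ?_ hKc ?_ ?_
    ?_ hD (by positivity) ?_ ?_ (hsm α' hα') (hsm β' hβ')
    (by simp only [inv_right (hjr hα'), inv_right (hjr hβ'), he])
  · rw [← inv_right (hjr hα'), key, inv_right (hjr hβ')]
  · intro w hw
    rw [← hess_rel isOpen_ball (hχd j) hw (hχdet j w hw) (hvs w hw) hrel]
    exact psd_hess_comp hu.contDiffAt (ev_diff isOpen_ball (hχd j) hw) (hpsd _)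
  · intro T hT w hw
    exact inv_pot (hE j) (hCh j) hdeck isOpen_ball
      (ball_subset_ball (by linarith [hS.sr hΛ1])) hT hw
  · rintro _ ⟨z, hz, rfl⟩
    exact hsm z (hK0 hz)
  · rintro _ ⟨a, ha, rfl⟩ _ ⟨b, hb, rfl⟩ hab
    simp only [inv_right (hjr (hK0 ha)), inv_right (hjr (hK0 hb))] at hab
    rw [hinj ha hb hab]
  · rintro _ ⟨z, hz, rfl⟩
    have hz1 : ‖z‖ ≤ 1 := (mem_closedBall_zero_iff.1 hz).trans hρ1
    have h1 := (hE j).jac_low hr (hχ0 j) (h4.trans hjr) hD' ((hcen j).trans hCm) hz1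
    have h2 := hU0 z (mem_closedBall_zero_iff.2 hz1)
    have h3 := neg_abs_le (u z)
    rw [Real.norm_eq_abs] at h2
    simp only [v, inv_right (hjr (hK0 hz))]
    linarith
  · rw [← hKm]
    have h1 : C0 * m + (U0 + (6 * (C0 * m) + 4 * Real.log D' + 4) + 2 * Real.log D) + 2
        ≤ C1 * m := by
      have : U0 + 4 * Real.log D' + 4 + 2 * Real.log D + 2 ≤
          (U0 + 4 * Real.log D' + 4 + 2 * Real.log D + 2) * m :=
        le_mul_of_one_le_right (by positivity) hm1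
      rw [hC1]; linarith
    have h2 : (6 * (C0 * m + (U0 + (6 * (C0 * m) + 4 * Real.log D' + 4) + 2 * Real.log D) + 2)
        / r ^ 2) ^ n ≤ (6 * C1 / r ^ 2) ^ n * m ^ n := by
      rw [← mul_pow]
      refine pow_le_pow_left₀ (by positivity) ?_ n
      rw [div_mul_eq_mul_div, mul_assoc]
      gcongr
    calc _ ≤ ENNReal.ofReal ((6 * C1 / r ^ 2) ^ n * m ^ n) * ν (ball 0 r) := by gcongr
      _ = ENNReal.ofReal (C2 * m ^ n) := by
        rw [hC2, mul_right_comm, ENNReal.ofReal_mul' ENNReal.toReal_nonneg,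
          ENNReal.ofReal_toReal hv1]
      _ < ENNReal.ofReal (N * m0) := by
        rw [div_lt_iff₀ hm0] at hN1
        exact (ENNReal.ofReal_lt_ofReal_iff (lt_of_le_of_lt (by positivity) hN1)).2 hN1
      _ = N * ENNReal.ofReal m0 := by
        rw [ENNReal.ofReal_mul (Nat.cast_nonneg _), ENNReal.ofReal_natCast]
      _ ≤ _ := by gcongr
  · have h1 : δ / m ^ n ≤ δ := div_le_self hδ0.le hmn
    have h2 : δ / m ^ n * N ≤ δ * (C2 / m0 + 1) := by
      calc δ / m ^ n * N ≤ δ / m ^ n * ((C2 / m0 + 1) * m ^ n) := by gcongr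
        _ = δ * (C2 / m0 + 1) := by field_simp
    have h3 : δ * (1 + 2 * Λ' * (C2 / m0 + 1)) = η := by rw [hδ]; field_simp
    have h5 : 2 * Λ' * (δ / m ^ n * N) ≤ 2 * Λ' * (δ * (C2 / m0 + 1)) := by gcongr
    nlinarith

end Crest.Agent.T223.Cov
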