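import Crest.Agent.T223.DbDef_88
import Crest.Agent.R275.Dg1_199
import Crest.Agent.N222.B.Dbl

/-!
# Row 223 (helper88): a neighbourhood of a compact set of a complex manifold is an open subset of a
closed real manifold (the double)
-/

set_option autoImplicit false
set_option linter.unusedSectionVars false

open Set Filter Function
open scoped ContDiff Topology

noncomputable section

namespace Crest.Agent.T223.Db

open Crest.Agent.R275.Geo Crest.Agent.R275.Dg199 Crest.Agent.N222

variable {n : ℕ} {M : Type} [TopologicalSpace M]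

/-- a real linear isomorphism `ℂⁿ ≃ ℝ²ⁿ` -/
def eR (n : ℕ) : Cn n ≃L[ℝ] E (Fin (2 * n)) :=
  ContinuousLinearEquiv.ofFinrankEq (by
    rw [finrank_real_of_complex, finrank_euclideanSpace_fin, finrank_euclideanSpace_fin])

/-- the chart into `ℝ²ⁿ` -/
def cR (A : Atl n M) (i : A.ι) : OpenPartialHomeomorph M (E (Fin (2 * n))) :=
  (A.e i).trans (eR n).toHomeomorph.toOpenPartialHomeomorph

variable {A : Atl n M}

@[simp] theorem cR_apply (i : A.ι) (x : M) : cR A i x = eR n (A.e i x) := rfl
@[simp] theorem cR_symm (i : A.ι) (y : E (Fin (2 * n))) :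
    (cR A i).symm y = (A.e i).symm ((eR n).symm y) := rfl
theorem cR_source (i : A.ι) : (cR A i).source = (A.e i).source := by
  simp [cR]
theorem mem_cR_target {i : A.ι} {y : E (Fin (2 * n))} :
    y ∈ (cR A i).target ↔ (eR n).symm y ∈ (A.e i).target := by
  simp [cR]

theorem smN_cR {F : Type*} [NormedAddCommGroup F] [NormedSpace ℝ F] {f : M → F} {i : A.ι}
    {y : E (Fin (2 * n))} (hy : y ∈ (cR A i).target) (hf : SmN A f ((cR A i).symm y)) :
    ContDiffAt ℝ ∞ (f ∘ (cR A i).symm) y := by
  have h1 := mem_cR_target.1 hy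
  have h2 := (smN_iff ((A.e i).map_target h1)).1 hf
  rw [(A.e i).right_inv h1] at h2
  exact h2.comp y (eR n).symm.contDiff.contDiffAt

theorem smN_chart {i : A.ι} {p : M} (hp : p ∈ (A.e i).source) : SmN A (cR A i) p := by
  refine ⟨i, hp, (eR n).contDiff.contDiffAt.congr_of_eventuallyEq ?_⟩
  filter_upwards [(A.e i).open_target.mem_nhds ((A.e i).map_source hp)] with z hz
  rw [cR_apply, (A.e i).right_inv hz]

theorem inj_trans {i j : A.ι} {y : E (Fin (2 * n))} (hy : y ∈ (cR A j).target)
    (hi : (cR A j).symm y ∈ (A.e i).source) :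
    Injective (fderiv ℝ (cR A i ∘ (cR A j).symm) y) := by
  have hj : (cR A j).symm y ∈ (A.e j).source := cR_source j ▸ (cR A j).map_target hy
  have hi' : (cR A j).symm y ∈ (cR A i).source := (cR_source i).symm ▸ hi
  have h1 := (smN_cR hy (smN_chart hi)).differentiableAt (by simp)
  have h2 : DifferentiableAt ℝ (cR A j ∘ (cR A i).symm) ((cR A i ∘ (cR A j).symm) y) := by
    refine (smN_cR ((cR A i).map_source hi') ?_).differentiableAt (by simp)
    rw [(cR A i).left_inv hi']
    exact smN_chart hj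
  have h3 : (cR A j ∘ (cR A i).symm) ∘ (cR A i ∘ (cR A j).symm) =ᶠ[𝓝 y] id := by
    filter_upwards [(cR A j).open_target.mem_nhds hy,
      ((cR A j).continuousAt_symm hy).eventually ((cR A i).open_source.mem_nhds hi')] with z h4 h5
    simp only [comp_apply, id]
    rw [(cR A i).left_inv h5, (cR A j).right_inv h4]
  have h4 := h3.fderiv_eq (𝕜 := ℝ)
  rw [fderiv_comp y h2 h1, fderiv_id] at h4
  refine Injective.of_comp (f := fderiv ℝ (cR A j ∘ (cR A i).symm) ((cR A i ∘ (cR A j).symm) y)) ?_
  rw [← ContinuousLinearMap.coe_comp, h4]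
  exact injective_id

/-- an immersion of a neighbourhood of a compact set -/
theorem exists_imm [T2Space M] (A : Atl n M) {K W : Set M} (hK : IsCompact K) (hW : IsOpen W)
    (hKW : K ⊆ W) : ∃ (ι : Type) (_ : Fintype ι) (x : M → E ι) (U : Set M) (hU : IsOpen U),
      K ⊆ U ∧ U ⊆ W ∧ ∀ i, IsChart x ((cR A i).restrOpen U hU) := by
  classical
  choose i hi using A.cover
  choose χ hχ hχ1 hχs _ using fun p : M => exists_bump A ((A.e (i p)).open_source.mem_nhds (hi p))
  obtain ⟨t, -, ht⟩ := hK.elim_nhds_subcover (fun p => interior {q | χ p q = 1})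
    fun p _ => interior_mem_nhds.2 (hχ1 p)
  let y : t → M → E (Fin (2 * n)) := fun r q => χ r q • cR A (i r) q
  have hy : ∀ r q, SmN A (y r) q := fun r q => by
    by_cases h : q ∈ tsupport (χ r)
    · exact (hχ r q).smul (smN_chart (hχs r h))
    · refine (smN_const 0 q).congr ?_
      filter_upwards [notMem_tsupport_iff_eventuallyEq.1 h] with q' hq'
      simp only [Pi.zero_apply] at hq'
      simp [y, hq']
  let x : M → E (t × Fin (2 * n)) := fun q => WithLp.toLp 2 fun k => y k.1 q k.2
  have hU : IsOpen (W ∩ ⋃ r ∈ t, interior {q | χ r q = 1}) :=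
    hW.inter (isOpen_biUnion fun _ _ => isOpen_interior)
  have hx : ∀ j, ∀ z ∈ (cR A j).target, ContDiffAt ℝ ∞ (x ∘ (cR A j).symm) z := fun j z hz =>
    contDiffAt_euclidean.2 fun k => contDiffAt_euclidean.1 (smN_cR hz (hy k.1 _)) k.2
  refine ⟨t × Fin (2 * n), inferInstance, x, _, hU, subset_inter hKW ht, inter_subset_left,
    fun j => ⟨fun z hz => (hx j z hz.1).contDiffWithinAt, fun z hz => ?_⟩⟩
  obtain ⟨r, hr, hz2⟩ := mem_iUnion₂.1 hz.2.2
  have h1 : ∀ᶠ q in 𝓝 ((cR A j).symm z), χ r q = 1 := mem_interior_iff_mem_nhds.1 hz2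
  have h2 : (cR A j).symm z ∈ (A.e (i r)).source :=
    hχs r (subset_tsupport _ (by simp only [mem_support, h1.self_of_nhds]; exact one_ne_zero))
  let π : E (t × Fin (2 * n)) →L[ℝ] E (Fin (2 * n)) :=
    (EuclideanSpace.equiv (Fin (2 * n)) ℝ).symm.toContinuousLinearMap ∘L
      ContinuousLinearMap.pi fun k => EuclideanSpace.proj (⟨r, hr⟩, k)
  have h3 : π ∘ (x ∘ (cR A j).symm) =ᶠ[𝓝 z] cR A (i r) ∘ (cR A j).symm := by
    filter_upwards [((cR A j).continuousAt_symm hz.1).eventually h1] with w hw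
    ext k
    show y ⟨r, hr⟩ ((cR A j).symm w) k = _
    simp only [y, hw, one_smul, comp_apply]
  have h4 := inj_trans hz.1 h2
  rw [← h3.fderiv_eq, fderiv_comp z π.differentiableAt ((hx j z hz.1).differentiableAt (by simp)),
    ContinuousLinearMap.coe_comp] at h4
  exact h4.of_comp

/-- **the double** -/
theorem exists_dbl [T2Space M] [SecondCountableTopology M] (A : Atl n M) {K W : Set M}
    (hK : IsCompact K) (hW : IsOpen W) (hKW : K ⊆ W) (hne : K.Nonempty) :
    ∃ (ι : Type) (_ : Fintype ι) (Y : Type) (_ : TopologicalSpace Y) (_ : T2Space Y)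
      (_ : SecondCountableTopology Y) (_ : CompactSpace Y) (N : Imm (2 * n) ι Y)
      (e : OpenPartialHomeomorph M Y), K ⊆ e.source ∧ e.source ⊆ W ∧
      ∀ i, IsChart N.x (e.symm.trans (cR A i)) := by
  classical
  obtain ⟨ι, _, x, U, hU, hKU, hUW, hx⟩ := exists_imm A hK hW hKW
  have : Nonempty U := ⟨⟨_, hKU hne.some_mem⟩⟩
  let v : OpenPartialHomeomorph U M := hU.isOpenEmbedding_subtypeVal.toOpenPartialHomeomorph _
  have hv : ∀ p ∈ U, (v.symm p : M) = p := fun p hp =>
    hU.isOpenEmbedding_subtypeVal.toOpenPartialHomeomorph_right_inv _ ⟨⟨p, hp⟩, rfl⟩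
  have hvt : v.target = U := by simp [v]
  have hvt' : ∀ p, p ∈ v.target → p ∈ U := fun p hp => by rwa [hvt] at hp
  have hc : ∀ i, IsChart (fun q : U => x q) (v.trans (cR A i)) := fun i =>
    (hx i).of_eqOn (fun z hz => ⟨hz.1, hvt' _ hz.2⟩) fun z hz => congrArg x (hv _ (hvt' _ hz.2))
  choose i hi using A.cover
  let X : Imm (2 * n) ι U :=
    { x := fun q => x q
      ch := fun q => v.trans (cR A (i q))
      mem := fun q => ⟨by simp [v], by
        show (q : M) ∈ (cR A (i q)).source
        rw [cR_source]; exact hi q⟩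
      isChart := fun q => hc _ }
  let _ : MeasurableSpace U := borel _
  have _ : BorelSpace U := ⟨rfl⟩
  have hK' : IsCompact (Subtype.val ⁻¹' K : Set U) :=
    Topology.IsInducing.subtypeVal.isCompact_preimage' hK (by simpa using hKU)
  obtain ⟨Y, _, _, _, _, _, _, N, e, c, h1, h2⟩ := dbl (2 * n) ι U X _ hK'
  refine ⟨Option ι, inferInstance, Y, inferInstance, inferInstance, inferInstance, inferInstance,
    N, v.symm.trans e, fun p hp => ⟨hvt.symm ▸ hKU hp, h1 ?_⟩, fun p hp => hUW (hvt' _ hp.1),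
    fun j => ?_⟩
  · show (v.symm p : M) ∈ K
    rwa [hv p (hKU hp)]
  · have h3 : IsChart (X.pad c).x (v.trans (cR A j)) := by
      have h4 := hc j
      have h5 : ContDiffOn ℝ ∞ ((X.pad c).x ∘ (v.trans (cR A j)).symm) (v.trans (cR A j)).target :=
        contDiff_up.comp_contDiffOn (contDiffOn_const.prodMk h4.sm)
      refine ⟨h5, fun z hz => ?_⟩
      have h6 := (h5.contDiffAt ((v.trans (cR A j)).open_target.mem_nhds hz)).differentiableAt
        (by simp)
      have h7 := fderiv_comp z ((contDiff_down (ι := ι)).differentiable (by simp) _) h6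
      have h8 := h4.inj z hz
      have h9 : down ∘ ((X.pad c).x ∘ (v.trans (cR A j)).symm) =
        (fun q : U => x q) ∘ (v.trans (cR A j)).symm := rfl
      rw [← h9, h7] at h8
      exact Injective.of_comp h8
    exact (h3.symm_trans (N := N) h2).of_eqOn (fun z hz => ⟨⟨hz.1, hz.2.1⟩, hz.2.2⟩) fun z _ => rfl

end Crest.Agent.T223.Db
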