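import Crest.Agent.R273.Kah_333

/-!
# Row 223 (helper88): interface of the LINEAR SOLVER on a compact part of a complex manifold

`HFam A I W g` : a time dependent Hermitian metric on the open set `W` (chart matrices `g i t z`);
`SmST A I W f` : jointly smooth on `I × W`;
`LinSolStmt n` : a solution operator `S` of `∂ₜ w = tr (g⁻¹ ∂∂̄ w) + f`, `w a = 0`, near the compact
set `K`, for `f` supported in `K`, with the comparison principle of a closed manifold.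
-/

set_option autoImplicit false

open Set
open scoped ContDiff Matrix ComplexConjugate ComplexOrder

namespace Crest.Agent.T223.Db

open Crest.Agent.R275.Geo Crest.Agent.R275.Core144 Crest.Agent.R273.Hess_333

noncomputable section

variable {n : ℕ} {M : Type} [TopologicalSpace M]

/-- the part of `W` seen in the chart `i` -/
def dom (A : Atl n M) (i : A.ι) (W : Set M) : Set (Cn n) :=
  {z | z ∈ (A.e i).target ∧ (A.e i).symm z ∈ W}

/-- jointly smooth on `I × W` -/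
def SmST (A : Atl n M) (I : Set ℝ) (W : Set M) (f : ℝ → M → ℝ) : Prop :=
  ∀ i, ContDiffOn ℝ ∞ (fun q : ℝ × Cn n => f q.1 ((A.e i).symm q.2)) (I ×ˢ dom A i W)

/-- a smooth family of Hermitian metrics on `W` (`g i t z a b = g_{a b̄}` in the chart `i`) -/
structure HFam (A : Atl n M) (I : Set ℝ) (W : Set M)
    (g : A.ι → ℝ → Cn n → Matrix (Fin n) (Fin n) ℂ) : Prop where
  sm : ∀ i a b, ContDiffOn ℝ ∞ (fun q : ℝ × Cn n => g i q.1 q.2 a b) (I ×ˢ dom A i W)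
  pos : ∀ i, ∀ t ∈ I, ∀ z ∈ dom A i W, (g i t z).PosDef
  tr : ∀ i j, ∀ t ∈ I, ∀ x ∈ W, x ∈ (A.e i).source → x ∈ (A.e j).source →
    g i t (A.e i x) = (Jm A i j x)ᵀ * g j t (A.e j x) * (Jm A i j x).map conj

/-- `tr (G⁻¹ ∂∂̄ φ)` -/
def lap (G : Matrix (Fin n) (Fin n) ℂ) (φ : Cn n → ℝ) (z : Cn n) : ℝ :=
  (Matrix.trace (G⁻¹ * hess φ z)).re

/-- admissible right hand sides: smooth on `I × W`, zero outside `K` -/
structure Adm (A : Atl n M) (I : Set ℝ) (K W : Set M) (f : ℝ → M → ℝ) : Prop where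
  sm : SmST A I W f
  supp : ∀ t ∈ I, ∀ x, x ∉ K → f t x = 0

/-- `w` solves `∂ₜ w = tr (g⁻¹ ∂∂̄ w) + f` on `[a,b] × W'`, `w a = 0` -/
structure Solves (A : Atl n M) (a b : ℝ) (W' : Set M)
    (g : A.ι → ℝ → Cn n → Matrix (Fin n) (Fin n) ℂ) (f w : ℝ → M → ℝ) : Prop where
  sm : SmST A (Icc a b) W' w
  init : ∀ x ∈ W', w a x = 0
  eqn : ∀ i, ∀ t ∈ Icc a b, ∀ z ∈ dom A i W',
    HasDerivWithinAt (fun s => w s ((A.e i).symm z))
      (lap (g i t z) (fun y => w t ((A.e i).symm y)) z + f t ((A.e i).symm z)) (Icc a b) t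

/-- **LINEAR SOLVER** -/
def LinSolStmt (n : ℕ) : Prop :=
  ∀ (M : Type) [TopologicalSpace M] [T2Space M] [SecondCountableTopology M] (A : Atl n M)
    (K W : Set M), IsCompact K → IsOpen W → K ⊆ W → ∀ a b : ℝ, a < b →
    ∀ g : A.ι → ℝ → Cn n → Matrix (Fin n) (Fin n) ℂ, HFam A (Icc a b) W g →
    ∃ W' : Set M, IsOpen W' ∧ K ⊆ W' ∧ W' ⊆ W ∧ ∃ S : (ℝ → M → ℝ) → ℝ → M → ℝ,
      (∀ f, Adm A (Icc a b) K W f → Solves A a b W' g f (S f)) ∧
      (∀ f, Adm A (Icc a b) K W f → ∀ C : ℝ, 0 ≤ C → ∀ t ∈ Icc a b,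
        (∀ s ∈ Icc a t, ∀ x ∈ K, |f s x| ≤ C) → ∀ x ∈ W', |S f t x| ≤ (t - a) * C) ∧
      (∀ f f', Adm A (Icc a b) K W f → Adm A (Icc a b) K W f' → ∀ C : ℝ, 0 ≤ C → ∀ t ∈ Icc a b,
        (∀ s ∈ Icc a t, ∀ x ∈ K, f s x - f' s x ≤ C) →
        ∀ x ∈ W', S f t x - S f' t x ≤ (t - a) * C)

end

end Crest.Agent.T223.Db
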