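import Crest.Agent.T223.DynBas_20

/-!
# Row 223, module DYN (helper20): the normal form from the leaves (induction on the degree)
-/

set_option autoImplicit false
set_option linter.unusedVariables false

open Set Filter Topology Metric Asymptotics

namespace Crest.Agent.T223.Dyn

variable {n : ℕ}

noncomputable local instance arrNorm_20 (n d : ℕ) : Norm (Arr n d) := inferInstance

theorem LinD.Ok.mono {X : LinD n} {a a' : ℝ} (h : X.Ok a') (ha : a ≤ a') : X.Ok a :=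
  { h with
    gain := fun i h1 h2 => (mul_le_mul_of_nonneg_right ha (by
      have := h.cst_ge i
      have := le_max_right (X.b (i + 1) - X.b i) 0
      linarith)).trans (h.gain i h1 h2) }

/-- tangent to the identity -/
def Tg (g : EE n → EE n) : Prop := (fun x => g x - x) =O[𝓝 0] fun x : EE n => ‖x‖ ^ 2

theorem isBigO_one_of_sub {u v : EE n → EE n} (hv : v =O[𝓝 0] fun x : EE n => ‖x‖)
    (h : (fun x => u x - v x) =O[𝓝 0] fun x : EE n => ‖x‖ ^ 2) :
    u =O[𝓝 0] fun x : EE n => ‖x‖ := by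
  have h1 : (fun x => u x - v x) =O[𝓝 0] fun x : EE n => ‖x‖ := by
    simpa using h.trans (isBigO_norm_pow_mono (E := EE n) (a := 1) (by norm_num))
  simpa using h1.add hv

theorem id_isBigO : (fun x : EE n => x) =O[𝓝 0] fun x : EE n => ‖x‖ :=
  (isBigO_refl _ _).norm_right

theorem Tg.isBigO {g : EE n → EE n} (h : Tg g) : g =O[𝓝 0] fun x : EE n => ‖x‖ :=
  isBigO_one_of_sub id_isBigO h

theorem Tg.comp_sub {g u v : EE n → EE n} (h : Tg g) (hv : v =O[𝓝 0] fun x : EE n => ‖x‖)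
    (huv : (fun x => u x - v x) =O[𝓝 0] fun x : EE n => ‖x‖ ^ 2) :
    (fun x => g (u x) - v x) =O[𝓝 0] fun x : EE n => ‖x‖ ^ 2 := by
  have := (isBigO_comp_pow h (isBigO_one_of_sub hv huv)).add huv
  simpa using this

theorem Tg.comp {g u : EE n → EE n} (h : Tg g) (hu : Tg u) : Tg fun x => g (u x) :=
  h.comp_sub id_isBigO hu

theorem Tg.zero {g : EE n → EE n} (h : Tg g) : g 0 = 0 := by
  simpa using eq_zero_of_isBigO_pow (d := 1) h

theorem Tg.hasFDerivAt {g : EE n → EE n} (h : Tg g) :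
    HasFDerivAt g (ContinuousLinearMap.id ℂ (EE n)) 0 := by
  rw [hasFDerivAt_iff_isLittleO_nhds_zero]
  have := h.trans_isLittleO (isLittleO_norm_pow_succ (E := EE n) 1)
  rw [← isLittleO_norm_right]
  simpa [h.zero] using this

theorem tg_of_near {g : EE n → EE n} {r C : ℝ} (hr : 0 < r)
    (h : ∀ x ∈ ball (0 : EE n) r, ‖g x - x‖ ≤ C * ‖x‖ ^ 2) : Tg g := by
  refine IsBigO.of_bound C ?_
  filter_upwards [ball_mem_nhds (0 : EE n) hr] with x hx
  rw [Real.norm_of_nonneg (by positivity)]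
  exact h x hx

theorem jet_step {d : ℕ} {τ u v : EE n → EE n} {q : Arr n (d + 1)}
    (hτ : (fun x => τ x - x - hev q x) =O[𝓝 0] fun x : EE n => ‖x‖ ^ (d + 1 + 1))
    (hv : v =O[𝓝 0] fun x : EE n => ‖x‖)
    (huv : (fun x => u x - v x) =O[𝓝 0] fun x : EE n => ‖x‖ ^ 2) :
    (fun x => τ (u x) - u x - hev q (v x)) =O[𝓝 0] fun x : EE n => ‖x‖ ^ (d + 1 + 1) := by
  have hu := isBigO_one_of_sub hv huv
  have h1 := isBigO_comp_pow hτ hu
  have h2 := lipO (Eventually.of_forall fun x => differentiable_hev q x) (hev_isBigO q) hu hv huv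
  refine (h1.add h2).congr_left fun x => ?_
  abel

theorem two_le_exp {b : ℝ} (hb : 1 ≤ b) : 2 ≤ Real.exp b := by
  linarith [Real.add_one_le_exp b]

theorem dbl_le {b t t' r : ℝ} (hb : 1 ≤ b) (h : r ≤ Real.exp (-(t' * b))) (ht : t' = t + 1) :
    2 * r ≤ Real.exp (-(t * b)) := by
  subst ht
  have h1 : Real.exp (-(t * b)) = Real.exp b * Real.exp (-((t + 1) * b)) := by
    rw [← Real.exp_add]; ring_nf
  rw [h1]
  have := two_le_exp hb
  have := Real.exp_pos (-((t + 1) * b))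
  nlinarith

theorem exp_mul_le {b t t' r : ℝ} (h : r ≤ Real.exp (-(t' * b))) (ht : t' = t + 1) :
    Real.exp b * r ≤ Real.exp (-(t * b)) := by
  subst ht
  have h1 : Real.exp (-(t * b)) = Real.exp b * Real.exp (-((t + 1) * b)) := by
    rw [← Real.exp_add]; ring_nf
  rw [h1]
  gcongr

section

variable {X : LinD n} {f V : ℕ → EE n → EE n} {a D : ℝ} {ν σ : ℕ → EE n ≃ EE n}

theorem MapOk.tgV (hM : MapOk X f V) (i : ℕ) : Tg (V i) :=
  tg_of_near (Real.exp_pos _) (hM.V_near i)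

theorem MapOk.f_sub (hM : MapOk X f V) (i : ℕ) :
    (fun x => f i x - X.L i x) =O[𝓝 0] fun x : EE n => ‖x‖ ^ 2 := by
  have h0 : f i 0 = 0 := by simpa using hM.f_bd i 0 (mem_ball_self (Real.exp_pos _))
  have := isBigO_sub_fderiv
    ((hM.f_hol i).eventually_differentiableAt (ball_mem_nhds _ (Real.exp_pos _))) (hM.f_der i)
  simpa [h0] using this

theorem L_isBigO (L : EE n ≃L[ℂ] EE n) : (fun x => L x) =O[𝓝 0] fun x : EE n => ‖x‖ :=
  ((L : EE n →L[ℂ] EE n).isBigO_id _).norm_right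

/-- differentiability and bounds of both sides of the conjugacy on a small ball -/
theorem sides (hX : X.Ok a) (hM : MapOk X f V) (ha : 1 ≤ a)
    (hν : ∀ i, Aut D (a * X.b i) (ν i)) (hν' : ∀ i, ¬ X.fine i → ν i = Equiv.refl _)
    (hσ : ∀ i, Aut D (a * X.b i) (σ i)) (i : ℕ) (x : EE n)
    (hx : ‖x‖ < Real.exp (-((2 * a + 4) * X.b i))) :
    DifferentiableAt ℂ (f i) x ∧ DifferentiableAt ℂ (V (i + 1)) (f i x) ∧
    DifferentiableAt ℂ (V i) x ∧
    ‖ν (i + 1) (V (i + 1) (f i x)) - X.L i (σ i (ν i (V i x)))‖ ≤ 2 := by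
  have hb := hX.b_ge i
  have le_of : ∀ {r s t : ℝ}, r ≤ Real.exp (-(s * X.b i)) → t ≤ s * X.b i → r ≤ Real.exp (-t) :=
    fun h1 h2 => h1.trans (Real.exp_le_exp.2 (by linarith))
  have lt_of : ∀ {r s t : ℝ}, r ≤ Real.exp (-(s * X.b i)) → t < s * X.b i → r < Real.exp (-t) :=
    fun h1 h2 => h1.trans_lt (Real.exp_lt_exp.2 (by linarith))
  have hx0 : x ∈ ball (0 : EE n) (Real.exp (-X.b i)) :=
    mem_ball_zero_iff.2 (lt_of hx.le (by nlinarith))
  have h1 : ‖f i x‖ ≤ Real.exp (-((2 * a + 3) * X.b i)) :=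
    (hM.f_bd i x hx0).trans (exp_mul_le hx.le (by ring))
  have hx1 : f i x ∈ ball (0 : EE n) (Real.exp (-X.b i)) :=
    mem_ball_zero_iff.2 (lt_of h1 (by nlinarith))
  have h2 : ‖V (i + 1) (f i x)‖ ≤ Real.exp (-((2 * a + 2) * X.b i)) :=
    (norm_le_two_mul (mem_ball_zero_iff.1 hx1).le (hM.V_near' i _ hx1)).trans
      (dbl_le hb h1 (by ring))
  have h3 : ‖ν (i + 1) (V (i + 1) (f i x))‖ ≤ 1 := by
    by_cases hf : X.fine (i + 1)
    · have hbn := hX.b_next i hf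
      have h := le_of (t := a * X.b (i + 1)) h2 (by nlinarith)
      refine (norm_le_two_mul h ((hν (i + 1)).near _ h)).trans ?_
      have := le_of (t := 0) (dbl_le (t := 2 * a + 1) hb h2 (by ring))
        (by nlinarith)
      simpa using this
    · rw [hν' _ hf]
      simpa using le_of (t := 0) h2 (by nlinarith)
  have g1 : ‖V i x‖ ≤ Real.exp (-((2 * a + 3) * X.b i)) :=
    (norm_le_two_mul (mem_ball_zero_iff.1 hx0).le (hM.V_near i _ hx0)).trans
      (dbl_le hb hx.le (by ring))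
  have g2 : ‖ν i (V i x)‖ ≤ Real.exp (-((2 * a + 2) * X.b i)) := by
    have h := le_of (t := a * X.b i) g1 (by nlinarith)
    exact (norm_le_two_mul h ((hν i).near _ h)).trans (dbl_le hb g1 (by ring))
  have g3 : ‖σ i (ν i (V i x))‖ ≤ Real.exp (-((2 * a + 1) * X.b i)) := by
    have h := le_of (t := a * X.b i) g2 (by nlinarith)
    exact (norm_le_two_mul h ((hσ i).near _ h)).trans (dbl_le hb g2 (by ring))
  have g4 : ‖X.L i (σ i (ν i (V i x)))‖ ≤ 1 := by
    have := le_of (t := 0) ((hX.L_le i _).trans (exp_mul_le (t := 2 * a) g3 rfl)) (by nlinarith)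
    simpa using this
  refine ⟨(hM.f_hol i).differentiableAt (isOpen_ball.mem_nhds hx0),
    (hM.V_hol' i).differentiableAt (isOpen_ball.mem_nhds hx1),
    (hM.V_hol i).differentiableAt (isOpen_ball.mem_nhds hx0), ?_⟩
  linarith [norm_sub_le (ν (i + 1) (V (i + 1) (f i x))) (X.L i (σ i (ν i (V i x))))]

theorem diffOn_defect (hX : X.Ok a) (hM : MapOk X f V) (ha : 1 ≤ a)
    (hν : ∀ i, Aut D (a * X.b i) (ν i)) (hν' : ∀ i, ¬ X.fine i → ν i = Equiv.refl _)
    (hσ : ∀ i, Aut D (a * X.b i) (σ i)) (i : ℕ) :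
    DifferentiableOn ℂ (fun x => ν (i + 1) (V (i + 1) (f i x)) - X.L i (σ i (ν i (V i x))))
      (ball 0 (Real.exp (-((2 * a + 4) * X.b i)))) := by
  intro x hx
  obtain ⟨h1, h2, h3, -⟩ := sides hX hM ha hν hν' hσ i x (mem_ball_zero_iff.1 hx)
  exact ((((hν (i + 1)).hol _).comp x (h2.comp x h1)).sub ((X.L i).differentiableAt.comp x
    (((hσ i).hol _).comp x (((hν i).hol _).comp x h3)))).differentiableWithinAt

theorem div_defect (hD : DivStmt n) (hX : X.Ok a) (hM : MapOk X f V) (ha : 1 ≤ a)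
    (hν : ∀ i, Aut D (a * X.b i) (ν i)) (hν' : ∀ i, ¬ X.fine i → ν i = Equiv.refl _)
    (hσ : ∀ i, Aut D (a * X.b i) (σ i)) (i : ℕ) {d : ℕ} (hd : 2 ≤ d) (c : Arr n d)
    (hc : (fun x => ν (i + 1) (V (i + 1) (f i x)) - X.L i (σ i (ν i (V i x))) - hev c x)
      =O[𝓝 0] fun x : EE n => ‖x‖ ^ (d + 1)) (x : EE n) :
    divg (fun y => (X.L i).symm (hev c y)) x = 0 := by
  have hev' : ∀ᶠ x in 𝓝 (0 : EE n), DifferentiableAt ℂ (f i) x ∧
      DifferentiableAt ℂ (V (i + 1)) (f i x) ∧ DifferentiableAt ℂ (V i) x := by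
    filter_upwards [ball_mem_nhds (0 : EE n) (Real.exp_pos (-((2 * a + 4) * X.b i)))] with x hx
    obtain ⟨h1, h2, h3, -⟩ := sides hX hM ha hν hν' hσ i x (mem_ball_zero_iff.1 hx)
    exact ⟨h1, h2, h3⟩
  refine hD d (fun x => ν (i + 1) (V (i + 1) (f i x))) (fun x => X.L i (σ i (ν i (V i x))))
    (X.L i) c hd ?_ ?_ ?_ ?_ hc x
  · filter_upwards [hev'] with x hx
    exact ((hν (i + 1)).hol _).comp x (hx.2.1.comp x hx.1)
  · filter_upwards [hev'] with x hx
    exact (X.L i).differentiableAt.comp x (((hσ i).hol _).comp x (((hν i).hol _).comp x hx.2.2))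
  · have hT : Tg fun x => σ i (ν i (V i x)) :=
      Tg.comp (hσ i).sub_isBigO (Tg.comp (hν i).sub_isBigO (hM.tgV i))
    have := (X.L i : EE n →L[ℂ] EE n).hasFDerivAt.comp 0 hT.hasFDerivAt
    rw [ContinuousLinearMap.comp_id] at this
    exact this
  · filter_upwards [hev', hM.vol i] with x hx hvol
    have e1 := (((hν (i + 1)).hol (V (i + 1) (f i x))).hasFDerivAt.comp x
      (hx.2.1.hasFDerivAt.comp x hx.1.hasFDerivAt)).fderiv
    have e2 := ((X.L i : EE n →L[ℂ] EE n).hasFDerivAt.comp x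
      (((hσ i).hol (ν i (V i x))).hasFDerivAt.comp x
        (((hν i).hol (V i x)).hasFDerivAt.comp x hx.2.2.hasFDerivAt))).fderiv
    have e1' : fderiv ℂ (fun x => ν (i + 1) (V (i + 1) (f i x))) x = _ := e1
    have e2' : fderiv ℂ (fun x => X.L i (σ i (ν i (V i x)))) x = _ := e2
    rw [e1', e2']
    simp only [Aut.det_comp', (hν _).det, (hσ _).det, one_mul]
    exact hvol

end

/-- the induction hypothesis: conjugacy up to order `d + 1` -/
def NFq (n d : ℕ) : Prop :=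
  ∃ a D : ℝ, 1 ≤ a ∧ 1 ≤ D ∧ ∀ (X : LinD n) (f V : ℕ → EE n → EE n),
    X.Ok a → MapOk X f V → ∃ ν σ : ℕ → EE n ≃ EE n,
      (∀ i, Aut D (a * X.b i) (ν i)) ∧ (∀ i, ¬ X.fine i → ν i = Equiv.refl _) ∧
      (∀ i, Aut D (a * X.b i) (σ i)) ∧ (∀ i, X.fine i → Lya (X.wt i) a (a * X.b i) (σ i)) ∧
      ∀ i, (fun x => ν (i + 1) (V (i + 1) (f i x)) - X.L i (σ i (ν i (V i x)))) =O[𝓝 0]
        fun x : EE n => ‖x‖ ^ (d + 1)

theorem nfq_one : NFq n 1 := by
  refine ⟨1, 1, le_rfl, le_rfl, fun X f V hX hM => ⟨fun _ => Equiv.refl _, fun _ => Equiv.refl _,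
    fun i => Aut.refl le_rfl (by linarith [hX.b_ge i]), fun _ _ => rfl,
    fun i => Aut.refl le_rfl (by linarith [hX.b_ge i]),
    fun i _ => Lya.id _ zero_le_one _, fun i => ?_⟩⟩
  have h1 := (hM.tgV (i + 1)).comp_sub (L_isBigO (X.L i)) (hM.f_sub i)
  have h2 := ((X.L i : EE n →L[ℂ] EE n).isBigO_comp _ _).trans (hM.tgV i)
  refine (h1.sub h2).congr_left fun x => ?_
  simp

theorem nfq_succ (hJ : JetStmt n) (hD : DivStmt n) (hR : RealStmt n) (hK : RealKStmt n)
    (hH : HomStmt n) {d : ℕ} (hd : 1 ≤ d) (ih : NFq n d) : NFq n (d + 1) := by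
  obtain ⟨a, D, ha, hD1, ih⟩ := ih
  obtain ⟨CJ, hCJ, hJ⟩ := hJ (d + 1)
  obtain ⟨CR, DR, hCR, hDR, hR⟩ := hR (d + 1) (by omega)
  obtain ⟨CK, DK, hCK, hDK, hK⟩ := hK (d + 1) (by omega)
  set s : ℝ := (d + 1 : ℕ) * (2 * a + 4) + 2 * CJ with hs
  have hs1 : 1 ≤ s := by
    have : (0 : ℝ) ≤ (d + 1 : ℕ) * (2 * a + 4) := by positivity
    linarith
  obtain ⟨aH, haH, hH⟩ := hH (d + 1) s (by omega) hs1
  set a2 : ℝ := a + aH + CR + CK with ha2
  set D2 : ℝ := D + DR + DK with hD2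
  refine ⟨2 * a2 + 2, D2 * D2, by linarith, by nlinarith, fun X f V hX hM => ?_⟩
  have hXa : X.Ok a := hX.mono (by linarith)
  obtain ⟨ν, σ, hν, hν', hσ, hσ', hO⟩ := ih X f V hXa hM
  -- the defects
  have hc : ∀ i, ∃ c : Arr n (d + 1), ‖c‖ ≤ Real.exp (s * X.b i) ∧
      (fun x => ν (i + 1) (V (i + 1) (f i x)) - X.L i (σ i (ν i (V i x))) - hev c x)
        =O[𝓝 0] fun x : EE n => ‖x‖ ^ (d + 1 + 1) := by
    intro i
    obtain ⟨c, hc1, hc2⟩ := hJ _ _ 2 (Real.exp_pos _) (diffOn_defect hXa hM ha hν hν' hσ i)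
      (fun x hx => (sides hXa hM ha hν hν' hσ i x (mem_ball_zero_iff.1 hx)).2.2.2) (hO i)
    refine ⟨c, hc1.trans ?_, hc2⟩
    have hb := hX.b_ge i
    rw [← Real.exp_nat_mul, div_le_iff₀ (Real.exp_pos _), ← Real.exp_add]
    have h1 : s * X.b i + (d + 1 : ℕ) * -((2 * a + 4) * X.b i) = 2 * CJ * X.b i := by
      rw [hs]; ring
    rw [h1]
    nlinarith [Real.add_one_le_exp (2 * CJ * X.b i)]
  choose c hc1 hc2 using hc
  obtain ⟨q, p, hq1, hp1, hq2, hp2, hq3, hp3, heq⟩ := hH X c (hX.mono (by linarith)) hc1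
    fun i x => div_defect hD hXa hM ha hν hν' hσ i (by omega) (c i) (hc2 i) x
  have hab : ∀ i, 0 ≤ aH * X.b i := fun i => by nlinarith [hX.b_ge i]
  have hν2 : ∀ i, ∃ τ : EE n ≃ EE n, Aut D2 (a2 * X.b i) τ ∧ (¬ X.fine i → τ = Equiv.refl _) ∧
      (fun x => τ x - x - hev (q i) x) =O[𝓝 0] fun x : EE n => ‖x‖ ^ (d + 1 + 1) := by
    intro i
    have hb := hX.b_ge i
    by_cases hf : X.fine i
    · obtain ⟨τ, h1, h2⟩ := hR (q i) _ (hab i) (hq1 i) (hq2 i)
      exact ⟨τ, h1.mono (by linarith) (by linarith [hab i]) (by linarith) (by nlinarith),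
        fun h => absurd hf h, h2⟩
    · refine ⟨Equiv.refl _, Aut.refl (by linarith) (by nlinarith), fun _ => rfl, ?_⟩
      simp [hq3 i hf, isBigO_zero]
  have hσ2 : ∀ i, ∃ τ : EE n ≃ EE n, Aut D2 (a2 * X.b i) τ ∧
      (X.fine i → Lya (X.wt i) CK (a2 * X.b i) τ) ∧
      (fun x => τ x - x - hev (p i) x) =O[𝓝 0] fun x : EE n => ‖x‖ ^ (d + 1 + 1) := by
    intro i
    have hb := hX.b_ge i
    by_cases hf : X.fine i
    · obtain ⟨τ, h1, h2, h3⟩ := hK (p i) _ (X.wt i) (hab i) (hp1 i) (hX.wt_pos i hf) (hp3 i hf)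
      exact ⟨τ, h1.mono (by linarith) (by linarith [hab i]) (by linarith) (by nlinarith),
        fun _ => h2.mono le_rfl (by nlinarith), h3⟩
    · obtain ⟨τ, h1, h2⟩ := hR (p i) _ (hab i) (hp1 i) (hp2 i)
      exact ⟨τ, h1.mono (by linarith) (by linarith [hab i]) (by linarith) (by nlinarith),
        fun h => absurd h hf, h2⟩
  choose ν2 hν21 hν22 hν23 using hν2
  choose σ2 hσ21 hσ22 hσ23 using hσ2
  have tr : ∀ i (α β : EE n ≃ EE n), Aut D (a * X.b i) α → Aut D2 (a2 * X.b i) β →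
      Aut (D2 * D2) ((2 * a2 + 2) * X.b i) (α.trans β) := by
    intro i α β hα hβ
    have hb := hX.b_ge i
    have hα' : Aut D2 (a2 * X.b i) α :=
      hα.mono (by linarith) (by nlinarith) (by linarith) (by nlinarith)
    exact (hα'.trans hβ (by linarith) (by linarith) (by nlinarith)).mono (by nlinarith)
      (by nlinarith) le_rfl (by nlinarith)
  refine ⟨fun i => (ν i).trans (ν2 i), fun i => (σ i).trans (σ2 i),
    fun i => tr i _ _ (hν i) (hν21 i), fun i hf => by simp only [hν' i hf, hν22 i hf]; rfl,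
    fun i => tr i _ _ (hσ i) (hσ21 i), fun i hf => ?_, fun i => ?_⟩
  · have hb := hX.b_ge i
    exact ((hσ22 i hf).comp ((hσ' i hf).mono le_rfl (by nlinarith)) (by linarith)).mono
      (by linarith) (by nlinarith)
  · simp only [Equiv.trans_apply]
    have hA : (fun x => ν (i + 1) (V (i + 1) (f i x)) - X.L i x) =O[𝓝 0]
        fun x : EE n => ‖x‖ ^ 2 :=
      Tg.comp_sub (hν (i + 1)).sub_isBigO (L_isBigO _)
        ((hM.tgV (i + 1)).comp_sub (L_isBigO _) (hM.f_sub i))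
    have h1 := jet_step (hν23 (i + 1)) (L_isBigO (X.L i)) hA
    have hW : Tg fun x => ν i (V i x) := Tg.comp (hν i).sub_isBigO (hM.tgV i)
    have hU : Tg fun x => ν2 i (ν i (V i x)) := Tg.comp (hν21 i).sub_isBigO hW
    have h2 := jet_step (hν23 i) id_isBigO hW
    have h3 : (fun x => ν2 i (ν i (V i x)) - ν i (V i x)) =O[𝓝 0]
        fun x : EE n => ‖x‖ ^ (d + 1) := by
      refine ((h2.trans (isBigO_norm_pow_mono (Nat.le_succ _))).add
        (hev_isBigO (q i))).congr_left fun x => ?_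
      abel
    have h4 := lipO (a := 1) (g := fun x => σ i x - x)
      (Eventually.of_forall fun x => ((hσ i).hol x).sub differentiableAt_id)
      (hσ i).sub_isBigO hU.isBigO hW.isBigO h3
    rw [add_comm 1 (d + 1)] at h4
    have hT : Tg fun x => σ i (ν2 i (ν i (V i x))) := Tg.comp (hσ i).sub_isBigO hU
    have h5 := jet_step (hσ23 i) id_isBigO hT
    have h6 := ((X.L i : EE n →L[ℂ] EE n).isBigO_comp _ _).trans ((h2.add h4).add h5)
    refine (((hc2 i).add h1).sub h6).congr_left fun x => ?_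
    have := heq i x
    simp only [map_add, map_sub, ContinuousLinearEquiv.coe_coe] at this ⊢
    have e : hev (c i) x = X.L i (hev (p i) x) + X.L i (hev (q i) x) - hev (q (i + 1)) (X.L i x) := by
      rw [← this]; abel
    rw [e]
    abel

/-- **the normal form** -/
theorem nfStmt (hJ : JetStmt n) (hD : DivStmt n) (hR : RealStmt n) (hK : RealKStmt n)
    (hH : HomStmt n) : NFStmt n := by
  intro m
  have hq : ∀ d, NFq n (d + 1) := by
    intro d
    induction d with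
    | zero => exact nfq_one
    | succ d ih => exact nfq_succ hJ hD hR hK hH (by omega) ih
  obtain ⟨a, D, ha, hD1, H⟩ := hq m
  set s : ℝ := 2 * a + 4 with hs
  have hm : (0 : ℝ) ≤ (m + 1 : ℕ) := by positivity
  refine ⟨(m + 1 : ℕ) * s + s + 1, D, by nlinarith, hD1, fun X f V hX hM => ?_⟩
  have haa : a ≤ (m + 1 : ℕ) * s + s + 1 := by nlinarith
  have hXa : X.Ok a := hX.mono haa
  obtain ⟨ν, σ, hν, hν', hσ, hσ', hO⟩ := H X f V hXa hM
  have hle : ∀ i, a * X.b i ≤ ((m + 1 : ℕ) * s + s + 1) * X.b i := fun i =>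
    mul_le_mul_of_nonneg_right haa (by linarith [hX.b_ge i])
  have h0 : ∀ i, 0 ≤ a * X.b i := fun i => by nlinarith [hX.b_ge i]
  refine ⟨ν, σ, fun i => (hν i).mono (by linarith) (h0 i) le_rfl (hle i), hν',
    fun i => (hσ i).mono (by linarith) (h0 i) le_rfl (hle i),
    fun i hf => (hσ' i hf).mono haa (hle i), fun i x hx => ?_⟩
  have hb := hX.b_ge i
  have hms : 0 ≤ ((m + 1 : ℕ) : ℝ) * s * X.b i := by
    have : 0 ≤ s := by linarith
    have : 0 ≤ X.b i := by linarith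
    positivity
  have hx' : x ∈ ball (0 : EE n) (Real.exp (-(s * X.b i))) :=
    mem_ball_zero_iff.2 (hx.trans_lt (Real.exp_lt_exp.2 (by nlinarith)))
  have := schwarz_ord (diffOn_defect hXa hM ha hν hν' hσ i)
    (fun x hx => (sides hXa hM ha hν hν' hσ i x (mem_ball_zero_iff.1 hx)).2.2.2)
    ((hO i).trans (isBigO_norm_pow_mono (Nat.le_succ _))) x hx'
  refine this.trans ?_
  rw [div_pow, ← Real.exp_nat_mul, ← mul_div_assoc, mul_div_right_comm]
  gcongr
  rw [div_le_iff₀ (Real.exp_pos _), ← Real.exp_add]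
  refine (two_le_exp hb).trans (Real.exp_le_exp.2 ?_)
  nlinarith

end Crest.Agent.T223.Dyn
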