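import Crest.Agent.T223.Fr_38

/-!
# Row 223, module HARN + PINCH (helper76): definitions and statements

* `PinchStmt n` : static pinching in a holomorphic immersion of the unit ball (`BK(g₀) > 0`)
* `Geo K0 p F`  : everything the endgame needs from the complete flow (unit scale charts at `p`
  for all `t ≥ 1`, bounded scalar curvature at `p`, pinching, `sg → ∞`)
* `GeoStmt n`   : `QCStmt n → Hyp → Flow → Geo`
-/

set_option autoImplicit false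
set_option linter.unusedVariables false

open Set Filter Topology Metric
open scoped ContDiff ComplexConjugate Matrix ComplexOrder

namespace Crest.Agent.T223.Hn

open Crest.Agent.R275.Geo Crest.Agent.R273.Kah_333
open Crest.Agent.T223.Br Crest.Agent.T223.Tr

noncomputable section

/-- static pinching: if `ψ^* g₀ ≥ m` on the unit ball then at points over the compact set `Q` the
smallest eigenvalue of `ψ^* g₀` is at least `m (c₂ λ_max)^c` -/
def PinchStmt (n : ℕ) : Prop :=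
  ∀ (M : Type) [TopologicalSpace M] [T2Space M] (A : Atl n M) (K0 : Kah A), BKpos K0 →
    ∀ Q : Set M, IsCompact Q → ∃ c c2 : ℝ, 0 < c ∧ 0 < c2 ∧
      ∀ (ψ : Cn n → M) (m : ℝ), Imm A ψ (ball 0 1) → 0 < m →
        (∀ w ∈ ball (0 : Cn n) 1, ∀ v, m * ‖v‖ ^ 2 ≤ nq (pbm K0 ψ w) v) →
        ∀ w ∈ ball (0 : Cn n) (1 / 2), ψ w ∈ Q → ∀ e0 e : Cn n, ‖e0‖ = 1 → ‖e‖ = 1 →
          Real.log m + c * Real.log (c2 * nq (pbm K0 ψ w) e) ≤ Real.log (nq (pbm K0 ψ w) e0)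

variable {n : ℕ} {M : Type} [TopologicalSpace M] {A : Atl n M} [T2Space M] [ConnectedSpace M]

/-- output of HARN + PINCH -/
structure Geo (K0 : Kah A) (p : M) (F : Flow K0 p) where
  /-- the (constant) squared radius of the charts -/
  τ : ℝ
  Λ : ℝ
  /-- quasi-charts at `p` for `g(t)`, `t ≥ 1` -/
  ψ : ℝ → Cn n → M
  /-- `log (det g₀ / det g(t))` at `p` -/
  sg : ℝ → ℝ
  /-- scalar curvature at `(p, t)` -/
  R : ℝ → ℝ
  C : ℝ
  one_le : 1 ≤ Λ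
  τ_lo : 1 ≤ Λ * τ
  qc : ∀ t, 1 ≤ t → IsQC (F.K t) τ Λ (ψ t)
  zero : ∀ t, 1 ≤ t → ψ t 0 = p
  ctr : ∀ t, 1 ≤ t → pbm (F.K t) (ψ t) 0 = ((τ : ℝ) : ℂ) • (1 : Mat n)
  anti : ∀ s t, 0 < s → s ≤ t → KLe (F.K t) 1 (F.K s)
  sg_eq : ∀ t, 0 < t → ∀ i, p ∈ (A.e i).source → lvol K0 (gc (F.K t)) i p = sg t
  R_eq : ∀ t, 0 < t → ∀ i, p ∈ (A.e i).source → scal (gc (F.K t) i) (A.e i p) = R t
  sg_deriv : ∀ t, 0 < t → HasDerivAt sg (R t) t
  sg_nonneg : ∀ t, 0 < t → 0 ≤ sg t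
  sg_top : Tendsto sg atTop atTop
  R_nonneg : ∀ t, 0 < t → 0 ≤ R t
  R_mono : MonotoneOn (fun t => t * R t) (Ioi 0)
  R_le : ∀ t, 1 ≤ t → R t ≤ C
  R_pos : ∃ t0, 1 ≤ t0 ∧ 0 < R t0
  /-- pinching, all directions, at all points of the charts over a compact set -/
  pinch : ∀ Q : Set M, IsCompact Q → ∃ ε C' : ℝ, 0 < ε ∧ ∀ t, 1 ≤ t →
    ∀ w ∈ ball (0 : Cn n) (1 / 2), ψ t w ∈ Q → ∀ v,
      Real.exp (ε * sg t - C') * ‖v‖ ^ 2 ≤ nq (pbm K0 (ψ t) w) v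
  ricpos : RicPos K0

/-- the metric path at a point satisfies the matrix Li-Yau-Hamilton inequality:
`g' = -r`, `r' = rT`, `r ≥ 0`, `rT + r g⁻¹ r + r / t ≥ 0` -/
structure PathLYH (g r rT : ℝ → Mat n) : Prop where
  pos : ∀ t, 0 < t → (g t).PosDef
  sm : ∀ a b, ContDiffOn ℝ ∞ (fun t => g t a b) (Ioi 0)
  dg : ∀ t, 0 < t → ∀ a b, HasDerivAt (fun s => g s a b) (-(r t a b)) t
  dr : ∀ t, 0 < t → ∀ a b, HasDerivAt (fun s => r s a b) (rT t a b) t
  psd : ∀ t, 0 < t → (r t).PosSemidef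
  lyh : ∀ t, 0 < t →
    (rT t + r t * (g t)⁻¹ * r t + ((t⁻¹ : ℝ) : ℂ) • r t).PosSemidef

end

/-- HARN + PINCH -/
def GeoStmt (n : ℕ) : Prop :=
  ∀ (M : Type) [TopologicalSpace M] [T2Space M] [ConnectedSpace M] (A : Atl n M) (K0 : Kah A)
    (p : M), Hyp K0 → ∀ F : Flow K0 p, Nonempty (Geo K0 p F)

/-- the matrix path at a point -/
def PathStmt (n : ℕ) : Prop :=
  ∀ (M : Type) [TopologicalSpace M] [T2Space M] [ConnectedSpace M] (A : Atl n M) (K0 : Kah A)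
    (p : M) (F : Flow K0 p) (i : A.ι) (z : Cn n), z ∈ (A.e i).target →
    PathLYH (fun t => gc (F.K t) i z) (fun t => ric (gc (F.K t) i) z)
      (fun t => ricT (fun s => gc (F.K s) i) t z)

end Crest.Agent.T223.Hn
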