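import Crest.Agent.T223.LmDef_19
import Crest.Agent.T223.TrPb_90

/-!
# Row 223, module LIMIT (helper23), part A: linear algebra and local uniform bounds
-/

set_option autoImplicit false

open Set Filter Topology Metric
open scoped ContDiff ComplexConjugate Matrix ComplexOrder

namespace Crest.Agent.T223.Lm23

open Crest.Agent.R275.Geo Crest.Agent.R275.EDR890
open Crest.Agent.R273.Kah_333 Crest.Agent.R273.Hess_333 Crest.Agent.R273.RMan4_798
open Crest.Agent.T223.Br Crest.Agent.T223.Tr Crest.Agent.N207.Jt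

noncomputable section

variable {n : ℕ}

theorem abs_nq_le (g : Mat n) (v : Cn n) {ε : ℝ} (h : ∀ a b, ‖g a b‖ ≤ ε) :
    |nq g v| ≤ (n : ℝ) ^ 2 * ε * ‖v‖ ^ 2 := by
  unfold nq
  refine (Complex.abs_re_le_norm _).trans ?_
  refine (norm_sum_le _ _).trans ?_
  have h1 : ∀ a, ‖∑ b, g a b * v a * conj (v b)‖ ≤ n * (ε * ‖v‖ ^ 2) := by
    intro a
    refine (norm_sum_le _ _).trans ?_
    have h2 : ∀ b, ‖g a b * v a * conj (v b)‖ ≤ ε * ‖v‖ ^ 2 := by
      intro b
      rw [norm_mul, norm_mul, Complex.norm_conj]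
      have ha := PiLp.norm_apply_le v a
      have hb := PiLp.norm_apply_le v b
      have h0 : 0 ≤ ε := (norm_nonneg _).trans (h a b)
      calc ‖g a b‖ * ‖v a‖ * ‖v b‖ ≤ ε * ‖v‖ * ‖v‖ := by gcongr; exact h a b
        _ = ε * ‖v‖ ^ 2 := by ring
    calc ∑ b, ‖g a b * v a * conj (v b)‖ ≤ ∑ _b : Fin n, ε * ‖v‖ ^ 2 :=
          Finset.sum_le_sum fun b _ => h2 b
      _ = n * (ε * ‖v‖ ^ 2) := by simp
  calc ∑ a, ‖∑ b, g a b * v a * conj (v b)‖ ≤ ∑ _a : Fin n, n * (ε * ‖v‖ ^ 2) :=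
        Finset.sum_le_sum fun a _ => h1 a
    _ = (n : ℝ) ^ 2 * ε * ‖v‖ ^ 2 := by simp; ring

theorem posDef_of_nq {g : Mat n} (hg : g.IsHermitian) {c : ℝ} (hc : 0 < c)
    (h : ∀ v : Cn n, c * ‖v‖ ^ 2 ≤ nq g v) : g.PosDef := by
  refine Matrix.PosDef.of_dotProduct_mulVec_pos hg fun x hx => ?_
  have h1 := h (WithLp.toLp 2 fun a => conj (x a))
  rw [nq_eq_dot] at h1
  simp only [Complex.conj_conj] at h1
  have h2 : (WithLp.toLp 2 fun a => conj (x a) : Cn n) ≠ 0 := by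
    intro h0
    apply hx
    funext a
    have := congrArg (fun w : Cn n => w a) h0
    simpa using this
  have h3 : 0 < c * ‖(WithLp.toLp 2 fun a => conj (x a) : Cn n)‖ ^ 2 := by
    have := norm_pos_iff.2 h2
    positivity
  refine Complex.lt_def.2 ⟨by simpa using h3.trans_le h1, ?_⟩
  have := hg.im_star_dotProduct_mulVec_self x
  simpa using this.symm

/-- an upper bound and a lower bound of the determinant give a lower bound -/
theorem nq_ge_of_det {g : Mat n} (hg : g.PosDef) {C δ : ℝ} (hC : 1 ≤ C)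
    (h : ∀ v : Cn n, nq g v ≤ C * ‖v‖ ^ 2) (hd : δ ≤ g.det.re) (v : Cn n) :
    δ / C ^ n * ‖v‖ ^ 2 ≤ nq g v := by
  have hH := hg.isHermitian
  have h2 : ∀ i, hH.eigenvalues i ≤ C := by
    intro i
    set x := hH.eigenvectorBasis i with hx
    have hn : ‖x‖ = 1 := hH.eigenvectorBasis.orthonormal.1 i
    have h3 := h (WithLp.toLp 2 fun a => conj (x a))
    have h4 : ‖(WithLp.toLp 2 fun a => conj (x a) : Cn n)‖ = 1 := by
      rw [← hn, EuclideanSpace.norm_eq, EuclideanSpace.norm_eq]; simp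
    rw [h4, nq_eq_dot] at h3
    simp only [Complex.conj_conj, one_pow, mul_one] at h3
    rw [hH.eigenvalues_eq i]
    exact h3
  have hp : ∀ i, 0 < hH.eigenvalues i := hg.eigenvalues_pos
  have hdet : g.det.re = ∏ i, hH.eigenvalues i := by
    rw [hH.det_eq_prod_eigenvalues]
    have h1 : (∏ i, ((hH.eigenvalues i : ℝ) : ℂ)).re = ∏ i, hH.eigenvalues i := by
      rw [← Complex.ofReal_prod, Complex.ofReal_re]
    exact h1
  have hCn : 0 < C ^ n := by positivity
  have h5 : ∀ i, δ / C ^ n ≤ hH.eigenvalues i := by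
    intro i
    rw [div_le_iff₀ hCn]
    have h6 : ∏ j ∈ Finset.univ.erase i, hH.eigenvalues j ≤ C ^ n := by
      calc ∏ j ∈ Finset.univ.erase i, hH.eigenvalues j ≤ ∏ _j ∈ Finset.univ.erase i, C :=
            Finset.prod_le_prod (fun j _ => (hp j).le) fun j _ => h2 j
        _ = C ^ (Finset.univ.erase i).card := by simp
        _ ≤ C ^ n := pow_le_pow_right₀ hC (by
            simpa using Finset.card_le_univ (Finset.univ.erase i))
    calc δ ≤ ∏ j, hH.eigenvalues j := hdet ▸ hd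
      _ = hH.eigenvalues i * ∏ j ∈ Finset.univ.erase i, hH.eigenvalues j :=
          (Finset.mul_prod_erase _ _ (Finset.mem_univ i)).symm
      _ ≤ hH.eigenvalues i * C ^ n := by gcongr; exact (hp i).le
  have h7 : (g - ((δ / C ^ n : ℝ) : ℂ) • (1 : Mat n)).PosSemidef := by
    have hU := hH.spectral_theorem
    set U : Mat n := (hH.eigenvectorUnitary : Mat n) with hUdef
    have hUU : U * star U = 1 := Matrix.mem_unitaryGroup_iff.1 hH.eigenvectorUnitary.2
    have h8 : g - ((δ / C ^ n : ℝ) : ℂ) • (1 : Mat n) =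
        U * Matrix.diagonal (fun i => ((hH.eigenvalues i - δ / C ^ n : ℝ) : ℂ)) * star U := by
      have h9 : Matrix.diagonal (fun i => ((hH.eigenvalues i - δ / C ^ n : ℝ) : ℂ)) =
          Matrix.diagonal (RCLike.ofReal ∘ hH.eigenvalues) - ((δ / C ^ n : ℝ) : ℂ) • (1 : Mat n) := by
        ext a b
        by_cases hab : a = b
        · subst hab; simp
        · simp [hab, Matrix.one_apply_ne hab]
      rw [h9, mul_sub, sub_mul, Matrix.mul_smul, Matrix.smul_mul, mul_one, hUU]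
      congr 1
    rw [h8]
    refine Matrix.PosSemidef.mul_mul_conjTranspose_same ?_ U
    refine Matrix.PosSemidef.diagonal fun i => ?_
    exact Complex.zero_le_real.2 (sub_nonneg.2 (h5 i))
  have h10 := nq_nonneg h7 v
  rw [nq_sub, nq_smul, nq_one] at h10
  linarith

theorem tendsto_nq {ι : Type*} {l : Filter ι} {g : ι → Mat n} {g' : Mat n}
    (h : ∀ a b, Tendsto (fun j => g j a b) l (𝓝 (g' a b))) (v : Cn n) :
    Tendsto (fun j => nq (g j) v) l (𝓝 (nq g' v)) := by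
  unfold nq
  refine (Complex.continuous_re.tendsto _).comp ?_
  refine tendsto_finsetSum _ fun a _ => tendsto_finsetSum _ fun b _ => ?_
  exact ((h a b).mul_const _).mul_const _

theorem tendsto_mat {ι : Type*} {l : Filter ι} {g : ι → Mat n} {g' : Mat n}
    (h : ∀ a b, Tendsto (fun j => g j a b) l (𝓝 (g' a b))) : Tendsto g l (𝓝 g') :=
  tendsto_pi_nhds.2 fun a => tendsto_pi_nhds.2 fun b => h a b

theorem tendsto_ldet {ι : Type*} {l : Filter ι} {g : ι → Mat n} {g' : Mat n} (hg : g'.PosDef)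
    (h : ∀ a b, Tendsto (fun j => g j a b) l (𝓝 (g' a b))) :
    Tendsto (fun j => Real.log (g j).det.re) l (𝓝 (Real.log g'.det.re)) := by
  have h1 : Continuous fun m : Mat n => m.det.re :=
    Complex.continuous_re.comp (continuous_id.matrix_det)
  exact ((h1.tendsto g').comp (tendsto_mat h)).log (det_re_pos hg).ne'

/-- two sided bounds of a continuous positive family on a compact set -/
theorem exists_bounds {S : Set (Cn n)} (hS : IsCompact S) {g : Cn n → Mat n}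
    (hc : ∀ a b, ContinuousOn (fun z => g z a b) S) (hp : ∀ z ∈ S, (g z).PosDef) :
    ∃ C δ : ℝ, 1 ≤ C ∧ 0 < δ ∧ ∀ z ∈ S, (∀ v, nq (g z) v ≤ C * ‖v‖ ^ 2) ∧ δ ≤ (g z).det.re := by
  have hg : ContinuousOn g S := continuousOn_pi.2 fun a => continuousOn_pi.2 fun b => hc a b
  have h1 : ∃ B : ℝ, 0 ≤ B ∧ ∀ z ∈ S, ∀ a b, ‖g z a b‖ ≤ B := by
    have h2 : ContinuousOn (fun z => ∑ a, ∑ b, ‖g z a b‖) S :=
      continuousOn_finsetSum _ fun a _ => continuousOn_finsetSum _ fun b _ => (hc a b).norm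
    obtain ⟨B, hB⟩ := hS.exists_bound_of_continuousOn h2
    refine ⟨max B 0, le_max_right _ _, fun z hz a b => le_max_of_le_left ?_⟩
    calc ‖g z a b‖ ≤ ∑ b, ‖g z a b‖ :=
          Finset.single_le_sum (f := fun b => ‖g z a b‖) (fun _ _ => norm_nonneg _)
            (Finset.mem_univ b)
      _ ≤ ∑ a, ∑ b, ‖g z a b‖ :=
          Finset.single_le_sum (f := fun a => ∑ b, ‖g z a b‖)
            (fun _ _ => Finset.sum_nonneg fun _ _ => norm_nonneg _) (Finset.mem_univ a)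
      _ ≤ B := (le_abs_self _).trans (hB z hz)
  obtain ⟨B, hB0, hB⟩ := h1
  have h3 : ContinuousOn (fun z => (g z).det.re) S :=
    (Complex.continuous_re.comp (continuous_id.matrix_det)).comp_continuousOn hg
  have h4 : ∃ δ : ℝ, 0 < δ ∧ ∀ z ∈ S, δ ≤ (g z).det.re := by
    rcases S.eq_empty_or_nonempty with rfl | hne
    · exact ⟨1, one_pos, by simp⟩
    · obtain ⟨z0, hz0, hmin⟩ := hS.exists_isMinOn hne h3
      exact ⟨_, det_re_pos (hp z0 hz0), fun z hz => hmin hz⟩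
  obtain ⟨δ, hδ, hδ'⟩ := h4
  refine ⟨(n : ℝ) ^ 2 * B + 1, δ, by have : 0 ≤ (n : ℝ) ^ 2 * B := by positivity
                                     linarith, hδ, fun z hz => ⟨fun v => ?_, hδ' z hz⟩⟩
  have := (le_abs_self _).trans (abs_nq_le (g z) v (hB z hz))
  nlinarith [sq_nonneg ‖v‖]

variable {M : Type} [TopologicalSpace M] [T2Space M] [ConnectedSpace M] {A : Atl n M}
  {K0 : Kah A} {p : M}

/-- uniform bounds of the local flows near a point of space-time -/
theorem loc_bounds (X : Apx K0 p) (i : A.ι) {t0 : ℝ} (ht : 0 < t0) {z0 : Cn n}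
    (hz : z0 ∈ (A.e i).target) :
    ∃ r c C : ℝ, 0 < r ∧ 0 < c ∧ closedBall z0 r ⊆ (A.e i).target ∧
      ∀ᶠ k in atTop, ∀ q ∈ Icc (t0 / 2) (2 * t0) ×ˢ closedBall z0 r,
        KRFat (fun s => X.G k s i) q.1 q.2 ∧
        (∀ v, c * ‖v‖ ^ 2 ≤ nq (X.G k q.1 i q.2) v ∧ nq (X.G k q.1 i q.2) v ≤ C * ‖v‖ ^ 2) ∧
        ∀ v w, |bis (X.G k q.1 i) q.2 v w| ≤ C * ‖v‖ ^ 2 * ‖w‖ ^ 2 := by
  obtain ⟨r, hr, hb⟩ := Metric.nhds_basis_closedBall.mem_iff.1 ((A.e i).open_target.mem_nhds hz)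
  set Q : Set M := (A.e i).symm '' closedBall z0 r with hQ
  have hQc : IsCompact Q :=
    (isCompact_closedBall z0 r).image_of_continuousOn ((A.e i).continuousOn_symm.mono hb)
  obtain ⟨C0, δ, hC0, hδ, h0⟩ := exists_bounds (isCompact_closedBall z0 r) (g := gc K0 i)
    (fun a b => ((K0.sm i a b).continuousOn).mono hb)
    (fun z hz => K0.pos i _ ((A.e i).map_target (hb hz)))
  obtain ⟨C1, h1⟩ := X.lower (2 * t0) Q hQc
  obtain ⟨C2, h2⟩ := X.curv (t0 / 2) (2 * t0) Q (by positivity) hQc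
  refine ⟨r, δ * Real.exp (-C1) / (2 * C0) ^ n, (1 + |C2|) * (2 * C0) ^ 2, hr, by positivity, hb, ?_⟩
  filter_upwards [h1, h2, X.krf (2 * t0) Q hQc, X.bk (2 * t0) Q hQc 1 one_pos,
    X.upper (2 * t0) Q hQc 1 one_pos] with k k1 k2 k3 k4 k5
  rintro ⟨t, z⟩ ⟨htq, hzq⟩
  simp only at htq hzq ⊢
  have htI : t ∈ Ioc 0 (2 * t0) := ⟨lt_of_lt_of_le (by positivity) htq.1, htq.2⟩
  have hx : (A.e i).symm z ∈ (A.e i).source := (A.e i).map_target (hb hzq)
  have hxQ : (A.e i).symm z ∈ Q := mem_image_of_mem _ hzq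
  have he : A.e i ((A.e i).symm z) = z := (A.e i).right_inv (hb hzq)
  have l1 := k1 t htI i _ hx hxQ
  have l2 := k2 t htq i _ hx hxQ
  have l3 := (k3 t htI).2 i _ hx hxQ
  have l4 := k4 t htI i _ hx hxQ
  have l5 := k5 t htI i _ hx hxQ
  unfold lvol at l1
  rw [he] at l1 l2 l3 l4 l5
  have hpos : (X.G k t i z).PosDef := l3.pos.self_of_nhds
  have hup : ∀ v, nq (X.G k t i z) v ≤ 2 * C0 * ‖v‖ ^ 2 := fun v => by
    have := (h0 z hzq).1 v
    have l6 := l5 v
    change nq (K0.g i ((A.e i).symm z)) v ≤ _ at this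
    linarith
  have hdet : δ * Real.exp (-C1) ≤ (X.G k t i z).det.re := by
    have l7 : Real.log δ ≤ ldet (gc K0 i) z := Real.log_le_log hδ (h0 z hzq).2
    have l8 : Real.log δ - C1 ≤ Real.log (X.G k t i z).det.re := by
      have : ldet (X.G k t i) z = Real.log (X.G k t i z).det.re := rfl
      linarith
    rw [Real.le_log_iff_exp_le (det_re_pos hpos), sub_eq_add_neg, Real.exp_add,
      Real.exp_log hδ] at l8
    exact l8
  have hC2 : 2 * C0 ≤ (1 + |C2|) * (2 * C0) ^ 2 := by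
    have := abs_nonneg C2
    nlinarith
  refine ⟨l3, fun v => ⟨nq_ge_of_det hpos (by linarith) hup hdet v, ?_⟩, fun v w => ?_⟩
  · exact (hup v).trans (by gcongr)
  · have a1 := nq_nonneg hpos.posSemidef v
    have a2 := nq_nonneg hpos.posSemidef w
    have a3 : nq (X.G k t i z) v * nq (X.G k t i z) w ≤ (2 * C0) ^ 2 * ‖v‖ ^ 2 * ‖w‖ ^ 2 := by
      calc nq (X.G k t i z) v * nq (X.G k t i z) w ≤ (2 * C0 * ‖v‖ ^ 2) * (2 * C0 * ‖w‖ ^ 2) :=
            mul_le_mul (hup v) (hup w) a2 (by positivity)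
        _ = _ := by ring
    have a4 := mul_nonneg a1 a2
    have a5 := l2 v w
    have a6 := l4 v w
    have a7 := le_abs_self C2
    have a8 := abs_nonneg C2
    have a9 : |bis (X.G k t i) z v w| ≤ (1 + |C2|) * (nq (X.G k t i z) v * nq (X.G k t i z) w) := by
      rw [abs_le]
      constructor <;> nlinarith
    calc _ ≤ _ := a9
      _ ≤ (1 + |C2|) * ((2 * C0) ^ 2 * ‖v‖ ^ 2 * ‖w‖ ^ 2) := by gcongr
      _ = _ := by ring

end

end Crest.Agent.T223.Lm23
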