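import Crest.Agent.T223.TrEnd_90
import Crest.Agent.T223.GeoDef_76
import Crest.Agent.T223.NaDef_80
import Crest.Agent.T223.LmAsA_23
import Crest.Agent.T223.TrTr_90

/-!
# Row 223, FIN glue, part A (helper95): nodes and linear algebra
-/

set_option autoImplicit false
set_option linter.unusedVariables false

open Set Filter Topology Metric
open scoped ContDiff ComplexConjugate Matrix ComplexOrder

namespace Crest.Agent.T223.Fin95

open Crest.Agent.R275.Geo Crest.Agent.R273.Kah_333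
open Crest.Agent.T223.Br Crest.Agent.T223.Tr

noncomputable section

/-- nodes in logarithmic time -/
theorem nodes {sg R : ℝ → ℝ} {t0 : ℝ} (h1 : 1 ≤ t0) (hd : ∀ t, 0 < t → HasDerivAt sg (R t) t)
    (htop : Tendsto sg atTop atTop) (hmono : MonotoneOn (fun t => t * R t) (Ioi 0))
    (hpos : 0 < R t0) :
    ∃ σ : ℕ → ℝ, (∀ j, 0 ≤ σ j) ∧ StrictMono σ ∧
      (∀ j : ℕ, sg (Real.exp (σ j)) = sg t0 + 2 * j) ∧ Tendsto σ atTop atTop ∧
      ∀ j, σ (j + 2) - σ (j + 1) ≤ σ (j + 1) - σ j := by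
  set h : ℝ → ℝ := fun s => sg (Real.exp s) with hh
  have ht0 : 0 < t0 := by linarith
  have hD : ∀ s, HasDerivAt h (Real.exp s * R (Real.exp s)) s := fun s => by
    have := (hd _ (Real.exp_pos s)).comp s (Real.hasDerivAt_exp s)
    rwa [mul_comm] at this
  have hder : deriv h = fun s => Real.exp s * R (Real.exp s) := funext fun s => (hD s).deriv
  have hm : Monotone (deriv h) := by
    rw [hder]
    intro a b hab
    exact hmono (Real.exp_pos a) (Real.exp_pos b) (Real.exp_le_exp.2 hab)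
  have hdiff : Differentiable ℝ h := fun s => (hD s).differentiableAt
  have hcv : ConvexOn ℝ univ h := hm.convexOn_univ_of_deriv hdiff
  set s0 := Real.log t0 with hs0
  have he0 : Real.exp s0 = t0 := Real.exp_log ht0
  have hs00 : 0 ≤ s0 := Real.log_nonneg h1
  have hsm : StrictMonoOn h (Ici s0) := by
    refine strictMonoOn_of_deriv_pos (convex_Ici s0) hdiff.continuous.continuousOn fun x hx => ?_
    rw [interior_Ici] at hx
    have h2 := hm (le_of_lt hx)
    have h3 : deriv h s0 = t0 * R t0 := by rw [hder]; simp only [he0]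
    have h4 : 0 < t0 * R t0 := mul_pos ht0 hpos
    linarith
  have hT : Tendsto h atTop atTop := htop.comp Real.tendsto_exp_atTop
  have hex : ∀ j : ℕ, ∃ s, s0 ≤ s ∧ h s = h s0 + 2 * j := by
    intro j
    obtain ⟨b, hb1, hb2⟩ := ((hT.eventually_ge_atTop (h s0 + 2 * j)).and
      (eventually_ge_atTop s0)).exists
    have hj : (0 : ℝ) ≤ 2 * j := by positivity
    obtain ⟨s, hs, hs'⟩ := intermediate_value_Icc hb2 hdiff.continuous.continuousOn
      (⟨by linarith, hb1⟩ : h s0 + 2 * j ∈ Icc (h s0) (h b))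
    exact ⟨s, hs.1, hs'⟩
  choose σ hσ1 hσ2 using hex
  have hst : StrictMono σ := by
    intro i j hij
    rw [← hsm.lt_iff_lt (hσ1 i) (hσ1 j), hσ2, hσ2]
    have : (i : ℝ) < j := by exact_mod_cast hij
    linarith
  refine ⟨σ, fun j => hs00.trans (hσ1 j), hst, fun j => ?_, ?_, fun j => ?_⟩
  · have := hσ2 j
    simp only [hh, he0] at this
    exact this
  · refine tendsto_atTop.2 fun B => ?_
    have h2 : Tendsto (fun j : ℕ => h s0 + 2 * (j : ℝ)) atTop atTop :=
      tendsto_atTop_add_const_left _ _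
        (tendsto_natCast_atTop_atTop.const_mul_atTop two_pos)
    filter_upwards [h2.eventually_gt_atTop (h (max B s0))] with j hj
    rw [← hσ2 j, hsm.lt_iff_lt (mem_Ici.2 (le_max_right _ _)) (hσ1 j)] at hj
    exact (le_max_left _ _).trans hj.le
  · have a1 : σ j < σ (j + 1) := hst (by omega)
    have a2 : σ (j + 1) < σ (j + 2) := hst (by omega)
    have h2 := hcv.slope_mono_adjacent (mem_univ _) (mem_univ _) a1 a2
    rw [hσ2, hσ2, hσ2, div_le_div_iff₀ (by linarith) (by linarith)] at h2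
    push_cast at h2
    nlinarith

variable {n : ℕ}

/-- three point form of convexity -/
theorem three_pt {f : ℝ → ℝ} (hf : ConvexOn ℝ univ f) {a b c : ℝ} (hab : a < b) (hbc : b < c) :
    (c - a) * f b ≤ (c - b) * f a + (b - a) * f c := by
  have h2 := hf.slope_mono_adjacent (mem_univ _) (mem_univ _) hab hbc
  rw [div_le_div_iff₀ (by linarith) (by linarith)] at h2
  nlinarith

theorem adjoint_apply (L : Cn n →L[ℂ] Cn n) (ζ : Cn n) (a : Fin n) :
    ContinuousLinearMap.adjoint L ζ a = ∑ b, conj (mat L b a) * ζ b := by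
  have h1 : ContinuousLinearMap.adjoint L ζ a =
      inner ℂ (EuclideanSpace.single a (1 : ℂ) : Cn n) (ContinuousLinearMap.adjoint L ζ) := by
    rw [EuclideanSpace.inner_single_left]; simp
  rw [h1, ContinuousLinearMap.adjoint_inner_right, PiLp.inner_apply]
  refine Finset.sum_congr rfl fun b _ => ?_
  simp [mat, mul_comm]

/-- the dual norm in a unitary frame -/
theorem dual_norm {g P : Mat n} {τ : ℝ} (hτ : 0 < τ)
    (h : Pᵀ * g * P.map conj = ((τ : ℝ) : ℂ) • (1 : Mat n)) (y : Fin n → ℂ) (w : Cn n)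
    (hw : Pᵀ *ᵥ y = fun a => conj (w a)) :
    (star y ⬝ᵥ g⁻¹ *ᵥ y).re = τ⁻¹ * ‖w‖ ^ 2 := by
  have hτ' : (τ : ℂ) ≠ 0 := by exact_mod_cast hτ.ne'
  have h1 : (((τ : ℂ)⁻¹ • (Pᵀ * g)) * P.map conj) = 1 := by
    rw [Matrix.smul_mul, h, smul_smul, inv_mul_cancel₀ hτ', one_smul]
  have h2 : P.map conj * ((τ : ℂ)⁻¹ • (Pᵀ * g)) = 1 := mul_eq_one_comm.1 h1
  have h3 : g⁻¹ = (τ : ℂ)⁻¹ • (P.map conj * Pᵀ) := by
    refine Matrix.inv_eq_left_inv ?_
    rw [← h2, Matrix.smul_mul, Matrix.mul_smul, Matrix.mul_assoc]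
  have h4 : P.map conj = (Pᵀ)ᴴ := by ext a b; simp
  rw [h3, Matrix.smul_mulVec, dotProduct_smul, ← Matrix.mulVec_mulVec, h4,
    Matrix.dotProduct_mulVec, ← Matrix.star_mulVec, hw, smul_eq_mul, ← Complex.ofReal_inv,
    Complex.re_ofReal_mul, EuclideanSpace.norm_sq_eq]
  congr 1
  simp only [dotProduct, Pi.star_apply, RCLike.star_def, Complex.conj_conj, Complex.re_sum]
  refine Finset.sum_congr rfl fun a _ => ?_
  rw [Complex.mul_conj, Complex.normSq_eq_norm_sq, Complex.ofReal_re]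

theorem pull_vec (P : Mat n) (L : Cn n →L[ℂ] Cn n) (y : Fin n → ℂ) (ζ : Cn n)
    (h : Pᵀ *ᵥ y = fun a => conj (ζ a)) :
    (P * mat L)ᵀ *ᵥ y = fun a => conj (ContinuousLinearMap.adjoint L ζ a) := by
  rw [Matrix.transpose_mul, ← Matrix.mulVec_mulVec, h]
  funext a
  rw [adjoint_apply]
  simp [Matrix.mulVec, dotProduct]

theorem det_smul_one (τ : ℝ) : (((τ : ℝ) : ℂ) • (1 : Mat n)).det.re = τ ^ n := by
  rw [Matrix.det_smul, Matrix.det_one, Fintype.card_fin, mul_one, ← Complex.ofReal_pow,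
    Complex.ofReal_re]

/-- a contraction with `|det L| = e^{-a}` shrinks by at most `e^{-a}` -/
theorem inv_of_det (L : Cn n →L[ℂ] Cn n) (h1 : ∀ v, ‖L v‖ ≤ ‖v‖) {a : ℝ}
    (h2 : ‖L.det‖ ^ 2 = Real.exp (-(2 * a))) (v : Cn n) : ‖v‖ ≤ Real.exp a * ‖L v‖ := by
  set H : Mat n := (mat L)ᵀ * 1 * (mat L).map conj with hH
  have hq : ∀ v, nq H v = ‖L v‖ ^ 2 := fun v => by rw [hH, nq_pull, nq_one]
  have hdet : H.det.re = Real.exp (-(2 * a)) := by
    rw [hH, det_pull, det_mat, h2]; simp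
  have hL : L.det ≠ 0 := by
    intro h0
    rw [h0] at h2
    have := Real.exp_pos (-(2 * a))
    simp at h2
    linarith
  have hinj := (det_ne_zero_iff L).1 hL
  have hherm : H.IsHermitian := by
    have h3 : (mat L)ᵀ = ((mat L).map conj)ᴴ := by ext a b; simp
    rw [hH, h3]
    exact Matrix.isHermitian_conjTranspose_mul_mul _ Matrix.isHermitian_one
  have hpos : H.PosDef := by
    refine Tr.posDef_of_nq hherm fun v hv => ?_
    rw [hq]
    have : L v ≠ 0 := fun h0 => hv (hinj (by rw [h0, map_zero]))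
    positivity
  have h3 := Lm23.nq_ge_of_det hpos (le_refl (1 : ℝ)) (fun v => by
    rw [hq, one_mul]; exact pow_le_pow_left₀ (norm_nonneg _) (h1 v) 2) hdet.ge v
  rw [hq, one_pow, div_one] at h3
  refine (pow_le_pow_iff_left₀ (norm_nonneg _) (by positivity) two_ne_zero).1 ?_
  have h4 : Real.exp a ^ 2 * Real.exp (-(2 * a)) = 1 := by
    rw [← Real.exp_nat_mul, ← Real.exp_add]; simp
  calc ‖v‖ ^ 2 = Real.exp a ^ 2 * (Real.exp (-(2 * a)) * ‖v‖ ^ 2) := by
        rw [← mul_assoc, h4, one_mul]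
    _ ≤ Real.exp a ^ 2 * ‖L v‖ ^ 2 := by gcongr
    _ = _ := by ring

/-- polynomial against exponential -/
theorem ev_pow_le (m : ℕ) {ε δ b C : ℝ} (hε : 0 < ε) (hδ : 0 < δ) :
    ∀ᶠ j : ℕ in atTop, (1 + (b + 2 * j)) ^ m ≤ δ * Real.exp (ε * (b + 2 * j) - C) := by
  have h1 : Tendsto (fun j : ℕ => ε * (1 + (b + 2 * (j : ℝ)))) atTop atTop :=
    (tendsto_atTop_add_const_left _ _ (tendsto_atTop_add_const_left _ _
      (tendsto_natCast_atTop_atTop.const_mul_atTop two_pos))).const_mul_atTop hε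
  have h2 := (Real.tendsto_exp_div_pow_atTop m).comp h1
  filter_upwards [h2.eventually_ge_atTop (Real.exp (ε + C) / (δ * ε ^ m)),
    h1.eventually_gt_atTop 0] with j hj hj0
  simp only [Function.comp] at hj
  rw [div_le_div_iff₀ (by positivity) (by positivity), mul_pow] at hj
  have h3 : Real.exp (ε * (1 + (b + 2 * (j : ℝ)))) =
      Real.exp (ε + C) * Real.exp (ε * (b + 2 * j) - C) := by
    rw [← Real.exp_add]; congr 1; ring
  rw [h3] at hj
  have h4 : 0 < Real.exp (ε + C) * ε ^ m := by positivity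
  refine le_of_mul_le_mul_left ?_ h4
  nlinarith

end

end Crest.Agent.T223.Fin95
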