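import Crest.Agent.T223.FinA_95
import Crest.Agent.T223.Cov_25

/-!
# Row 223, FIN glue, part B (helper95): `finStmt_of : CvxPath → GeoStmt → NAStmt → FinStmt`
-/

set_option autoImplicit false
set_option linter.unusedVariables false
set_option linter.unusedSectionVars false

open Set Filter Topology Metric
open scoped ContDiff ComplexConjugate Matrix ComplexOrder

namespace Crest.Agent.T223.Fin95

open Crest.Agent.R275.Geo Crest.Agent.R273.Kah_333
open Crest.Agent.T223.Br Crest.Agent.T223.Tr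

noncomputable section

/-- logarithmic convexity of the dual metric along the flow -/
def CvxPath (n : ℕ) : Prop :=
  ∀ (g r rT : ℝ → Mat n), Hn.PathLYH g r rT → ∀ y : Fin n → ℂ, y ≠ 0 →
    ConvexOn ℝ univ (fun s : ℝ => Real.log (star y ⬝ᵥ (g (Real.exp s))⁻¹ *ᵥ y).re)

variable {n : ℕ} {M : Type} [TopologicalSpace M] {A : Atl n M} [T2Space M] [ConnectedSpace M]
  {K0 : Kah A} {p : M} {F : Flow K0 p} (G : Hn.Geo K0 p F)

theorem τ_pos : 0 < G.τ := by
  have h1 := G.τ_lo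
  have h2 := G.one_le
  by_contra h
  nlinarith

theorem mem01 : (0 : Cn n) ∈ ball (0 : Cn n) 1 := mem_ball_self one_pos

theorem det_flow {t : ℝ} (ht : 0 < t) {i : A.ι} (hi : p ∈ (A.e i).source) :
    ((F.K t).g i p).det.re = (K0.g i p).det.re * Real.exp (-G.sg t) := by
  have h1 := G.sg_eq t ht i hi
  simp only [lvol, ldet, gc, (A.e i).left_inv hi] at h1
  have h2 := det_re_pos (K0.pos i p hi)
  have h3 := det_re_pos ((F.K t).pos i p hi)
  rw [← h1, neg_sub, Real.exp_sub, Real.exp_log h2, Real.exp_log h3]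
  field_simp

theorem det_ctr {t : ℝ} (ht : 1 ≤ t) {i : A.ι} (hi : p ∈ (A.e i).source) (K' : Kah A) :
    (pbm K' (G.ψ t) 0).det.re * ((F.K t).g i p).det.re = G.τ ^ n * (K'.g i p).det.re := by
  have hi' : G.ψ t 0 ∈ (A.e i).source := by rwa [G.zero t ht]
  have h1 := det_pbm K' (G.qc t ht).imm.1 mem01 hi'
  have h2 := det_pbm (F.K t) (G.qc t ht).imm.1 mem01 hi'
  rw [G.ctr t ht, det_smul_one] at h2
  rw [G.zero t ht] at h1 h2
  rw [h1, h2]; ring

variable {σ : ℕ → ℝ} {b : ℝ}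

theorem qch (h0 : ∀ j, 0 ≤ σ j) (hm : StrictMono σ) :
    QCh K0 p (fun j => F.K (Real.exp (σ j))) (fun _ => G.τ) G.Λ
      (fun j => G.ψ (Real.exp (σ j))) where
  one_le := G.one_le
  τ_lo := fun _ => G.τ_lo
  τ_mono := fun _ _ _ => le_mul_of_one_le_left (τ_pos G).le G.one_le
  qc := fun j => G.qc _ (Real.one_le_exp (h0 j))
  zero := fun j => G.zero _ (Real.one_le_exp (h0 j))
  anti := fun j k hjk => G.anti _ _ (Real.exp_pos _) (Real.exp_le_exp.2 (hm.monotone hjk))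
  anti0 := fun j => F.le0 _ (Real.exp_pos _)

theorem shrink (h0 : ∀ j, 0 ≤ σ j) (hs : ∀ j : ℕ, G.sg (Real.exp (σ j)) = b + 2 * j) :
    Shrink K0 (fun j => G.ψ (Real.exp (σ j))) := by
  obtain ⟨i, hi⟩ := A.cover p
  have hτ := τ_pos G
  have hn : ∀ j : ℕ, 0 ≤ b + 2 * j := fun j => by
    rw [← hs]; exact G.sg_nonneg _ (Real.exp_pos _)
  refine ⟨fun j => 1 + (b + 2 * j), 1 + |Real.log (G.τ ^ n)|, fun j => by linarith [hn j],
    fun j => ?_, fun Q hQ δ hδ => ?_⟩
  · have h1 := det_ctr G (Real.one_le_exp (h0 j)) hi K0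
    have h2 := det_re_pos (K0.pos i p hi)
    rw [det_flow G (Real.exp_pos _) hi, hs] at h1
    have h3 : (pbm K0 (G.ψ (Real.exp (σ j))) 0).det.re = G.τ ^ n * Real.exp (b + 2 * j) := by
      have h4 : Real.exp (-(b + 2 * j)) * Real.exp (b + 2 * j) = 1 := by
        rw [← Real.exp_add]; simp
      refine mul_right_cancel₀ h2.ne' ?_
      linear_combination Real.exp (b + 2 * j) * h1 -
        (pbm K0 (G.ψ (Real.exp (σ j))) 0).det.re * (K0.g i p).det.re * h4
    simp only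
    rw [h3, Real.log_mul (by positivity) (by positivity), Real.log_exp]
    have h5 := le_abs_self (Real.log (G.τ ^ n))
    have h6 := abs_nonneg (Real.log (G.τ ^ n))
    nlinarith [hn j]
  · obtain ⟨ε, C', hε, hp⟩ := G.pinch Q hQ
    filter_upwards [ev_pow_le (b := b) (C := C') (2 * n) hε hδ] with j hj w hw hwQ v
    have h1 := hp _ (Real.one_le_exp (h0 j)) w hw hwQ v
    rw [hs] at h1
    calc _ ≤ δ * Real.exp (ε * (b + 2 * j) - C') * ‖v‖ ^ 2 := by gcongr
      _ = δ * (Real.exp (ε * (b + 2 * j) - C') * ‖v‖ ^ 2) := by ring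
      _ ≤ _ := by gcongr

theorem naHyp (hC : CvxPath n) (h0 : ∀ j, 0 ≤ σ j) (hm : StrictMono σ)
    (hs : ∀ j : ℕ, G.sg (Real.exp (σ j)) = b + 2 * j) (htop : Tendsto σ atTop atTop)
    (hcc : ∀ j, σ (j + 2) - σ (j + 1) ≤ σ (j + 1) - σ j)
    {Φ : ℕ → ℕ → Cn n → Cn n} {r κ : ℝ} (hc : Coc Φ r κ)
    (ht : IsTr (fun j => G.ψ (Real.exp (σ j))) Φ r) : Na.NAHyp Φ r σ := by
  obtain ⟨i, hi⟩ := A.cover p
  have hτ := τ_pos G
  have hq := qch G h0 hm
  have h1 : ∀ j, 1 ≤ Real.exp (σ j) := fun j => Real.one_le_exp (h0 j)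
  have hr0 : (0 : Cn n) ∈ ball (0 : Cn n) r := mem_ball_self hc.r_pos
  have hd : ∀ j k, j ≤ k → DifferentiableAt ℂ (Φ j k) 0 := fun j k hjk =>
    (hc.hol j k hjk).differentiableAt (isOpen_ball.mem_nhds hr0)
  have hz : ∀ j k, j ≤ k → Φ j k 0 ∈ ball (0 : Cn n) 1 := fun j k hjk => by
    rw [hc.zero j k hjk]; exact mem01
  have he : ∀ j k, j ≤ k → ∀ᶠ w in 𝓝 (0 : Cn n),
      G.ψ (Real.exp (σ k)) (Φ j k w) = G.ψ (Real.exp (σ j)) w := fun j k hjk => by
    filter_upwards [isOpen_ball.mem_nhds hr0] with y hy using (ht.2 j k hjk y hy).2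
  have hnrm : ∀ j k, j ≤ k → ∀ v, ‖Na.Lm Φ j k v‖ ≤ ‖v‖ := by
    intro j k hjk v
    have h2 := nq_pbm_comp (F.K (Real.exp (σ k))) (hq.qc k).imm.1 (hd j k hjk) (hz j k hjk)
      (he j k hjk) v
    have h3 := (hq.anti j k hjk).pbm (G.ψ (Real.exp (σ j))) 0 v
    rw [hc.zero j k hjk, G.ctr _ (h1 k), nq_smul, nq_one] at h2
    rw [G.ctr _ (h1 j), nq_smul, nq_one, one_mul, h2] at h3
    exact (pow_le_pow_iff_left₀ (norm_nonneg _) (norm_nonneg _) two_ne_zero).1
      (le_of_mul_le_mul_left h3 hτ)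
  refine ⟨hm, htop, hcc, hnrm, fun j k hjk => ?_, ?_, fun j => ?_⟩
  · refine inv_of_det _ (hnrm j k hjk) ?_
    have h2 := det_pbm_comp (F.K (Real.exp (σ k))) (hq.qc k).imm.1 (hd j k hjk) (hz j k hjk)
      (he j k hjk)
    rw [hc.zero j k hjk, G.ctr _ (h1 k), det_smul_one] at h2
    have h3 := det_ctr G (h1 j) hi (F.K (Real.exp (σ k)))
    rw [h2, det_flow G (Real.exp_pos _) hi, det_flow G (Real.exp_pos _) hi, hs, hs] at h3
    have h4 := det_re_pos (K0.pos i p hi)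
    have h5 : Real.exp (-(b + 2 * k)) =
        Real.exp (-(2 * ((k : ℝ) - j))) * Real.exp (-(b + 2 * j)) := by
      rw [← Real.exp_add]; congr 1; ring
    rw [h5] at h3
    have h6 : 0 < G.τ ^ n * ((K0.g i p).det.re * Real.exp (-(b + 2 * j))) := by positivity
    refine mul_right_cancel₀ h6.ne' ?_
    unfold Na.Lm
    linear_combination h3
  · intro a j k haj hjk ζ hζ
    have hi' : ∀ j, G.ψ (Real.exp (σ j)) 0 ∈ (A.e i).source := fun j => by
      rwa [G.zero _ (h1 j)]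
    set P : ℕ → Mat n := fun j => jac (rd A i (G.ψ (Real.exp (σ j)))) 0 with hP
    set g : ℝ → Mat n := fun t => gc (F.K t) i (A.e i p) with hg
    have hPg : ∀ j, (P j)ᵀ * g (Real.exp (σ j)) * (P j).map conj =
        ((G.τ : ℝ) : ℂ) • (1 : Mat n) := fun j => by
      rw [← G.ctr _ (h1 j), pbm_eq _ (hq.qc j).imm.1 mem01 (hi' j), pbi, G.zero _ (h1 j)]
      simp only [hg, gc, (A.e i).left_inv hi, hP]
    have hPL : ∀ j, j ≤ k → P j = P k * mat (Na.Lm Φ j k) := fun j hjk => by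
      have h2 := ((Hol.comp_at (hq.qc k).imm.1 (hd j k hjk) (hz j k hjk) (he j k hjk)).2 i
        (hi' j)).2
      simp only [hP, jac_eq]
      rw [h2, mat_comp, hc.zero j k hjk]
      rfl
    have hu : IsUnit (P k)ᵀ.det := by
      rw [Matrix.det_transpose, isUnit_iff_ne_zero]
      simp only [hP, jac_eq, det_mat]
      exact (det_ne_zero_iff _).2 ((hq.qc k).imm.2 0 mem01 i (hi' k))
    set y : Fin n → ℂ := ((P k)ᵀ)⁻¹ *ᵥ fun a => conj (ζ a) with hy
    have hy1 : (P k)ᵀ *ᵥ y = fun a => conj (ζ a) := by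
      rw [hy, Matrix.mulVec_mulVec, Matrix.mul_nonsing_inv _ hu, Matrix.one_mulVec]
    have hy0 : y ≠ 0 := by
      intro h
      rw [h, Matrix.mulVec_zero] at hy1
      refine hζ (PiLp.ext fun a => ?_)
      have := congrFun hy1 a
      simpa using this.symm
    have hL := pathStmt n M A K0 p F i _ ((A.e i).map_source hi)
    have hcv := three_pt (hC _ _ _ hL y hy0) (hm haj) (hm hjk)
    have key : ∀ (j : ℕ) (w : Cn n), ((P j)ᵀ *ᵥ y = fun a => conj (w a)) →
        Real.log (star y ⬝ᵥ (g (Real.exp (σ j)))⁻¹ *ᵥ y).re =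
          Real.log G.τ⁻¹ + 2 * Real.log ‖w‖ := by
      intro j w hw
      have h2 := dual_norm hτ (hPg j) y w hw
      have h3 : 0 < (star y ⬝ᵥ (g (Real.exp (σ j)))⁻¹ *ᵥ y).re :=
        (hL.pos _ (Real.exp_pos (σ j))).inv.re_dotProduct_pos hy0
      have h4 : ‖w‖ ≠ 0 := by
        intro h
        rw [h2, h] at h3
        simp at h3
      rw [h2, Real.log_mul (by positivity) (by positivity), Real.log_pow]
      norm_num
    have k1 := key k ζ hy1
    have k2 := key j _ (by rw [hPL j hjk.le]; exact pull_vec _ _ _ _ hy1)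
    have k3 := key a _ (by rw [hPL a (haj.trans hjk).le]; exact pull_vec _ _ _ _ hy1)
    simp only [hg] at k1 k2 k3
    rw [k1, k2, k3] at hcv
    linarith
  · have hsub : closedBall (0 : Cn n) r ⊆ ball 0 1 := closedBall_subset_ball (by linarith [ht.1])
    obtain ⟨B, hB, hBb⟩ := exists_bound_pbm K0 (hq.qc j).imm.1 isOpen_ball
      (isCompact_closedBall 0 r) hsub
    have hQ : IsCompact (G.ψ (Real.exp (σ j)) '' closedBall 0 r) :=
      (isCompact_closedBall 0 r).image_of_continuousOn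
        ((hq.qc j).imm.1.continuousOn.mono hsub)
    obtain ⟨ε, C', hε, hp⟩ := G.pinch _ hQ
    refine ⟨ε, Real.sqrt B * Real.exp ((C' - ε * b) / 2) * r, hε, fun k hjk w hw => ?_⟩
    have h2 := lip_of_lower hq hc ht hjk K0 (a := Real.exp (ε * (b + 2 * k) - C')) (b := B)
      (η := Real.sqrt B * Real.exp ((C' - ε * b) / 2) * Real.exp (-(ε * k))) (Real.exp_pos _)
      (by positivity) (le_of_eq ?_) (fun w hw v => hBb w (ball_subset_closedBall hw) v)
      (fun w hw v => by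
        have h3 := hp _ (h1 k) (Φ j k w) (ht.2 j k hjk w hw).1
          ⟨w, ball_subset_closedBall hw, (ht.2 j k hjk w hw).2.symm⟩ v
        rwa [hs] at h3) w hw
    · have h3 : ‖w‖ ≤ r := (mem_ball_zero_iff.1 hw).le
      calc _ ≤ _ := h2.2
        _ ≤ Real.sqrt B * Real.exp ((C' - ε * b) / 2) * Real.exp (-(ε * k)) * r := by gcongr
        _ = _ := by ring
    · have h3 : Real.exp (ε * (b + 2 * k) - C') * (Real.exp ((C' - ε * b) / 2) ^ 2 *
          Real.exp (-(ε * k)) ^ 2) = 1 := by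
        rw [← Real.exp_nat_mul, ← Real.exp_nat_mul, ← Real.exp_add, ← Real.exp_add,
          ← Real.exp_zero]
        congr 1; push_cast; ring
      rw [mul_pow, mul_pow, Real.sq_sqrt hB.le]
      linear_combination (-B) * h3

end

theorem finStmt_of {n : ℕ} (hC : CvxPath n) (hG : Hn.GeoStmt n) (hN : Na.NAStmt n) :
    FinStmt n := by
  intro M _ _ _ _ _ A K0 p H F
  obtain ⟨G⟩ := hG M A K0 p H F
  obtain ⟨t0, h1, h2⟩ := G.R_pos
  obtain ⟨σ, h0, hm, hs, htop, hcc⟩ := nodes h1 G.sg_deriv G.sg_top G.R_mono h2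
  have hq := qch G h0 hm
  obtain ⟨Φ, hc, ht⟩ := transStmt n M A K0 p _ _ _ _ hq
  exact endImm n (Cov.covStmt n) M A K0 p _ _ _ _ Φ _ _ hq G.ricpos (shrink G h0 hs) hc ht
    (hN Φ _ _ σ hc (naHyp G hC h0 hm hs htop hcc hc ht))

end Crest.Agent.T223.Fin95
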