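import Crest.Agent.T223.GeoDef2_76
import Crest.Agent.T223.LipKah_93

/-!
# Row 223, module HARN, leaf HJ (helper93): `|∇ f|² ≤ κ f_t` integrated along paths
-/

set_option autoImplicit false

open Set Filter Topology Metric Manifold MeasureTheory
open scoped ContDiff Manifold

namespace Crest.Agent.T223.Hn

open Crest.Agent.R275.Geo Crest.Agent.R273.Kah_333 Crest.Agent.R273.RMan4_798
open Crest.Agent.R273.RMan_798 Crest.Agent.T223.Br Crest.Agent.T223.Tr Crest.Agent.T223.Lp93

theorem hj_alg {p q κ s η l : ℝ} (hκ : 0 ≤ κ) (hp : 0 ≤ p) (hs : 0 ≤ s) (hη : 0 < η) (hl : 0 < l)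
    (h : q ^ 2 ≤ κ * p * s ^ 2) : 0 ≤ l * (s + η) * p + q + κ / (4 * l) * (s + η) := by
  have h1 : q ^ 2 ≤ (l * (s + η) * p + κ / (4 * l) * (s + η)) ^ 2 := by
    have h2 : κ * p * s ^ 2 ≤ κ * p * (s + η) ^ 2 := by gcongr; linarith
    have h3 : (l * (s + η) * p + κ / (4 * l) * (s + η)) ^ 2 =
        (l * (s + η) * p - κ / (4 * l) * (s + η)) ^ 2 + κ * p * (s + η) ^ 2 := by
      field_simp
      ring
    rw [h3]
    nlinarith [sq_nonneg (l * (s + η) * p - κ / (4 * l) * (s + η))]
  have h4 := (abs_le_of_sq_le_sq' h1 (by positivity)).1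
  linarith

theorem hjStmt (n : ℕ) : HJStmt n := by
  intro M _ _ _ A K f t1 t2 κ h12 hκ H x y
  have hT : 0 < t2 - t1 := sub_pos.2 h12
  have key : ∀ r, dK K x y < r → f t1 x ≤ f t2 y + κ * r ^ 2 / (4 * (t2 - t1)) := by
    intro r hr
    obtain ⟨r', hr1, hr2⟩ := exists_between hr
    have hr0 : 0 ≤ r' := (dK_nonneg K x y).trans hr1.le
    obtain ⟨γ, h0, h1, hs, hl⟩ := exists_path K hr1
    set η : ℝ := r - r' with hη
    have hη0 : 0 < η := sub_pos.2 hr2
    set sp : ℝ → ℝ := spd (ofKah K) γ 0 1 with hsp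
    have hc : ContinuousOn sp (Icc 0 1) := continuousOn_spd zero_lt_one hs
    have hsp0 : ∀ u, 0 ≤ sp u := fun u => spd_nonneg _ _ _ _
    set l : ℝ → ℝ := fun u => (∫ t in (0 : ℝ)..u, sp t) + η * u with hldef
    have hld : ∀ u ∈ Icc (0 : ℝ) 1, HasDerivWithinAt l (sp u + η) (Icc 0 1) u := by
      intro u hu
      have : Fact (u ∈ Icc (0 : ℝ) 1) := ⟨hu⟩
      refine HasDerivWithinAt.add ?_ ?_
      · exact intervalIntegral.integral_hasDerivWithinAt_right (t := Icc 0 1)
          ((hc.mono (Icc_subset_Icc_right hu.2)).intervalIntegrable_of_Icc hu.1)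
          ⟨Icc 0 1, self_mem_nhdsWithin, hc.aestronglyMeasurable measurableSet_Icc⟩ (hc u hu)
      · simpa using ((hasDerivAt_id u).const_mul η).hasDerivWithinAt
    have hl0 : l 0 = 0 := by simp [hldef]
    have hlm : MonotoneOn l (Icc 0 1) := by
      refine monotoneOn_of_hasDerivWithinAt_nonneg (convex_Icc 0 1)
        (fun u hu => (hld u hu).continuousWithinAt) (f' := fun u => sp u + η)
        (fun u hu => (hld u (interior_subset hu)).mono interior_subset) fun u _ => ?_
      linarith [hsp0 u]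
    have hI0 : 0 ≤ ∫ t in (0 : ℝ)..1, sp t :=
      intervalIntegral.integral_nonneg zero_le_one fun u _ => hsp0 u
    have hI1 : ∫ t in (0 : ℝ)..1, sp t ≤ r' := by
      have := hl.le
      rwa [length_eq zero_lt_one hs, ENNReal.ofReal_le_ofReal_iff hr0] at this
    have hL0 : 0 < l 1 := by simp only [hldef]; linarith
    have hL1 : l 1 ≤ r := by simp only [hldef]; linarith
    set lam : ℝ := (t2 - t1) / l 1 with hlam
    have hlam0 : 0 < lam := div_pos hT hL0
    set s : ℝ → ℝ := fun u => t1 + lam * l u with hsdef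
    have hs1 : s 1 = t2 := by simp only [hsdef, hlam]; field_simp; ring
    have hs0 : s 0 = t1 := by simp [hsdef, hl0]
    have hsI : ∀ u ∈ Icc (0 : ℝ) 1, s u ∈ Icc t1 t2 := by
      intro u hu
      have h2 := hlm (left_mem_Icc.2 zero_le_one) hu hu.1
      have h3 := hlm hu (right_mem_Icc.2 zero_le_one) hu.2
      rw [← hs1, ← hs0]
      simp only [hsdef]
      constructor <;> gcongr
    have hsd : ∀ u ∈ Icc (0 : ℝ) 1, HasDerivWithinAt s (lam * (sp u + η)) (Icc 0 1) u :=
      fun u hu => ((hld u hu).const_mul lam).const_add t1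
    have hΦ : ∀ u ∈ Icc (0 : ℝ) 1, ∃ D : ℝ, 0 ≤ D ∧
        HasDerivWithinAt (fun u => f (s u) (γ u) + κ / (4 * lam) * l u) D (Icc 0 1) u := by
      intro u hu
      obtain ⟨w, hw, hnq⟩ := exists_vel K hu hs
      set i := ix K (γ u) with hi
      have hmem : γ u ∈ (A.e i).source := ix_mem K (γ u)
      set z := A.e i (γ u) with hz
      obtain ⟨hF, hp, hg⟩ := H (s u) (hsI u hu) i z ((A.e i).map_source hmem)
      set D := fderiv ℝ (fun q : ℝ × Cn n => f q.1 ((A.e i).symm q.2)) (s u, z) with hD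
      have hF' := hF.hasFDerivAt
      rw [← hD] at hF'
      have e1 : deriv (fun t => f t ((A.e i).symm z)) (s u) = D (1, 0) := by
        have h2 : HasDerivAt (fun t : ℝ => ((t, z) : ℝ × Cn n)) (1, 0) (s u) :=
          (hasDerivAt_id _).prodMk (hasDerivAt_const _ _)
        exact (hF'.comp_hasDerivAt (s u) h2).deriv
      have e2 : fderiv ℝ (fun w => f (s u) ((A.e i).symm w)) z w = D (0, w) := by
        have h2 := hF'.comp z (hasFDerivAt_prodMk_right (𝕜 := ℝ) (s u) z)
        exact congrArg (fun L : Cn n →L[ℝ] ℝ => L w) h2.fderiv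
      have h3 : HasDerivWithinAt (fun u' => f (s u') ((A.e i).symm (A.e i (γ u'))))
          (D (lam * (sp u + η), w)) (Icc 0 1) u := by
        have h9 := HasFDerivAt.comp_hasDerivWithinAt (f := fun u' => (s u', A.e i (γ u'))) u hF'
          ((hsd u hu).prodMk hw)
        exact h9
      have h4 : HasDerivWithinAt (fun u' => f (s u') (γ u'))
          (D (lam * (sp u + η), w)) (Icc 0 1) u := by
        refine h3.congr_of_eventuallyEq ?_ ?_
        · have h5 : ∀ᶠ u' in 𝓝[Icc 0 1] u, γ u' ∈ (A.e i).source :=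
            hs.continuousOn u hu ((A.e i).open_source.mem_nhds hmem)
          filter_upwards [h5] with u' hu'
          rw [(A.e i).left_inv hu']
        · rw [(A.e i).left_inv hmem]
      refine ⟨_, ?_, h4.add ((hld u hu).const_mul _)⟩
      have e3 : D (lam * (sp u + η), w) = lam * (sp u + η) * D (1, 0) + D (0, w) := by
        have h9 : ((lam * (sp u + η), w) : ℝ × Cn n) =
            (lam * (sp u + η)) • ((1, 0) : ℝ × Cn n) + (0, w) := by simp
        rw [h9, map_add, map_smul, smul_eq_mul]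
      have h6 := hg w
      rw [e1, e2, hnq] at h6
      rw [e1] at hp
      rw [e3]
      exact hj_alg hκ hp (hsp0 u) hη0 hlam0 h6
    choose! D hD0 hD using hΦ
    have hmono : MonotoneOn (fun u => f (s u) (γ u) + κ / (4 * lam) * l u) (Icc 0 1) :=
      monotoneOn_of_hasDerivWithinAt_nonneg (convex_Icc 0 1)
        (fun u hu => (hD u hu).continuousWithinAt) (f' := D)
        (fun u hu => (hD u (interior_subset hu)).mono interior_subset)
        fun u hu => hD0 u (interior_subset hu)
    have h7 := hmono (left_mem_Icc.2 zero_le_one) (right_mem_Icc.2 zero_le_one) zero_le_one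
    simp only [hs0, hs1, h0, h1, hl0, mul_zero, add_zero] at h7
    refine h7.trans ?_
    have h8 : κ / (4 * lam) * l 1 = κ * l 1 ^ 2 / (4 * (t2 - t1)) := by
      simp only [hlam]; field_simp
    rw [h8]
    gcongr
  have h2 : Tendsto (fun r : ℝ => f t2 y + κ * r ^ 2 / (4 * (t2 - t1))) (𝓝[>] dK K x y)
      (𝓝 (f t2 y + κ * dK K x y ^ 2 / (4 * (t2 - t1)))) :=
    tendsto_nhdsWithin_of_tendsto_nhds (Continuous.tendsto (by fun_prop) _)
  exact ge_of_tendsto h2 (eventually_nhdsWithin_of_forall key)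

end Crest.Agent.T223.Hn
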