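import Crest.Agent.T223.GeoDef2_76
import Crest.Agent.T223.HnHJ_93
import Crest.Agent.T223.TrTr_90
import Crest.Agent.T223.FrB_38
import Crest.Agent.T223.U0S_15
import Crest.Agent.T223.LipKah_93
import Crest.Agent.T223.LoCal_18

/-!
# Row 223, HARN (helper38): scalar curvature and volume ratio of the complete flow, Harnack
-/

set_option autoImplicit false
set_option linter.unusedVariables false
set_option linter.unusedSectionVars false

open Set Filter Topology Metric
open scoped ContDiff ComplexConjugate Matrix ComplexOrder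

namespace Crest.Agent.T223.Hn38

open Crest.Agent.R275.Geo Crest.Agent.R273.Kah_333 Crest.Agent.R273.RMan4_798
open Crest.Agent.T223.Br Crest.Agent.T223.Tr Crest.Agent.T223.Hn

noncomputable section

variable {n : ℕ} {M : Type} [TopologicalSpace M] {A : Atl n M}

/-- a chart at `x` -/
def ch (A : Atl n M) (x : M) : A.ι := (A.cover x).choose

theorem ch_mem (A : Atl n M) (x : M) : x ∈ (A.e (ch A x)).source := (A.cover x).choose_spec

/-- scalar curvature -/
def RK (K : Kah A) (x : M) : ℝ := scal (gc K (ch A x)) (A.e (ch A x) x)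

/-- `log (det g₀ / det g)` -/
def LV (K0 K : Kah A) (x : M) : ℝ := lvol K0 (gc K) (ch A x) x

theorem RK_eq (K : Kah A) {i : A.ι} {x : M} (hi : x ∈ (A.e i).source) :
    scal (gc K i) (A.e i x) = RK K x :=
  (kahOn_gc K univ).scal_indep hi (ch_mem A x) univ_mem

theorem RK_eq' (K : Kah A) {i : A.ι} {z : Cn n} (hz : z ∈ (A.e i).target) :
    RK K ((A.e i).symm z) = scal (gc K i) z := by
  rw [← RK_eq K ((A.e i).map_target hz), (A.e i).right_inv hz]

theorem LV_eq (K0 K : Kah A) {i : A.ι} {x : M} (hi : x ∈ (A.e i).source) :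
    lvol K0 (gc K) i x = LV K0 K x :=
  lvol_indep K0 (trOn_gc K univ) hi (ch_mem A x) (mem_univ _)
    (kahAt_gc K _ ((A.e _).map_source (ch_mem A x))).posDef

theorem LV_eq' (K0 K : Kah A) {i : A.ι} {x : M} (hi : x ∈ (A.e i).source) :
    LV K0 K x = Real.log (K0.g i x).det.re - Real.log (K.g i x).det.re := by
  rw [← LV_eq K0 K hi, lvol, ldet, ldet, gc_apply K0 hi, gc_apply K hi]

theorem LV_nonneg {K0 K : Kah A} (h : KLe K 1 K0) (x : M) : 0 ≤ LV K0 K x := by
  have hi := ch_mem A x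
  rw [LV_eq' K0 K hi]
  have h1 := Lo.logdet_le (K.pos _ _ hi) (K0.pos _ _ hi) one_pos (h _ _ hi)
  rw [Real.log_one, mul_zero, zero_add] at h1
  linarith

theorem hasDerivAt_nq {G : ℝ → Mat n} {G' : Mat n} {t : ℝ}
    (h : ∀ a b, HasDerivAt (fun s => G s a b) (G' a b) t) (v : Cn n) :
    HasDerivAt (fun s => nq (G s) v) (nq G' v) t := by
  have h1 : HasDerivAt (fun s => ∑ a, ∑ b, G s a b * v a * conj (v b))
      (∑ a, ∑ b, G' a b * v a * conj (v b)) t :=
    HasDerivAt.fun_sum fun a _ => HasDerivAt.fun_sum fun b _ => ((h a b).mul_const _).mul_const _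
  exact Complex.reCLM.hasFDerivAt.comp_hasDerivAt t h1

theorem nq_neg (G : Mat n) (v : Cn n) : nq (-G) v = -nq G v := by
  have h := nq_smul G (-1) v
  simpa using h

variable [T2Space M] [ConnectedSpace M]

theorem dK_mono {K K' : Kah A} (h : KLe K 1 K') (x y : M) : dK K x y ≤ dK K' x y := by
  have h1 : LipOn (gc K') univ 1 (dK K x) := by
    intro i y hy _ ε hε
    filter_upwards [U0.lipOn_dK K x i y hy (mem_univ _) ε hε] with w hw
    refine hw.trans (mul_le_mul_of_nonneg_left (Real.sqrt_le_sqrt ?_) (by linarith))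
    rw [gc_apply K hy, gc_apply K' hy]
    simpa using h i y hy (w - A.e i y)
  have h2 := Lp93.lipOn_dK h1 zero_le_one x y
  have h3 : dK K x x = 0 := dist_self (α := (ofKah K).M) x
  rw [h3, sub_zero, one_mul] at h2
  exact (le_abs_self _).trans h2

theorem compact_dK (K : Kah A) (hP : ProperSpace (ofKah K).M) (x : M) (r : ℝ) :
    IsCompact {y : M | dK K x y ≤ r} := by
  have h : IsCompact (closedBall (α := (ofKah K).M) x r) := isCompact_closedBall _ _
  have e : {y : M | dK K x y ≤ r} = closedBall (α := (ofKah K).M) x r := by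
    ext y
    exact (mem_closedBall' (α := (ofKah K).M)).symm
  rw [e]
  exact h

variable {K0 : Kah A} {p : M} (F : Flow K0 p)

theorem tr_at {t : ℝ} (ht : 0 < t) (i : A.ι) {z : Cn n} (hz : z ∈ (A.e i).target) :
    ContDiffAt ℝ ∞ (fun q : ℝ × Cn n => scal (gc (F.K q.1) i) q.2) (t, z) ∧
    (ric (gc (F.K t) i) z).PosSemidef ∧ 0 ≤ scal (gc (F.K t) i) z ∧
    BKle (gc (F.K t) i) z (scal (gc (F.K t) i) z) ∧
    HasDerivAt (fun s => ldet (gc (F.K s) i) z) (-scal (gc (F.K t) i) z) t ∧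
    0 ≤ deriv (fun s => scal (gc (F.K s) i) z) t + scal (gc (F.K t) i) z / t ∧
    ∀ v, (fderiv ℝ (scal (gc (F.K t) i)) z v) ^ 2 ≤
      4 * scal (gc (F.K t) i) z *
        (deriv (fun s => scal (gc (F.K s) i) z) t + scal (gc (F.K t) i) z / t) *
        nq (gc (F.K t) i z) v :=
  traceStmt n (fun s => gc (F.K s) i) t z ht (F.krf t ht i z hz) (F.lyh t ht i z hz)
    (F.bk t ht i z hz)

theorem anti {s t : ℝ} (hs : 0 < s) (hst : s ≤ t) : KLe (F.K t) 1 (F.K s) := by
  intro i x hx v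
  have hz := (A.e i).map_source hx
  have hd : ∀ τ, 0 < τ → HasDerivAt (fun τ => nq (gc (F.K τ) i (A.e i x)) v)
      (nq (-ric (gc (F.K τ) i) (A.e i x)) v) τ := fun τ hτ =>
    hasDerivAt_nq (G := fun τ => gc (F.K τ) i (A.e i x))
      (fun a b => hasDerivAt_g (F.krf τ hτ i _ hz) a b) v
  have h1 : AntitoneOn (fun τ => nq (gc (F.K τ) i (A.e i x)) v) (Ioi 0) := by
    refine antitoneOn_of_deriv_nonpos (convex_Ioi 0)
      (fun τ hτ => (hd τ hτ).continuousAt.continuousWithinAt)
      (fun τ hτ => (hd τ (interior_subset hτ)).differentiableAt.differentiableWithinAt) ?_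
    intro τ hτ
    have hτ' : 0 < τ := interior_subset hτ
    rw [(hd τ hτ').deriv, nq_neg, neg_nonpos]
    exact nq_nonneg (tr_at F hτ' i hz).2.1 v
  have h2 := h1 (mem_Ioi.2 hs) (mem_Ioi.2 (hs.trans_le hst)) hst
  simp only [gc_apply _ hx] at h2
  rwa [one_mul]

theorem R_nonneg {t : ℝ} (ht : 0 < t) (x : M) : 0 ≤ RK (F.K t) x :=
  (tr_at F ht _ ((A.e _).map_source (ch_mem A x))).2.2.1

theorem hasDerivAt_LV {t : ℝ} (ht : 0 < t) (x : M) :
    HasDerivAt (fun s => LV K0 (F.K s) x) (RK (F.K t) x) t := by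
  have h := (tr_at F ht _ ((A.e _).map_source (ch_mem A x))).2.2.2.2.1
  have h1 := h.const_sub (ldet (gc K0 (ch A x)) (A.e (ch A x) x))
  rw [neg_neg] at h1
  exact h1

theorem LV_mono (x : M) : MonotoneOn (fun s => LV K0 (F.K s) x) (Ioi 0) :=
  monotoneOn_of_deriv_nonneg (convex_Ioi 0)
    (fun τ hτ => (hasDerivAt_LV F hτ x).continuousAt.continuousWithinAt)
    (fun τ hτ => (hasDerivAt_LV F (interior_subset hτ) x).differentiableAt.differentiableWithinAt)
    fun τ hτ => by
      rw [(hasDerivAt_LV F (interior_subset hτ) x).deriv]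
      exact R_nonneg F (interior_subset hτ) x

/-- the Harnack inequality, regularised -/
theorem harn_δ {t1 t2 δ : ℝ} (h1 : 0 < t1) (h12 : t1 < t2) (hδ : 0 < δ) (x y : M) :
    Real.log (t1 * RK (F.K t1) x + δ) ≤
      Real.log (t2 * RK (F.K t2) y + δ) + 4 * dK (F.K t1) x y ^ 2 / (4 * (t2 - t1)) := by
  refine hjStmt n M A (F.K t1) (fun t x => Real.log (t * RK (F.K t) x + δ)) t1 t2 4 h12
    (by norm_num) ?_ x y
  intro t ht i z hz
  have ht0 : 0 < t := h1.trans_le ht.1
  obtain ⟨a1, a2, a3, a4, a5, a6, a7⟩ := tr_at F ht0 i hz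
  set R := scal (gc (F.K t) i) z with hR
  set Rt := deriv (fun s => scal (gc (F.K s) i) z) t with hRt
  have hpos : 0 < t * R + δ := by positivity
  have e1 : (fun q : ℝ × Cn n => Real.log (q.1 * RK (F.K q.1) ((A.e i).symm q.2) + δ)) =ᶠ[𝓝 (t, z)]
      fun q : ℝ × Cn n => Real.log (q.1 * scal (gc (F.K q.1) i) q.2 + δ) := by
    filter_upwards [continuous_snd.continuousAt.eventually ((A.e i).open_target.mem_nhds hz)]
      with q hq
    rw [RK_eq' _ hq]
  have e2 : (fun s => Real.log (s * RK (F.K s) ((A.e i).symm z) + δ)) =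
      fun s => Real.log (s * scal (gc (F.K s) i) z + δ) := by
    funext s
    rw [RK_eq' _ hz]
  have e3 : (fun w => Real.log (t * RK (F.K t) ((A.e i).symm w) + δ)) =ᶠ[𝓝 z]
      fun w => Real.log (t * scal (gc (F.K t) i) w + δ) := by
    filter_upwards [(A.e i).open_target.mem_nhds hz] with w hw
    rw [RK_eq' _ hw]
  have d1 : HasDerivAt (fun s => scal (gc (F.K s) i) z) Rt t :=
    ((cdAt_time a1).differentiableAt (by simp)).hasDerivAt
  have d2 : HasDerivAt (fun s => Real.log (s * scal (gc (F.K s) i) z + δ))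
      ((1 * R + t * Rt) / (t * R + δ)) t :=
    (((hasDerivAt_id t).mul d1).add_const δ).log hpos.ne'
  have d3 : HasFDerivAt (scal (gc (F.K t) i)) (fderiv ℝ (scal (gc (F.K t) i)) z) z :=
    ((kahAt_gc (F.K t) i hz).cd_scal.differentiableAt (by simp)).hasFDerivAt
  have d4 : HasFDerivAt (fun w => Real.log (t * scal (gc (F.K t) i) w + δ))
      ((t * R + δ)⁻¹ • (t • fderiv ℝ (scal (gc (F.K t) i)) z)) z :=
    ((d3.const_mul t).add_const δ).log hpos.ne'
  have hP : 1 * R + t * Rt = t * (Rt + R / t) := by field_simp; ring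
  refine ⟨?_, ?_, fun v => ?_⟩
  · refine DifferentiableAt.congr_of_eventuallyEq ?_ e1
    exact ((differentiableAt_fst.mul (a1.differentiableAt (by simp))).add_const δ).log hpos.ne'
  · rw [e2, d2.deriv, hP]
    positivity
  · rw [e2, d2.deriv, hP, e3.fderiv_eq, d4.fderiv]
    simp only [smul_apply, smul_eq_mul]
    set P := Rt + R / t with hPd
    set D := fderiv ℝ (scal (gc (F.K t) i)) z v with hD
    have b1 := a7 v
    have b2 : nq (gc (F.K t) i z) v ≤ nq (gc (F.K t1) i z) v := by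
      have := anti F h1 ht.1 i _ ((A.e i).map_target hz) v
      rwa [one_mul] at this
    have b3 : 0 ≤ nq (gc (F.K t) i z) v := nq_nonneg (kahAt_gc _ i hz).posDef.posSemidef v
    have b4 : D ^ 2 ≤ 4 * R * P * nq (gc (F.K t1) i z) v :=
      b1.trans (mul_le_mul_of_nonneg_left b2 (by positivity))
    have b5 : 0 ≤ nq (gc (F.K t1) i z) v := b3.trans b2
    rw [show ((t * R + δ)⁻¹ * (t * D)) ^ 2 = t ^ 2 * D ^ 2 / (t * R + δ) ^ 2 by field_simp,
      show 4 * (t * P / (t * R + δ)) * nq (gc (F.K t1) i z) v =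
        4 * t * P * nq (gc (F.K t1) i z) v * (t * R + δ) / (t * R + δ) ^ 2 by field_simp]
    refine div_le_div_of_nonneg_right ?_ (by positivity)
    calc t ^ 2 * D ^ 2 ≤ t ^ 2 * (4 * R * P * nq (gc (F.K t1) i z) v) := by gcongr
      _ = 4 * t * P * nq (gc (F.K t1) i z) v * (t * R) := by ring
      _ ≤ _ := by gcongr; linarith

/-- the Harnack inequality -/
theorem harn {t1 t2 D : ℝ} (h1 : 0 < t1) (h12 : t1 < t2) {x y : M} (hD : dK (F.K t1) x y ≤ D) :
    t1 * RK (F.K t1) x ≤ t2 * RK (F.K t2) y * Real.exp (D ^ 2 / (t2 - t1)) := by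
  have h2 : 0 < t2 := h1.trans h12
  have r1 := R_nonneg F h1 x
  have r2 := R_nonneg F h2 y
  have h0 : 0 ≤ dK (F.K t1) x y := Lp93.dK_nonneg _ _ _
  refine le_of_forall_pos_le_add fun ε hε => ?_
  set E := Real.exp (D ^ 2 / (t2 - t1)) with hE
  have hE0 : 0 < E := Real.exp_pos _
  have h3 := harn_δ F h1 h12 (div_pos hε hE0) x y
  have h4 : 4 * dK (F.K t1) x y ^ 2 / (4 * (t2 - t1)) ≤ D ^ 2 / (t2 - t1) := by
    rw [mul_div_mul_left _ _ (by norm_num : (4 : ℝ) ≠ 0)]
    exact div_le_div_of_nonneg_right (pow_le_pow_left₀ h0 hD 2) (by linarith)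
  have h5 : Real.log (t1 * RK (F.K t1) x + ε / E) ≤
      Real.log ((t2 * RK (F.K t2) y + ε / E) * E) := by
    rw [Real.log_mul (by positivity) hE0.ne', hE, Real.log_exp]
    linarith
  have h6 := (Real.log_le_log_iff (by positivity) (by positivity)).1 h5
  have h7 : (t2 * RK (F.K t2) y + ε / E) * E = t2 * RK (F.K t2) y * E + ε := by field_simp
  have h8 : 0 < ε / E := div_pos hε hE0
  linarith

theorem R_mono (x : M) : MonotoneOn (fun t => t * RK (F.K t) x) (Ioi 0) := by
  intro s hs t ht hst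
  rcases hst.eq_or_lt with h | h
  · rw [h]
  · have h1 := harn F hs h (D := 0) (x := x) (y := x) (dist_self (α := (ofKah (F.K s)).M) x).le
    simpa using h1

/-- `s ↦ LV s - c log s` grows from `t0` on, `c = t0 R(t0)` -/
theorem LV_log {t0 t : ℝ} (h0 : 0 < t0) (ht : t0 ≤ t) (x : M) :
    LV K0 (F.K t0) x + t0 * RK (F.K t0) x * (Real.log t - Real.log t0) ≤ LV K0 (F.K t) x := by
  set c := t0 * RK (F.K t0) x with hc
  have hd : ∀ s, t0 ≤ s → HasDerivAt (fun s => LV K0 (F.K s) x - c * Real.log s)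
      (RK (F.K s) x - c * s⁻¹) s := fun s hs =>
    (hasDerivAt_LV F (h0.trans_le hs) x).sub
      ((Real.hasDerivAt_log (h0.trans_le hs).ne').const_mul c)
  have h1 : MonotoneOn (fun s => LV K0 (F.K s) x - c * Real.log s) (Ici t0) := by
    refine monotoneOn_of_deriv_nonneg (convex_Ici t0)
      (fun s hs => (hd s hs).continuousAt.continuousWithinAt)
      (fun s hs => (hd s (interior_subset hs)).differentiableAt.differentiableWithinAt) ?_
    intro s hs
    have hs' : t0 ≤ s := interior_subset hs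
    have hs0 : 0 < s := h0.trans_le hs'
    rw [(hd s hs').deriv, sub_nonneg, ← div_eq_mul_inv, div_le_iff₀ hs0, mul_comm]
    exact R_mono F x (mem_Ioi.2 h0) (mem_Ioi.2 hs0) hs'
  have h2 := h1 (mem_Ici.2 le_rfl) (mem_Ici.2 ht) ht
  simp only at h2
  linarith

theorem R_le : ∃ C : ℝ, 0 < C ∧ ∀ t, 1 ≤ t → RK (F.K t) p ≤ C := by
  obtain ⟨C, hC⟩ := F.sig
  refine ⟨6 * |C| + 1, by positivity, fun t ht => ?_⟩
  have ht0 : 0 < t := by linarith
  have h1 := LV_log F ht0 (t := 2 * t) (by linarith) p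
  have h2 := hC (2 * t) (by linarith) _ (ch_mem A p)
  rw [LV_eq K0 _ (ch_mem A p)] at h2
  have h3 := LV_nonneg (F.le0 t ht0) p
  have h4 : Real.log (2 * t) - Real.log t = Real.log 2 := by
    rw [Real.log_mul two_ne_zero ht0.ne']; ring
  rw [h4] at h1
  have h5 : (1 / 2 : ℝ) ≤ Real.log 2 := by have := Real.log_two_gt_d9; linarith
  have h6 := R_nonneg F ht0 p
  have h7 : t * RK (F.K t) p * (1 / 2) ≤ t * RK (F.K t) p * Real.log 2 := by gcongr
  have h8 : C * (1 + 2 * t) ≤ |C| * (3 * t) :=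
    (mul_le_mul_of_nonneg_right (le_abs_self C) (by linarith)).trans
      (mul_le_mul_of_nonneg_left (by linarith) (abs_nonneg C))
  have h9 : t * RK (F.K t) p ≤ t * (6 * |C|) := by linarith
  have h10 := le_of_mul_le_mul_left h9 ht0
  linarith

/-- the volume ratio on a bounded set grows like the one at `p` -/
theorem LV_ge (D : ℝ) : ∃ θ C : ℝ, 0 < θ ∧ ∀ t, 1 ≤ t → ∀ x, dK K0 p x ≤ D →
    θ * LV K0 (F.K t) p - C ≤ LV K0 (F.K t) x := by
  obtain ⟨C, hC0, hC⟩ := R_le F
  set θ := Real.exp (-D ^ 2) / 2 with hθ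
  have hθ0 : 0 < θ := by positivity
  refine ⟨θ, θ * (C + LV K0 (F.K 2) p), hθ0, fun t ht x hx => ?_⟩
  have hx0 := LV_nonneg (F.le0 t (by linarith)) x
  rcases le_total t 2 with h2 | h2
  · have h3 := LV_mono F p (mem_Ioi.2 (by linarith : (0 : ℝ) < t)) (mem_Ioi.2 two_pos) h2
    simp only at h3
    nlinarith
  have hd : ∀ s, 2 ≤ s → HasDerivAt (fun s => LV K0 (F.K s) x - θ * LV K0 (F.K (s - 1)) p)
      (RK (F.K s) x - θ * RK (F.K (s - 1)) p) s := fun s hs => by
    have h3 := (hasDerivAt_LV F (t := s - 1) (by linarith) p).comp_sub_const s 1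
    exact (hasDerivAt_LV F (by linarith) x).sub (h3.const_mul θ)
  have h1 : MonotoneOn (fun s => LV K0 (F.K s) x - θ * LV K0 (F.K (s - 1)) p) (Ici 2) := by
    refine monotoneOn_of_deriv_nonneg (convex_Ici 2)
      (fun s hs => (hd s hs).continuousAt.continuousWithinAt)
      (fun s hs => (hd s (interior_subset hs)).differentiableAt.differentiableWithinAt) ?_
    intro s hs
    have hs' : (2 : ℝ) ≤ s := interior_subset hs
    rw [(hd s hs').deriv, sub_nonneg]
    have h3 := harn F (t1 := s - 1) (t2 := s) (by linarith) (by linarith) (x := p) (y := x)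
      ((dK_mono (F.le0 _ (by linarith)) p x).trans hx)
    rw [show s - (s - 1) = 1 by ring, div_one] at h3
    have r1 := R_nonneg F (t := s - 1) (by linarith) p
    have r2 := R_nonneg F (t := s) (by linarith) x
    have hE : Real.exp (D ^ 2) * Real.exp (-D ^ 2) = 1 := by rw [← Real.exp_add]; simp
    have hE0 : 0 < Real.exp (-D ^ 2) := Real.exp_pos _
    have h4 : s * (RK (F.K (s - 1)) p / 2) ≤ s * (RK (F.K s) x * Real.exp (D ^ 2)) := by
      nlinarith
    have h5 := le_of_mul_le_mul_left h4 (by linarith)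
    have h6 := mul_le_mul_of_nonneg_right h5 hE0.le
    rw [mul_assoc, hE, mul_one] at h6
    rw [hθ]
    linarith
  have h3 := h1 (mem_Ici.2 le_rfl) (mem_Ici.2 h2) h2
  simp only at h3
  have h4 := LV_nonneg (F.le0 2 two_pos) x
  have h5 := LV_mono F p (mem_Ioi.2 (by norm_num : (0 : ℝ) < 2 - 1)) (mem_Ioi.2 two_pos)
    (by norm_num)
  simp only at h5
  -- `LV t p - LV (t-1) p ≤ C`
  have hd2 : ∀ s, 1 ≤ s → HasDerivAt (fun s => C * s - LV K0 (F.K s) p) (C * 1 - RK (F.K s) p) s :=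
    fun s hs => ((hasDerivAt_id s).const_mul C).sub (hasDerivAt_LV F (by linarith) p)
  have h6 : MonotoneOn (fun s => C * s - LV K0 (F.K s) p) (Ici 1) := by
    refine monotoneOn_of_deriv_nonneg (convex_Ici 1)
      (fun s hs => (hd2 s hs).continuousAt.continuousWithinAt)
      (fun s hs => (hd2 s (interior_subset hs)).differentiableAt.differentiableWithinAt) ?_
    intro s hs
    have hs' : (1 : ℝ) ≤ s := interior_subset hs
    rw [(hd2 s hs').deriv, mul_one, sub_nonneg]
    exact hC s hs'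
  have h7 := h6 (mem_Ici.2 (by linarith : (1 : ℝ) ≤ t - 1)) (mem_Ici.2 ht) (by linarith)
  simp only at h7
  nlinarith

end

end Crest.Agent.T223.Hn38
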