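import Crest.Agent.T223.GeoDef_76

/-!
# Row 223, module HARN + PINCH (helper76): leaves

* `TraceStmt n` : the traced Li-Yau-Hamilton inequality in one chart
* `HJStmt n`    : integration of `|∇ f|² ≤ κ f_t` along paths
-/

set_option autoImplicit false
set_option linter.unusedVariables false

open Set Filter Topology Metric
open scoped ContDiff ComplexConjugate Matrix ComplexOrder

namespace Crest.Agent.T223.Hn

open Crest.Agent.R275.Geo Crest.Agent.R273.Kah_333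
open Crest.Agent.T223.Br Crest.Agent.T223.Tr

/-- traced LYH: with `R = scal`, `P = R_t + R / t`: `P ≥ 0`, `dR(v)² ≤ 4 R P |v|²`; moreover
`Ric ≥ 0`, `bis ≤ R`, `∂_t log det g = - R` -/
def TraceStmt (n : ℕ) : Prop :=
  ∀ (g : ℝ → Cn n → Mat n) (t : ℝ) (z : Cn n), 0 < t → KRFat g t z →
    (∀ (c : ℂ) (a v : Cn n), 0 ≤ lyh g t t z c a v) → BKge (g t) z 0 →
    ContDiffAt ℝ ∞ (fun q : ℝ × Cn n => scal (g q.1) q.2) (t, z) ∧
    (ric (g t) z).PosSemidef ∧ 0 ≤ scal (g t) z ∧ BKle (g t) z (scal (g t) z) ∧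
    HasDerivAt (fun s => ldet (g s) z) (-scal (g t) z) t ∧
    0 ≤ deriv (fun s => scal (g s) z) t + scal (g t) z / t ∧
    ∀ v, (fderiv ℝ (scal (g t)) z v) ^ 2 ≤
      4 * scal (g t) z * (deriv (fun s => scal (g s) z) t + scal (g t) z / t) * nq (g t z) v

/-- Hamilton-Jacobi inequality integrated along paths -/
def HJStmt (n : ℕ) : Prop :=
  ∀ (M : Type) [TopologicalSpace M] [T2Space M] [ConnectedSpace M] (A : Atl n M) (K : Kah A)
    (f : ℝ → M → ℝ) (t1 t2 κ : ℝ), t1 < t2 → 0 ≤ κ →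
    (∀ t ∈ Icc t1 t2, ∀ i, ∀ z ∈ (A.e i).target,
      DifferentiableAt ℝ (fun q : ℝ × Cn n => f q.1 ((A.e i).symm q.2)) (t, z) ∧
      0 ≤ deriv (fun s => f s ((A.e i).symm z)) t ∧
      ∀ v, (fderiv ℝ (fun w => f t ((A.e i).symm w)) z v) ^ 2 ≤
        κ * deriv (fun s => f s ((A.e i).symm z)) t * nq (gc K i z) v) →
    ∀ x y, f t1 x ≤ f t2 y + κ * dK K x y ^ 2 / (4 * (t2 - t1))

end Crest.Agent.T223.Hn
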