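import Crest.Agent.T223.Gr2_44

/-!
# Row 223 (helper44): GRAD, the static gradient estimate

* `ah_modulusN` : modulus of continuity of an almost holomorphic function on a ball of `ℂⁿ`
* `HB.Gam_le`, `HB.wd_le` : `Λ⁻¹ ≤ G ≤ Λ`, `|bis| ≤ K` on `ball z0 r` bound `∂G (z0)`
* `grad` : the same, `∃ C` form; `HB.fderiv_le`
-/

set_option autoImplicit false

open Set Filter Topology Complex Metric
open scoped ContDiff ComplexConjugate Matrix

namespace Crest.Agent.T223.Gr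

open Crest.Agent.R275.Geo Crest.Agent.R275.EDR890 Crest.Agent.R273.Hess_333
open Crest.Agent.T223.Br Crest.Agent.T223.Tr

noncomputable section

variable {n : ℕ}

theorem line_mem {z v : Cn n} (hv : ‖v‖ ≤ 1) {R : ℝ} {ζ : ℂ} (h : ζ ∈ ball (0 : ℂ) R) :
    z + ζ • v ∈ ball z R := by
  rw [mem_ball_zero_iff] at h
  rw [mem_ball_iff_norm, add_sub_cancel_left, norm_smul]
  nlinarith [norm_nonneg ζ, norm_nonneg v]

theorem contDiffOn_line {f : Cn n → ℂ} {z v : Cn n} (hv : ‖v‖ ≤ 1) {R : ℝ}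
    (hf : ContDiffOn ℝ ∞ f (ball z R)) :
    ContDiffOn ℝ 1 (fun ζ : ℂ => f (z + ζ • v)) (ball 0 R) :=
  (hf.of_le (by exact_mod_cast le_top)).comp (f := fun ζ : ℂ => z + ζ • v) (by fun_prop)
    fun _ h => line_mem hv h

theorem dbL_line {f : Cn n → ℂ} {z v : Cn n} {ζ : ℂ} (hf : DifferentiableAt ℝ f (z + ζ • v)) :
    dbL (fderiv ℝ (fun ζ : ℂ => f (z + ζ • v)) ζ) =
      ∑ b, conj (v b) * wd (true, b) f (z + ζ • v) := by
  have h1 : HasFDerivAt (fun ζ : ℂ => z + ζ • v)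
      ((ContinuousLinearMap.toSpanSingleton ℂ v).restrictScalars ℝ) ζ :=
    (((ContinuousLinearMap.toSpanSingleton ℂ v).restrictScalars ℝ).hasFDerivAt).const_add z
  have h2 : fderiv ℝ (fun ζ : ℂ => f (z + ζ • v)) ζ = _ := (hf.hasFDerivAt.comp ζ h1).fderiv
  have h3 := wdL_vec true (fderiv ℝ f (z + ζ • v)) v
  rw [h2, dbL]
  simp only [ContinuousLinearMap.comp_apply, ContinuousLinearMap.coe_restrictScalars',
    ContinuousLinearMap.toSpanSingleton_apply, one_smul]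
  simp only [cI_true, smul_eq_mul] at h3
  rw [div_eq_inv_mul, ← one_div, h3]
  rfl

theorem norm_dbL_line {f : Cn n → ℂ} {z v : Cn n} (hv : ‖v‖ ≤ 1) {ζ : ℂ} {B : ℝ}
    (hf : DifferentiableAt ℝ f (z + ζ • v)) (hB : ∀ b, ‖wd (true, b) f (z + ζ • v)‖ ≤ B) :
    ‖dbL (fderiv ℝ (fun ζ : ℂ => f (z + ζ • v)) ζ)‖ ≤ n * B := by
  rw [dbL_line hf]
  refine (norm_sum_le _ _).trans ?_
  calc ∑ b, ‖conj (v b) * wd (true, b) f (z + ζ • v)‖ ≤ ∑ _b : Fin n, B :=
        Finset.sum_le_sum fun b _ => by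
          rw [norm_mul, RCLike.norm_conj]
          have h1 : ‖v b‖ ≤ 1 := (PiLp.norm_apply_le v b).trans hv
          have := hB b
          nlinarith [norm_nonneg (v b), norm_nonneg (wd (true, b) f (z + ζ • v))]
    _ = n * B := by simp

theorem line_modulus {f : Cn n → ℂ} {z v : Cn n} (hv : ‖v‖ ≤ 1) {R R' A B : ℝ} (hR : 0 < R)
    (hRR : R < R') (hf : ContDiffOn ℝ ∞ f (ball z R')) (hA : ∀ w ∈ ball z R', ‖f w‖ ≤ A)
    (hB : ∀ w ∈ ball z R', ∀ b, ‖wd (true, b) f w‖ ≤ B) {ζ : ℂ} (hζ : ‖ζ‖ ≤ R / 2) :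
    ‖f (z + ζ • v) - f z‖ ≤ 2 * A * ‖ζ‖ / R + 4 * (n * B) * R := by
  have hm : ∀ w ∈ closedBall (0 : ℂ) R, z + w • v ∈ ball z R' := fun w hw =>
    line_mem hv (closedBall_subset_ball hRR hw)
  have := ah_modulus hR hRR (contDiffOn_line hv hf) hζ (A := A) (B := n * B)
    (fun w hw => hA _ (hm w hw)) fun w hw => norm_dbL_line hv
      ((hf.contDiffAt (isOpen_ball.mem_nhds (hm w hw))).differentiableAt (by simp)) (hB _ (hm w hw))
  simpa using this

/-- modulus of continuity of an almost holomorphic function -/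
theorem ah_modulusN {f : Cn n → ℂ} {z y : Cn n} {R R' A B : ℝ} (hR : 0 < R)
    (hRR : R < R') (hf : ContDiffOn ℝ ∞ f (ball z R')) (hA : ∀ w ∈ ball z R', ‖f w‖ ≤ A)
    (hB : ∀ w ∈ ball z R', ∀ b, ‖wd (true, b) f w‖ ≤ B) (hy : ‖y - z‖ ≤ R / 2) :
    ‖f y - f z‖ ≤ 2 * A * ‖y - z‖ / R + 4 * (n * B) * R := by
  by_cases h : y = z
  · subst h
    have h0 := line_modulus (v := 0) (by simp) hR hRR hf hA hB (ζ := 0) (by simp; linarith)
    simpa using h0
  have hne : ‖y - z‖ ≠ 0 := norm_ne_zero_iff.2 (sub_ne_zero.2 h)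
  have hc : ((‖y - z‖ : ℝ) : ℂ) ≠ 0 := by exact_mod_cast hne
  have := line_modulus (v := ((‖y - z‖ : ℝ) : ℂ)⁻¹ • (y - z))
    (by rw [norm_smul, norm_inv, Complex.norm_real, norm_norm, inv_mul_cancel₀ hne]) hR hRR hf hA hB
    (ζ := ((‖y - z‖ : ℝ) : ℂ)) (by rwa [Complex.norm_real, norm_norm])
  rwa [smul_smul, mul_inv_cancel₀ hc, one_smul, add_sub_cancel, Complex.norm_real, norm_norm] at this

theorem nq_single (H : Mat n) (a : Fin n) : nq H (EuclideanSpace.single a 1) = (H a a).re := by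
  simp [nq, PiLp.single_apply, apply_ite (starRingEnd ℂ)]

/-- the constant of the gradient estimate -/
def gamC (n : ℕ) (r Λ K : ℝ) : ℝ :=
  (4 * n * (n * (16 * K * Λ ^ 2) * Λ) * (r / 2) ^ 2 +
    Real.sqrt (65536 * Λ ^ 2 + 64 * K * Λ ^ 3 * (r / 2) ^ 2)) / (r / 2)

namespace HB

variable {G : Cn n → Mat n} {z0 z : Cn n} {r Λ K : ℝ}

theorem lap_diag (H : HB G z0 r Λ K) (hz : z ∈ ball z0 r) (c a p : Fin n) :
    4 * (‖Gam G c z a p‖ ^ 2 / Λ - 16 * K * Λ ^ 2) ≤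
      fderiv ℝ (fderiv ℝ fun w => (G w a a).re) z (EuclideanSpace.single c 1)
          (EuclideanSpace.single c 1) +
        fderiv ℝ (fderiv ℝ fun w => (G w a a).re) z (I • EuclideanSpace.single c 1)
          (I • EuclideanSpace.single c 1) := by
  have hu : ContDiffAt ℝ ∞ (fun w => (G w a a).re) z :=
    Complex.reCLM.contDiff.contDiffAt.comp z (H.cd hz a a)
  have h1 := lev_eq hu (EuclideanSpace.single c 1)
  have h2 : hq (fun w => (G w a a).re) z (EuclideanSpace.single c 1) =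
      wdM (false, c) (wdM (true, c) G) z a a := by
    have h3 : hq (fun w => (G w a a).re) z (EuclideanSpace.single c 1) =
        hess (fun w => (G w a a).re) z c c := by
      simp [hq, PiLp.single_apply, apply_ite (starRingEnd ℂ)]
    rw [h3, hess_apply, wdM_apply]
    refine wd_congr ?_ _
    filter_upwards [eventually_eventually_nhds.2 (isOpen_ball.mem_nhds hz)] with w hw
    rw [wdM_apply]
    refine wd_congr ?_ _
    filter_upwards [hw] with y hy
    exact Complex.conj_eq_iff_re.1 ((H.herm y hy).apply a a)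
  have h4 : wdM (false, c) (wdM (true, c) G) z = Gam G c z * G z * (Gam G c z)ᴴ - Rm G z c c := by
    have h5 : wdM (true, c) G z = G z * (Gam G c z)ᴴ := by
      have := H.wdM_ct' hz (false, c)
      rw [← H.Gam_mul hz c, Matrix.conjTranspose_mul, (H.herm z hz).eq] at this
      exact this.symm
    rw [Rm, Matrix.mul_assoc (Gam G c z), ← h5, Gam]; abel
  have h6 : (Gam G c z * G z * (Gam G c z)ᴴ) a a =
      hC (G z) (WithLp.toLp 2 fun q => Gam G c z a q) := by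
    rw [hC_vecMul, Matrix.mul_apply]
    rfl
  have h7 := H.lo z hz (WithLp.toLp 2 fun q => Gam G c z a q)
  have h8 : ‖Gam G c z a p‖ ≤ ‖(WithLp.toLp 2 fun q => Gam G c z a q : Cn n)‖ :=
    PiLp.norm_apply_le (WithLp.toLp 2 fun q => Gam G c z a q : Cn n) p
  have h9 : ‖Gam G c z a p‖ ^ 2 / Λ ≤ nq (G z) (WithLp.toLp 2 fun q => Gam G c z a q) := by
    rw [div_le_iff₀ H.Λ_pos]
    nlinarith [norm_nonneg (Gam G c z a p)]
  have h10 : (Rm G z c c a a).re ≤ 16 * K * Λ ^ 2 := (Complex.re_le_norm _).trans (H.Rm_le hz ..)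
  rw [h2, h4, Matrix.sub_apply, h6] at h1
  have h11 := congrArg Complex.re h1
  simp only [ofReal_re, Crest.Agent.R273.Defs_333.lev, iteratedFDeriv_two_apply,
    Matrix.cons_val_zero, Matrix.cons_val_one, mul_re, re_ofNat, im_ofNat, zero_mul, sub_zero,
    sub_re] at h11
  rw [h11, ← nq_eq_hC]
  linarith

/-- **GRAD** for the Christoffel symbols -/
theorem Gam_le (H : HB G z0 r Λ K) (hr : 0 < r) (c a p : Fin n) :
    ‖Gam G c z0 a p‖ ≤ gamC n r Λ K := by
  have hΛ := H.Λ_pos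
  have hK := H.K_nonneg
  set m : Cn n → ℝ := fun z => ‖fun q : Fin n × Fin n × Fin n => Gam G q.1 z q.2.1 q.2.2‖ with hm
  have hent : ∀ z c a p, ‖Gam G c z a p‖ ≤ m z := fun z c a p =>
    norm_le_pi_norm (fun q : Fin n × Fin n × Fin n => Gam G q.1 z q.2.1 q.2.2) (c, a, p)
  have hsub : closedBall z0 (r / 2) ⊆ ball z0 r := closedBall_subset_ball (by linarith)
  set φ : Cn n → ℝ := fun z => (r / 2 - dist z z0) * m z with hφ
  have hφc : ContinuousOn φ (closedBall z0 (r / 2)) := fun z hz => by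
    refine ContinuousAt.continuousWithinAt (ContinuousAt.mul (by fun_prop) ?_)
    exact (continuousAt_pi.2 fun q => (H.cd_Gam (hsub hz) _ _ _).continuousAt).norm
  obtain ⟨z1, hz1, hmax⟩ := (isCompact_closedBall z0 (r / 2)).exists_isMaxOn
    ⟨z0, mem_closedBall_self (by linarith)⟩ hφc
  set B0 : ℝ := n * (16 * K * Λ ^ 2) * Λ with hB0
  have hB0n : 0 ≤ B0 := by positivity
  set S : ℝ := Real.sqrt (65536 * Λ ^ 2 + 64 * K * Λ ^ 3 * (r / 2) ^ 2) with hS
  have hS0 : 0 ≤ S := Real.sqrt_nonneg _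
  have hT0 : 0 ≤ 4 * n * B0 * (r / 2) ^ 2 := by positivity
  have key : φ z1 ≤ 4 * n * B0 * (r / 2) ^ 2 + S := by
    set δ := r / 2 - dist z1 z0 with hδ
    have hδr : δ ≤ r / 2 := by linarith [dist_nonneg (x := z1) (y := z0)]
    have hm0 : 0 ≤ m z1 := norm_nonneg _
    have hφ1 : φ z1 = δ * m z1 := rfl
    rcases le_or_gt δ 0 with hδ0 | hδ0
    · nlinarith
    rcases le_or_gt (m z1) (4 * n * B0 * δ) with hsm | hsm
    · have h1 : δ * m z1 ≤ 4 * n * B0 * δ ^ 2 := by nlinarith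
      have h2 : 4 * n * B0 * δ ^ 2 ≤ 4 * n * B0 * (r / 2) ^ 2 := by gcongr
      linarith
    have hm1 : 0 < m z1 := lt_of_le_of_lt (by positivity) hsm
    obtain ⟨⟨c, a, p⟩, hq⟩ : ∃ q : Fin n × Fin n × Fin n, m z1 ≤ ‖Gam G q.1 z1 q.2.1 q.2.2‖ := by
      by_contra hc
      push Not at hc
      exact lt_irrefl _ ((pi_norm_lt_iff hm1).2 hc)
    simp only at hq
    have hb : ∀ w ∈ ball z1 (δ / 2), dist w z0 < r / 2 - δ / 2 := fun w hw => by
      have := dist_triangle w z1 z0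
      rw [mem_ball] at hw
      linarith
    have hb' : ball z1 (δ / 2) ⊆ ball z0 r := fun w hw => by
      have := hb w hw
      rw [mem_ball]; linarith
    have hA : ∀ w ∈ ball z1 (δ / 2), ‖Gam G c w a p‖ ≤ 2 * m z1 := fun w hw => by
      have h1 := hb w hw
      have h2 : φ w ≤ φ z1 := hmax (show dist w z0 ≤ r / 2 by linarith)
      have h3 : 0 ≤ m w := norm_nonneg _
      have h4 : δ / 2 * m w ≤ φ w := mul_le_mul_of_nonneg_right (by linarith) h3
      have h5 : m w ≤ 2 * m z1 := by nlinarith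
      exact (hent w c a p).trans h5
    have hv : ‖(EuclideanSpace.single c 1 : Cn n)‖ ≤ 1 := by simp
    have hin : ∀ ζ ∈ closedBall (0 : ℂ) (δ / 64),
        z1 + ζ • (EuclideanSpace.single c 1 : Cn n) ∈ ball z0 r := fun ζ hζ =>
      hb' (line_mem hv (closedBall_subset_ball (by linarith) hζ))
    have hlow : ∀ ζ ∈ closedBall (0 : ℂ) (δ / 64),
        m z1 / 2 ≤ ‖Gam G c (z1 + ζ • (EuclideanSpace.single c 1 : Cn n)) a p‖ := fun ζ hζ => by
      rw [mem_closedBall_zero_iff] at hζ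
      have h1 := line_modulus (f := fun w => Gam G c w a p) hv (R := δ / 4) (R' := δ / 2)
        (by linarith) (by linarith) (fun w hw => (H.cd_Gam (hb' hw) c a p).contDiffWithinAt) hA
        (fun w hw b => H.wd_Gam_le (hb' hw) c b a p) (ζ := ζ) (by linarith)
      have h2 : 2 * (2 * m z1) * ‖ζ‖ / (δ / 4) ≤ m z1 / 4 := by
        rw [div_le_iff₀ (by linarith)]
        nlinarith
      have h3 := norm_sub_norm_le (Gam G c z1 a p)
        (Gam G c (z1 + ζ • (EuclideanSpace.single c 1 : Cn n)) a p)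
      rw [norm_sub_rev] at h3
      rw [← hB0] at h1
      linarith
    have hsb := subh_bound (u := fun w => (G w a a).re) (z := z1) (v := EuclideanSpace.single c 1)
      (r := δ / 64) (m := m z1 ^ 2 / (4 * Λ) - 16 * K * Λ ^ 2) (Λ := 4 * Λ) (by linarith)
      (fun ζ hζ => (Complex.reCLM.contDiff.contDiffAt.comp _ (H.cd (hin ζ hζ) a a)).of_le
        (WithTop.coe_le_coe.2 (le_top : (2 : ℕ∞) ≤ ⊤)))
      (fun ζ hζ => by
        refine le_trans ?_ (H.lap_diag (hin ζ hζ) c a p)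
        have h1 := hlow ζ hζ
        have h2 : m z1 ^ 2 / (4 * Λ) ≤
            ‖Gam G c (z1 + ζ • (EuclideanSpace.single c 1 : Cn n)) a p‖ ^ 2 / Λ := by
          rw [div_le_div_iff₀ (by positivity) hΛ]
          have : (m z1 / 2) ^ 2 ≤
              ‖Gam G c (z1 + ζ • (EuclideanSpace.single c 1 : Cn n)) a p‖ ^ 2 := by gcongr
          nlinarith
        linarith)
      (by rw [← nq_single]; exact H.nq_nonneg (hsub hz1) _)
      (fun ζ hζ => (Complex.re_le_norm _).trans (H.G_le (hin ζ hζ) a a))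
    have h1 : (δ * m z1) ^ 2 ≤ 65536 * Λ ^ 2 + 64 * K * Λ ^ 3 * (r / 2) ^ 2 := by
      have h2 : (m z1 ^ 2 / (4 * Λ) - 16 * K * Λ ^ 2) * (δ / 64) ^ 2 * (16384 * Λ) =
          (δ * m z1) ^ 2 - 64 * K * Λ ^ 3 * δ ^ 2 := by field_simp; ring
      have h3 := mul_le_mul_of_nonneg_right hsb (show 0 ≤ 16384 * Λ by positivity)
      have h4 : 64 * K * Λ ^ 3 * δ ^ 2 ≤ 64 * K * Λ ^ 3 * (r / 2) ^ 2 := by gcongr
      nlinarith
    have h2 : δ * m z1 ≤ S := Real.le_sqrt_of_sq_le h1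
    linarith
  have h0 : φ z0 ≤ φ z1 := hmax (mem_closedBall_self (by linarith))
  have h1 : φ z0 = r / 2 * m z0 := by simp [hφ]
  refine (hent z0 c a p).trans ?_
  rw [gamC, le_div_iff₀ (by linarith)]
  linarith

/-- **GRAD** -/
theorem wd_le (H : HB G z0 r Λ K) (hr : 0 < r) (s : WI n) (a b : Fin n) :
    ‖wd s (fun w => G w a b) z0‖ ≤ n * gamC n r Λ K * (4 * Λ) := by
  have hz := mem_ball_self (x := z0) hr
  have h1 : ∀ c a b, ‖wdM (false, c) G z0 a b‖ ≤ n * gamC n r Λ K * (4 * Λ) := fun c a b => by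
    rw [← H.Gam_mul hz]
    exact mul_entry_le (H.Gam_le hr c) (H.G_le hz) a b
  obtain ⟨t, c⟩ := s
  cases t
  · exact h1 c a b
  · have h2 := H.wdM_ct' hz (false, c)
    rw [← wdM_apply]
    simp only [Bool.not_false] at h2
    rw [← h2, Matrix.conjTranspose_apply, norm_star]
    exact h1 c b a

end HB

/-- operator norm from the Wirtinger derivatives -/
theorem norm_fderiv_le {f : Cn n → ℂ} {z : Cn n} {C : ℝ} (hC : 0 ≤ C) (h : ∀ s, ‖wd s f z‖ ≤ C) :
    ‖fderiv ℝ f z‖ ≤ 2 * n * C := by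
  refine ContinuousLinearMap.opNorm_le_bound _ (by positivity) fun v => ?_
  rw [apply_eq_sum]
  refine (norm_sum_le _ _).trans ?_
  calc ∑ s : WI n, ‖ze s v • wdL s (fderiv ℝ f z)‖ ≤ ∑ _s : WI n, C * ‖v‖ :=
        Finset.sum_le_sum fun s _ => by
          rw [norm_smul, mul_comm]
          have h1 : ‖ze s v‖ ≤ ‖v‖ := by
            obtain ⟨t, c⟩ := s
            cases t <;> simpa using PiLp.norm_apply_le v c
          exact mul_le_mul (h s) h1 (norm_nonneg _) hC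
    _ = 2 * n * C * ‖v‖ := by simp; ring

theorem gamC_nonneg (n : ℕ) {r Λ K : ℝ} (hr : 0 < r) (hΛ : 0 < Λ) (hK : 0 ≤ K) :
    0 ≤ gamC n r Λ K := by unfold gamC; positivity

/-- **GRAD**, operator norm form -/
theorem HB.fderiv_le {G : Cn n → Mat n} {z0 : Cn n} {r Λ K : ℝ} (H : HB G z0 r Λ K) (hr : 0 < r)
    (a b : Fin n) :
    ‖fderiv ℝ (fun w => G w a b) z0‖ ≤ 2 * n * (n * gamC n r Λ K * (4 * Λ)) := by
  have := gamC_nonneg n hr H.Λ_pos H.K_nonneg
  have := H.Λ_pos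
  exact norm_fderiv_le (by positivity) fun s => H.wd_le hr s a b

/-- **GRAD**, `∃ C` form -/
theorem grad (n : ℕ) (r Λ K : ℝ) (hr : 0 < r) : ∃ C : ℝ, 0 ≤ C ∧
    ∀ (G : Cn n → Mat n) (z0 : Cn n), HB G z0 r Λ K →
      (∀ s a b, ‖wd s (fun w => G w a b) z0‖ ≤ C) ∧
      (∀ a b, ‖fderiv ℝ (fun w => G w a b) z0‖ ≤ C) ∧ ∀ c a p, ‖Gam G c z0 a p‖ ≤ C := by
  refine ⟨|n * gamC n r Λ K * (4 * Λ)| + |2 * n * (n * gamC n r Λ K * (4 * Λ))| + |gamC n r Λ K|,
    by positivity, fun G z0 H => ⟨fun s a b => ?_, fun a b => ?_, fun c a p => ?_⟩⟩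
  · have := (H.wd_le hr s a b).trans (le_abs_self _)
    linarith [abs_nonneg (2 * n * (n * gamC n r Λ K * (4 * Λ))), abs_nonneg (gamC n r Λ K)]
  · have := (H.fderiv_le hr a b).trans (le_abs_self _)
    linarith [abs_nonneg (n * gamC n r Λ K * (4 * Λ)), abs_nonneg (gamC n r Λ K)]
  · have := (H.Gam_le hr c a p).trans (le_abs_self _)
    linarith [abs_nonneg (2 * n * (n * gamC n r Λ K * (4 * Λ))),
      abs_nonneg (n * gamC n r Λ K * (4 * Λ))]

end

end Crest.Agent.T223.Gr
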