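import Crest.Agent.T223.BrDef_13
import Crest.Agent.T223.TrDef_90

/-!
# Row 223, module QC / IMP (helper48): statements

* `KB G r ε`  : `G` is a smooth Kaehler matrix on `ball 0 r`, `1/2 ≤ G ≤ 2`, `|bis| ≤ ε`
* `LimStmt n` : compactness of such matrices as `ε → 0` (the limit has holomorphic Christoffel symbols)
* `ImpStmt n` : improvement of one chart: almost flat holomorphic coordinates on a definite ball
-/

set_option autoImplicit false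

open Set Filter Topology Metric
open scoped ContDiff ComplexConjugate Matrix

namespace Crest.Agent.T223.Qc48

open Crest.Agent.R275.Geo Crest.Agent.R275.EDR890 Crest.Agent.T223.Br Crest.Agent.T223.Tr

noncomputable section

variable {n : ℕ}

/-- a smooth Kaehler matrix on `ball 0 r`, comparable to the flat one, with small curvature -/
structure KB (G : Cn n → Matrix (Fin n) (Fin n) ℂ) (r ε : ℝ) : Prop where
  sm : ∀ a b, ContDiffOn ℝ ∞ (fun z => G z a b) (ball 0 r)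
  herm : ∀ z ∈ ball (0 : Cn n) r, (G z).IsHermitian
  closed : ∀ z ∈ ball (0 : Cn n) r, ∀ a b c,
    wd (false, c) (fun w => G w a b) z = wd (false, a) (fun w => G w c b) z
  closed' : ∀ z ∈ ball (0 : Cn n) r, ∀ a b c,
    wd (true, c) (fun w => G w a b) z = wd (true, b) (fun w => G w a c) z
  lo : ∀ z ∈ ball (0 : Cn n) r, ∀ v, ‖v‖ ^ 2 / 2 ≤ nq (G z) v
  hi : ∀ z ∈ ball (0 : Cn n) r, ∀ v, nq (G z) v ≤ 2 * ‖v‖ ^ 2
  cur : ∀ z ∈ ball (0 : Cn n) r, ∀ v w, |bis G z v w| ≤ ε * nq (G z) v * nq (G z) w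

/-- compactness: a sequence with curvature tending to zero has a subsequence converging to a
matrix field with holomorphic Christoffel symbols -/
def LimStmt (n : ℕ) : Prop :=
  ∃ C : ℝ, 0 < C ∧ ∀ (G : ℕ → Cn n → Matrix (Fin n) (Fin n) ℂ) (ε : ℕ → ℝ),
    Tendsto ε atTop (𝓝 0) → (∀ j, KB (G j) 1 (ε j)) →
    ∃ (φ : ℕ → ℕ) (G0 : Cn n → Matrix (Fin n) (Fin n) ℂ)
      (Γ : Fin n → Cn n → Matrix (Fin n) (Fin n) ℂ), StrictMono φ ∧
      (∀ a b, TendstoUniformlyOn (fun j z => G (φ j) z a b) (fun z => G0 z a b) atTop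
        (ball 0 (1 / 2))) ∧
      (∀ a b, DifferentiableOn ℝ (fun z => G0 z a b) (ball 0 (1 / 2))) ∧
      (∀ c a p, DifferentiableOn ℂ (fun z => Γ c z a p) (ball 0 (1 / 2))) ∧
      (∀ c a p, ∀ z ∈ ball (0 : Cn n) (1 / 2), ‖Γ c z a p‖ ≤ C) ∧
      (∀ c, ∀ z ∈ ball (0 : Cn n) (1 / 2), wdM (false, c) G0 z = Γ c z * G0 z) ∧
      (∀ c a p, ∀ z ∈ ball (0 : Cn n) (1 / 2), Γ c z a p = Γ a z c p)

/-- improvement of one chart -/
def ImpStmt (n : ℕ) : Prop :=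
  ∃ r1 : ℝ, 0 < r1 ∧ r1 ≤ 1 / 2 ∧ ∀ ε' : ℝ, 0 < ε' → ∃ ε0 : ℝ, 0 < ε0 ∧
    ∀ G : Cn n → Matrix (Fin n) (Fin n) ℂ, KB G 1 ε0 →
      ∃ σ : Cn n → Cn n, DifferentiableOn ℂ σ (ball 0 r1) ∧ MapsTo σ (ball 0 r1) (ball 0 1) ∧
        σ 0 = 0 ∧ fderiv ℂ σ 0 = ContinuousLinearMap.id ℂ (Cn n) ∧
        ∀ z ∈ ball (0 : Cn n) r1, ∀ v,
          (1 - ε') * nq (G 0) v ≤ nq (G (σ z)) (fderiv ℂ σ z v) ∧
          nq (G (σ z)) (fderiv ℂ σ z v) ≤ (1 + ε') * nq (G 0) v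

end

end Crest.Agent.T223.Qc48
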