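import Crest.Agent.T223.Gr3_44
import Crest.Agent.T223.QcImpDef_48

/-!
# Row 223 (helper44): compactness of Kaehler matrices with curvature tending to zero

* `arz` : Arzela-Ascoli for asymptotically equicontinuous sequences
* `limStmt n : Qc48.LimStmt n`
-/

set_option autoImplicit false

open Set Filter Topology Complex Metric
open scoped ContDiff ComplexConjugate Matrix

namespace Crest.Agent.T223.Gr

open Crest.Agent.R275.Geo Crest.Agent.R275.EDR890 Crest.Agent.R273.Hess_333
open Crest.Agent.T223.Br Crest.Agent.T223.Tr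

noncomputable section

/-- Arzela-Ascoli for asymptotically equicontinuous sequences -/
theorem arz {X E : Type*} [MetricSpace X] [NormedAddCommGroup E] [ProperSpace E] {S : Set X}
    (hS : IsCompact S) (f : ℕ → X → E) {C : ℝ} (hb : ∀ j, ∀ x ∈ S, ‖f j x‖ ≤ C)
    (hc : ∀ j, ContinuousOn (f j) S)
    (heq : ∀ x ∈ S, ∀ ε > 0, ∃ δ > 0, ∀ᶠ j in atTop, ∀ y ∈ S, dist y x < δ →
      dist (f j x) (f j y) < ε) :
    ∃ (φ : ℕ → ℕ) (g : X → E), StrictMono φ ∧ ContinuousOn g S ∧ (∀ x ∈ S, ‖g x‖ ≤ C) ∧
      ∀ {E' : Type} [PseudoMetricSpace E'] (Φ : E → E'), Continuous Φ →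
        TendstoUniformlyOn (fun j x => Φ (f (φ j) x)) (fun x => Φ (g x)) atTop S := by
  classical
  have : CompactSpace S := isCompact_iff_compactSpace.1 hS
  let F : ℕ → BoundedContinuousFunction S E := fun j =>
    BoundedContinuousFunction.mkOfCompact ⟨fun x : S => f j x, (hc j).domRestrict⟩
  have hF : ∀ j (x : S), F j x = f j x := fun _ _ => rfl
  have hK : IsCompact (closure (range F)) := by
    refine BoundedContinuousFunction.arzela_ascoli (closedBall (0 : E) C) (isCompact_closedBall _ _)
      _ ?_ ?_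
    · rintro _ x ⟨j, rfl⟩
      rw [mem_closedBall_zero_iff, hF]
      exact hb j x x.2
    · intro x
      rw [Metric.equicontinuousAt_iff_right]
      intro ε hε
      obtain ⟨δ, hδ, h⟩ := heq x x.2 ε hε
      obtain ⟨j0, hj0⟩ := eventually_atTop.1 h
      have h1 : ∀ᶠ y in 𝓝 x, ∀ j ∈ Finset.range j0, dist (F j x) (F j y) < ε := by
        rw [Filter.eventually_all_finset]
        intro j _
        have := Metric.tendsto_nhds.1 ((F j).continuous.tendsto x) ε hε
        filter_upwards [this] with y hy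
        rwa [dist_comm]
      filter_upwards [h1, Metric.ball_mem_nhds x hδ] with y hy hy2
      rintro ⟨_, j, rfl⟩
      by_cases hj : j < j0
      · exact hy j (Finset.mem_range.2 hj)
      · exact hj0 j (not_lt.1 hj) y y.2 hy2
  obtain ⟨G, -, φ, hφ, hlim⟩ := hK.tendsto_subseq (x := F) fun j => subset_closure ⟨j, rfl⟩
  have hu := BoundedContinuousFunction.tendsto_iff_tendstoUniformly.1 hlim
  have hGb : ∀ x : S, ‖G x‖ ≤ C := fun x =>
    le_of_tendsto (hu.tendsto_at x).norm (Eventually.of_forall fun j => hb _ x x.2)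
  refine ⟨φ, fun x => if h : x ∈ S then G ⟨x, h⟩ else 0, hφ, ?_, ?_, ?_⟩
  · rw [continuousOn_iff_continuous_domRestrict]
    refine G.continuous.congr fun x => ?_
    simp [x.2]
  · intro x hx
    simp only [hx, dif_pos]
    exact hGb _
  · intro E' _ Φ hΦ
    have hΦu := (isCompact_closedBall (0 : E) C).uniformContinuousOn_of_continuous hΦ.continuousOn
    rw [Metric.tendstoUniformlyOn_iff]
    intro ε hε
    obtain ⟨δ, hδ, h⟩ := Metric.uniformContinuousOn_iff.1 hΦu ε hε
    filter_upwards [Metric.tendstoUniformly_iff.1 hu δ hδ] with j hj x hx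
    simp only [hx, dif_pos]
    exact h _ (mem_closedBall_zero_iff.2 (hGb _)) _ (mem_closedBall_zero_iff.2 (hb _ x hx))
      (hj ⟨x, hx⟩)

variable {n : ℕ}

theorem hb_of_kb {G : Cn n → Mat n} {r ε : ℝ} (H : Qc48.KB G r ε) : HB G 0 r 2 |ε| where
  sm := H.sm
  herm := H.herm
  lo z hz v := by linarith [H.lo z hz v]
  hi := H.hi
  cur z hz v w := by
    have h1 : 0 ≤ nq (G z) v := le_trans (by positivity) (H.lo z hz v)
    have h2 : 0 ≤ nq (G z) w := le_trans (by positivity) (H.lo z hz w)
    refine (H.cur z hz v w).trans ?_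
    gcongr
    exact le_abs_self _
  Λ_pos := two_pos
  K_nonneg := abs_nonneg _

/-- the real derivative of `G a b` in terms of `G` and `Γ` -/
def DG (a b : Fin n) (q : (Fin n → Fin n → ℂ) × (Fin n → Fin n → Fin n → ℂ)) : Cn n →L[ℝ] ℂ :=
  ∑ c, ((ze (false, c)).smulRight (∑ k, q.2 c a k * q.1 k b) +
    (ze (true, c)).smulRight (conj (∑ k, q.2 c b k * q.1 k a)))

theorem continuous_DG (a b : Fin n) : Continuous (DG (n := n) a b) := by
  have h : ∀ (s : WI n) (w : ℂ), (ze s).smulRight w = w • ze s := fun s w => by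
    ext1 v
    simp only [ContinuousLinearMap.smulRight_apply, smul_apply, smul_eq_mul, mul_comm]
  unfold DG
  simp only [h]
  refine continuous_finsetSum _ fun c _ => Continuous.add ?_ ?_
  · have h1 : Continuous fun q : (Fin n → Fin n → ℂ) × (Fin n → Fin n → Fin n → ℂ) =>
      ∑ k, q.2 c a k * q.1 k b := by fun_prop
    exact h1.smul continuous_const
  · have h1 : Continuous fun q : (Fin n → Fin n → ℂ) × (Fin n → Fin n → Fin n → ℂ) =>
      ∑ k, q.2 c b k * q.1 k a := by fun_prop
    exact (continuous_conj.comp h1).smul continuous_const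

theorem wdL_DG (a b c : Fin n) (q : (Fin n → Fin n → ℂ) × (Fin n → Fin n → Fin n → ℂ)) :
    wdL (false, c) (DG a b q) = ∑ k, q.2 c a k * q.1 k b := by
  have h : ∀ (r s : WI n) (w : ℂ), wdL r ((ze s).smulRight w) = wdL r (ze s) * w := by
    intro r s w
    simp only [wdL, ContinuousLinearMap.smulRight_apply, smul_eq_mul]
    ring
  rw [DG, ← wdLc_apply, map_sum]
  simp [wdLc_apply, wdL_add, h, wdL_ze]

theorem HB.fderiv_eq {G : Cn n → Mat n} {z0 z : Cn n} {r Λ K : ℝ} (H : HB G z0 r Λ K)
    (hz : z ∈ ball z0 r) (a b : Fin n) :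
    fderiv ℝ (fun w => G w a b) z = DG a b (fun a b => G z a b, fun c a p => Gam G c z a p) := by
  ext1 v
  rw [apply_eq_sum, sum_WI, add_comm, ← Finset.sum_add_distrib, DG,
    sum_apply]
  refine Finset.sum_congr rfl fun c _ => ?_
  have h1 : ∀ a b, ∑ k, Gam G c z a k * G z k b = wdM (false, c) G z a b := fun a b => by
    rw [← H.Gam_mul hz c, Matrix.mul_apply]
  have h2 : conj (wdM (false, c) G z b a) = wdM (true, c) G z a b := by
    have := H.wdM_ct' hz (false, c)
    simp only [Bool.not_false] at this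
    rw [← this]; rfl
  simp only [add_apply, ContinuousLinearMap.smulRight_apply, h1, h2]
  rfl

theorem limStmt (n : ℕ) : Qc48.LimStmt n := by
  obtain ⟨C, hC0, hC⟩ := grad n (1 / 8) 2 1 (by norm_num)
  refine ⟨C + 8, by linarith, fun G' ε' hε' H' => ?_⟩
  obtain ⟨j0, hj0⟩ := eventually_atTop.1 (hε'.abs.eventually (gt_mem_nhds (by simp : |(0 : ℝ)| < 1)))
  set G : ℕ → Cn n → Mat n := fun j => G' (j + j0) with hG
  set ε : ℕ → ℝ := fun j => |ε' (j + j0)| with hεd
  have hε : Tendsto ε atTop (𝓝 0) := by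
    simpa using (hε'.comp (tendsto_add_atTop_nat j0)).abs
  have H : ∀ j, HB (G j) 0 1 2 (ε j) := fun j => hb_of_kb (H' _)
  have hsub : ∀ {z : Cn n} {s : ℝ}, z ∈ closedBall (0 : Cn n) s →
      ball z (1 / 8) ⊆ ball 0 (s + 1 / 8) := fun {z s} hz w hw => by
    have := dist_triangle w z 0
    rw [mem_ball] at hw ⊢
    rw [mem_closedBall] at hz
    linarith
  have hb : ∀ j, ∀ z ∈ ball (0 : Cn n) (7 / 8), HB (G j) z (1 / 8) 2 1 := fun j z hz =>
    (H j).mono ((hsub (ball_subset_closedBall hz)).trans (ball_subset_ball (by norm_num)))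
      (hj0 _ (Nat.le_add_left _ _)).le
  have h78 : ball (0 : Cn n) (7 / 8) ⊆ ball 0 1 := ball_subset_ball (by norm_num)
  have h34 : closedBall (0 : Cn n) (3 / 4) ⊆ ball 0 (7 / 8) := closedBall_subset_ball (by norm_num)
  have h12 : ball (0 : Cn n) (1 / 2) ⊆ closedBall 0 (3 / 4) :=
    ball_subset_closedBall.trans (closedBall_subset_closedBall (by norm_num))
  set f : ℕ → Cn n → (Fin n → Fin n → ℂ) × (Fin n → Fin n → Fin n → ℂ) := fun j z =>
    (fun a b => G j z a b, fun c a p => Gam (G j) c z a p) with hf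
  set B : ℕ → ℝ := fun j => n * (16 * ε j * 2 ^ 2) * 2 with hB
  have hB0 : Tendsto B atTop (𝓝 0) := by
    simpa [hB] using (((hε.const_mul 16).mul_const (2 ^ 2)).const_mul (n : ℝ)).mul_const 2
  obtain ⟨φ, g, hφ, hgc, hgb, hlim⟩ := arz (isCompact_closedBall (0 : Cn n) (3 / 4)) f
    (C := C + 8)
    (fun j z hz => by
      refine norm_prod_le_iff.2 ⟨?_, ?_⟩
      · refine (pi_norm_le_iff_of_nonneg (by linarith)).2 fun a =>
          (pi_norm_le_iff_of_nonneg (by linarith)).2 fun b => ?_
        linarith [(H j).G_le (h78 (h34 hz)) a b]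
      · refine (pi_norm_le_iff_of_nonneg (by linarith)).2 fun c =>
          (pi_norm_le_iff_of_nonneg (by linarith)).2 fun a =>
          (pi_norm_le_iff_of_nonneg (by linarith)).2 fun p => ?_
        linarith [(hC _ _ (hb j z (h34 hz))).2.2 c a p])
    (fun j z hz => by
      refine ContinuousAt.continuousWithinAt (ContinuousAt.prodMk ?_ ?_)
      · exact continuousAt_pi.2 fun a => continuousAt_pi.2 fun b =>
          ((H j).cd (h78 (h34 hz)) a b).continuousAt
      · exact continuousAt_pi.2 fun c => continuousAt_pi.2 fun a => continuousAt_pi.2 fun p =>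
          ((H j).cd_Gam (h78 (h34 hz)) c a p).continuousAt)
    (fun x hx η hη => by
      refine ⟨min (1 / 32) (η / (64 * (C + 1))), by positivity, ?_⟩
      have h1 : Tendsto (fun j => 4 * (n * B j) * (1 / 16)) atTop (𝓝 0) := by
        have := ((hB0.const_mul (n : ℝ)).const_mul 4).mul_const (1 / 16)
        rwa [mul_zero, mul_zero, zero_mul] at this
      filter_upwards [h1.eventually (gt_mem_nhds (half_pos hη))] with j hj y hy hxy
      have h2 : ‖y - x‖ < 1 / 32 := by rw [← dist_eq_norm]; exact hxy.trans_le (min_le_left _ _)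
      have h3 : ‖y - x‖ * (64 * (C + 1)) < η := by
        rw [← dist_eq_norm, ← lt_div_iff₀ (by positivity)]; exact hxy.trans_le (min_le_right _ _)
      have h4 := norm_nonneg (y - x)
      have hs : ball x (1 / 8) ⊆ ball 0 (7 / 8) :=
        (hsub hx).trans (ball_subset_ball (by norm_num))
      rw [Prod.dist_eq, max_lt_iff]
      constructor
      · refine (dist_pi_lt_iff hη).2 fun a => (dist_pi_lt_iff hη).2 fun b => ?_
        have h5 := (convex_ball (0 : Cn n) (7 / 8)).norm_image_sub_le_of_norm_fderiv_le (𝕜 := ℝ)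
          (f := fun w => G j w a b) (fun w hw => (H j).df (h78 hw) a b)
          (fun w hw => (hC _ _ (hb j w hw)).2.1 a b) (h34 hx) (h34 hy)
        rw [dist_comm, dist_eq_norm]
        refine h5.trans_lt ?_
        nlinarith
      · refine (dist_pi_lt_iff hη).2 fun c => (dist_pi_lt_iff hη).2 fun a =>
          (dist_pi_lt_iff hη).2 fun p => ?_
        have h5 := ah_modulusN (f := fun w => Gam (G j) c w a p) (z := x) (y := y) (R := 1 / 16)
          (R' := 1 / 8) (A := C) (B := B j) (by norm_num) (by norm_num)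
          (fun w hw => ((H j).cd_Gam (h78 (hs hw)) c a p).contDiffWithinAt)
          (fun w hw => (hC _ _ (hb j w (hs hw))).2.2 c a p)
          (fun w hw b => (H j).wd_Gam_le (h78 (hs hw)) c b a p) (by linarith)
        rw [dist_comm, dist_eq_norm]
        refine h5.trans_lt ?_
        have : 2 * C * ‖y - x‖ / (1 / 16) = 32 * C * ‖y - x‖ := by ring
        rw [this]
        nlinarith)
  have hG0 : ∀ a b, TendstoUniformlyOn (fun j z => G (φ j) z a b) (fun z => (g z).1 a b) atTop
      (closedBall 0 (3 / 4)) := fun a b => hlim (fun q => q.1 a b) (by fun_prop)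
  have hΓ0 : ∀ c a p, TendstoUniformlyOn (fun j z => Gam (G (φ j)) c z a p)
      (fun z => (g z).2 c a p) atTop (closedBall 0 (3 / 4)) := fun c a p =>
    hlim (fun q => q.2 c a p) (by fun_prop)
  have hD : ∀ a b, ∀ z ∈ ball (0 : Cn n) (1 / 2),
      HasFDerivAt (fun z => (g z).1 a b) (DG a b (g z)) z := fun a b z hz =>
    hasFDerivAt_of_tendstoUniformlyOn (f := fun j z => G (φ j) z a b) isOpen_ball
      ((hlim (DG a b) (continuous_DG a b)).mono h12)
      (fun j w hw => by
        have h1 := (H (φ j)).fderiv_eq (h78 (h34 (h12 hw))) a b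
        have h2 := ((H (φ j)).df (h78 (h34 (h12 hw))) a b).hasFDerivAt
        rw [h1] at h2
        exact h2)
      (fun w hw => (hG0 a b).tendsto_at (h12 hw)) hz
  refine ⟨fun j => φ j + j0, fun z => Matrix.of (g z).1, fun c z => Matrix.of ((g z).2 c),
    fun i j h => Nat.add_lt_add_right (hφ h) _, fun a b => (hG0 a b).mono h12,
    fun a b z hz => (hD a b z hz).differentiableAt.differentiableWithinAt, fun c a p => ?_,
    fun c a p z hz => ?_, fun c z hz => ?_, fun c a p z hz => ?_⟩
  · refine (Crest.Agent.R266.SCV.analyticOnNhd_of_basis (EuclideanSpace.basisFun (Fin n) ℂ).toBasis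
      isOpen_ball ?_ fun x hx i => ?_).differentiableOn
    · have h1 : Continuous fun q : (Fin n → Fin n → ℂ) × (Fin n → Fin n → Fin n → ℂ) =>
        q.2 c a p := by fun_prop
      exact h1.comp_continuousOn (hgc.mono h12)
    · set v := (EuclideanSpace.basisFun (Fin n) ℂ).toBasis i with hv
      have hv1 : ‖v‖ ≤ 1 := by simp [hv]
      have hs : ball x (1 / 8) ⊆ closedBall 0 (3 / 4) :=
        (hsub (ball_subset_closedBall hx)).trans
          (ball_subset_closedBall.trans (closedBall_subset_closedBall (by norm_num)))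
      have hm : ∀ w ∈ closedBall (0 : ℂ) (1 / 16), x + w • v ∈ closedBall 0 (3 / 4) :=
        fun w hw => hs (line_mem hv1 (closedBall_subset_ball (by norm_num) hw))
      have := ah_limit (f := fun j ζ => Gam (G (φ j)) c (x + ζ • v) a p)
        (g := fun ζ => (g (x + ζ • v)).2 c a p) (R := 1 / 16) (R' := 1 / 8)
        (B := fun j => n * B (φ j)) (by norm_num) (by norm_num)
        (fun j => contDiffOn_line (f := fun w => Gam (G (φ j)) c w a p) hv1 fun w hw =>
          ((H _).cd_Gam (h78 (h34 (hs hw))) c a p).contDiffWithinAt)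
        (fun j w hw => norm_dbL_line (f := fun w => Gam (G (φ j)) c w a p) hv1
          (((H _).cd_Gam (h78 (h34 (hm w hw))) c a p).differentiableAt (by simp))
          fun b => (H _).wd_Gam_le (h78 (h34 (hm w hw))) c b a p)
        (by simpa using (hB0.comp hφ.tendsto_atTop).const_mul (n : ℝ))
        (((hΓ0 c a p).comp fun ζ : ℂ => x + ζ • v).mono fun w hw => hm w (ball_subset_closedBall hw))
      exact this.differentiableAt (ball_mem_nhds _ (by norm_num))
  · have h1 := hgb z (h12 hz)
    exact (((norm_le_pi_norm _ p).trans (norm_le_pi_norm _ a)).trans (norm_le_pi_norm _ c)).trans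
      ((norm_snd_le _).trans h1)
  · ext a b
    rw [wdM_apply, wd, Matrix.mul_apply]
    simp only [Matrix.of_apply]
    rw [(hD a b z hz).fderiv, wdL_DG]
  · refine tendsto_nhds_unique ((hΓ0 c a p).tendsto_at (h12 hz)) ?_
    refine ((hΓ0 a c p).tendsto_at (h12 hz)).congr fun j => ?_
    simp only [Gam, Matrix.mul_apply, wdM_apply]
    refine Finset.sum_congr rfl fun k _ => ?_
    rw [(H' (φ j + j0)).closed z (h78 (h34 (h12 hz))) c k a]

end

end Crest.Agent.T223.Gr

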