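import Crest.Agent.T223.Fr_38
import Crest.Agent.N207.I.Jet2

/-!
# Row 223, module LIMIT (helper19): the leaves of `LimStmt`

`GB`, `GE`, `UB`, `UE`, `ul`, `UB.lim` are the jet calculus along filters of `N207/I/Jet`, `Jet2`.
-/

set_option autoImplicit false

open Set Filter Topology Metric
open scoped ContDiff ComplexConjugate Matrix ComplexOrder

namespace Crest.Agent.T223.Lm

open Crest.Agent.R275.Geo Crest.Agent.R275.EDR890
open Crest.Agent.R273.Kah_333 Crest.Agent.R273.Hess_333 Crest.Agent.R273.RMan4_798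
open Crest.Agent.T223.Br Crest.Agent.T223.Tr Crest.Agent.N207.Jt

/-- (GRAD) two sided bounds and a curvature bound in a FIXED holomorphic chart give `C^{1,1/2}`
bounds (no Kaehler condition) -/
def GradStmt (n : ℕ) : Prop :=
  ∀ c C r : ℝ, 0 < c → 0 < r → ∃ K : ℝ, ∀ (g : Cn n → Mat n) (z0 : Cn n),
    (∀ z ∈ ball z0 r, ∀ a b, ContDiffAt ℝ ∞ (fun w => g w a b) z) →
    (∀ z ∈ ball z0 r, (g z).IsHermitian) →
    (∀ z ∈ ball z0 r, ∀ v, c * ‖v‖ ^ 2 ≤ nq (g z) v ∧ nq (g z) v ≤ C * ‖v‖ ^ 2) →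
    (∀ z ∈ ball z0 r, ∀ v w, |bis g z v w| ≤ C * ‖v‖ ^ 2 * ‖w‖ ^ 2) →
    ∀ a b, ∀ z ∈ ball z0 (r / 4), ‖fderiv ℝ (fun w => g w a b) z‖ ≤ K ∧
      ∀ z' ∈ ball z0 (r / 4), ‖fderiv ℝ (fun w => g w a b) z - fderiv ℝ (fun w => g w a b) z'‖ ≤
        K * √(dist z z')

/-- (REG) a family of flows on a fixed open set with two sided bounds and bounded curvature has
locally uniformly bounded space-time jets -/
def RegStmt (n : ℕ) : Prop :=
  ∀ (ι : Type) (𝒰 : Ultrafilter ι) (g : ι → ℝ → Cn n → Mat n) (O : Set (ℝ × Cn n)) (c C : ℝ),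
    IsOpen O → 0 < c →
    (∀ᶠ j in (𝒰 : Filter ι), ∀ q ∈ O, KRFat (g j) q.1 q.2 ∧
      (∀ v, c * ‖v‖ ^ 2 ≤ nq (g j q.1 q.2) v ∧ nq (g j q.1 q.2) v ≤ C * ‖v‖ ^ 2) ∧
      ∀ v w, |bis (g j q.1) q.2 v w| ≤ C * ‖v‖ ^ 2 * ‖w‖ ^ 2) →
    ∀ Q : Set (ℝ × Cn n), IsCompact Q → Q ⊆ O → ∀ a b,
      UB (𝒰 : Filter ι) (fun j (r : ℝ × Cn n) => g j r.1 r.2 a b) fun _ => Q

/-- (JET) if the space-time jets at `(t, z)` converge, all curvature quantities converge -/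
def JetStmt (n : ℕ) : Prop :=
  ∀ (ι : Type) (l : Filter ι) (g : ι → ℝ → Cn n → Mat n) (g' : ℝ → Cn n → Mat n) (t : ℝ)
    (z : Cn n),
    (∀ a b, GE l (fun j (r : ℝ × Cn n) => g j r.1 r.2 a b) (fun _ => (t, z))
      (fun _ (r : ℝ × Cn n) => g' r.1 r.2 a b) (fun _ => (t, z))) → (g' t z).PosDef →
    (∀ s a b, Tendsto (fun j => wd s (fun y => g j t y a b) z) l
      (𝓝 (wd s (fun y => g' t y a b) z))) ∧
    (∀ a b, Tendsto (fun j => deriv (fun s => g j s z a b) t) l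
      (𝓝 (deriv (fun s => g' s z a b) t))) ∧
    (∀ a b, Tendsto (fun j => hess (ldet (g j t)) z a b) l (𝓝 (hess (ldet (g' t)) z a b))) ∧
    (∀ v w, Tendsto (fun j => bis (g j t) z v w) l (𝓝 (bis (g' t) z v w))) ∧
    ∀ (τ : ℝ) (c : ℂ) (a v : Cn n),
      Tendsto (fun j => lyh (g j) τ t z c a v) l (𝓝 (lyh g' τ t z c a v))

/-- (PROP) completeness of the limit -/
def PropStmt (n : ℕ) : Prop :=
  ∀ (M : Type) [TopologicalSpace M] [T2Space M] [ConnectedSpace M] (A : Atl n M) (K0 K : Kah A)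
    (p : M) (C : ℝ), ProperSpace (ofKah K0).M → 0 ≤ C →
    (∀ Q : Set M, IsCompact Q → ∃ ρ : M → ℝ, LipOn (gc K) Q C ρ ∧
      ∀ x ∈ Q, dK K0 p x ≤ C * (1 + |ρ x - ρ p|)) → ProperSpace (ofKah K).M

end Crest.Agent.T223.Lm
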