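import Crest.Agent.T223.Gr3_44
import Crest.Agent.T223.LmDef_19

/-!
# Row 223 (helper44): `Lm.GradStmt` (`C^{1,1/2}` bounds from two sided bounds and curvature)
-/

set_option autoImplicit false

open Set Filter Topology Complex Metric
open scoped ContDiff ComplexConjugate Matrix

namespace Crest.Agent.T223.Gr

open Crest.Agent.R275.Geo Crest.Agent.R275.EDR890 Crest.Agent.R273.Hess_333
open Crest.Agent.T223.Br Crest.Agent.T223.Tr

noncomputable section

variable {n : ℕ}

theorem norm_le_of_wdL {L : Cn n →L[ℝ] ℂ} {C : ℝ} (hC : 0 ≤ C) (h : ∀ s, ‖wdL s L‖ ≤ C) :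
    ‖L‖ ≤ 2 * n * C := by
  have := norm_fderiv_le (f := L) (z := 0) hC (fun s => by rw [wd, L.fderiv]; exact h s)
  rwa [L.fderiv] at this

/-- Hoelder modulus of an almost holomorphic function -/
theorem ah_hoelder {f : Cn n → ℂ} {z y : Cn n} {ρ A B : ℝ} (hρ : 0 < ρ) (hB0 : 0 ≤ B)
    (hf : ContDiffOn ℝ ∞ f (ball z (4 * ρ))) (hA : ∀ w ∈ ball z (4 * ρ), ‖f w‖ ≤ A)
    (hB : ∀ w ∈ ball z (4 * ρ), ∀ b, ‖wd (true, b) f w‖ ≤ B) (hy : y ∈ ball z (4 * ρ)) :
    ‖f y - f z‖ ≤ (2 * A / √ρ + 8 * (n * B) * √ρ) * √(dist y z) := by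
  have hA0 : 0 ≤ A := (norm_nonneg _).trans (hA y hy)
  have hs : 0 < √ρ := Real.sqrt_pos.2 hρ
  have hss : √ρ * √ρ = ρ := Real.mul_self_sqrt hρ.le
  rw [dist_eq_norm]
  set d := ‖y - z‖ with hd
  have hd0 : 0 ≤ d := norm_nonneg _
  have hdd : √d * √d = d := Real.mul_self_sqrt hd0
  have hsd : 0 ≤ √d := Real.sqrt_nonneg _
  rcases eq_or_lt_of_le hd0 with h0 | h0
  · have : y = z := sub_eq_zero.1 (norm_eq_zero.1 h0.symm)
    rw [this, sub_self, norm_zero]; positivity
  have hsd' : 0 < √d := Real.sqrt_pos.2 h0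
  rcases le_or_gt d ρ with h1 | h1
  · have h2 : √d ≤ √ρ := Real.sqrt_le_sqrt h1
    have h3 := ah_modulusN (z := z) (y := y) (R := 2 * (√d * √ρ)) (by positivity) (by nlinarith)
      hf hA hB (by rw [← hd]; nlinarith)
    refine h3.trans ?_
    rw [← hd]
    have h4 : 2 * A * d / (2 * (√d * √ρ)) = A / √ρ * √d := by
      field_simp
      rw [sq, hdd]
    rw [h4]
    have h5 : 0 ≤ A / √ρ * √d := by positivity
    have h6 : (2 * A / √ρ + 8 * (n * B) * √ρ) * √d =
      2 * (A / √ρ * √d) + 4 * (n * B) * (2 * (√d * √ρ)) := by ring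
    linarith
  · have h2 : √ρ ≤ √d := Real.sqrt_le_sqrt h1.le
    have h3 : ‖f y - f z‖ ≤ 2 * A :=
      (norm_sub_le _ _).trans (by linarith [hA y hy, hA z (mem_ball_self (by linarith))])
    have h4 : 2 * A ≤ 2 * A / √ρ * √d := by
      rw [div_mul_eq_mul_div, le_div_iff₀ hs]; gcongr
    have h5 : 0 ≤ 8 * (n * B) * √ρ * √d := by positivity
    linarith [add_mul (2 * A / √ρ) (8 * (n * B) * √ρ) √d]

theorem gradStmt (n : ℕ) : Lm.GradStmt n := by
  intro c C r hc hr
  set Λ := 1 / c + |C| with hΛ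
  set K := |C| / c ^ 2 with hK
  have hΛ0 : 0 < Λ := by positivity
  have hK0 : 0 ≤ K := by positivity
  obtain ⟨D, hD0, hD⟩ := grad n (r / 4) Λ K (by linarith)
  set B := 16 * K * Λ ^ 2 + n * D * D with hB
  have hB0 : 0 ≤ B := by positivity
  set T := 2 * D / √(r / 8) + 8 * (n * B) * √(r / 8) with hT
  have hT0 : 0 ≤ T := by positivity
  refine ⟨D + 2 * n * T, fun g z0 h1 h2 h3 h4 a b z hz => ?_⟩
  have H : HB g z0 r Λ K :=
    { sm := fun a b z hz => (h1 z hz a b).contDiffWithinAt
      herm := h2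
      lo := fun z hz v => by
        have h5 := (h3 z hz v).1
        have h6 : 0 ≤ nq (g z) v := le_trans (by positivity) h5
        have h7 : ‖v‖ ^ 2 ≤ 1 / c * nq (g z) v := by
          rw [one_div, ← div_eq_inv_mul, le_div_iff₀ hc]; linarith
        nlinarith [abs_nonneg C]
      hi := fun z hz v => by
        have h5 := (h3 z hz v).2
        have h6 : C ≤ Λ := by linarith [le_abs_self C, one_div_pos.2 hc]
        nlinarith [sq_nonneg ‖v‖]
      cur := fun z hz v w => by
        have h5 := (h3 z hz v).1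
        have h6 := (h3 z hz w).1
        have h7 : 0 ≤ nq (g z) v := le_trans (by positivity) h5
        refine (h4 z hz v w).trans ?_
        calc C * ‖v‖ ^ 2 * ‖w‖ ^ 2 ≤ |C| * ‖v‖ ^ 2 * ‖w‖ ^ 2 := by gcongr; exact le_abs_self C
          _ = K * (c * ‖v‖ ^ 2) * (c * ‖w‖ ^ 2) := by rw [hK]; field_simp
          _ ≤ _ := by gcongr
      Λ_pos := hΛ0
      K_nonneg := hK0 }
  have hsub : ∀ {w : Cn n} {s t : ℝ}, w ∈ ball z0 s → ball w t ⊆ ball z0 (s + t) :=
    fun {w s t} hw y hy => by
      have := dist_triangle y w z0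
      rw [mem_ball] at hw hy ⊢
      linarith
  have hb : ∀ w ∈ ball z0 (3 * r / 4), HB g w (r / 4) Λ K := fun w hw =>
    H.mono ((hsub hw).trans (ball_subset_ball (by linarith))) le_rfl
  have h34 : ball z0 (3 * r / 4) ⊆ ball z0 r := ball_subset_ball (by linarith)
  have h14 : ball z0 (r / 4) ⊆ ball z0 (3 * r / 4) := ball_subset_ball (by linarith)
  have hn : 0 ≤ 2 * n * T := by positivity
  refine ⟨by linarith [(hD _ _ (hb z (h14 hz))).2.1 a b], fun y hy => ?_⟩
  have hs : ball y (4 * (r / 8)) ⊆ ball z0 (3 * r / 4) :=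
    (hsub hy).trans (ball_subset_ball (by linarith))
  have hzy : z ∈ ball y (4 * (r / 8)) := by
    have := dist_triangle_right z y z0
    rw [mem_ball] at hz hy ⊢
    linarith
  have key : ∀ e a b, ‖wd (false, e) (fun w => g w a b) z - wd (false, e) (fun w => g w a b) y‖ ≤
      T * √(dist z y) := fun e a b =>
    ah_hoelder (f := wd (false, e) fun w => g w a b) (A := D) (by linarith) hB0
      (fun w hw => (H.cd_wdM (h34 (hs hw)) _ a b).contDiffWithinAt)
      (fun w hw => (hD _ _ (hb w (hs hw))).1 _ a b)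
      (fun w hw d => by
        have h5 : wdM (true, d) (wdM (false, e) g) w =
            Gam g e w * wdM (true, d) g w - Rm g w e d := by
          rw [H.wdM_comm (h34 (hs hw)), Rm, Gam]; abel
        have h6 : wd (true, d) (wd (false, e) fun w => g w a b) w =
            wdM (true, d) (wdM (false, e) g) w a b := rfl
        rw [h6, h5, Matrix.sub_apply]
        refine (norm_sub_le _ _).trans ?_
        have h7 := mul_entry_le (A := Gam g e w) (B := wdM (true, d) g w)
          ((hD _ _ (hb w (hs hw))).2.2 e) ((hD _ _ (hb w (hs hw))).1 _) a b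
        linarith [H.Rm_le (h34 (hs hw)) e d a b]) hzy
  have hq : 0 ≤ √(dist z y) := Real.sqrt_nonneg _
  have h8 := norm_le_of_wdL (L := fderiv ℝ (fun w => g w a b) z - fderiv ℝ (fun w => g w a b) y)
    (C := T * √(dist z y)) (by positivity) fun s => by
      rw [← wdLc_apply, map_sub]
      change ‖wd s (fun w => g w a b) z - wd s (fun w => g w a b) y‖ ≤ _
      obtain ⟨t, e⟩ := s
      cases t
      · exact key e a b
      · have h9 : ∀ w ∈ ball z0 r, wd (true, e) (fun w => g w a b) w =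
            conj (wd (false, e) (fun w => g w b a) w) := fun w hw => by
          have := H.wdM_ct' hw (false, e)
          simp only [Bool.not_false] at this
          rw [← wdM_apply, ← this]; rfl
        rw [h9 z (h34 (h14 hz)), h9 y (h34 (h14 hy)), ← map_sub, RCLike.norm_conj]
        exact key e b a
  nlinarith [mul_nonneg hD0 hq]

end

end Crest.Agent.T223.Gr
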