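import Crest.Agent.T223.Hm0_77

/-!
# Row 223, module HOER (helper77), part 1: measurable unitary frames
-/

set_option autoImplicit false
set_option linter.unusedSectionVars false

open Set Filter Topology Complex Matrix MeasureTheory
open scoped ContDiff Matrix ComplexConjugate ComplexOrder ENNReal

namespace Crest.Agent.T223.Hm

open Crest.Agent.R275 Crest.Agent.R275.Geo Crest.Agent.R275.Core144
open Crest.Agent.R275.OmT75 (dl dl_chain db_chain)
open Crest.Agent.R273.Defs_333 Crest.Agent.R273.Kah_333 Crest.Agent.R273.Vm_333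

noncomputable section

variable {n : ℕ} {M : Type} [TopologicalSpace M] {A : Atl n M} {N L : LB A}

/-! ### square roots -/

section Sqrt
open scoped MatrixOrder Matrix.Norms.L2Operator

/-- the square root of a matrix -/
def msq (P : Mx n) : Mx n := CFC.sqrt P

theorem msq_herm (P : Mx n) : (msq P)ᴴ = msq P := (CFC.sqrt_nonneg P).isSelfAdjoint

theorem msq_mul {P : Mx n} (h : P.PosSemidef) : msq P * msq P = P :=
  CFC.sqrt_mul_sqrt_self _ h.nonneg

theorem continuousOn_msq : ContinuousOn (msq : Mx n → Mx n) {P | P.PosSemidef} := by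
  have h := CFC.continuousOn_sqrt (A := Mx n)
  exact h.mono fun Q hQ => hQ.nonneg

end Sqrt

/-! ### continuity in charts -/

theorem contOn_of_read {W : Type*} [TopologicalSpace W] {i : A.ι} {f : M → W} {U : Set M}
    (hf : ContinuousOn (fun z => f ((A.e i).symm z)) ((A.e i).target ∩ (A.e i).symm ⁻¹' U)) :
    ContinuousOn f ((A.e i).source ∩ U) := by
  have h2 : ContinuousOn (fun y => f ((A.e i).symm (A.e i y))) ((A.e i).source ∩ U) :=
    hf.comp ((A.e i).continuousOn.mono inter_subset_left) fun y hy =>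
      ⟨(A.e i).map_source hy.1, by
        change (A.e i).symm (A.e i y) ∈ U
        rw [(A.e i).left_inv hy.1]; exact hy.2⟩
  exact h2.congr fun y hy => by
    change f y = f ((A.e i).symm (A.e i y))
    rw [(A.e i).left_inv hy.1]

theorem contOn_smAt {W : Type*} [NormedAddCommGroup W] [NormedSpace ℝ W] {i : A.ι} {f : M → W}
    (hf : A.SmAt i f) : ContinuousOn f (A.e i).source := by
  have h := contOn_of_read (A := A) (i := i) (f := f) (U := univ)
    (by simpa using (ContDiffOn.continuousOn hf))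
  simpa using h

theorem contOn_holAt {i : A.ι} {U : Set M} {f : M → ℂ} (hf : HolAt A i U f) :
    ContinuousOn f ((A.e i).source ∩ U) := contOn_of_read hf.continuousOn

theorem contOn_Ng (N : LB A) (i j : A.ι) :
    ContinuousOn (N.g i j) ((A.e i).source ∩ (A.e j).source) := contOn_holAt (N.hol i j)

theorem contOn_Jm (i j : A.ι) :
    ContinuousOn (Jm A i j) ((A.e i).source ∩ (A.e j).source) :=
  continuousOn_pi.2 fun b => continuousOn_pi.2 fun a => contOn_holAt (holAt_J i j b a)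

theorem contOn_g (K : Kah A) (i : A.ι) : ContinuousOn (K.g i) (A.e i).source :=
  continuousOn_pi.2 fun a => continuousOn_pi.2 fun b => contOn_smAt (K.sm i a b)

theorem posDef_gT (K : Kah A) {i : A.ι} {x : M} (hx : x ∈ (A.e i).source) :
    ((K.g i x)ᵀ).PosDef := (K.pos i x hx).transpose

theorem gT_inv_mul (K : Kah A) {i : A.ι} {x : M} (hx : x ∈ (A.e i).source) :
    ((K.g i x)ᵀ)⁻¹ * (K.g i x)ᵀ = 1 :=
  Matrix.nonsing_inv_mul _ ((Matrix.isUnit_iff_isUnit_det _).1 (posDef_gT K hx).isUnit)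

theorem gT_mul_inv (K : Kah A) {i : A.ι} {x : M} (hx : x ∈ (A.e i).source) :
    (K.g i x)ᵀ * ((K.g i x)ᵀ)⁻¹ = 1 :=
  Matrix.mul_nonsing_inv _ ((Matrix.isUnit_iff_isUnit_det _).1 (posDef_gT K hx).isUnit)

theorem contOn_gT (K : Kah A) (i : A.ι) : ContinuousOn (fun x => (K.g i x)ᵀ) (A.e i).source :=
  (continuous_id.matrix_transpose).comp_continuousOn (contOn_g K i)

theorem contOn_gTi (K : Kah A) (i : A.ι) :
    ContinuousOn (fun x => ((K.g i x)ᵀ)⁻¹) (A.e i).source := by
  intro x hx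
  have h1 : ContinuousAt (fun P : Mx n => P⁻¹) ((K.g i x)ᵀ) := by
    refine continuousAt_matrix_inv _ ?_
    obtain ⟨u, hu⟩ := ((Matrix.isUnit_iff_isUnit_det _).1 (posDef_gT K hx).isUnit)
    rw [← hu]
    exact NormedRing.inverse_continuousAt u
  exact h1.comp_continuousWithinAt (f := fun x => (K.g i x)ᵀ) (contOn_gT K i x hx)

/-- a function given in every chart by a continuous expression is continuous -/
theorem continuous_of_charts {W : Type*} [TopologicalSpace W] {φ : M → W} (Φ : A.ι → M → W)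
    (h1 : ∀ i, ∀ x ∈ (A.e i).source, φ x = Φ i x) (h2 : ∀ i, ContinuousOn (Φ i) (A.e i).source) :
    Continuous φ := by
  rw [continuous_iff_continuousAt]
  intro x
  obtain ⟨i, hi⟩ := A.cover x
  exact ((h2 i).congr (h1 i)).continuousAt ((A.e i).open_source.mem_nhds hi)

variable [Countable A.ι]

theorem ix_eq {j : A.ι} {x : M} (hx : x ∈ Dj A j) : ix A x = j := by
  by_contra h
  exact Set.disjoint_left.1 (Dj_disjoint (A := A) h) (ix_Dj x) hx

section Meas
variable [MeasurableSpace M] [BorelSpace M]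

theorem aesm_ix {U : Set M} (hU : IsOpen U) {f : A.ι → M → ℂ}
    (hf : ∀ j, ContinuousOn (f j) ((A.e j).source ∩ U)) (μ : Measure M) :
    AEStronglyMeasurable (fun x => f (ix A x) x) (μ.restrict U) := by
  have h1 : U = ⋃ j, (Dj A j ∩ U) := by rw [← iUnion_inter, iUnion_Dj, univ_inter]
  rw [h1, aestronglyMeasurable_iUnion_iff]
  intro j
  have hm : MeasurableSet (Dj A j ∩ U) := (meas_Dj j).inter hU.measurableSet
  have h2 : ContinuousOn (f j) (Dj A j ∩ U) := (hf j).mono fun x hx => ⟨hx.1.1, hx.2⟩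
  refine (h2.aestronglyMeasurable hm).congr ?_
  filter_upwards [ae_restrict_mem hm] with x hx
  rw [ix_eq hx.1]

theorem aesm_ix' {f : A.ι → M → ℂ} (hf : ∀ j, ContinuousOn (f j) (A.e j).source) (μ : Measure M) :
    AEStronglyMeasurable (fun x => f (ix A x) x) μ := by
  have h := aesm_ix (A := A) isOpen_univ (f := f) (fun j => by simpa using hf j) μ
  simpa using h

end Meas

theorem aesm_pi {X ι : Type*} [MeasurableSpace X] [Fintype ι] {μ : Measure X} {f : X → ι → ℂ}
    (h : ∀ a, AEStronglyMeasurable (fun x => f x a) μ) : AEStronglyMeasurable f μ :=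
  (aemeasurable_pi_iff.2 fun a => (h a).aemeasurable).aestronglyMeasurable

theorem aesm_toLp {X ι : Type*} [MeasurableSpace X] [Fintype ι] {μ : Measure X} {f : X → ι → ℂ}
    (h : ∀ a, AEStronglyMeasurable (fun x => f x a) μ) :
    AEStronglyMeasurable (fun x => (WithLp.toLp 2 (f x) : EuclideanSpace ℂ ι)) μ :=
  (PiLp.continuous_toLp 2 _).comp_aestronglyMeasurable (aesm_pi h)

/-! ### frames -/

/-- length of the frame of `N` in the chosen chart -/
def cw (h : HM L) (vol : HM (KB A)⁻¹) (x : M) : ℝ :=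
  Real.sqrt (h.w (ix A x) x / vol.w (ix A x) x)

/-- the unitary frame in the chosen chart -/
def Rt (K : Kah A) (x : M) : Mx n := msq ((K.g (ix A x) x)ᵀ)

/-- unitary coordinate of the frame of `N` in the chart `i` -/
def o1 (h : HM ((KB A)⁻¹ * N)) (vol : HM (KB A)⁻¹) (i : A.ι) (x : M) : ℂ :=
  (cw h vol x : ℂ) * N.g (ix A x) i x

/-- unitary coordinates of the frame of the tangent bundle in the chart `i` -/
def O2 (K : Kah A) (i : A.ι) (x : M) : Mx n := Rt K x * Jm A i (ix A x) x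

/-- the contragredient frame -/
def S2 (K : Kah A) (i : A.ι) (x : M) : Mx n := O2 K i x * ((K.g i x)ᵀ)⁻¹

variable (h : HM ((KB A)⁻¹ * N)) (vol : HM (KB A)⁻¹) (K : Kah A)

theorem cw_pos (x : M) : 0 < cw h vol x :=
  Real.sqrt_pos.2 (div_pos (h.pos _ _ (ix_mem x)) (vol.pos _ _ (ix_mem x)))

theorem o1_ne (i : A.ι) (x : M) : o1 h vol i x ≠ 0 :=
  mul_ne_zero (Complex.ofReal_ne_zero.2 (cw_pos h vol x).ne') (N.ne_zero _ _ _)

theorem ratio_law {i j : A.ι} {x : M} (hx : x ∈ (A.e i).source ∩ (A.e j).source) :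
    h.w j x / vol.w j x = ‖N.g i j x‖ ^ 2 * (h.w i x / vol.w i x) := by
  rw [h.tr i j x hx, vol.tr i j x hx, LB.mul_g, norm_mul]
  have h1 : ‖((KB A)⁻¹).g i j x‖ ≠ 0 := norm_ne_zero_iff.2 (((KB A)⁻¹).ne_zero i j x)
  have h2 := (vol.pos i x hx.1).ne'
  field_simp

theorem o1_sq {i : A.ι} {x : M} (hx : x ∈ (A.e i).source) :
    ‖o1 h vol i x‖ ^ 2 = h.w i x / vol.w i x := by
  rw [ratio_law h vol ⟨ix_mem x, hx⟩, o1, norm_mul, mul_pow, Complex.norm_real, Real.norm_eq_abs,
    sq_abs, cw, Real.sq_sqrt (div_pos (h.pos _ _ (ix_mem x)) (vol.pos _ _ (ix_mem x))).le]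
  ring

theorem o1_conj {i : A.ι} {x : M} (hx : x ∈ (A.e i).source) :
    conj (o1 h vol i x) * o1 h vol i x = ((h.w i x / vol.w i x : ℝ) : ℂ) := by
  rw [mul_comm, Complex.mul_conj, Complex.normSq_eq_norm_sq, o1_sq h vol hx]

theorem o1_ix (x : M) : o1 h vol (ix A x) x = cw h vol x := by rw [o1, N.self, mul_one]

theorem o1_law {i j : A.ι} {x : M} (hx : x ∈ (A.e i).source ∩ (A.e j).source) :
    o1 h vol j x = o1 h vol i x * N.g i j x := by
  rw [o1, o1, mul_assoc, N.mul _ i j x ⟨⟨ix_mem x, hx.1⟩, hx.2⟩]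

theorem O2_ix (x : M) : O2 K (ix A x) x = Rt K x := by rw [O2, J_self _ (ix_mem x), mul_one]

theorem O2_law {i j : A.ι} {x : M} (hx : x ∈ (A.e i).source ∩ (A.e j).source) :
    O2 K j x = O2 K i x * Jm A j i x := by
  rw [O2, O2, mul_assoc, J_mul j i _ ⟨⟨hx.2, hx.1⟩, ix_mem x⟩]

theorem gT_law {i j : A.ι} {x : M} (hx : x ∈ (A.e i).source ∩ (A.e j).source) :
    (K.g i x)ᵀ = (Jm A i j x)ᴴ * (K.g j x)ᵀ * Jm A i j x := by
  rw [K.tr i j x hx, Matrix.transpose_mul, Matrix.transpose_mul, Matrix.transpose_transpose,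
    ← mul_assoc]
  rfl

theorem O2_sq {i : A.ι} {x : M} (hx : x ∈ (A.e i).source) :
    (O2 K i x)ᴴ * O2 K i x = (K.g i x)ᵀ := by
  rw [gT_law K ⟨hx, ix_mem x⟩, O2, Matrix.conjTranspose_mul, Rt, msq_herm, mul_assoc,
    ← mul_assoc (msq _), msq_mul (posDef_gT K (ix_mem x)).posSemidef, mul_assoc]

theorem O2H_S2 {i : A.ι} {x : M} (hx : x ∈ (A.e i).source) : (O2 K i x)ᴴ * S2 K i x = 1 := by
  rw [S2, ← mul_assoc, O2_sq K hx, gT_mul_inv K hx]

theorem S2_O2H {i : A.ι} {x : M} (hx : x ∈ (A.e i).source) : S2 K i x * (O2 K i x)ᴴ = 1 :=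
  mul_eq_one_comm.1 (O2H_S2 K hx)

theorem S2H_O2 {i : A.ι} {x : M} (hx : x ∈ (A.e i).source) : (S2 K i x)ᴴ * O2 K i x = 1 := by
  have h1 := congrArg Matrix.conjTranspose (O2H_S2 K hx)
  rwa [Matrix.conjTranspose_mul, Matrix.conjTranspose_conjTranspose, Matrix.conjTranspose_one] at h1

theorem O2_S2H {i : A.ι} {x : M} (hx : x ∈ (A.e i).source) : O2 K i x * (S2 K i x)ᴴ = 1 :=
  mul_eq_one_comm.1 (S2H_O2 K hx)

theorem S2_sq {i : A.ι} {x : M} (hx : x ∈ (A.e i).source) :
    (S2 K i x)ᴴ * S2 K i x = ((K.g i x)ᵀ)⁻¹ := by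
  conv_lhs => rw [S2]
  rw [← mul_assoc]
  change (S2 K i x)ᴴ * O2 K i x * _ = _
  rw [S2H_O2 K hx, one_mul]

theorem S2_gT {i : A.ι} {x : M} (hx : x ∈ (A.e i).source) : S2 K i x * (K.g i x)ᵀ = O2 K i x := by
  rw [S2, mul_assoc, gT_inv_mul K hx, mul_one]

theorem gT_S2H {i : A.ι} {x : M} (hx : x ∈ (A.e i).source) :
    (K.g i x)ᵀ * (S2 K i x)ᴴ = (O2 K i x)ᴴ := by
  rw [← O2_sq K hx, mul_assoc, O2_S2H K hx, mul_one]

theorem S2_law {i j : A.ι} {x : M} (hx : x ∈ (A.e i).source ∩ (A.e j).source) :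
    S2 K j x = S2 K i x * (Jm A i j x)ᴴ := by
  have h1 : (O2 K j x)ᴴ * (S2 K i x * (Jm A i j x)ᴴ) = 1 := by
    rw [O2_law K hx, Matrix.conjTranspose_mul, mul_assoc, ← mul_assoc (O2 K i x)ᴴ, O2H_S2 K hx.1,
      one_mul, ← Matrix.conjTranspose_mul, J_mul j i j ⟨⟨hx.2, hx.1⟩, hx.2⟩, J_self _ hx.2,
      Matrix.conjTranspose_one]
  calc S2 K j x = S2 K j x * ((O2 K j x)ᴴ * (S2 K i x * (Jm A i j x)ᴴ)) := by rw [h1, mul_one]
    _ = _ := by rw [← mul_assoc, S2_O2H K hx.2, one_mul]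

section Meas
variable [MeasurableSpace M] [BorelSpace M]

theorem contOn_cw (j : A.ι) :
    ContinuousOn (fun x => ((Real.sqrt (h.w j x / vol.w j x) : ℝ) : ℂ)) (A.e j).source :=
  Complex.continuous_ofReal.comp_continuousOn
    (((contOn_smAt (h.sm j)).div (contOn_smAt (vol.sm j))
      fun x hx => (vol.pos j x hx).ne').sqrt)

theorem contOn_msq (j : A.ι) : ContinuousOn (fun x => msq ((K.g j x)ᵀ)) (A.e j).source :=
  continuousOn_msq.comp (contOn_gT K j) fun _ hx => (posDef_gT K hx).posSemidef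

theorem aesm_o1 (i : A.ι) (μ : Measure M) :
    AEStronglyMeasurable (o1 h vol i) (μ.restrict (A.e i).source) :=
  aesm_ix (A.e i).open_source
    (f := fun j x => ((Real.sqrt (h.w j x / vol.w j x) : ℝ) : ℂ) * N.g j i x)
    (fun j => ((contOn_cw h vol j).mono inter_subset_left).mul (contOn_Ng N j i)) μ

theorem aesm_O2 (i : A.ι) (μ : Measure M) (a b : Fin n) :
    AEStronglyMeasurable (fun x => O2 K i x a b) (μ.restrict (A.e i).source) := by
  refine aesm_ix (A.e i).open_source (f := fun j x => (msq ((K.g j x)ᵀ) * Jm A i j x) a b)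
    (fun j => ?_) μ
  have h1 : ContinuousOn (fun x => msq ((K.g j x)ᵀ) * Jm A i j x)
      ((A.e j).source ∩ (A.e i).source) :=
    ((contOn_msq K j).mono inter_subset_left).mul (by rw [inter_comm]; exact contOn_Jm i j)
  exact continuousOn_pi.1 (continuousOn_pi.1 h1 a) b

theorem aesm_S2 (i : A.ι) (μ : Measure M) (a b : Fin n) :
    AEStronglyMeasurable (fun x => S2 K i x a b) (μ.restrict (A.e i).source) := by
  simp only [S2, Matrix.mul_apply]
  refine Finset.aestronglyMeasurable_fun_sum _ fun c _ => (aesm_O2 K i μ a c).mul ?_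
  exact (continuousOn_pi.1 (continuousOn_pi.1 (contOn_gTi K i) c) b).aestronglyMeasurable
    (A.e i).open_source.measurableSet

end Meas

end

end Crest.Agent.T223.Hm
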