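import Crest.Agent.T223.Hm1_77

/-!
# Row 223, module HOER (helper77), part 2: flat charts `Fin n → ℂ`, transfer of integrals
-/

set_option autoImplicit false
set_option linter.unusedSectionVars false

open Set Filter Topology Complex Matrix MeasureTheory
open scoped ContDiff Matrix ComplexConjugate ComplexOrder ENNReal

namespace Crest.Agent.T223.Hm

open Crest.Agent.R275 Crest.Agent.R275.Geo Crest.Agent.R275.Core144
open Crest.Agent.R275.OmT75 (dl dl_chain db_chain)
open Crest.Agent.R273.Defs_333 Crest.Agent.R273.Kah_333 Crest.Agent.R273.Vm_333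
open Crest.Agent.R275.C1d194 (Ui rc_eq rcL)

noncomputable section

variable {n : ℕ} {M : Type} [TopologicalSpace M] {A : Atl n M} {N L : LB A}

/-- real coordinates to complex coordinates -/
def kap {n : ℕ} (y : RI n → ℝ) : Fin n → ℂ := fun a => (y (a, 0) : ℂ) + (y (a, 1) : ℂ) * I

theorem mp_curry (n : ℕ) : MeasurePreserving (MeasurableEquiv.curry (Fin n) (Fin 2) ℝ)
    (volume : Measure (RI n → ℝ)) (volume : Measure (Fin n → Fin 2 → ℝ)) := by
  have h : MeasurePreserving (MeasurableEquiv.curry (Fin n) (Fin 2) ℝ).symm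
      (volume : Measure (Fin n → Fin 2 → ℝ)) (volume : Measure (RI n → ℝ)) := by
    refine ⟨(MeasurableEquiv.curry (Fin n) (Fin 2) ℝ).symm.measurable, ?_⟩
    symm
    refine Measure.pi_eq fun s hs => ?_
    rw [(MeasurableEquiv.curry (Fin n) (Fin 2) ℝ).symm.map_apply]
    have h1 : (MeasurableEquiv.curry (Fin n) (Fin 2) ℝ).symm ⁻¹' (Set.pi univ s) =
        Set.pi univ fun a => Set.pi univ fun b => s (a, b) := by
      ext f
      simp [MeasurableEquiv.coe_curry_symm, Function.uncurry]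
    rw [h1, volume_pi_pi]
    simp only [volume_pi_pi]
    exact (Fintype.prod_prod_type fun p => volume (s p)).symm
  exact h.symm _

theorem mp_kap (n : ℕ) : MeasurePreserving (kap : (RI n → ℝ) → (Fin n → ℂ)) volume volume := by
  have h1 : MeasurePreserving (fun (f : Fin n → Fin 2 → ℝ) (a : Fin n) =>
      Complex.measurableEquivPi.symm (f a)) volume volume :=
    volume_preserving_pi fun _ => Complex.volume_preserving_equiv_pi.symm _
  have h2 := h1.comp (mp_curry n)
  have h3 : (fun (f : Fin n → Fin 2 → ℝ) (a : Fin n) =>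
      Complex.measurableEquivPi.symm (f a)) ∘ (MeasurableEquiv.curry (Fin n) (Fin 2) ℝ) = kap := by
    funext y a
    simp [kap, MeasurableEquiv.coe_curry, Function.curry, Complex.measurableEquivPi_symm_apply]
  rwa [h3] at h2

theorem me_kap (n : ℕ) : MeasurableEmbedding (kap : (RI n → ℝ) → (Fin n → ℂ)) := by
  have hm : Measurable (fun ζ : Fin n → ℂ => rc (WithLp.toLp 2 ζ : Cn n)) := by
    rw [rc_eq]
    exact ((rcL n).continuous.comp (PiLp.continuous_toLp 2 _)).measurable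
  have h1 : ∀ y : RI n → ℝ, rc (WithLp.toLp 2 (kap y) : Cn n) = y := fun y => rc_cc y
  have h2 : ∀ ζ : Fin n → ℂ, kap (rc (WithLp.toLp 2 ζ : Cn n)) = ζ := fun ζ => by
    change WithLp.ofLp (cc (rc (WithLp.toLp 2 ζ : Cn n))) = ζ
    rw [cc_rc]
  exact (MeasurableEquiv.mk ⟨kap, fun ζ => rc (WithLp.toLp 2 ζ : Cn n), h1, h2⟩
    (mp_kap n).measurable hm).measurableEmbedding

/-- flat coordinates of a point -/
def cz (A : Atl n M) (i : A.ι) (x : M) : Fin n → ℂ := WithLp.ofLp (A.e i x)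

/-- the point with given flat coordinates -/
def sz (A : Atl n M) (i : A.ι) (z : Fin n → ℂ) : M := (A.e i).symm (WithLp.toLp 2 z)

/-- the flat domain of a chart -/
def Tz (A : Atl n M) (i : A.ι) : Set (Fin n → ℂ) := {z | (WithLp.toLp 2 z : Cn n) ∈ (A.e i).target}

variable {i : A.ι}

theorem isOpen_Tz (i : A.ι) : IsOpen (Tz A i) :=
  (A.e i).open_target.preimage (PiLp.continuous_toLp 2 _)

theorem sz_mem {z : Fin n → ℂ} (hz : z ∈ Tz A i) : sz A i z ∈ (A.e i).source :=
  (A.e i).map_target hz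

theorem cz_mem {x : M} (hx : x ∈ (A.e i).source) : cz A i x ∈ Tz A i := (A.e i).map_source hx

theorem sz_cz {x : M} (hx : x ∈ (A.e i).source) : sz A i (cz A i x) = x := (A.e i).left_inv hx

theorem cz_sz {z : Fin n → ℂ} (hz : z ∈ Tz A i) : cz A i (sz A i z) = z := by
  unfold cz sz
  rw [(A.e i).right_inv hz]

theorem contOn_sz (i : A.ι) : ContinuousOn (sz A i) (Tz A i) :=
  (A.e i).continuousOn_symm.comp (PiLp.continuous_toLp 2 _).continuousOn fun _ hz => hz

theorem contOn_cz (i : A.ι) : ContinuousOn (cz A i) (A.e i).source :=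
  (PiLp.continuous_ofLp 2 _).comp_continuousOn (A.e i).continuousOn

theorem contDiff_toLp : ContDiff ℝ ∞ (fun z : Fin n → ℂ => (WithLp.toLp 2 z : Cn n)) :=
  (PiLp.continuousLinearEquiv 2 ℝ (fun _ : Fin n => ℂ)).symm.contDiff

theorem contDiff_ofLp : ContDiff ℝ ∞ (fun z : Cn n => (WithLp.ofLp z : Fin n → ℂ)) :=
  (PiLp.continuousLinearEquiv 2 ℝ (fun _ : Fin n => ℂ)).contDiff

theorem smAt_flat {W : Type*} [NormedAddCommGroup W] [NormedSpace ℝ W] {f : M → W}
    (hf : A.SmAt i f) : ContDiffOn ℝ ∞ (fun z => f (sz A i z)) (Tz A i) :=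
  ContDiffOn.comp (g := fun z => f ((A.e i).symm z)) hf contDiff_toLp.contDiffOn fun _ hz => hz

variable [Countable A.ι] [MeasurableSpace M] [BorelSpace M] (vol : HM (KB A)⁻¹)

/-- the density in flat coordinates -/
def rz (i : A.ι) (z : Fin n → ℂ) : ℝ≥0∞ := ENNReal.ofReal (vol.w i (sz A i z))

/-- the flat measure -/
def nz (i : A.ι) : Measure (Fin n → ℂ) := (volume.restrict (Tz A i)).withDensity (rz vol i)

theorem contOn_vz (i : A.ι) : ContinuousOn (fun z => vol.w i (sz A i z)) (Tz A i) :=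
  (smAt_flat (vol.sm i)).continuousOn

theorem aem_rz (i : A.ι) : AEMeasurable (rz vol i) (volume.restrict (Tz A i)) :=
  ((contOn_vz vol i).aemeasurable (isOpen_Tz i).measurableSet).ennreal_ofReal

theorem nz_ac (i : A.ι) : nz vol i ≪ volume.restrict (Tz A i) :=
  withDensity_absolutelyContinuous _ _

theorem ac_nz (i : A.ι) : volume.restrict (Tz A i) ≪ nz vol i := by
  refine withDensity_absolutelyContinuous' (aem_rz vol i) ?_
  filter_upwards [ae_restrict_mem (isOpen_Tz i).measurableSet] with z hz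
  exact (ENNReal.ofReal_pos.2 (vol.pos i _ (sz_mem hz))).ne'

theorem aem_sz (i : A.ι) : AEMeasurable (sz A i) (volume.restrict (Tz A i)) :=
  (contOn_sz i).aemeasurable (isOpen_Tz i).measurableSet

theorem aem_sz' (i : A.ι) : AEMeasurable (sz A i) (nz vol i) := (aem_sz i).mono_ac (nz_ac vol i)

theorem lintegral_nz (i : A.ι) {F : (Fin n → ℂ) → ℝ≥0∞}
    (hF : AEMeasurable F (volume.restrict (Tz A i))) :
    ∫⁻ z, F z ∂(nz vol i) = ∫⁻ z in Tz A i, rz vol i z * F z :=
  lintegral_withDensity_eq_lintegral_mul₀ (aem_rz vol i) hF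

theorem map_sz (i : A.ι) : (nz vol i).map (sz A i) = (vm vol).restrict (A.e i).source := by
  refine Measure.ext_of_lintegral _ fun f hf => ?_
  rw [lintegral_map' hf.aemeasurable (aem_sz' vol i), setLIntegral_vm vol i hf,
    lintegral_nz vol i (F := fun z => f (sz A i z)) (hf.comp_aemeasurable (aem_sz i))]
  have h := (mp_kap n).setLIntegral_comp_preimage_emb (me_kap n)
    (fun z => rz vol i z * f (sz A i z)) (Tz A i)
  exact h.symm

theorem aem_cz (i : A.ι) (μ : Measure M) : AEMeasurable (cz A i) (μ.restrict (A.e i).source) :=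
  (contOn_cz i).aemeasurable (A.e i).open_source.measurableSet

theorem map_cz (i : A.ι) : ((vm vol).restrict (A.e i).source).map (cz A i) = nz vol i := by
  have h1 := aem_cz i (vm vol)
  rw [← map_sz] at h1 ⊢
  rw [AEMeasurable.map_map_of_aemeasurable h1 (aem_sz' vol i)]
  have h2 : (cz A i ∘ sz A i) =ᵐ[nz vol i] id := by
    refine (nz_ac vol i).ae_le ?_
    filter_upwards [ae_restrict_mem (isOpen_Tz i).measurableSet] with z hz
    exact cz_sz hz
  rw [Measure.map_congr h2, Measure.map_id]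

theorem ae_of_flat {p : M → Prop} (h : ∀ᵐ z ∂(volume.restrict (Tz A i)), p (sz A i z)) :
    ∀ᵐ x ∂((vm vol).restrict (A.e i).source), p x := by
  have h1 : ∀ᵐ z ∂(nz vol i), p (sz A i z) := (nz_ac vol i).ae_le h
  rw [← map_cz] at h1
  filter_upwards [ae_of_ae_map (aem_cz i (vm vol)) h1,
    ae_restrict_mem (A.e i).open_source.measurableSet] with x hx hx'
  rwa [sz_cz hx'] at hx

theorem flat_of_ae {p : M → Prop} (h : ∀ᵐ x ∂((vm vol).restrict (A.e i).source), p x) :
    ∀ᵐ z ∂(volume.restrict (Tz A i)), p (sz A i z) := by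
  rw [← map_sz] at h
  exact (ac_nz vol i).ae_le (ae_of_ae_map (aem_sz' vol i) h)

theorem aesm_flat {W : Type*} [TopologicalSpace W] {f : M → W}
    (hf : AEStronglyMeasurable f ((vm vol).restrict (A.e i).source)) :
    AEStronglyMeasurable (fun z => f (sz A i z)) (volume.restrict (Tz A i)) := by
  rw [← map_sz] at hf
  exact (hf.comp_aemeasurable (aem_sz' vol i)).mono_ac (ac_nz vol i)

theorem lintegral_chart {f : M → ℝ≥0∞} (hf : AEMeasurable f ((vm vol).restrict (A.e i).source)) :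
    ∫⁻ x in (A.e i).source, f x ∂(vm vol) = ∫⁻ z in Tz A i, rz vol i z * f (sz A i z) := by
  rw [← map_sz] at hf ⊢
  rw [lintegral_map' hf (aem_sz' vol i),
    lintegral_nz vol i (F := fun z => f (sz A i z))
      ((hf.comp_aemeasurable (aem_sz' vol i)).mono_ac (ac_nz vol i))]

theorem integral_chart {W : Type*} [NormedAddCommGroup W] [NormedSpace ℝ W] {f : M → W}
    (hf : AEStronglyMeasurable f ((vm vol).restrict (A.e i).source)) :
    ∫ x in (A.e i).source, f x ∂(vm vol) = ∫ z in Tz A i, vol.w i (sz A i z) • f (sz A i z) := by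
  rw [← map_sz] at hf ⊢
  rw [integral_map (aem_sz' vol i) hf]
  have h1 : nz vol i = (volume.restrict (Tz A i)).withDensity
      (fun z => ((vol.w i (sz A i z)).toNNReal : ℝ≥0∞)) := rfl
  rw [h1, integral_withDensity_eq_integral_smul₀]
  · refine setIntegral_congr_fun (isOpen_Tz i).measurableSet fun y hy => ?_
    have h2 : (vol.w i (sz A i y)).toNNReal • f (sz A i y) =
        ((vol.w i (sz A i y)).toNNReal : ℝ) • f (sz A i y) := rfl
    simp only [h2, Real.coe_toNNReal _ (vol.pos i _ (sz_mem hy)).le]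
  · exact ((contOn_vz vol i).aemeasurable (isOpen_Tz i).measurableSet).real_toNNReal

theorem e2 {X Y : Type*} [MeasurableSpace X] [NormedAddCommGroup Y] (φ : X → Y)
    (μ : Measure X) : eLpNorm φ 2 μ = (∫⁻ x, ‖φ x‖ₑ ^ 2 ∂μ) ^ (1 / 2 : ℝ) := by
  rw [eLpNorm_eq_lintegral_rpow_enorm_toReal (by norm_num) (by norm_num)]
  simp

/-- comparison of `L²` norms, manifold to flat -/
theorem flat_le {W W' : Type*} [NormedAddCommGroup W] [NormedAddCommGroup W'] {f : M → W}
    (hf : AEStronglyMeasurable f (vm vol)) {F : (Fin n → ℂ) → W'} {c : ℝ} (hc : 0 ≤ c)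
    (h0 : ∀ z ∉ Tz A i, F z = 0)
    (h1 : ∀ z ∈ Tz A i, ‖F z‖ ^ 2 ≤ c ^ 2 * (vol.w i (sz A i z) * ‖f (sz A i z)‖ ^ 2)) :
    eLpNorm F 2 volume ≤ ENNReal.ofReal c * eLpNorm f 2 (vm vol) := by
  have h2 : ∫⁻ z, ‖F z‖ₑ ^ 2 ≤ ENNReal.ofReal c ^ 2 * ∫⁻ x, ‖f x‖ₑ ^ 2 ∂(vm vol) := by
    calc ∫⁻ z, ‖F z‖ₑ ^ 2 = ∫⁻ z in Tz A i, ‖F z‖ₑ ^ 2 := by
          symm
          refine setLIntegral_eq_of_support_subset fun z hz => ?_
          by_contra h
          exact hz (by simp [h0 z h])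
      _ ≤ ∫⁻ z in Tz A i, ENNReal.ofReal c ^ 2 * (rz vol i z * ‖f (sz A i z)‖ₑ ^ 2) := by
          refine setLIntegral_mono' (isOpen_Tz i).measurableSet fun z hz => ?_
          rw [← ofReal_norm, ← ofReal_norm, rz, ← ENNReal.ofReal_pow hc,
            ← ENNReal.ofReal_pow (norm_nonneg _), ← ENNReal.ofReal_pow (norm_nonneg _),
            ← ENNReal.ofReal_mul (vol.pos i _ (sz_mem hz)).le,
            ← ENNReal.ofReal_mul (by positivity)]
          exact ENNReal.ofReal_le_ofReal (h1 z hz)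
      _ = ENNReal.ofReal c ^ 2 * ∫⁻ x in (A.e i).source, ‖f x‖ₑ ^ 2 ∂(vm vol) := by
          rw [lintegral_const_mul' _ _ (by simp), lintegral_chart vol
            (hf.restrict.enorm.pow_const 2)]
      _ ≤ _ := by gcongr; exact Measure.restrict_le_self
  rw [e2, e2]
  calc _ ≤ (ENNReal.ofReal c ^ 2 * ∫⁻ x, ‖f x‖ₑ ^ 2 ∂(vm vol)) ^ (1 / 2 : ℝ) := by gcongr
    _ = _ := by
      rw [ENNReal.mul_rpow_of_nonneg _ _ (by norm_num), ← ENNReal.rpow_natCast, ← ENNReal.rpow_mul]
      norm_num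

/-- comparison of `L²` norms, flat to manifold -/
theorem le_flat {W W' : Type*} [NormedAddCommGroup W] [NormedAddCommGroup W'] {f : M → W}
    (hf : AEStronglyMeasurable f (vm vol)) {F : (Fin n → ℂ) → W'} {c : ℝ} (hc : 0 ≤ c)
    (h0 : ∀ x ∉ (A.e i).source, f x = 0)
    (h1 : ∀ z ∈ Tz A i, vol.w i (sz A i z) * ‖f (sz A i z)‖ ^ 2 ≤ c ^ 2 * ‖F z‖ ^ 2) :
    eLpNorm f 2 (vm vol) ≤ ENNReal.ofReal c * eLpNorm F 2 volume := by
  have h2 : ∫⁻ x, ‖f x‖ₑ ^ 2 ∂(vm vol) ≤ ENNReal.ofReal c ^ 2 * ∫⁻ z, ‖F z‖ₑ ^ 2 := by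
    calc ∫⁻ x, ‖f x‖ₑ ^ 2 ∂(vm vol) = ∫⁻ x in (A.e i).source, ‖f x‖ₑ ^ 2 ∂(vm vol) := by
          symm
          refine setLIntegral_eq_of_support_subset fun z hz => ?_
          by_contra h
          exact hz (by simp [h0 z h])
      _ = ∫⁻ z in Tz A i, rz vol i z * ‖f (sz A i z)‖ₑ ^ 2 :=
          lintegral_chart vol (hf.restrict.enorm.pow_const 2)
      _ ≤ ∫⁻ z in Tz A i, ENNReal.ofReal c ^ 2 * ‖F z‖ₑ ^ 2 := by
          refine setLIntegral_mono' (isOpen_Tz i).measurableSet fun z hz => ?_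
          rw [← ofReal_norm, ← ofReal_norm, rz, ← ENNReal.ofReal_pow hc,
            ← ENNReal.ofReal_pow (norm_nonneg _), ← ENNReal.ofReal_pow (norm_nonneg _),
            ← ENNReal.ofReal_mul (vol.pos i _ (sz_mem hz)).le,
            ← ENNReal.ofReal_mul (by positivity)]
          exact ENNReal.ofReal_le_ofReal (h1 z hz)
      _ ≤ _ := by
          rw [lintegral_const_mul' _ _ (by simp)]
          gcongr; exact Measure.restrict_le_self
  rw [e2, e2]
  calc _ ≤ (ENNReal.ofReal c ^ 2 * ∫⁻ z, ‖F z‖ₑ ^ 2) ^ (1 / 2 : ℝ) := by gcongr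
    _ = _ := by
      rw [ENNReal.mul_rpow_of_nonneg _ _ (by norm_num), ← ENNReal.rpow_natCast, ← ENNReal.rpow_mul]
      norm_num

end

end Crest.Agent.T223.Hm
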