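import Crest.Agent.T223.Hm2_77

/-!
# Row 223, module HOER (helper77), part 3: flat derivatives, extension of flat test objects
-/

set_option autoImplicit false
set_option linter.unusedSectionVars false

open Set Filter Topology Complex Matrix MeasureTheory
open scoped ContDiff Matrix ComplexConjugate ComplexOrder ENNReal

namespace Crest.Agent.T223.Hm

open Crest.Agent.R275 Crest.Agent.R275.Geo Crest.Agent.R275.Core144
open Crest.Agent.R275.OmT75 (dl dl_chain db_chain)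
open Crest.Agent.R273.Defs_333 Crest.Agent.R273.Kah_333 Crest.Agent.R273.Vm_333

noncomputable section

variable {n : ℕ} {M : Type} [TopologicalSpace M] {A : Atl n M} {N L : LB A} {i : A.ι}

/-- `∂/∂z_a` (`s = -I`) and `∂/∂z̄_a` (`s = I`) of a real linear map -/
def wL (s : ℂ) (a : Fin n) : ((Fin n → ℂ) →L[ℝ] ℂ) →L[ℝ] ℂ :=
  LinearMap.toContinuousLinearMap
    { toFun := fun D => (1 / 2 : ℂ) * (D (Pi.single a 1) + s * D (Pi.single a I))
      map_add' := fun D D' => by simp only [_root_.add_apply]; ring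
      map_smul' := fun c D => by
        simp only [_root_.smul_apply, RingHom.id_apply, Complex.real_smul]; ring }

theorem wL_apply (s : ℂ) (a : Fin n) (D : (Fin n → ℂ) →L[ℝ] ℂ) :
    wL s a D = (1 / 2 : ℂ) * (D (Pi.single a 1) + s * D (Pi.single a I)) := rfl

/-- flat Wirtinger derivatives -/
def wF (s : ℂ) (a : Fin n) (Φ : (Fin n → ℂ) → ℂ) (z : Fin n → ℂ) : ℂ := wL s a (fderiv ℝ Φ z)

theorem fderiv_sz (f : M → ℂ) (z v : Fin n → ℂ) :
    fderiv ℝ (fun w => f (sz A i w)) z v =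
      fderiv ℝ (fun w => f ((A.e i).symm w)) (WithLp.toLp 2 z) (WithLp.toLp 2 v) := by
  have h := (PiLp.continuousLinearEquiv 2 ℝ (fun _ : Fin n => ℂ)).symm.comp_right_fderiv
    (f := fun w : Cn n => f ((A.e i).symm w)) (x := z)
  have h2 := congrArg (fun D : (Fin n → ℂ) →L[ℝ] ℂ => D v) h
  exact h2

theorem dl_flat (a : Fin n) (f : M → ℂ) (x : M) :
    dl A i a f x = wF (-I) a (fun w => f (sz A i w)) (cz A i x) := by
  rw [wF, wL_apply, fderiv_sz, fderiv_sz]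
  unfold OmT75.dl OmT75.dj
  simp only [smul_eq_mul, neg_mul, ← sub_eq_add_neg]
  rfl

theorem db_flat (a : Fin n) (f : M → ℂ) (x : M) :
    A.db i a f x = wF I a (fun w => f (sz A i w)) (cz A i x) := by
  rw [wF, wL_apply, fderiv_sz, fderiv_sz]
  rfl

theorem wF_congr {s : ℂ} {a : Fin n} {Φ Ψ : (Fin n → ℂ) → ℂ} {z : Fin n → ℂ}
    (h : Φ =ᶠ[𝓝 z] Ψ) : wF s a Φ z = wF s a Ψ z := by rw [wF, wF, h.fderiv_eq]

theorem wF_congrOn {s : ℂ} {a : Fin n} {Φ Ψ : (Fin n → ℂ) → ℂ} {z : Fin n → ℂ} (hz : z ∈ Tz A i)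
    (h : ∀ w ∈ Tz A i, Φ w = Ψ w) : wF s a Φ z = wF s a Ψ z :=
  wF_congr (by filter_upwards [(isOpen_Tz i).mem_nhds hz] with w hw using h w hw)

theorem wF_mul {s : ℂ} {a : Fin n} {Φ Ψ : (Fin n → ℂ) → ℂ} {z : Fin n → ℂ}
    (h1 : DifferentiableAt ℝ Φ z) (h2 : DifferentiableAt ℝ Ψ z) :
    wF s a (fun w => Φ w * Ψ w) z = wF s a Φ z * Ψ z + Φ z * wF s a Ψ z := by
  have h : fderiv ℝ (fun y => Φ y * Ψ y) z = Φ z • fderiv ℝ Ψ z + Ψ z • fderiv ℝ Φ z :=
    fderiv_fun_mul h1 h2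
  simp only [wF, wL_apply, h, _root_.add_apply, _root_.smul_apply,
    smul_eq_mul]
  ring

theorem wF_conj {s : ℂ} {a : Fin n} {Φ : (Fin n → ℂ) → ℂ} {z : Fin n → ℂ} :
    wF s a (fun w => conj (Φ w)) z = conj (wF (conj s) a Φ z) := by
  have h : fderiv ℝ (fun w => Complex.conjCLE (Φ w)) z =
      (Complex.conjCLE : ℂ →L[ℝ] ℂ).comp (fderiv ℝ Φ z) := Complex.conjCLE.comp_fderiv
  have h2 : (fun w => conj (Φ w)) = fun w => Complex.conjCLE (Φ w) := rfl
  simp only [wF, wL_apply, h2, h, ContinuousLinearMap.comp_apply, ContinuousLinearEquiv.coe_coe,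
    Complex.conjCLE_apply, map_mul, map_add, map_div₀, map_one, map_ofNat, Complex.conj_conj]

theorem wF_zero_off {s : ℂ} {a : Fin n} {Φ : (Fin n → ℂ) → ℂ} {z : Fin n → ℂ}
    (hz : z ∉ tsupport Φ) : wF s a Φ z = 0 := by
  have h : Φ =ᶠ[𝓝 z] fun _ => 0 := notMem_tsupport_iff_eventuallyEq.1 hz
  rw [wF_congr h]
  simp [wF]

theorem contDiff_wF {s : ℂ} {a : Fin n} {Φ : (Fin n → ℂ) → ℂ} (h : ContDiff ℝ ∞ Φ) :
    ContDiff ℝ ∞ (wF s a Φ) :=
  (wL s a).contDiff.comp (h.fderiv_right (m := ∞) (by simp))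

theorem wF_comm {s t : ℂ} {a b : Fin n} {Φ : (Fin n → ℂ) → ℂ} (h : ContDiff ℝ ∞ Φ)
    (z : Fin n → ℂ) : wF s a (wF t b Φ) z = wF t b (wF s a Φ) z := by
  have h1 : DifferentiableAt ℝ (fderiv ℝ Φ) z :=
    ((h.fderiv_right (m := ∞) (by simp)).differentiable (by simp)) z
  have h2 : ∀ (t : ℂ) (b : Fin n) (v : Fin n → ℂ), fderiv ℝ (wF t b Φ) z v =
      wL t b (fderiv ℝ (fderiv ℝ Φ) z v) := by
    intro t b v
    have h3 := ((wL t b).hasFDerivAt.comp z h1.hasFDerivAt).fderiv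
    have h4 : wF t b Φ = (wL t b) ∘ (fderiv ℝ Φ) := rfl
    rw [h4, h3]
    rfl
  have hs : IsSymmSndFDerivAt ℝ Φ z := h.contDiffAt.isSymmSndFDerivAt (by
    simp only [minSmoothness_of_isRCLikeNormedField]
    have : ((2 : ℕ∞) : WithTop ℕ∞) ≤ ((⊤ : ℕ∞) : WithTop ℕ∞) := WithTop.coe_le_coe.mpr le_top
    simpa using this)
  conv_lhs => rw [wF, wL_apply, h2, h2, wL_apply, wL_apply]
  conv_rhs => rw [wF, wL_apply, h2, h2, wL_apply, wL_apply]
  rw [hs.eq (Pi.single a 1) (Pi.single b 1), hs.eq (Pi.single a 1) (Pi.single b I),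
    hs.eq (Pi.single a I) (Pi.single b 1), hs.eq (Pi.single a I) (Pi.single b I)]
  ring

/-! ### flat test objects -/

/-- smooth on the flat chart domain, with compact support in it -/
structure Tst (A : Atl n M) (i : A.ι) (Φ : (Fin n → ℂ) → ℂ) : Prop where
  sm : ContDiffOn ℝ ∞ Φ (Tz A i)
  cs : ∃ C, IsCompact C ∧ C ⊆ Tz A i ∧ ∀ z ∉ C, Φ z = 0

theorem Tst.mul {Φ c : (Fin n → ℂ) → ℂ} (h : Tst A i Φ) (hc : ContDiffOn ℝ ∞ c (Tz A i)) :
    Tst A i (fun z => c z * Φ z) := by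
  obtain ⟨C, h1, h2, h3⟩ := h.cs
  exact ⟨hc.mul h.sm, C, h1, h2, fun z hz => by rw [h3 z hz, mul_zero]⟩

theorem Tst.of {Φ : (Fin n → ℂ) → ℂ} (h : ContDiff ℝ ∞ Φ) {C : Set (Fin n → ℂ)} (hC : IsCompact C)
    (hs : C ⊆ Tz A i) (h0 : tsupport Φ ⊆ C) : Tst A i Φ :=
  ⟨h.contDiffOn, C, hC, hs, fun _ hz => image_eq_zero_of_notMem_tsupport fun h' => hz (h0 h')⟩

theorem Tst.zero : Tst A i (fun _ => 0) :=
  ⟨contDiffOn_const, ∅, isCompact_empty, empty_subset _, fun _ _ => rfl⟩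

theorem isCompact_sz {C : Set (Fin n → ℂ)} (hC : IsCompact C) (hs : C ⊆ Tz A i) :
    IsCompact (sz A i '' C) := hC.image_of_continuousOn ((contOn_sz i).mono hs)

theorem cz_notMem {C : Set (Fin n → ℂ)} {x : M} (hx : x ∈ (A.e i).source)
    (h : x ∉ sz A i '' C) : cz A i x ∉ C := fun h' => h ⟨_, h', sz_cz hx⟩

open Classical in
theorem smAt_ext [T2Space M] {Φ : (Fin n → ℂ) → ℂ} (h : Tst A i Φ) (j : A.ι) {c : M → ℂ}
    (hc : ContDiffOn ℝ ∞ (fun z => c ((A.e j).symm z)) (A.ov j i)) :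
    A.SmAt j (fun x => if x ∈ (A.e i).source then c x * Φ (cz A i x) else 0) := by
  obtain ⟨C, h1, h2, h3⟩ := h.cs
  intro z hz
  refine ContDiffAt.contDiffWithinAt ?_
  by_cases hx : (A.e j).symm z ∈ sz A i '' C
  · have hxi : (A.e j).symm z ∈ (A.e i).source := by
      obtain ⟨w, hw, hw'⟩ := hx
      rw [← hw']; exact sz_mem (h2 hw)
    have hov : z ∈ A.ov j i := ⟨hz, hxi⟩
    have ho : IsOpen (A.ov j i) := isOpen_ov j i
    have h4 : ContDiffAt ℝ ∞ (OmT75.tr A j i) z :=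
      ((((OmT75.tr_analytic j i) _ hov).contDiffAt (n := ω)).restrict_scalars ℝ).of_le le_top
    have h5 : ContDiffAt ℝ ∞ Φ (WithLp.ofLp (OmT75.tr A j i z)) :=
      h.sm.contDiffAt ((isOpen_Tz i).mem_nhds (cz_mem hxi))
    have h6 : ContDiffAt ℝ ∞ (fun w => Φ (WithLp.ofLp (OmT75.tr A j i w))) z :=
      ContDiffAt.comp (g := Φ) z h5 (contDiff_ofLp.contDiffAt.comp z h4)
    refine ((hc.contDiffAt (ho.mem_nhds hov)).mul h6).congr_of_eventuallyEq ?_
    filter_upwards [ho.mem_nhds hov] with w hw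
    rw [if_pos hw.2]
    rfl
  · have h4 : ContinuousAt (A.e j).symm z :=
      (A.e j).continuousOn_symm.continuousAt ((A.e j).open_target.mem_nhds hz)
    have h5 := h4.eventually ((isCompact_sz h1 h2).isClosed.isOpen_compl.mem_nhds hx)
    refine (contDiffAt_const (c := (0 : ℂ))).congr_of_eventuallyEq ?_
    filter_upwards [h5] with w hw
    split_ifs with hw'
    · rw [h3 _ (cz_notMem hw' hw), mul_zero]
    · rfl

open Classical in
/-- extension of a flat test function to a section -/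
def extS (N : LB A) (i : A.ι) (Φ : (Fin n → ℂ) → ℂ) (j : A.ι) (x : M) : ℂ :=
  if x ∈ (A.e i).source then N.g j i x * Φ (cz A i x) else 0

open Classical in
/-- extension of a flat test field -/
def extF (N : LB A) (i : A.ι) (Φ : (Fin n → ℂ) → Fin n → ℂ) (j : A.ι) (x : M) : Fin n → ℂ :=
  if x ∈ (A.e i).source then N.g j i x • (Jm A i j x *ᵥ Φ (cz A i x)) else 0

theorem smooth_Ng (N : LB A) (i j : A.ι) :
    ContDiffOn ℝ ∞ (fun z => N.g i j ((A.e i).symm z)) (A.ov i j) :=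
  (N.hol i j).contDiffOn (A.e j).open_source

theorem extS_self {Φ : (Fin n → ℂ) → ℂ} {x : M} (hx : x ∈ (A.e i).source) :
    extS N i Φ i x = Φ (cz A i x) := by rw [extS, if_pos hx, N.self, one_mul]

theorem extS_off {Φ : (Fin n → ℂ) → ℂ} {x : M} (hx : x ∉ (A.e i).source) (j : A.ι) :
    extS N i Φ j x = 0 := if_neg hx

theorem extF_self {Φ : (Fin n → ℂ) → Fin n → ℂ} {x : M} (hx : x ∈ (A.e i).source) :
    extF N i Φ i x = Φ (cz A i x) := by
  rw [extF, if_pos hx, N.self, one_smul, J_self i hx, Matrix.one_mulVec]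

theorem extF_off {Φ : (Fin n → ℂ) → Fin n → ℂ} {x : M} (hx : x ∉ (A.e i).source) (j : A.ι) :
    extF N i Φ j x = 0 := if_neg hx

theorem extS_isS [T2Space M] {Φ : (Fin n → ℂ) → ℂ} (h : Tst A i Φ) : IsS N (extS N i Φ) where
  sm j := smAt_ext h j (smooth_Ng N j i)
  tr j k x hx := by
    by_cases hi : x ∈ (A.e i).source
    · rw [extS, extS, if_pos hi, if_pos hi, ← mul_assoc, N.mul j k i x ⟨hx, hi⟩]
    · rw [extS_off hi, extS_off hi, mul_zero]

theorem extS_cs {Φ : (Fin n → ℂ) → ℂ} (h : Tst A i Φ) : Cs (extS N i Φ) := by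
  obtain ⟨C, h1, h2, h3⟩ := h.cs
  refine ⟨_, isCompact_sz h1 h2, fun j x hx => ?_⟩
  by_cases hi : x ∈ (A.e i).source
  · rw [extS, if_pos hi, h3 _ (cz_notMem hi hx), mul_zero]
  · exact extS_off hi j

/-- the inverse Jacobian is smooth in the chart `j` -/
theorem smooth_Jinv (i j : A.ι) (a b : Fin n) :
    ContDiffOn ℝ ∞ (fun z => Jm A i j ((A.e j).symm z) a b) (A.ov j i) := by
  intro z hz
  have ho : IsOpen (A.ov j i) := isOpen_ov j i
  have h4 : ContDiffAt ℝ ∞ (OmT75.tr A j i) z :=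
    ((((OmT75.tr_analytic j i) _ hz).contDiffAt (n := ω)).restrict_scalars ℝ).of_le le_top
  have hz' : OmT75.tr A j i z ∈ A.ov i j := by
    refine ⟨(A.e i).map_source hz.2, ?_⟩
    change (A.e i).symm (A.e i ((A.e j).symm z)) ∈ (A.e j).source
    rw [(A.e i).left_inv hz.2]
    exact (A.e j).map_target hz.1
  have h5 : ContDiffAt ℝ ∞ (fun w => A.J i j ((A.e i).symm w) a b) (OmT75.tr A j i z) :=
    (OmT75.J_smooth i j a b).contDiffAt ((isOpen_ov i j).mem_nhds hz')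
  refine ((h5.comp z h4).congr_of_eventuallyEq ?_).contDiffWithinAt
  filter_upwards [ho.mem_nhds hz] with w hw
  change A.J i j ((A.e j).symm w) a b = A.J i j ((A.e i).symm (A.e i ((A.e j).symm w))) a b
  rw [(A.e i).left_inv hw.2]

theorem extF_isF [T2Space M] {Φ : (Fin n → ℂ) → Fin n → ℂ} (h : ∀ a, Tst A i fun z => Φ z a) :
    IsF N (extF N i Φ) where
  sm j a := by
    classical
    have h1 : (fun x => extF N i Φ j x a) = fun x => ∑ b,
        (if x ∈ (A.e i).source then (N.g j i x * Jm A i j x a b) * Φ (cz A i x) b else 0) := by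
      funext x
      by_cases hi : x ∈ (A.e i).source
      · simp only [extF, if_pos hi, Pi.smul_apply, Matrix.mulVec, dotProduct, smul_eq_mul,
          Finset.mul_sum, mul_assoc]
      · simp [extF, if_neg hi]
    rw [h1]
    exact ContDiffOn.sum (s := Finset.univ) fun b _ => smAt_ext (h b) j
      (c := fun x => N.g j i x * Jm A i j x a b) ((smooth_Ng N j i).mul (smooth_Jinv i j a b))
  tr j k x hx := by
    by_cases hi : x ∈ (A.e i).source
    · rw [extF, extF, if_pos hi, if_pos hi, Matrix.mulVec_smul, smul_smul, N.mul j k i x ⟨hx, hi⟩,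
        Matrix.mulVec_mulVec, J_mul i k j ⟨⟨hi, hx.2⟩, hx.1⟩]
    · rw [extF_off hi, extF_off hi, Matrix.mulVec_zero, smul_zero]

theorem extF_cs {Φ : (Fin n → ℂ) → Fin n → ℂ} (h : ∀ a, Tst A i fun z => Φ z a) :
    Cs (extF N i Φ) := by
  choose C h1 h2 h3 using fun a => (h a).cs
  refine ⟨_, isCompact_sz (isCompact_iUnion h1) (iUnion_subset h2), fun j x hx => ?_⟩
  by_cases hi : x ∈ (A.e i).source
  · have h4 : Φ (cz A i x) = 0 := funext fun a =>
      h3 a _ fun h' => cz_notMem hi hx (mem_iUnion.2 ⟨a, h'⟩)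
    rw [extF, if_pos hi, h4, Matrix.mulVec_zero, smul_zero]
  · exact extF_off hi j

end

end Crest.Agent.T223.Hm
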