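import Crest.Agent.T223.HmBa_61

/-!
# Row 223, module HOER (helper61), part 2: integrals of densities, adjointness and the
Bochner-Kodaira-Nakano inequality for test fields
-/

set_option autoImplicit false
set_option linter.unusedSectionVars false

open Set Filter Topology Complex Matrix MeasureTheory
open scoped ContDiff Matrix ComplexConjugate ComplexOrder

namespace Crest.Agent.T223.Hm

open Crest.Agent.R275 Crest.Agent.R275.Geo Crest.Agent.R275.Core144
open Crest.Agent.R275.OmT75 (dl)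
open Crest.Agent.R275.SerG398 (dens dens_eq detJ lint)
open Crest.Agent.R275.Pai323 Crest.Agent.R275.C1d194
open Crest.Agent.R273.Defs_333 Crest.Agent.R273.Kah_333 Crest.Agent.R273.Vm_333
open Crest.Agent.R273.Calc_243 Crest.Agent.R273.StV_37
open Crest.Agent.R273.BKNa_37 (J_J w_law lamr sm_lamr exp_lamr cur_eq_dS)

noncomputable section

variable {n : ℕ} {M : Type} [TopologicalSpace M] {A : Atl n M} {N L : LB A}

/-! ### densities -/

section dens

variable {v : A.ι → M → Fin n → ℂ} {s : A.ι → M → ℂ} {i j : A.ι} {x : M}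

/-- `w * q` is a density as soon as `q` transforms like `|s|²` -/
theorem isD_w (h : HM ((KB A)⁻¹ * N)) {q : A.ι → M → ℂ}
    (hq : ∀ i, ∀ x ∈ (A.e i).source, SA A i x (q i))
    (ht : ∀ i j, ∀ x ∈ (A.e i).source ∩ (A.e j).source,
      q i x = N.g i j x * conj (N.g i j x) * q j x) :
    IsD A fun i y => (h.w i y : ℂ) * q i y where
  sm i := smAt_of_sa fun x hx => (sa_w h hx).mul (hq i x hx)
  tr i j x hx := by rw [ht i j x hx, ← mul_assoc, w_law h hx, mul_assoc]

theorem sa_dot {p q : M → Fin n → ℂ} (hp : ∀ a, SA A i x fun y => p y a)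
    (hq : ∀ a, SA A i x fun y => q y a) : SA A i x fun y => star (p y) ⬝ᵥ q y := by
  simp only [dotProduct, Pi.star_apply, star_def]
  exact SA.sum _ fun a _ => (hp a).conj.mul (hq a)

theorem sa_mulVec {P : M → Mx n} {q : M → Fin n → ℂ} (hP : ∀ a b, SA A i x fun y => P y a b)
    (hq : ∀ a, SA A i x fun y => q y a) (a : Fin n) : SA A i x fun y => (P y *ᵥ q y) a := by
  simp only [Matrix.mulVec, dotProduct]
  exact SA.sum _ fun b _ => (hP a b).mul (hq b)

theorem sa_matMul {P Q : M → Mx n} (hP : ∀ a b, SA A i x fun y => P y a b)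
    (hQ : ∀ a b, SA A i x fun y => Q y a b) (a b : Fin n) :
    SA A i x fun y => (P y * Q y) a b := by
  simp only [Matrix.mul_apply]
  exact SA.sum _ fun c _ => (hP a c).mul (hQ c b)

theorem sa_trace {P : M → Mx n} (hP : ∀ a b, SA A i x fun y => P y a b) :
    SA A i x fun y => (P y).trace := by
  simp only [Matrix.trace, Matrix.diag_apply]
  exact SA.sum _ fun a _ => hP a a

theorem isD_dbs (h : HM ((KB A)⁻¹ * N)) (hv : IsF N v) (hs : IsS N s) :
    IsD A fun i y => (h.w i y : ℂ) * (star (v i y) ⬝ᵥ dbs s i y) :=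
  isD_w h (fun _ _ hx => sa_dot (hv.sa hx) (dbs_sa hs hx)) fun i j x hx => by
    rw [dbs_law hs hx, dotProduct_smul, star_dot_law (hv.tr' hx), smul_eq_mul, mul_assoc]

theorem isD_ss (h : HM ((KB A)⁻¹ * N)) {s' : A.ι → M → ℂ} (hs' : IsS N s') (hs : IsS N s) :
    IsD A fun i y => (h.w i y : ℂ) * (conj (s' i y) * s i y) :=
  isD_w h (fun _ _ hx => (hs'.sa hx).conj.mul (hs.sa hx)) fun i j x hx => by
    rw [hs.tr i j x hx, hs'.tr i j x hx, map_mul]; ring

/-- the density of a Hermitian form which transforms like a metric -/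
theorem isD_form (h : HM ((KB A)⁻¹ * N)) {P : A.ι → M → Mx n}
    (hP : ∀ i a b, A.SmAt i fun x => P i x a b)
    (ht : ∀ i j, ∀ x ∈ (A.e i).source ∩ (A.e j).source,
      P i x = (Jm A i j x)ᵀ * P j x * (Jm A i j x).map conj)
    {v' : A.ι → M → Fin n → ℂ} (hv' : IsF N v') (hv : IsF N v) :
    IsD A fun i y => (h.w i y : ℂ) * (star (v' i y) ⬝ᵥ ((P i y)ᵀ *ᵥ v i y)) :=
  isD_w h (fun i _ hx => sa_dot (hv'.sa hx)
    (sa_mulVec (P := fun y => (P i y)ᵀ) (fun a b => sa_of (hP i b a) hx) (hv.sa hx)))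
    fun i j x hx => by
      rw [ht i j x hx, transpose_law, ← Matrix.mulVec_mulVec, hv.tr' hx, ← Matrix.mulVec_mulVec,
        star_dot_law (hv'.tr' hx), Matrix.mulVec_smul, dotProduct_smul, smul_eq_mul]
      ring

theorem isD_tB (h : HM ((KB A)⁻¹ * N)) (hv : IsF N v) :
    IsD A fun i y => (h.w i y : ℂ) * tB (dbM v i y) :=
  isD_w h (fun i _ hx => sa_trace (sa_matMul (P := fun y => (dbM v i y).map conj)
    (fun a b => (dbM_sa hv hx a b).conj) (dbM_sa hv hx))) fun i j x hx => by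
      rw [dbM_law hv hx, tB_law (J_J ⟨hx.2, hx.1⟩)]

theorem isD_hC (K : Kah A) (h : HM ((KB A)⁻¹ * N)) (hv : IsF N v) :
    IsD A fun i y => (h.w i y : ℂ) * hC (K.g i y) (al K v i y) (al K v i y) :=
  isD_w h (fun i _ hx => sa_trace (sa_matMul (sa_matMul (sa_matMul (P := fun y => (al K v i y)ᴴ)
    (Q := fun y => ((K.g i y)⁻¹)ᵀ) (fun a b => (sa_of (al_sm K hv i b a) hx).conj)
    fun a b => sa_Kinv K hx b a) fun a b => sa_of (al_sm K hv i a b) hx) (sa_Kinv K hx)))
    fun i j x hx => by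
      rw [al_law K hv hx, K.tr i j x hx, hC_law (J_J ⟨hx.2, hx.1⟩) (K.pos j x hx.2)]

end dens

/-! ### integrals -/

section gl

variable [Countable A.ι] {vol : HM (KB A)⁻¹}

theorem gl_eq {D : A.ι → M → ℂ}
    (hD : ∀ i j, ∀ x ∈ (A.e i).source ∩ (A.e j).source, D i x = dens A i j x * D j x)
    {i : A.ι} {x : M} (hx : x ∈ (A.e i).source) : gl vol D x = (vol.w i x : ℂ)⁻¹ * D i x := by
  borelize M
  have hx' : x ∈ (A.e (ix A x)).source ∩ (A.e i).source := ⟨ix_mem x, hx⟩
  have h1 : (vol.w (ix A x) x : ℂ) = dens A (ix A x) i x * vol.w i x := by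
    rw [w_jac vol hx', Complex.ofReal_mul]
    rfl
  have h2 := w_ne vol hx'.1
  rw [gl, Complex.real_smul, Complex.ofReal_inv, hD _ i x hx', h1]
  rw [h1] at h2
  have h3 := left_ne_zero_of_mul h2
  have h4 := right_ne_zero_of_mul h2
  field_simp

theorem gl_sm {D : A.ι → M → ℂ} (hD : IsD A D) : A.Sm (gl vol D) := fun i =>
  smAt_of_sa fun x hx => (((sa_w vol hx).inv hx (w_ne vol hx)).mul (sa_of (hD.sm i) hx)).congr hx
    (by filter_upwards [ev_src hx] with y hy using gl_eq hD.tr hy)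

theorem gl_re (D : A.ι → M → ℂ) (x : M) : gl vol (fun i y => (D i y).re) x = (gl vol D x).re := by
  simp only [gl, Complex.smul_re]

theorem gl_congr {W : Type*} [SMul ℝ W] {D D' : A.ι → M → W}
    (h : ∀ i, ∀ x ∈ (A.e i).source, D i x = D' i x) : gl vol D = gl vol D' :=
  funext fun x => by rw [gl, gl, h _ x (ix_mem x)]

theorem gl_mono {D D' : A.ι → M → ℝ} (h : ∀ i, ∀ x ∈ (A.e i).source, D i x ≤ D' i x) (x : M) :
    gl vol D x ≤ gl vol D' x :=
  mul_le_mul_of_nonneg_left (h _ x (ix_mem x)) (inv_nonneg.2 (vol.pos _ x (ix_mem x)).le)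

variable [T2Space M] [MeasurableSpace M] [BorelSpace M]

theorem integrable_of_sm {f : M → ℂ} (hf : A.Sm f) {C : Set M} (hC : IsCompact C)
    (h0 : ∀ x ∉ C, f x = 0) : Integrable f (vm vol) := by
  have := isLocallyFinite_vm vol
  exact (sm_continuous hf).integrable_of_hasCompactSupport (HasCompactSupport.intro hC h0)

/-- **integral of a smooth density with compact support** -/
theorem integral_gl (P : Part A) {D : A.ι → M → ℂ} (hD : IsD A D) {C : Set M} (hC : IsCompact C)
    (h0 : ∀ i, ∀ x ∈ (A.e i).source, x ∉ C → D i x = 0) {F : Finset A.ι} (hF : Fn P hC ⊆ F) :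
    Integrable (gl vol D) (vm vol) ∧ ∫ x, gl vol D x ∂(vm vol) = tot P F D := by
  have hz : ∀ x ∉ C, gl vol D x = 0 := fun x hx => by rw [gl, h0 _ x (ix_mem x) hx, smul_zero]
  refine ⟨integrable_of_sm (gl_sm hD) hC hz, ?_⟩
  have hint : ∀ i, Integrable (fun x => (P.ψ i x : ℂ) * gl vol D x) (vm vol) := fun i =>
    integrable_of_sm (fun j => (smAt_psi P i j).mul (gl_sm hD j)) hC fun x hx => by
      rw [hz x hx, mul_zero]
  have h1 : ∀ x, gl vol D x = ∑ i ∈ F, (P.ψ i x : ℂ) * gl vol D x := fun x => by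
    rw [← Finset.sum_mul]
    by_cases hx : x ∈ C
    · rw [sum_psiC P hC hF hx, one_mul]
    · rw [hz x hx, mul_zero]
  rw [integral_congr_ae (Eventually.of_forall h1), integral_finsetSum _ fun i _ => hint i]
  refine Finset.sum_congr rfl fun i _ => ?_
  rw [← setIntegral_eq_integral_of_forall_compl_eq_zero (s := (A.e i).source)
    fun x hx => by rw [psi_off P hx, Complex.ofReal_zero, zero_mul],
    setIntegral_vm vol i (hint i).aestronglyMeasurable]
  unfold SerG398.lint
  rw [← setIntegral_eq_integral_of_forall_compl_eq_zero (s := Ui A i) fun y hy => rd_off hy]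
  refine setIntegral_congr_fun (C1d194.isOpen_Ui i).measurableSet fun y hy => ?_
  have h2 := w_ne vol (sg_mem hy)
  rw [rd_of_mem hy, gl_eq hD.tr (sg_mem hy), Complex.real_smul]
  change _ = (P.ψ i (sg A i y) : ℂ) * D i (sg A i y)
  field_simp

theorem integral_gl_re (P : Part A) {D : A.ι → M → ℂ} (hD : IsD A D) {C : Set M}
    (hC : IsCompact C) (h0 : ∀ i, ∀ x ∈ (A.e i).source, x ∉ C → D i x = 0) {F : Finset A.ι}
    (hF : Fn P hC ⊆ F) : Integrable (gl vol fun i y => (D i y).re) (vm vol) ∧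
      ∫ x, gl vol (fun i y => (D i y).re) x ∂(vm vol) = (tot P F D).re := by
  obtain ⟨h1, h2⟩ := integral_gl (vol := vol) P hD hC h0 hF
  rw [show (gl vol fun i y => (D i y).re) = fun x => (gl vol D x).re from funext (gl_re D)]
  exact ⟨h1.re, by rw [← h2]; exact integral_re h1⟩

end gl

/-! ### the pointwise identities -/

section pt

variable {v : A.ι → M → Fin n → ℂ} {s : A.ι → M → ℂ} {i j : A.ι} {x : M}

theorem w_dv (h : HM L) (v : A.ι → M → Fin n → ℂ) (hx : x ∈ (A.e i).source) :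
    (h.w i x : ℂ) * dv h v i x = ∑ a, dd A (-I) i a (fun y => (h.w i y : ℂ) * v i y a) x := by
  rw [dv_def, mul_inv_cancel_left₀ (w_ne h hx)]

theorem adj_pt (h : HM L) (hv : IsF N v) (hs : IsS N s) (hx : x ∈ (A.e i).source) :
    ∑ a, A.db i a (fun y => conj ((h.w i y : ℂ) * v i y a) * s i y) x =
      (h.w i x : ℂ) * (star (v i x) ⬝ᵥ dbs s i x) + h.w i x * (conj (dv h v i x) * s i x) := by
  have h1 := congrArg conj (w_dv h v hx)
  rw [map_mul, Complex.conj_ofReal, map_sum] at h1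
  rw [← mul_assoc, h1, Finset.sum_mul, dotProduct, Finset.mul_sum, ← Finset.sum_add_distrib]
  refine Finset.sum_congr rfl fun a _ => ?_
  rw [db_eq, dd_mul ((sa_w h hx).mul (hv.sa hx a)).conj (hs.sa hx) hx, db_conj', map_mul,
    Complex.conj_ofReal, Pi.star_apply, star_def, dbs, db_eq]
  ring

theorem adj_V01 (h : HM ((KB A)⁻¹ * N)) (hv : IsF N v) (hs : IsS N s) :
    V01 A fun i y a => conj ((h.w i y : ℂ) * v i y a) * s i y where
  sm i a := smAt_of_sa fun _ hx => ((sa_w h hx).mul (hv.sa hx a)).conj.mul (hs.sa hx)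
  tr i j x hx b := by
    have h1 : ∑ a, A.J i j x b a * v i x a = N.g i j x * v j x b := congrFun (hv.tr' hx) b
    have h2 := congrArg conj h1
    rw [map_sum, map_mul] at h2
    calc _ = (h.w i x : ℂ) * s i x * ∑ a, conj (A.J i j x b a * v i x a) := by
          rw [Finset.mul_sum]
          exact Finset.sum_congr rfl fun a _ => by
            simp only [map_mul, Complex.conj_ofReal]; ring
      _ = _ := by
          rw [h2, hs.tr i j x hx, map_mul, Complex.conj_ofReal]
          linear_combination (s j x * conj (v j x b)) * w_law h hx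

/-- the logarithm of the weight -/
def lg (h : HM L) (i : A.ι) (x : M) : ℂ := (Real.log (h.w i x) : ℝ)

theorem lg_read (h : HM L) (i : A.ι) : (fun z => lg h i ((A.e i).symm z)) = lamr h i := by
  funext z
  simp [lg, lamr, HM.wt]

theorem sa_lg (h : HM L) (hx : x ∈ (A.e i).source) : SA A i x (lg h i) := by
  rw [SA, lg_read]
  exact sm_lamr h i ((A.e i).map_source hx)

theorem dd_w (h : HM L) (hx : x ∈ (A.e i).source) (t : ℂ) (a : Fin n) :
    dd A t i a (fun y => (h.w i y : ℂ)) x = h.w i x * dd A t i a (lg h i) x := by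
  have h0 : ∀ y ∈ (A.e i).source, Complex.exp (lg h i y) = h.w i y := fun y hy => by
    rw [lg, ← Complex.ofReal_exp, Real.exp_log (h.pos i y hy)]
  rw [dd_congr (g := fun y => Complex.exp (lg h i y)) hx
    (by filter_upwards [ev_src hx] with y hy using (h0 y hy).symm), dd,
    dS_exp (sa_lg h hx).diff, (A.e i).left_inv hx, h0 x hx]
  rfl

theorem cur_eq (h : HM L) (hx : x ∈ (A.e i).source) (a b : Fin n) :
    cur h i x a b = -dd A I i b (dd A (-I) i a (lg h i)) x := by
  rw [← cur_eq_dS h i hx, Matrix.of_apply, dd, dS_congr (dd_read hx), lg_read]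

theorem dv_eq (h : HM L) (hv : IsF N v) (hx : x ∈ (A.e i).source) :
    dv h v i x = ∑ a, (dd A (-I) i a (fun y => v i y a) x + v i x a * dd A (-I) i a (lg h i) x) := by
  refine mul_left_cancel₀ (w_ne h hx) ?_
  rw [w_dv h v hx, Finset.mul_sum]
  refine Finset.sum_congr rfl fun a _ => ?_
  rw [dd_mul (sa_w h hx) (hv.sa hx a) hx, dd_w h hx]
  ring

theorem db_dv (h : HM L) (hv : IsF N v) (hx : x ∈ (A.e i).source) (k : Fin n) :
    dbs (dv h v) i x k = ∑ a, (dd A (-I) i a (fun y => dbM v i y k a) x +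
      dbM v i x k a * dd A (-I) i a (lg h i) x - cur h i x a k * v i x a) := by
  have h1 : ∀ a, SA A i x (dd A (-I) i a fun y => v i y a) := fun a => (hv.sa hx a).dd hx _ a
  have h2 : ∀ a, SA A i x (dd A (-I) i a (lg h i)) := fun a => (sa_lg h hx).dd hx _ a
  rw [dbs, db_eq, dd_congr hx (by filter_upwards [ev_src hx] with y hy using dv_eq h hv hy),
    dd_sum _ fun a _ => (h1 a).add ((hv.sa hx a).mul (h2 a))]
  refine Finset.sum_congr rfl fun a _ => ?_
  rw [dd_add (h1 a) ((hv.sa hx a).mul (h2 a)), dd_mul (hv.sa hx a) (h2 a) hx,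
    dd_comm (hv.sa hx a) hx, cur_eq h hx]
  simp only [dbM, Matrix.of_apply]
  ring

/-- the boundary term -/
def fX (h : HM L) (v : A.ι → M → Fin n → ℂ) (i : A.ι) (x : M) (a : Fin n) : ℂ :=
  (h.w i x : ℂ) * ∑ k, dbM v i x k a * conj (v i x k)

theorem fX_V10 (h : HM ((KB A)⁻¹ * N)) (hv : IsF N v) : V10 A (fX h v) where
  sm i a := smAt_of_sa fun _ hx => (sa_w h hx).mul
    (SA.sum _ fun k _ => (dbM_sa hv hx k a).mul (hv.sa hx k).conj)
  tr i j x hx b := by
    have e : ∀ i, fX h v i x = (h.w i x : ℂ) • ((dbM v i x)ᵀ *ᵥ star (v i x)) := fun _ => rfl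
    have h1 : (Jm A i j x).map conj *ᵥ star (v i x) = conj (N.g i j x) • star (v j x) := by
      have := congrArg star (hv.tr' hx)
      rw [star_smul] at this
      refine Eq.trans (funext fun c => ?_) this
      simp [Matrix.mulVec, dotProduct]
    have h2 : Jm A i j x *ᵥ fX h v i x = dens A i j x • fX h v j x := by
      rw [e, e, dbM_law hv hx, Matrix.transpose_smul, Matrix.transpose_mul, Matrix.transpose_mul,
        Matrix.transpose_transpose, show ((Jm A i j x)ᴴ)ᵀ = (Jm A i j x).map conj from rfl,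
        Matrix.smul_mulVec, ← Matrix.mulVec_mulVec, ← Matrix.mulVec_mulVec, h1,
        Matrix.mulVec_smul, Matrix.mulVec_smul, Matrix.mulVec_smul, Matrix.mulVec_smul,
        Matrix.mulVec_smul, Matrix.mulVec_mulVec, J_J ⟨hx.2, hx.1⟩, Matrix.one_mulVec, smul_smul,
        smul_smul, smul_smul, mul_assoc, w_law h hx]
    exact congrFun h2 b

theorem bkn_pt (h : HM L) (hv : IsF N v) (hx : x ∈ (A.e i).source) :
    ∑ a, dl A i a (fun y => fX h v i y a) x =
      (h.w i x : ℂ) * (star (v i x) ⬝ᵥ dbs (dv h v) i x) +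
        h.w i x * (star (v i x) ⬝ᵥ ((cur h i x)ᵀ *ᵥ v i x)) + h.w i x * tB (dbM v i x) := by
  have h1 : ∀ a, dl A i a (fun y => fX h v i y a) x = (h.w i x : ℂ) *
      ∑ k, (conj (v i x k) * (dd A (-I) i a (fun y => dbM v i y k a) x +
        dbM v i x k a * dd A (-I) i a (lg h i) x) + conj (dbM v i x a k) * dbM v i x k a) := by
    intro a
    have h2 : ∀ k, SA A i x fun y => dbM v i y k a * conj (v i y k) := fun k =>
      (dbM_sa hv hx k a).mul (hv.sa hx k).conj
    simp only [fX]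
    rw [dl_eq, dd_mul (sa_w h hx) (SA.sum _ fun k _ => h2 k) hx, dd_w h hx,
      dd_sum _ fun k _ => h2 k, mul_assoc, ← mul_add, Finset.mul_sum, ← Finset.sum_add_distrib]
    congr 1
    refine Finset.sum_congr rfl fun k _ => ?_
    rw [dd_mul (dbM_sa hv hx k a) (hv.sa hx k).conj hx, dl_conj']
    simp only [dbM, Matrix.of_apply]
    ring
  rw [Finset.sum_congr rfl fun a _ => h1 a, ← Finset.mul_sum, ← mul_add, ← mul_add]
  congr 1
  simp only [dotProduct, db_dv h hv hx, tB, Matrix.trace, Matrix.diag_apply, Matrix.mul_apply,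
    Matrix.map_apply, Matrix.mulVec, Matrix.transpose_apply, Pi.star_apply, star_def,
    Finset.sum_add_distrib, Finset.mul_sum, mul_sub, Finset.sum_sub_distrib, sub_add_cancel,
    mul_add]
  rw [Finset.sum_comm, Finset.sum_comm (f := fun a k =>
    conj (v i x k) * (dbM v i x k a * dd A (-I) i a (lg h i) x))]

end pt

/-! ### the integrated statements -/

section int

variable [T2Space M] {v : A.ι → M → Fin n → ℂ} {s : A.ι → M → ℂ} {C : Set M}

theorem dv_off (h : HM L) (hC : IsCompact C) (h0 : ∀ i, ∀ x ∉ C, v i x = 0) {i : A.ι} {x : M}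
    (hx : x ∈ (A.e i).source) (hxC : x ∉ C) : dv h v i x = 0 := by
  rw [dv_def, Finset.sum_eq_zero fun a _ => dd_zero_off hC (fun y hy => by simp [h0 i y hy]) hx hxC,
    mul_zero]

theorem dbM_off (hC : IsCompact C) (h0 : ∀ i, ∀ x ∉ C, v i x = 0) {i : A.ι} {x : M}
    (hx : x ∈ (A.e i).source) (hxC : x ∉ C) : dbM v i x = 0 := by
  ext k a
  show dd A I i k (fun y => v i y a) x = 0
  exact dd_zero_off hC (fun y hy => by simp [h0 i y hy]) hx hxC

theorem al_off (K : Kah A) (hv : IsF N v) (hC : IsCompact C) (h0 : ∀ i, ∀ x ∉ C, v i x = 0)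
    {i : A.ι} {x : M} (hx : x ∈ (A.e i).source) (hxC : x ∉ C) : al K v i x = 0 := by
  simp [al_eq K hv hx, dbM_off hC h0 hx hxC]

theorem tot_adj (P : Part A) (h : HM ((KB A)⁻¹ * N)) (hv : IsF N v) (hs : IsS N s)
    (hC : IsCompact C) (h0 : ∀ i, ∀ x ∉ C, v i x = 0) {F : Finset A.ι} (hF : Fn P hC ⊆ F) :
    tot P F (fun i y => (h.w i y : ℂ) * (star (v i y) ⬝ᵥ dbs s i y)) =
      -tot P F fun i y => (h.w i y : ℂ) * (conj (dv h v i y) * s i y) := by
  have h1 := stokes01 P (adj_V01 h hv hs) hC hF fun i x hx => by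
    funext a
    simp [h0 i x hx]
  rw [tot_congr P F fun i _ x hx => adj_pt h hv hs hx,
    tot_add P F (isD_dbs h hv hs).sm (isD_ss h (dv_isS h hv) hs).sm] at h1
  exact eq_neg_of_add_eq_zero_left h1

end int

theorem bkn1 : BknStmt := by
  intro n M _ _ _ _ A _ P K N h vol v hv ⟨C, hC, h0⟩
  have hd := dv_isS h hv
  have z1 : ∀ s : A.ι → M → ℂ, ∀ i, ∀ x ∈ (A.e i).source, x ∉ C →
      (h.w i x : ℂ) * (conj (dv h v i x) * s i x) = 0 := fun s i x hx hxC => by
    simp [dv_off h hC h0 hx hxC]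
  refine ⟨fun s hs => ?_, ?_⟩
  · rw [(integral_gl P (isD_dbs h hv hs) hC (fun i x _ hx => by simp [h0 i x hx]) subset_rfl).2,
      (integral_gl P (isD_ss h hd hs) hC (z1 s) subset_rfl).2, tot_adj P h hv hs hC h0 subset_rfl]
  have d1 := isD_form h (cur_smooth h) (fun _ _ _ hx => cur_tr h hx) hv hv
  obtain ⟨-, e1⟩ := integral_gl_re (vol := vol) P d1 hC (fun i x _ hx => by simp [h0 i x hx])
    subset_rfl
  obtain ⟨-, e2⟩ := integral_gl_re (vol := vol) P (isD_ss h hd hd) hC (z1 _) subset_rfl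
  obtain ⟨i3, e3⟩ := integral_gl_re (vol := vol) P (isD_tB h hv) hC
    (fun i x hx hxC => by simp [dbM_off hC h0 hx hxC, tB]) subset_rfl
  obtain ⟨i4, -⟩ := integral_gl_re (vol := vol) P (isD_hC K h hv) hC
    (fun i x hx hxC => by simp [al_off K hv hC h0 hx hxC, Hm.hC]) subset_rfl
  have s1 := stokes10 P (fX_V10 h hv) hC subset_rfl fun i x hx => by
    funext a
    simp [fX, h0 i x hx]
  have d2 : ∀ i, A.SmAt i fun x => (h.w i x : ℂ) * (star (v i x) ⬝ᵥ dbs (dv h v) i x) +
      h.w i x * (star (v i x) ⬝ᵥ ((cur h i x)ᵀ *ᵥ v i x)) := fun i =>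
    ((isD_dbs h hv hd).sm i).add (d1.sm i)
  rw [tot_congr P _ fun i _ x hx => bkn_pt h hv hx, tot_add P _ d2 (isD_tB h hv).sm,
    tot_add P _ (isD_dbs h hv hd).sm d1.sm, tot_adj P h hv hd hC h0 subset_rfl] at s1
  have s2 := congrArg Complex.re s1
  rw [Complex.add_re, Complex.add_re, Complex.neg_re, ← e1, ← e2, ← e3, Complex.zero_re] at s2
  simp only [Complex.re_ofReal_mul, Complex.conj_mul', ← Complex.ofReal_pow, Complex.ofReal_re]
    at s2 i3 i4
  have s3 := integral_mono i3.neg i4 fun x => by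
    have := gl_mono (vol := vol) (D := fun i y => -(h.w i y * (tB (dbM v i y)).re))
      (D' := fun i y => h.w i y * (Hm.hC (K.g i y) (al K v i y) (al K v i y)).re)
      (fun i y hy => by
        rw [← mul_neg, ← hU_eq, al_eq K hv hy]
        exact mul_le_mul_of_nonneg_left (neg_tB_le (K.pos i y hy) _) (h.pos i y hy).le) x
    simpa [gl] using this
  rw [integral_neg'] at s3
  simp only [hq, hU_eq]
  linarith

end

end Crest.Agent.T223.Hm
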