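import Crest.Agent.T223.Hm3_77
import Crest.Agent.T223.HmB_61

/-!
# Row 223, module HOER (helper77), part 4: unitary representatives of sections, fields, 2-forms
-/

set_option autoImplicit false
set_option linter.unusedSectionVars false

open Set Filter Topology Complex Matrix MeasureTheory
open scoped ContDiff Matrix ComplexConjugate ComplexOrder ENNReal

namespace Crest.Agent.T223.Hm

open Crest.Agent.R275 Crest.Agent.R275.Geo Crest.Agent.R275.Core144
open Crest.Agent.R275.OmT75 (dl)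
open Crest.Agent.R273.Defs_333 Crest.Agent.R273.Kah_333 Crest.Agent.R273.Vm_333

noncomputable section

variable {n : ℕ} {M : Type} [TopologicalSpace M] {A : Atl n M} {N L : LB A} [Countable A.ι]

/-- values of fields -/
abbrev E2 (n : ℕ) : Type := EuclideanSpace ℂ (Fin n)

/-- values of 2-forms -/
abbrev E3 (n : ℕ) : Type := EuclideanSpace ℂ (Fin n × Fin n)

/-- values of the graph -/
abbrev EW (n : ℕ) : Type := E2 n × ℂ × E3 n

/-- a matrix as a Euclidean vector -/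
def mE (U : Mx n) : E3 n := WithLp.toLp 2 fun p => U p.1 p.2

theorem mE_add (U V : Mx n) : mE (U + V) = mE U + mE V := rfl

theorem mE_sub (U V : Mx n) : mE (U - V) = mE U - mE V := rfl

theorem mE_smul (c : ℂ) (U : Mx n) : mE (c • U) = c • mE U := rfl

theorem mE_zero : mE (0 : Mx n) = 0 := rfl

theorem norm_mE (U : Mx n) : ‖mE U‖ ^ 2 = (Matrix.trace (Uᴴ * U)).re := by
  rw [EuclideanSpace.norm_sq_eq, Fintype.sum_prod_type, Finset.sum_comm]
  simp only [Matrix.trace, Matrix.diag_apply, Matrix.mul_apply, Matrix.conjTranspose_apply,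
    Complex.re_sum, star_def, Complex.conj_mul', ← Complex.ofReal_pow, Complex.ofReal_re]
  rfl

theorem norm_toLp (u : Fin n → ℂ) : ‖(WithLp.toLp 2 u : E2 n)‖ ^ 2 = (star u ⬝ᵥ u).re := by
  rw [EuclideanSpace.norm_sq_eq]
  simp only [dotProduct, Pi.star_apply, Complex.re_sum, star_def, Complex.conj_mul',
    ← Complex.ofReal_pow, Complex.ofReal_re]

theorem inner_toLp (u : Fin n → ℂ) (y : E2 n) :
    inner ℂ (WithLp.toLp 2 u : E2 n) y = star u ⬝ᵥ WithLp.ofLp y := by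
  rw [EuclideanSpace.inner_eq_star_dotProduct, dotProduct_comm]

variable (h : HM ((KB A)⁻¹ * N)) (vol : HM (KB A)⁻¹) (K : Kah A)

/-- a field in the chart `i`, in the unitary frame -/
def t2 (i : A.ι) (x : M) (y : Fin n → ℂ) : E2 n := WithLp.toLp 2 (o1 h vol i x • (O2 K i x *ᵥ y))

/-- a 2-form in the chart `i`, in the unitary frame -/
def t3 (i : A.ι) (x : M) (U : Mx n) : E3 n := mE (o1 h vol i x • (S2 K i x * U * (S2 K i x)ᵀ))

/-- representative of a section -/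
def r1 (s : A.ι → M → ℂ) (x : M) : ℂ := o1 h vol (ix A x) x * s (ix A x) x

/-- representative of a field -/
def r2 (v : A.ι → M → Fin n → ℂ) (x : M) : E2 n := t2 h vol K (ix A x) x (v (ix A x) x)

/-- representative of a 2-form -/
def r3 (U : A.ι → M → Mx n) (x : M) : E3 n := t3 h vol K (ix A x) x (U (ix A x) x)

/-- the graph element of a test field -/
def RR (v : A.ι → M → Fin n → ℂ) (x : M) : EW n :=
  (r2 h vol K v x, -r1 h vol (dv h v) x, r3 h vol K (al K v) x)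

variable {i : A.ι} {x : M}

theorem t2_add (y y' : Fin n → ℂ) :
    t2 h vol K i x (y + y') = t2 h vol K i x y + t2 h vol K i x y' := by
  rw [t2, Matrix.mulVec_add, smul_add]; rfl

theorem t2_sub (y y' : Fin n → ℂ) :
    t2 h vol K i x (y - y') = t2 h vol K i x y - t2 h vol K i x y' := by
  rw [t2, Matrix.mulVec_sub, smul_sub]; rfl

theorem t2_smul (c : ℂ) (y : Fin n → ℂ) : t2 h vol K i x (c • y) = c • t2 h vol K i x y := by
  rw [t2, Matrix.mulVec_smul, smul_comm]; rfl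

theorem t2_zero : t2 h vol K i x 0 = 0 := by
  rw [t2, Matrix.mulVec_zero, smul_zero]; rfl

theorem t3_add (U V : Mx n) : t3 h vol K i x (U + V) = t3 h vol K i x U + t3 h vol K i x V := by
  rw [t3, Matrix.mul_add, Matrix.add_mul, smul_add]; rfl

theorem t3_sub (U V : Mx n) : t3 h vol K i x (U - V) = t3 h vol K i x U - t3 h vol K i x V := by
  rw [t3, Matrix.mul_sub, Matrix.sub_mul, smul_sub]; rfl

theorem t3_smul (c : ℂ) (U : Mx n) : t3 h vol K i x (c • U) = c • t3 h vol K i x U := by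
  rw [t3, Matrix.mul_smul, Matrix.smul_mul, smul_comm]; rfl

theorem t3_zero : t3 h vol K i x 0 = 0 := by
  rw [t3, Matrix.mul_zero, Matrix.zero_mul, smul_zero]; rfl

theorem r1_eq {s : A.ι → M → ℂ}
    (hs : ∀ i j, ∀ x ∈ (A.e i).source ∩ (A.e j).source, s i x = N.g i j x * s j x)
    (hx : x ∈ (A.e i).source) : r1 h vol s x = o1 h vol i x * s i x := by
  rw [r1, hs _ i x ⟨ix_mem x, hx⟩, o1_law h vol ⟨ix_mem x, hx⟩, mul_assoc]

theorem r2_eq {v : A.ι → M → Fin n → ℂ} (hv : IsF N v) (hx : x ∈ (A.e i).source) :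
    r2 h vol K v x = t2 h vol K i x (v i x) := by
  rw [r2, t2, t2, hv.tr _ i x ⟨ix_mem x, hx⟩, o1_law h vol ⟨ix_mem x, hx⟩, O2_law K ⟨ix_mem x, hx⟩,
    Matrix.mulVec_smul, smul_smul, Matrix.mulVec_mulVec]

theorem r3_eq {v : A.ι → M → Fin n → ℂ} (hv : IsF N v) (hx : x ∈ (A.e i).source) :
    r3 h vol K (al K v) x = t3 h vol K i x (al K v i x) := by
  rw [r3, t3, t3, al_law K hv ⟨ix_mem x, hx⟩, o1_law h vol ⟨ix_mem x, hx⟩, S2_law K ⟨ix_mem x, hx⟩,
    Matrix.mul_smul, Matrix.smul_mul, smul_smul, Matrix.transpose_mul]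
  congr 2
  simp only [Matrix.mul_assoc]
  rfl

theorem norm_t1 (hx : x ∈ (A.e i).source) (c : ℂ) :
    ‖o1 h vol i x * c‖ ^ 2 = (vol.w i x)⁻¹ * (h.w i x * ‖c‖ ^ 2) := by
  rw [norm_mul, mul_pow, o1_sq h vol hx]; ring

theorem inner_t2 (hx : x ∈ (A.e i).source) (y y' : Fin n → ℂ) :
    inner ℂ (t2 h vol K i x y) (t2 h vol K i x y') =
      (vol.w i x : ℂ)⁻¹ * ((h.w i x : ℂ) * (star y ⬝ᵥ ((K.g i x)ᵀ *ᵥ y'))) := by
  rw [t2, inner_toLp, t2, star_smul, smul_dotProduct, dotProduct_smul, smul_smul, star_def,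
    o1_conj h vol hx, Matrix.star_mulVec, ← Matrix.dotProduct_mulVec, Matrix.mulVec_mulVec,
    O2_sq K hx, smul_eq_mul]
  push_cast
  ring

theorem norm_t2 (hx : x ∈ (A.e i).source) (y : Fin n → ℂ) :
    ‖t2 h vol K i x y‖ ^ 2 = (vol.w i x)⁻¹ * (h.w i x * hq (K.g i x) y) := by
  have h1 := congrArg Complex.re (inner_t2 h vol K hx y y)
  rw [inner_self_eq_norm_sq_to_K, ← Complex.ofReal_inv, Complex.re_ofReal_mul,
    Complex.re_ofReal_mul] at h1
  rw [hq, ← h1]
  norm_cast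

theorem norm_t3 (hx : x ∈ (A.e i).source) (U : Mx n) :
    ‖t3 h vol K i x U‖ ^ 2 = (vol.w i x)⁻¹ * (h.w i x * hU (K.g i x) U) := by
  have h1 : (S2 K i x)ᵀ * ((S2 K i x)ᵀ)ᴴ = (K.g i x)⁻¹ := by
    have h2 := congrArg Matrix.transpose (S2_sq K hx)
    rw [Matrix.transpose_mul, ← Matrix.transpose_nonsing_inv, Matrix.transpose_transpose] at h2
    exact h2
  rw [t3, mE_smul, norm_smul, mul_pow, o1_sq h vol hx, norm_mE, hU, Matrix.conjTranspose_mul,
    Matrix.conjTranspose_mul, Matrix.mul_assoc, Matrix.trace_mul_comm,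
    Matrix.transpose_nonsing_inv, ← h1, ← S2_sq K hx]
  simp only [Matrix.mul_assoc]
  ring

theorem norm_r1 (s : A.ι → M → ℂ) (x : M) :
    ‖r1 h vol s x‖ ^ 2 = gl vol (fun i y => h.w i y * ‖s i y‖ ^ 2) x := norm_t1 h vol (ix_mem x) _

theorem norm_r2 (v : A.ι → M → Fin n → ℂ) (x : M) :
    ‖r2 h vol K v x‖ ^ 2 = gl vol (fun i y => h.w i y * hq (K.g i y) (v i y)) x :=
  norm_t2 h vol K (ix_mem x) _

theorem norm_r3 (U : A.ι → M → Mx n) (x : M) :
    ‖r3 h vol K U x‖ ^ 2 = gl vol (fun i y => h.w i y * hU (K.g i y) (U i y)) x :=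
  norm_t3 h vol K (ix_mem x) _

/-! ### linearity -/

theorem IsF.add {v v' : A.ι → M → Fin n → ℂ} (hv : IsF N v) (hv' : IsF N v') : IsF N (v + v') where
  sm i a := ContDiffOn.add (hv.sm i a) (hv'.sm i a)
  tr i j x hx := by
    simp only [Pi.add_apply, hv.tr i j x hx, hv'.tr i j x hx, Matrix.mulVec_add, smul_add]

theorem IsF.smul {v : A.ι → M → Fin n → ℂ} (hv : IsF N v) (c : ℂ) : IsF N (c • v) where
  sm i a := ContDiffOn.mul (contDiffOn_const (c := c)) (hv.sm i a)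
  tr i j x hx := by
    simp only [Pi.smul_apply, hv.tr i j x hx, Matrix.mulVec_smul]
    exact smul_comm _ _ _

theorem isF_zero : IsF N (0 : A.ι → M → Fin n → ℂ) where
  sm i a := contDiffOn_const (c := 0)
  tr i j x hx := by simp

theorem Cs.add {W : Type*} [AddZeroClass W] {v v' : A.ι → M → W} (hv : Cs v) (hv' : Cs v') :
    Cs (v + v') := by
  obtain ⟨C, hC, h0⟩ := hv
  obtain ⟨C', hC', h0'⟩ := hv'
  exact ⟨C ∪ C', hC.union hC', fun i x hx => by
    rw [Pi.add_apply, Pi.add_apply, h0 i x fun h' => hx (Or.inl h'),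
      h0' i x fun h' => hx (Or.inr h'), add_zero]⟩

theorem Cs.smul {v : A.ι → M → Fin n → ℂ} (hv : Cs v) (c : ℂ) : Cs (c • v) := by
  obtain ⟨C, hC, h0⟩ := hv
  exact ⟨C, hC, fun i x hx => by rw [Pi.smul_apply, Pi.smul_apply, h0 i x hx, smul_zero]⟩

theorem cs_zero : Cs (0 : A.ι → M → Fin n → ℂ) := ⟨∅, isCompact_empty, fun _ _ _ => rfl⟩

theorem dd_cmul {s : ℂ} {a : Fin n} {f : M → ℂ} (c : ℂ) (hf : SA A i x f)
    (hx : x ∈ (A.e i).source) : dd A s i a (fun y => c * f y) x = c * dd A s i a f x := by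
  rw [dd_mul (sa_const c) hf hx, dd_const, zero_mul, zero_add]

theorem dv_add {v v' : A.ι → M → Fin n → ℂ} (hv : IsF N v) (hv' : IsF N v')
    (hx : x ∈ (A.e i).source) : dv h (v + v') i x = dv h v i x + dv h v' i x := by
  rw [dv_def, dv_def, dv_def, ← mul_add, ← Finset.sum_add_distrib]
  congr 1
  refine Finset.sum_congr rfl fun a _ => ?_
  rw [← dd_add ((sa_w h hx).mul (hv.sa hx a)) ((sa_w h hx).mul (hv'.sa hx a))]
  simp only [Pi.add_apply, mul_add]

theorem dv_smul {v : A.ι → M → Fin n → ℂ} (hv : IsF N v) (c : ℂ)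
    (hx : x ∈ (A.e i).source) : dv h (c • v) i x = c * dv h v i x := by
  rw [dv_def, dv_def, mul_left_comm, Finset.mul_sum _ _ c]
  congr 1
  refine Finset.sum_congr rfl fun a _ => ?_
  rw [← dd_cmul c ((sa_w h hx).mul (hv.sa hx a)) hx]
  simp only [Pi.smul_apply, smul_eq_mul, mul_left_comm]

theorem dbM_add {v v' : A.ι → M → Fin n → ℂ} (hv : IsF N v) (hv' : IsF N v')
    (hx : x ∈ (A.e i).source) : dbM (v + v') i x = dbM v i x + dbM v' i x := by
  ext k a
  exact dd_add (hv.sa hx a) (hv'.sa hx a)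

theorem dbM_smul {v : A.ι → M → Fin n → ℂ} (hv : IsF N v) (c : ℂ)
    (hx : x ∈ (A.e i).source) : dbM (c • v) i x = c • dbM v i x := by
  ext k a
  exact dd_cmul c (hv.sa hx a) hx

theorem al_add {v v' : A.ι → M → Fin n → ℂ} (hv : IsF N v) (hv' : IsF N v')
    (hx : x ∈ (A.e i).source) : al K (v + v') i x = al K v i x + al K v' i x := by
  rw [al_eq K (hv.add hv') hx, al_eq K hv hx, al_eq K hv' hx, dbM_add hv hv' hx, Matrix.add_mul,
    Matrix.transpose_add]
  abel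

theorem al_smul {v : A.ι → M → Fin n → ℂ} (hv : IsF N v) (c : ℂ)
    (hx : x ∈ (A.e i).source) : al K (c • v) i x = c • al K v i x := by
  rw [al_eq K (hv.smul c) hx, al_eq K hv hx, dbM_smul hv c hx, Matrix.smul_mul,
    Matrix.transpose_smul, smul_sub]

theorem RR_add {v v' : A.ι → M → Fin n → ℂ} (hv : IsF N v) (hv' : IsF N v') :
    RR h vol K (v + v') = RR h vol K v + RR h vol K v' := by
  funext x
  simp only [RR, r1, r2, r3, Pi.add_apply, Prod.mk_add_mk, dv_add h hv hv' (ix_mem x),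
    al_add K hv hv' (ix_mem x), t2_add, t3_add, mul_add, neg_add]

theorem RR_smul {v : A.ι → M → Fin n → ℂ} (hv : IsF N v) (c : ℂ) :
    RR h vol K (c • v) = c • RR h vol K v := by
  funext x
  simp only [RR, r1, r2, r3, Pi.smul_apply, Prod.smul_mk, dv_smul h hv c (ix_mem x),
    al_smul K hv c (ix_mem x), t2_smul, t3_smul, smul_eq_mul, mul_neg, mul_left_comm]

/-! ### measurability and square integrability -/

variable [T2Space M] [MeasurableSpace M] [BorelSpace M]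

theorem aesm_r1 {s : A.ι → M → ℂ} (hs : ∀ i, A.SmAt i (s i)) (μ : Measure M) :
    AEStronglyMeasurable (r1 h vol s) μ := by
  have h1 := aesm_ix' (A := A) (f := fun j x => ((Real.sqrt (h.w j x / vol.w j x) : ℝ) : ℂ) * s j x)
    (fun j => (contOn_cw h vol j).mul (contOn_smAt (hs j))) μ
  refine h1.congr (Eventually.of_forall fun x => ?_)
  simp only [r1, o1_ix, cw]

theorem aesm_r2 {v : A.ι → M → Fin n → ℂ} (hv : ∀ i a, A.SmAt i fun x => v i x a) (μ : Measure M) :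
    AEStronglyMeasurable (r2 h vol K v) μ := by
  have h1 := aesm_toLp fun a => aesm_ix' (A := A)
    (f := fun j x => (((Real.sqrt (h.w j x / vol.w j x) : ℝ) : ℂ) • (msq (K.g j x)ᵀ *ᵥ v j x)) a)
    (fun j => by
      simp only [Pi.smul_apply, smul_eq_mul, Matrix.mulVec, dotProduct]
      exact (contOn_cw h vol j).mul (continuousOn_finsetSum _ fun b _ =>
        (continuousOn_pi.1 (continuousOn_pi.1 (contOn_msq K j) a) b).mul (contOn_smAt (hv j b)))) μ
  refine h1.congr (Eventually.of_forall fun x => ?_)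
  simp only [r2, t2, o1_ix, O2_ix, cw, Rt]

theorem aesm_r3 {U : A.ι → M → Mx n} (hU : ∀ i a b, A.SmAt i fun x => U i x a b) (μ : Measure M) :
    AEStronglyMeasurable (r3 h vol K U) μ := by
  have h1 := aesm_toLp fun p : Fin n × Fin n => aesm_ix' (A := A)
    (f := fun j x => (((Real.sqrt (h.w j x / vol.w j x) : ℝ) : ℂ) •
      ((msq (K.g j x)ᵀ * ((K.g j x)ᵀ)⁻¹) * U j x * (msq (K.g j x)ᵀ * ((K.g j x)ᵀ)⁻¹)ᵀ)) p.1 p.2)
    (fun j => by
      have h2 : ContinuousOn (fun x => msq (K.g j x)ᵀ * ((K.g j x)ᵀ)⁻¹) (A.e j).source :=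
        (contOn_msq K j).mul (contOn_gTi K j)
      have h3 : ContinuousOn (U j) (A.e j).source :=
        continuousOn_pi.2 fun a => continuousOn_pi.2 fun b => contOn_smAt (hU j a b)
      have h4 := (h2.mul h3).mul ((continuous_id.matrix_transpose).comp_continuousOn h2)
      exact (contOn_cw h vol j).mul (continuousOn_pi.1 (continuousOn_pi.1 h4 p.1) p.2)) μ
  refine h1.congr (Eventually.of_forall fun x => ?_)
  simp only [r3, t3, mE, o1_ix, O2_ix, cw, Rt, S2]

theorem memLp_of_isD {W : Type*} [NormedAddCommGroup W] {r : M → W}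
    (hm : AEStronglyMeasurable r (vm vol)) {D : A.ι → M → ℂ} (hD : R273.StV_37.IsD A D) {C : Set M}
    (hC : IsCompact C) (h0 : ∀ i, ∀ x ∈ (A.e i).source, x ∉ C → D i x = 0)
    (h1 : ∀ x, ‖r x‖ ^ 2 = gl vol (fun i y => (D i y).re) x) : MemLp r 2 (vm vol) := by
  rw [memLp_two_iff_integrable_sq_norm hm]
  have hz : ∀ x ∉ C, gl vol D x = 0 := fun x hx => by rw [gl, h0 _ x (ix_mem x) hx, smul_zero]
  refine (integrable_of_sm (vol := vol) (gl_sm (vol := vol) hD) hC hz).re.congr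
    (Eventually.of_forall fun x => ?_)
  simp only [h1, gl_re]
  rfl

theorem memLp_r1 {s : A.ι → M → ℂ} (hs : IsS N s) {C : Set M} (hC : IsCompact C)
    (h0 : ∀ i, ∀ x ∈ (A.e i).source, x ∉ C → s i x = 0) : MemLp (r1 h vol s) 2 (vm vol) :=
  memLp_of_isD vol (aesm_r1 h vol hs.sm _) (isD_ss h hs hs) hC
    (fun i x hx hx' => by simp [h0 i x hx hx']) fun x => by
      simp only [norm_r1, Complex.re_ofReal_mul, Complex.conj_mul', ← Complex.ofReal_pow,
        Complex.ofReal_re]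

theorem memLp_r2 {v : A.ι → M → Fin n → ℂ} (hv : IsF N v) {C : Set M} (hC : IsCompact C)
    (h0 : ∀ i, ∀ x ∈ (A.e i).source, x ∉ C → v i x = 0) : MemLp (r2 h vol K v) 2 (vm vol) :=
  memLp_of_isD vol (aesm_r2 h vol K hv.sm _) (isD_form h K.sm K.tr hv hv) hC
    (fun i x hx hx' => by simp [h0 i x hx hx']) fun x => by
      simp only [norm_r2, Complex.re_ofReal_mul, hq]

theorem memLp_r3 {v : A.ι → M → Fin n → ℂ} (hv : IsF N v) (hc : Cs v) :
    MemLp (r3 h vol K (al K v)) 2 (vm vol) := by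
  obtain ⟨C, hC, h0⟩ := hc
  exact memLp_of_isD vol (aesm_r3 h vol K (al_sm K hv) _) (isD_hC K h hv) hC
    (fun i x hx hx' => by simp [al_off K hv hC h0 hx hx', Hm.hC]) fun x => by
      simp only [norm_r3, Complex.re_ofReal_mul, hU_eq]

theorem memLp_r1s {s : A.ι → M → ℂ} (hs : IsS N s) (hc : Cs s) : MemLp (r1 h vol s) 2 (vm vol) := by
  obtain ⟨C, hC, h0⟩ := hc
  exact memLp_r1 h vol hs hC fun i x _ hx => h0 i x hx

theorem memLp_r2s {v : A.ι → M → Fin n → ℂ} (hv : IsF N v) (hc : Cs v) :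
    MemLp (r2 h vol K v) 2 (vm vol) := by
  obtain ⟨C, hC, h0⟩ := hc
  exact memLp_r2 h vol K hv hC fun i x _ hx => h0 i x hx

theorem memLp_dv {v : A.ι → M → Fin n → ℂ} (hv : IsF N v) (hc : Cs v) :
    MemLp (r1 h vol (dv h v)) 2 (vm vol) := by
  obtain ⟨C, hC, h0⟩ := hc
  exact memLp_r1 h vol (dv_isS h hv) hC fun i x hx hx' => dv_off h hC h0 hx hx'

theorem memLp_sh {s : A.ι → M → ℂ} (hs : IsS N s) (hc : Cs s) :
    MemLp (r2 h vol K (sh K s)) 2 (vm vol) := by
  obtain ⟨C, hC, h0⟩ := hc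
  refine memLp_r2 h vol K (sh_isF K hs) hC fun i x hx hx' => ?_
  have h1 : dbs s i x = 0 := funext fun a => dd_zero_off hC (h0 i) hx hx'
  rw [sh, h1, Matrix.mulVec_zero]

theorem memLp_RR {v : A.ι → M → Fin n → ℂ} (hv : IsF N v) (hc : Cs v) :
    MemLp (RR h vol K v) 2 (vm vol) :=
  MemLp.of_fst_snd ⟨memLp_r2s h vol K hv hc,
    MemLp.of_fst_snd ⟨(memLp_dv h vol hv hc).neg, memLp_r3 h vol K hv hc⟩⟩

/-- leaf REG: weakly holomorphic `L²` sections are holomorphic -/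
def RegStmt : Prop :=
  ∀ (n : ℕ) (M : Type) [TopologicalSpace M] [T2Space M] [MeasurableSpace M] [BorelSpace M]
    (A : Atl n M) [Countable A.ι] (N : LB A) (h : HM ((KB A)⁻¹ * N)) (vol : HM (KB A)⁻¹)
    (q : M → ℂ), MemLp q 2 (vm vol) →
    (∀ v, IsF N v → Cs v → ∫ x, conj (r1 h vol (dv h v) x) * q x ∂(vm vol) = 0) →
    ∃ F : A.ι → M → ℂ, IsS N F ∧ (∀ i, HolAt A i univ (F i)) ∧ q =ᵐ[vm vol] r1 h vol F

/-- leaf DENS: density of test fields in the graph norm -/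
def DensStmt : Prop :=
  ∀ (n : ℕ) (M : Type) [TopologicalSpace M] [T2Space M] [MeasurableSpace M] [BorelSpace M]
    (A : Atl n M) [Countable A.ι] (_ : Part A) (K : Kah A), Cut K →
    ∀ (N : LB A) (h : HM ((KB A)⁻¹ * N)) (vol : HM (KB A)⁻¹) (g : M → E2 n) (t : M → ℂ),
      MemLp g 2 (vm vol) → MemLp t 2 (vm vol) →
      (∀ v, IsF N v → Cs v → (∀ i, ∀ x ∈ (A.e i).source, dv h v i x = 0) →
        ∫ x, inner ℂ (r2 h vol K v x) (g x) ∂(vm vol) = 0) →
      (∀ s, IsS N s → Cs s → ∫ x, inner ℂ (r2 h vol K (sh K s) x) (g x) ∂(vm vol) =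
        ∫ x, conj (r1 h vol s x) * t x ∂(vm vol)) →
      ∀ ε : ℝ≥0∞, 0 < ε → ∃ v, IsF N v ∧ Cs v ∧
        eLpNorm (fun x => RR h vol K v x - (g x, t x, 0)) 2 (vm vol) ≤ ε

end

end Crest.Agent.T223.Hm
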