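import Crest.Agent.T223.Hm4_77

/-!
# Row 223, module HOER (helper77), part 5: approximable triples, reduction of the density
statement to one chart
-/

set_option autoImplicit false
set_option linter.unusedSectionVars false

open Set Filter Topology Complex Matrix MeasureTheory
open scoped ContDiff Matrix ComplexConjugate ComplexOrder ENNReal

namespace Crest.Agent.T223.Hm

open Crest.Agent.R275 Crest.Agent.R275.Geo Crest.Agent.R275.Core144
open Crest.Agent.R275.OmT75 (dl)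
open Crest.Agent.R275.Pai323 (Fn sum_psi psi_off tsupport_psi)
open Crest.Agent.R273.Defs_333 Crest.Agent.R273.Kah_333 Crest.Agent.R273.Vm_333

noncomputable section

variable {n : ℕ} {M : Type} [TopologicalSpace M] {A : Atl n M} {N L : LB A} [Countable A.ι]

/-! ### the targets -/

/-- the graph element of `θ g` when `(g, t, 0)` is in the weak graph, `c = θ`, `b = ∂̄ θ` -/
def PQ (c : ℝ) (b g : E2 n) (t : ℂ) : EW n :=
  (c • g, c • t - inner ℂ b g,
    mE (vecMulVec (WithLp.ofLp b) (WithLp.ofLp g) - vecMulVec (WithLp.ofLp g) (WithLp.ofLp b)))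

theorem PQ_add (c c' : ℝ) (b b' g : E2 n) (t : ℂ) :
    PQ (c + c') (b + b') g t = PQ c b g t + PQ c' b' g t := by
  simp only [PQ, Prod.mk_add_mk, add_smul, inner_add_left, WithLp.ofLp_add, add_vecMulVec,
    vecMulVec_add, ← mE_add]
  congr 3
  · abel
  · abel

theorem PQ_zero (g : E2 n) (t : ℂ) : PQ 0 0 g t = 0 := by
  simp [PQ, mE_zero]

theorem continuous_PQ :
    Continuous fun p : ℝ × E2 n × E2 n × ℂ => PQ p.1 p.2.1 p.2.2.1 p.2.2.2 := by
  unfold PQ mE
  refine Continuous.prodMk (by fun_prop) (Continuous.prodMk (by fun_prop) ?_)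
  refine (PiLp.continuous_toLp 2 _).comp (continuous_pi fun q => ?_)
  simp only [Matrix.sub_apply, vecMulVec_apply]
  fun_prop

theorem norm_vmv (b g : E2 n) :
    ‖mE (vecMulVec (WithLp.ofLp b) (WithLp.ofLp g))‖ = ‖b‖ * ‖g‖ := by
  have h : ‖mE (vecMulVec (WithLp.ofLp b) (WithLp.ofLp g))‖ ^ 2 = (‖b‖ * ‖g‖) ^ 2 := by
    rw [mul_pow, EuclideanSpace.norm_sq_eq, EuclideanSpace.norm_sq_eq, EuclideanSpace.norm_sq_eq,
      Fintype.sum_prod_type, Finset.sum_mul_sum]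
    simp only [mE, vecMulVec_apply, norm_mul, mul_pow]
  exact (pow_left_inj₀ (norm_nonneg _) (by positivity) two_ne_zero).1 h

theorem norm_PQ (c : ℝ) (b g : E2 n) (t : ℂ) :
    ‖PQ c b g t - (g, t, 0)‖ ≤ |c - 1| * (‖g‖ + ‖t‖) + 2 * ‖b‖ * ‖g‖ := by
  have h0 : 0 ≤ ‖b‖ * ‖g‖ := by positivity
  have h1 : 0 ≤ |c - 1| * ‖g‖ := by positivity
  have h2 : 0 ≤ |c - 1| * ‖t‖ := by positivity
  simp only [PQ, Prod.mk_sub_mk, Prod.norm_mk, sub_zero, max_le_iff]
  refine ⟨?_, ?_, ?_⟩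
  · rw [show c • g - g = (c - 1) • g by rw [sub_smul, one_smul], norm_smul, Real.norm_eq_abs]
    nlinarith
  · rw [show c • t - inner ℂ b g - t = (c - 1) • t - inner ℂ b g by
      rw [sub_smul, one_smul]; abel]
    refine (norm_sub_le _ _).trans ?_
    rw [norm_smul, Real.norm_eq_abs]
    have := norm_inner_le_norm (𝕜 := ℂ) b g
    nlinarith
  · rw [mE_sub]
    refine (norm_sub_le _ _).trans ?_
    rw [norm_vmv, norm_vmv]
    nlinarith

variable (h : HM ((KB A)⁻¹ * N)) (vol : HM (KB A)⁻¹) (K : Kah A)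

/-- `∂̄ θ` in the chart `i` -/
def dbr (A : Atl n M) (θ : M → ℝ) (i : A.ι) (x : M) : Fin n → ℂ :=
  fun a => dd A I i a (fun y => (θ y : ℂ)) x

/-- `∂̄ θ` in the unitary frame -/
def bb (θ : M → ℝ) (x : M) : E2 n := WithLp.toLp 2 (S2 K (ix A x) x *ᵥ dbr A θ (ix A x) x)

/-- the target attached to a cut-off function -/
def PP (g : M → E2 n) (t : M → ℂ) (θ : M → ℝ) (x : M) : EW n := PQ (θ x) (bb K θ x) (g x) (t x)

variable {i : A.ι} {x : M} {θ θ' : M → ℝ}

theorem sa_real (hθ : A.Sm θ) (hx : x ∈ (A.e i).source) : SA A i x fun y => (θ y : ℂ) :=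
  sa_of (C1d194.smAt_ofReal (hθ i)) hx

theorem bb_eq (hθ : A.Sm θ) (hx : x ∈ (A.e i).source) :
    bb K θ x = WithLp.toLp 2 (S2 K i x *ᵥ dbr A θ i x) := by
  have h1 : dbr A θ (ix A x) x = (Jm A (ix A x) i x)ᴴ *ᵥ dbr A θ i x :=
    funext fun a => db_chain' (sa_real hθ hx) ⟨ix_mem x, hx⟩
  rw [bb, h1, S2_law K ⟨ix_mem x, hx⟩, Matrix.mulVec_mulVec]

theorem bb_add (hθ : A.Sm θ) (hθ' : A.Sm θ') (x : M) :
    bb K (fun y => θ y + θ' y) x = bb K θ x + bb K θ' x := by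
  have h1 : dbr A (fun y => θ y + θ' y) (ix A x) x = dbr A θ (ix A x) x + dbr A θ' (ix A x) x := by
    funext a
    simp only [dbr, Complex.ofReal_add]
    exact dd_add (sa_real hθ (ix_mem x)) (sa_real hθ' (ix_mem x))
  rw [bb, h1, Matrix.mulVec_add]
  rfl

theorem bb_off [T2Space M] {C : Set M} (hC : IsCompact C) (h0 : ∀ y ∉ C, θ y = 0) (hx : x ∉ C) :
    bb K θ x = 0 := by
  have h1 : dbr A θ (ix A x) x = 0 := funext fun a =>
    dd_zero_off hC (fun y hy => by simp [h0 y hy]) (ix_mem x) hx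
  rw [bb, h1, Matrix.mulVec_zero]
  rfl

theorem dl_real (a : Fin n) : dl A i a (fun y => (θ y : ℂ)) x = conj (dbr A θ i x a) := by
  rw [dbr, ← dl_conj', dl_eq]
  simp only [Complex.conj_ofReal]

theorem norm_bb {ε : ℝ} (hε : 0 ≤ ε) (hb : ∀ v : Fin n → ℂ,
    ‖∑ a, dl A (ix A x) a (fun y => (θ y : ℂ)) x * v a‖ ^ 2 ≤ ε ^ 2 * hq (K.g (ix A x) x) v) :
    ‖bb K θ x‖ ≤ ε := by
  have hx := ix_mem (A := A) x
  obtain ⟨b, hbd⟩ : ∃ b, b = S2 K (ix A x) x *ᵥ dbr A θ (ix A x) x := ⟨_, rfl⟩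
  have h1 := hb ((S2 K (ix A x) x)ᴴ *ᵥ b)
  have h2 : ∑ a, dl A (ix A x) a (fun y => (θ y : ℂ)) x * ((S2 K (ix A x) x)ᴴ *ᵥ b) a =
      star b ⬝ᵥ b := by
    conv_rhs => rw [hbd, Matrix.star_mulVec, ← Matrix.dotProduct_mulVec, ← hbd]
    simp only [dl_real]
    rfl
  have h3 : hq (K.g (ix A x) x) ((S2 K (ix A x) x)ᴴ *ᵥ b) = ‖bb K θ x‖ ^ 2 := by
    rw [hq, Matrix.mulVec_mulVec, gT_S2H K hx, Matrix.star_mulVec, ← Matrix.dotProduct_mulVec,
      Matrix.mulVec_mulVec, Matrix.conjTranspose_conjTranspose, S2_O2H K hx, Matrix.one_mulVec,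
      bb, norm_toLp, ← hbd]
  have h4 : ‖star b ⬝ᵥ b‖ = ‖bb K θ x‖ ^ 2 := by
    have h5 := inner_toLp b (WithLp.toLp 2 b)
    rw [inner_self_eq_norm_sq_to_K] at h5
    rw [← show _ = star b ⬝ᵥ b from h5, norm_pow, RCLike.norm_ofReal, abs_norm, hbd]
    rfl
  rw [h2, h3, h4] at h1
  by_contra hlt
  push Not at hlt
  have h6 : 0 < ‖bb K θ x‖ := hε.trans_lt hlt
  have h7 : ε ^ 2 < ‖bb K θ x‖ ^ 2 := by gcongr
  have h8 : 0 < ‖bb K θ x‖ ^ 2 := by positivity
  nlinarith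

variable [T2Space M] [MeasurableSpace M] [BorelSpace M]

theorem aesm_bb (hθ : A.Sm θ) (μ : Measure M) : AEStronglyMeasurable (bb K θ) μ := by
  have h1 := aesm_toLp fun a => aesm_ix' (A := A)
    (f := fun j x => ((msq (K.g j x)ᵀ * ((K.g j x)ᵀ)⁻¹) *ᵥ dbr A θ j x) a)
    (fun j => by
      have h2 : ContinuousOn (fun x => msq (K.g j x)ᵀ * ((K.g j x)ᵀ)⁻¹) (A.e j).source :=
        (contOn_msq K j).mul (contOn_gTi K j)
      simp only [Matrix.mulVec, dotProduct]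
      exact continuousOn_finsetSum _ fun b _ => (continuousOn_pi.1 (continuousOn_pi.1 h2 a) b).mul
        (contOn_smAt (smAt_of_sa fun x hx => (sa_real hθ hx).dd hx I b))) μ
  refine h1.congr (Eventually.of_forall fun x => ?_)
  simp only [bb, S2, O2_ix, Rt]

theorem aesm_PP {g : M → E2 n} {t : M → ℂ} {μ : Measure M} (hg : AEStronglyMeasurable g μ)
    (ht : AEStronglyMeasurable t μ) (hθ : A.Sm θ) : AEStronglyMeasurable (PP K g t θ) μ :=
  continuous_PQ.comp_aestronglyMeasurable ((sm_continuous hθ).aestronglyMeasurable.prodMk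
    ((aesm_bb K hθ μ).prodMk (hg.prodMk ht)))

/-! ### approximable triples -/

/-- approximable by graph elements of test fields -/
def Ap (p : M → EW n) : Prop := AEStronglyMeasurable p (vm vol) ∧ ∀ ε : ℝ≥0∞, 0 < ε →
  ∃ v, IsF N v ∧ Cs v ∧ eLpNorm (RR h vol K v - p) 2 (vm vol) ≤ ε

variable {h vol K}

theorem Ap.add {p q : M → EW n} (hp : Ap h vol K p) (hq : Ap h vol K q) : Ap h vol K (p + q) := by
  refine ⟨hp.1.add hq.1, fun ε hε => ?_⟩
  obtain ⟨v, v1, v2, v3⟩ := hp.2 (ε / 2) (ENNReal.half_pos hε.ne')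
  obtain ⟨w, w1, w2, w3⟩ := hq.2 (ε / 2) (ENNReal.half_pos hε.ne')
  refine ⟨v + w, v1.add w1, v2.add w2, ?_⟩
  rw [RR_add h vol K v1 w1, add_sub_add_comm]
  refine (eLpNorm_add_le ((memLp_RR h vol K v1 v2).1.sub hp.1) ((memLp_RR h vol K w1 w2).1.sub hq.1)
    (by norm_num)).trans ?_
  calc _ ≤ ε / 2 + ε / 2 := add_le_add v3 w3
    _ = ε := ENNReal.add_halves ε

theorem ap_zero : Ap h vol K 0 := by
  refine ⟨aestronglyMeasurable_zero, fun ε _ => ⟨0, isF_zero, cs_zero, ?_⟩⟩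
  have h1 := RR_smul h vol K (isF_zero (N := N)) 0
  rw [zero_smul, zero_smul] at h1
  rw [h1, sub_zero, eLpNorm_zero]
  exact zero_le

theorem Ap.lim {p : M → EW n} (hm : AEStronglyMeasurable p (vm vol))
    (hp : ∀ ε : ℝ≥0∞, 0 < ε → ∃ q, Ap h vol K q ∧ eLpNorm (q - p) 2 (vm vol) ≤ ε) :
    Ap h vol K p := by
  refine ⟨hm, fun ε hε => ?_⟩
  obtain ⟨q, q1, q2⟩ := hp (ε / 2) (ENNReal.half_pos hε.ne')
  obtain ⟨v, v1, v2, v3⟩ := q1.2 (ε / 2) (ENNReal.half_pos hε.ne')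
  refine ⟨v, v1, v2, ?_⟩
  rw [← sub_add_sub_cancel _ q]
  refine (eLpNorm_add_le ((memLp_RR h vol K v1 v2).1.sub q1.1) (q1.1.sub hm) (by norm_num)).trans ?_
  calc _ ≤ ε / 2 + ε / 2 := add_le_add v3 q2
    _ = ε := ENNReal.add_halves ε

theorem ap_sum {g : M → E2 n} {t : M → ℂ} {ι : Type*} (F : Finset ι) {θ : ι → M → ℝ}
    (hs : ∀ i, A.Sm (θ i)) (hp : ∀ i ∈ F, Ap h vol K (PP K g t (θ i))) :
    Ap h vol K (PP K g t fun x => ∑ i ∈ F, θ i x) := by
  classical
  induction F using Finset.induction_on with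
  | empty =>
    have h1 : (PP K g t fun x => ∑ i ∈ (∅ : Finset ι), θ i x) = 0 := by
      funext x
      simp only [PP, Finset.sum_empty]
      rw [bb_off K isCompact_empty (fun _ _ => rfl) (notMem_empty x), PQ_zero, Pi.zero_apply]
    rw [h1]
    exact ap_zero
  | insert j F hj ih =>
    have h1 : (PP K g t fun x => ∑ i ∈ insert j F, θ i x) =
        PP K g t (θ j) + PP K g t fun x => ∑ i ∈ F, θ i x := by
      funext x
      simp only [PP, Finset.sum_insert hj, Pi.add_apply]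
      rw [bb_add K (hs j) (fun k => ContDiffOn.sum fun i _ => hs i k), PQ_add]
    rw [h1]
    exact (hp j (Finset.mem_insert_self _ _)).add
      (ih fun i hi => hp i (Finset.mem_insert_of_mem hi))

theorem sigmaCompact_of_part (P : Part A) : SigmaCompactSpace M := by
  refine ⟨?_⟩
  have h1 : (univ : Set M) = ⋃ i, tsupport (P.χ i) := by
    refine (eq_univ_of_forall fun x => ?_).symm
    by_contra hx
    have h2 : ∀ i, P.ψ i x = 0 := fun i => image_eq_zero_of_notMem_tsupport fun h' =>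
      hx (mem_iUnion.2 ⟨i, tsupport_psi P i h'⟩)
    have h3 := P.sum_one x
    simp [h2] at h3
  rw [h1]
  exact isSigmaCompact_iUnion_of_isCompact _ P.χ_cpt

theorem exists_tail (P : Part A) {μ : Measure M} {f : M → ℝ} (hf : MemLp f 2 μ) {ε : ℝ≥0∞}
    (hε : 0 < ε) : ∃ C : Set M, IsCompact C ∧ eLpNorm (Cᶜ.indicator f) 2 μ ≤ ε := by
  have := sigmaCompact_of_part P
  have hm : ∀ k, MeasurableSet (compactCovering M k)ᶜ := fun k =>
    (isCompact_compactCovering M k).measurableSet.compl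
  have h1 : Tendsto (fun k => ∫⁻ x, ‖(compactCovering M k)ᶜ.indicator f x‖ₑ ^ 2 ∂μ) atTop
      (𝓝 (∫⁻ _, 0 ∂μ)) := by
    refine tendsto_lintegral_of_dominated_convergence' (fun x => ‖f x‖ₑ ^ 2)
      (fun k => (hf.1.indicator (hm k)).enorm.pow_const 2)
      (fun k => Eventually.of_forall fun x => ?_) ?_ (Eventually.of_forall fun x => ?_)
    · dsimp only
      gcongr
      exact enorm_indicator_le_enorm_self f x
    · have h2 := hf.2
      rw [e2] at h2
      exact ((ENNReal.rpow_lt_top_iff_of_pos (by norm_num)).1 h2).ne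
    · obtain ⟨k, hk⟩ := exists_mem_compactCovering x
      refine tendsto_const_nhds.congr' ?_
      filter_upwards [eventually_ge_atTop k] with l hl
      rw [indicator_of_notMem (notMem_compl_iff.2 (compactCovering_subset M hl hk))]
      simp
  rw [lintegral_zero] at h1
  obtain ⟨k, hk⟩ := (h1.eventually (ge_mem_nhds (ENNReal.pow_pos hε 2))).exists
  refine ⟨_, isCompact_compactCovering M k, ?_⟩
  rw [e2]
  calc _ ≤ (ε ^ 2) ^ (1 / 2 : ℝ) := by gcongr
    _ = ε := by rw [← ENNReal.rpow_natCast, ← ENNReal.rpow_mul]; norm_num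

/-- **reduction to one chart** -/
theorem ap_of_chart (P : Part A) (hK : Cut K) {g : M → E2 n} {t : M → ℂ}
    (hg : MemLp g 2 (vm vol)) (ht : MemLp t 2 (vm vol))
    (H : ∀ (i : A.ι) (θ : M → ℝ) (C : Set M), A.Sm θ → IsCompact C → C ⊆ (A.e i).source →
      (∀ x ∉ C, θ x = 0) → Ap h vol K (PP K g t θ)) :
    Ap h vol K fun x => (g x, t x, 0) := by
  refine Ap.lim (hg.1.prodMk (ht.1.prodMk aestronglyMeasurable_const)) fun ε hε => ?_
  have hf : MemLp (fun x => ‖g x‖ + ‖t x‖) 2 (vm vol) := hg.norm.add ht.norm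
  obtain ⟨C, hC, hC2⟩ := exists_tail P hf (ENNReal.half_pos hε.ne')
  obtain ⟨δ, hδ, hδ2⟩ := ENNReal.exists_nnreal_pos_mul_lt hg.2.ne (ENNReal.half_pos hε.ne').ne'
  have hδ' : (0 : ℝ) < δ := hδ
  obtain ⟨χ, c1, c2, c3, c4, c5⟩ := hK C hC (((δ : ℝ) / 2) ^ 2) (by positivity)
  refine ⟨PP K g t χ, ?_, ?_⟩
  · have h1 : χ = fun x => ∑ i ∈ Fn P c2.isCompact, P.ψ i x * χ x := by
      funext x
      rw [← Finset.sum_mul]
      by_cases hx : x ∈ tsupport χ
      · rw [sum_psi P c2.isCompact subset_rfl hx, one_mul]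
      · rw [image_eq_zero_of_notMem_tsupport hx, mul_zero]
    rw [h1]
    refine ap_sum _ (fun i k => (P.ψ_sm i k).mul (c1 k)) fun i _ =>
      H i _ (tsupport (P.χ i)) (fun k => (P.ψ_sm i k).mul (c1 k)) (P.χ_cpt i) (P.χ_sub i)
        fun x hx => ?_
    rw [image_eq_zero_of_notMem_tsupport fun h' => hx (tsupport_psi P i h'), zero_mul]
  · have h1 : ∀ x, ‖PP K g t χ x - (g x, t x, 0)‖ ≤
        (Cᶜ.indicator (fun x => ‖g x‖ + ‖t x‖) + fun x => (δ : ℝ) * ‖g x‖) x := by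
      intro x
      refine (norm_PQ _ _ _ _).trans (add_le_add ?_ ?_)
      · by_cases hx : x ∈ C
        · rw [c3 x hx, indicator_of_notMem (notMem_compl_iff.2 hx)]
          simp
        · rw [indicator_of_mem (show x ∈ Cᶜ from hx)]
          refine mul_le_of_le_one_left (by positivity) (abs_le.2 ⟨?_, ?_⟩)
          · linarith [(c4 x).1]
          · linarith [(c4 x).2]
      · have h2 := norm_bb K (θ := χ) (x := x) (ε := (δ : ℝ) / 2) (by positivity)
          (c5 _ x (ix_mem x))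
        exact mul_le_mul_of_nonneg_right (by linarith) (norm_nonneg _)
    refine (eLpNorm_mono_real (f := fun x => PP K g t χ x - (g x, t x, 0)) h1).trans ((eLpNorm_add_le (hf.1.indicator hC.measurableSet.compl)
      (hg.1.norm.const_mul _) (by norm_num)).trans ?_)
    have h3 : eLpNorm (fun x => (δ : ℝ) * ‖g x‖) 2 (vm vol) ≤ ε / 2 := by
      refine le_trans ?_ hδ2.le
      refine (eLpNorm_le_nnreal_smul_eLpNorm_of_ae_le_mul (c := δ) (g := g)
        (Eventually.of_forall fun x => ?_) 2).trans (le_of_eq rfl)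
      rw [← NNReal.coe_le_coe]
      simp
    calc _ ≤ ε / 2 + ε / 2 := add_le_add hC2 h3
      _ = ε := ENNReal.add_halves ε

end

end Crest.Agent.T223.Hm
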