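import Crest.Agent.T223.Hm5_77

/-!
# Row 223, module HOER (helper77), part 6: tools for the chart piece of the density statement
-/

set_option autoImplicit false
set_option linter.unusedSectionVars false

open Set Filter Topology Complex Matrix MeasureTheory
open scoped ContDiff Matrix ComplexConjugate ComplexOrder ENNReal

namespace Crest.Agent.T223.Hm

open Crest.Agent.R275 Crest.Agent.R275.Geo Crest.Agent.R275.Core144
open Crest.Agent.R275.OmT75 (dl)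
open Crest.Agent.R273.Defs_333 Crest.Agent.R273.Kah_333 Crest.Agent.R273.Vm_333

noncomputable section

/-! ### quadratic bounds on compact sets -/

section quad

variable {X Y : Type*} [TopologicalSpace X] [NormedAddCommGroup Y] [NormedSpace ℝ Y]
  [ProperSpace Y] {C : Set X} {Q : X → Y → ℝ}

theorem quad_unit (hh : ∀ z y (r : ℝ), Q z (r • y) = r ^ 2 * Q z y) (z : X) {y : Y} (hy : y ≠ 0) :
    Q z y = ‖y‖ ^ 2 * Q z (‖y‖⁻¹ • y) ∧ ‖y‖⁻¹ • y ∈ Metric.sphere (0 : Y) 1 := by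
  have h0 : ‖y‖ ≠ 0 := norm_ne_zero_iff.2 hy
  refine ⟨by rw [hh]; field_simp, ?_⟩
  rw [mem_sphere_zero_iff_norm, norm_smul, norm_inv, norm_norm, inv_mul_cancel₀ h0]

theorem quad_ub (hC : IsCompact C) (hQ : ContinuousOn (fun p : X × Y => Q p.1 p.2) (C ×ˢ univ))
    (hh : ∀ z y (r : ℝ), Q z (r • y) = r ^ 2 * Q z y) :
    ∃ c : ℝ, 0 ≤ c ∧ ∀ z ∈ C, ∀ y, Q z y ≤ c ^ 2 * ‖y‖ ^ 2 := by
  obtain ⟨B, hB⟩ := ((hC.prod (isCompact_sphere (0 : Y) 1)).image_of_continuousOn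
    (hQ.mono (prod_mono subset_rfl (subset_univ _)))).bddAbove
  refine ⟨|B| + 1, by positivity, fun z hz y => ?_⟩
  by_cases hy : y = 0
  · have := hh z y 0
    rw [zero_smul, ← hy] at this
    rw [this, hy]
    simp
  · obtain ⟨h1, h2⟩ := quad_unit hh z hy
    have h3 : Q z (‖y‖⁻¹ • y) ≤ B := hB ⟨(z, _), ⟨hz, h2⟩, rfl⟩
    have h4 : B ≤ (|B| + 1) ^ 2 := by nlinarith [le_abs_self B, abs_nonneg B]
    rw [h1, mul_comm]
    gcongr
    exact h3.trans h4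

theorem quad_lb (hC : IsCompact C) (hQ : ContinuousOn (fun p : X × Y => Q p.1 p.2) (C ×ˢ univ))
    (hh : ∀ z y (r : ℝ), Q z (r • y) = r ^ 2 * Q z y) (hp : ∀ z ∈ C, ∀ y ≠ 0, 0 < Q z y) :
    ∃ c : ℝ, 0 ≤ c ∧ ∀ z ∈ C, ∀ y, ‖y‖ ^ 2 ≤ c ^ 2 * Q z y := by
  have hne : ∀ p ∈ C ×ˢ Metric.sphere (0 : Y) 1, 0 < Q p.1 p.2 := fun p hp' =>
    hp _ hp'.1 _ fun h0 => by simpa [h0] using hp'.2
  obtain ⟨B, hB⟩ := ((hC.prod (isCompact_sphere (0 : Y) 1)).image_of_continuousOn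
    ((hQ.mono (prod_mono subset_rfl (subset_univ _))).inv₀ fun p hp' => (hne p hp').ne')).bddAbove
  refine ⟨|B| + 1, by positivity, fun z hz y => ?_⟩
  by_cases hy : y = 0
  · have := hh z y 0
    rw [zero_smul, ← hy] at this
    rw [this, hy]
    simp
  · obtain ⟨h1, h2⟩ := quad_unit hh z hy
    have h3 : (Q z (‖y‖⁻¹ • y))⁻¹ ≤ B := hB ⟨(z, _), ⟨hz, h2⟩, rfl⟩
    have h4 : B ≤ (|B| + 1) ^ 2 := by nlinarith [le_abs_self B, abs_nonneg B]
    have h5 := hne (z, _) ⟨hz, h2⟩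
    have h6 : 1 ≤ (|B| + 1) ^ 2 * Q z (‖y‖⁻¹ • y) := by
      calc (1 : ℝ) = (Q z (‖y‖⁻¹ • y))⁻¹ * Q z (‖y‖⁻¹ • y) := (inv_mul_cancel₀ h5.ne').symm
        _ ≤ _ := mul_le_mul_of_nonneg_right (h3.trans h4) h5.le
    rw [h1, mul_left_comm]
    exact le_mul_of_one_le_right (by positivity) h6

end quad

/-! ### square integrable functions with compact support -/

section L2C

variable {X : Type*} [TopologicalSpace X] [T2Space X] [MeasurableSpace X] [BorelSpace X]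
  {μ : Measure X} {C : Set X}

/-- square integrable, zero off `C` -/
def L2C (μ : Measure X) (C : Set X) (f : X → ℂ) : Prop := MemLp f 2 μ ∧ ∀ z ∉ C, f z = 0

theorem L2C.add {f g : X → ℂ} (hf : L2C μ C f) (hg : L2C μ C g) : L2C μ C fun z => f z + g z :=
  ⟨hf.1.add hg.1, fun z hz => by simp only [hf.2 z hz, hg.2 z hz, add_zero]⟩

theorem L2C.sub {f g : X → ℂ} (hf : L2C μ C f) (hg : L2C μ C g) : L2C μ C fun z => f z - g z :=
  ⟨hf.1.sub hg.1, fun z hz => by simp only [hf.2 z hz, hg.2 z hz, sub_zero]⟩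

theorem L2C.sum {ι : Type*} [Fintype ι] {f : ι → X → ℂ} (hf : ∀ a, L2C μ C (f a)) :
    L2C μ C fun z => ∑ a, f a z :=
  ⟨memLp_finsetSum _ fun a _ => (hf a).1, fun z hz => Finset.sum_eq_zero fun a _ => (hf a).2 z hz⟩

theorem L2C.mul {f c : X → ℂ} (hf : L2C μ C f) (hC : IsCompact C) (hc : ContinuousOn c C) :
    L2C μ C fun z => c z * f z := by
  refine ⟨?_, fun z hz => by simp only [hf.2 z hz, mul_zero]⟩
  obtain ⟨B, hB⟩ := hC.exists_bound_of_continuousOn hc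
  have h1 : (fun z => c z * f z) = fun z => C.indicator c z * f z := by
    funext z
    by_cases hz : z ∈ C
    · rw [indicator_of_mem hz]
    · rw [hf.2 z hz, mul_zero, mul_zero]
  refine hf.1.of_le_mul (c := B) ?_ (Eventually.of_forall fun z => ?_)
  · rw [h1]
    exact ((aestronglyMeasurable_indicator_iff hC.measurableSet).2
      (hc.aestronglyMeasurable hC.measurableSet)).mul hf.1.1
  · by_cases hz : z ∈ C
    · rw [norm_mul]
      gcongr
      exact hB z hz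
    · simp [hf.2 z hz]

theorem L2C.integrable [IsFiniteMeasureOnCompacts μ] {f : X → ℂ} (hf : L2C μ C f)
    (hC : IsCompact C) : Integrable f μ :=
  memLp_one_iff_integrable.1
    (hf.1.mono_exponent_of_measure_support_ne_top hf.2 hC.measure_lt_top.ne (by norm_num))

end L2C

variable {n : ℕ} {M : Type} [TopologicalSpace M] {A : Atl n M} {N L : LB A} {i : A.ι}

/-! ### flat calculus -/

theorem Tst.contDiff {Φ : (Fin n → ℂ) → ℂ} (h : Tst A i Φ) : ContDiff ℝ ∞ Φ := by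
  obtain ⟨C, h1, h2, h3⟩ := h.cs
  refine contDiff_iff_contDiffAt.2 fun z => ?_
  by_cases hz : z ∈ C
  · exact h.sm.contDiffAt ((isOpen_Tz i).mem_nhds (h2 hz))
  · refine (contDiffAt_const (c := (0 : ℂ))).congr_of_eventuallyEq ?_
    filter_upwards [h1.isClosed.isOpen_compl.mem_nhds hz] with w hw using h3 w hw

theorem wF_off {s : ℂ} {a : Fin n} {Φ : (Fin n → ℂ) → ℂ} {C : Set (Fin n → ℂ)} (hC : IsCompact C)
    (h0 : ∀ z ∉ C, Φ z = 0) {z : Fin n → ℂ} (hz : z ∉ C) : wF s a Φ z = 0 := by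
  rw [wF_congr (Ψ := fun _ => 0)]
  · simp [wF]
  · filter_upwards [hC.isClosed.isOpen_compl.mem_nhds hz] with w hw using h0 w hw

theorem Tst.wF {Φ : (Fin n → ℂ) → ℂ} (h : Tst A i Φ) (s : ℂ) (a : Fin n) : Tst A i (wF s a Φ) := by
  obtain ⟨C, h1, h2, h3⟩ := h.cs
  exact ⟨(contDiff_wF h.contDiff).contDiffOn, C, h1, h2, fun z hz => wF_off h1 h3 hz⟩

theorem Tst.sub {Φ Ψ : (Fin n → ℂ) → ℂ} (h : Tst A i Φ) (h' : Tst A i Ψ) :
    Tst A i fun z => Φ z - Ψ z := by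
  obtain ⟨C, h1, h2, h3⟩ := h.cs
  obtain ⟨C', h1', h2', h3'⟩ := h'.cs
  exact ⟨h.sm.sub h'.sm, C ∪ C', h1.union h1', union_subset h2 h2', fun z hz => by
    rw [h3 z fun h => hz (Or.inl h), h3' z fun h => hz (Or.inr h), sub_zero]⟩

theorem wF_lin {s : ℂ} {a : Fin n} {Φ Ψ : (Fin n → ℂ) → ℂ} {z : Fin n → ℂ} (c d : ℂ)
    (h1 : DifferentiableAt ℝ Φ z) (h2 : DifferentiableAt ℝ Ψ z) :
    wF s a (fun w => c * Φ w - d * Ψ w) z = c * wF s a Φ z - d * wF s a Ψ z := by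
  have h := ((h1.hasFDerivAt.const_mul c).sub (h2.hasFDerivAt.const_mul d)).fderiv
  have h' : fderiv ℝ (fun w => c * Φ w - d * Ψ w) z = c • fderiv ℝ Φ z - d • fderiv ℝ Ψ z := h
  simp only [wF, wL_apply, h', _root_.sub_apply, _root_.smul_apply, smul_eq_mul]
  ring

theorem dd_flat (s : ℂ) (a : Fin n) (f : M → ℂ) (x : M) :
    dd A s i a f x = wF s a (fun w => f (sz A i w)) (cz A i x) := by
  rw [wF, wL_apply, fderiv_sz, fderiv_sz]
  rfl

theorem extS_supp {Φ : (Fin n → ℂ) → ℂ} (h : Tst A i Φ) :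
    ∃ C, IsCompact C ∧ C ⊆ (A.e i).source ∧ ∀ j, ∀ x ∉ C, extS N i Φ j x = 0 := by
  obtain ⟨C, h1, h2, h3⟩ := h.cs
  refine ⟨_, isCompact_sz h1 h2, ?_, fun j x hx => ?_⟩
  · rintro _ ⟨z, hz, rfl⟩
    exact sz_mem (h2 hz)
  by_cases hi : x ∈ (A.e i).source
  · rw [extS, if_pos hi, h3 _ (cz_notMem hi hx), mul_zero]
  · exact extS_off hi j

theorem extF_supp {Φ : (Fin n → ℂ) → Fin n → ℂ} (h : ∀ a, Tst A i fun z => Φ z a) :
    ∃ C, IsCompact C ∧ C ⊆ (A.e i).source ∧ ∀ j, ∀ x ∉ C, extF N i Φ j x = 0 := by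
  choose C h1 h2 h3 using fun a => (h a).cs
  refine ⟨_, isCompact_sz (isCompact_iUnion h1) (iUnion_subset h2), ?_, fun j x hx => ?_⟩
  · rintro _ ⟨z, hz, rfl⟩
    exact sz_mem (iUnion_subset h2 hz)
  by_cases hi : x ∈ (A.e i).source
  · have h4 : Φ (cz A i x) = 0 := funext fun a =>
      h3 a _ fun h' => cz_notMem hi hx (mem_iUnion.2 ⟨a, h'⟩)
    rw [extF, if_pos hi, h4, Matrix.mulVec_zero, smul_zero]
  · exact extF_off hi j

/-- the weight in flat coordinates -/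
def wz (h : HM L) (i : A.ι) (z : Fin n → ℂ) : ℂ := h.w i (sz A i z)

/-- the transposed metric in flat coordinates -/
def Gz (K : Kah A) (i : A.ι) (z : Fin n → ℂ) : Mx n := (K.g i (sz A i z))ᵀ

theorem sm_wz (h : HM L) (i : A.ι) : ContDiffOn ℝ ∞ (wz h i) (Tz A i) :=
  smAt_flat (C1d194.smAt_ofReal (h.sm i))

theorem sm_Gz (K : Kah A) (i : A.ι) (a b : Fin n) :
    ContDiffOn ℝ ∞ (fun z => Gz K i z a b) (Tz A i) := smAt_flat (K.sm i b a)

theorem wz_ne (h : HM L) {z : Fin n → ℂ} (hz : z ∈ Tz A i) : wz h i z ≠ 0 := w_ne h (sz_mem hz)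

theorem extF_sz {Φ : (Fin n → ℂ) → Fin n → ℂ} {z : Fin n → ℂ} (hz : z ∈ Tz A i) :
    extF N i Φ i (sz A i z) = Φ z := by rw [extF_self (sz_mem hz), cz_sz hz]

theorem extS_sz {Φ : (Fin n → ℂ) → ℂ} {z : Fin n → ℂ} (hz : z ∈ Tz A i) :
    extS N i Φ i (sz A i z) = Φ z := by rw [extS_self (sz_mem hz), cz_sz hz]

theorem dv_extF (h : HM L) {Φ : (Fin n → ℂ) → Fin n → ℂ} {z : Fin n → ℂ} (hz : z ∈ Tz A i) :
    dv h (extF N i Φ) i (sz A i z) =
      (wz h i z)⁻¹ * ∑ a, wF (-I) a (fun y => wz h i y * Φ y a) z := by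
  rw [dv_def]
  congr 1
  refine Finset.sum_congr rfl fun a _ => ?_
  rw [dd_flat, cz_sz hz]
  exact wF_congrOn hz fun y hy => by rw [extF_sz hy]; rfl

theorem al_extF (K : Kah A) {Φ : (Fin n → ℂ) → Fin n → ℂ} {z : Fin n → ℂ} (hz : z ∈ Tz A i)
    (k l : Fin n) : al K (extF N i Φ) i (sz A i z) k l =
      wF I k (fun y => (Gz K i y *ᵥ Φ y) l) z - wF I l (fun y => (Gz K i y *ᵥ Φ y) k) z := by
  rw [al, Matrix.of_apply, db_flat, db_flat, cz_sz hz]
  congr 1 <;> exact wF_congrOn hz fun y hy => by rw [lw, extF_sz hy]; rfl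

theorem dbs_extS {Φ : (Fin n → ℂ) → ℂ} {z : Fin n → ℂ} (hz : z ∈ Tz A i) (a : Fin n) :
    dbs (extS N i Φ) i (sz A i z) a = wF I a Φ z := by
  rw [dbs, db_flat, cz_sz hz]
  exact wF_congrOn hz fun y hy => extS_sz hy

/-! ### the flat operator -/

/-- first component -/
def pr1 (a : Fin n) : ((Fin n → ℂ) × (Fin n → ℂ)) →L[ℝ] ℂ :=
  (ContinuousLinearMap.proj a).comp (ContinuousLinearMap.fst ℝ _ _)

/-- second component -/
def pr2 (a : Fin n) : ((Fin n → ℂ) × (Fin n → ℂ)) →L[ℝ] ℂ :=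
  (ContinuousLinearMap.proj a).comp (ContinuousLinearMap.snd ℝ _ _)

/-- Wirtinger derivative of a component -/
def wP (s : ℂ) (a : Fin n) (π : ((Fin n → ℂ) × (Fin n → ℂ)) →L[ℝ] ℂ) :
    ((Fin n → ℂ) →L[ℝ] ((Fin n → ℂ) × (Fin n → ℂ))) →L[ℝ] ℂ :=
  (wL s a).comp (ContinuousLinearMap.compL ℝ _ _ _ π)

/-- divergence of the first component, `∂̄` of the second -/
def Lo (n : ℕ) : ((Fin n → ℂ) →L[ℝ] ((Fin n → ℂ) × (Fin n → ℂ))) →L[ℝ] (ℂ × (Fin n → Fin n → ℂ)) :=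
  (∑ a, wP (-I) a (pr1 a)).prod (ContinuousLinearMap.pi fun k => ContinuousLinearMap.pi fun l =>
    wP I k (pr2 l) - wP I l (pr2 k))

theorem Lo_apply (D : (Fin n → ℂ) →L[ℝ] ((Fin n → ℂ) × (Fin n → ℂ))) :
    Lo n D = (∑ a, wP (-I) a (pr1 a) D, fun k l => wP I k (pr2 l) D - wP I l (pr2 k) D) := by
  refine Prod.ext ?_ rfl
  exact _root_.sum_apply Finset.univ (fun a => wP (-I) a (pr1 a)) D

theorem wP_fderiv {s : ℂ} {a : Fin n} {π : ((Fin n → ℂ) × (Fin n → ℂ)) →L[ℝ] ℂ}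
    {F : (Fin n → ℂ) → (Fin n → ℂ) × (Fin n → ℂ)} {z : Fin n → ℂ} (hF : DifferentiableAt ℝ F z) :
    wP s a π (fderiv ℝ F z) = wF s a (fun y => π (F y)) z := by
  have h := (π.hasFDerivAt.comp z hF.hasFDerivAt).fderiv
  rw [wF, show (fun y => π (F y)) = π ∘ F from rfl, h]
  rfl

theorem wP_smulRight {s : ℂ} {a : Fin n} {π : ((Fin n → ℂ) × (Fin n → ℂ)) →L[ℝ] ℂ}
    {η : (Fin n → ℂ) → ℝ} {z : Fin n → ℂ} (hη : DifferentiableAt ℝ η z) (y : (Fin n → ℂ) × (Fin n → ℂ)) :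
    wP s a π ((fderiv ℝ η z).smulRight y) = wF s a (fun w => (η w : ℂ)) z * π y := by
  have h : fderiv ℝ (fun w => (η w : ℂ)) z = Complex.ofRealCLM.comp (fderiv ℝ η z) :=
    (Complex.ofRealCLM.hasFDerivAt.comp z hη.hasFDerivAt).fderiv
  rw [wF, h, wL_apply]
  change (1 / 2 : ℂ) * (π (fderiv ℝ η z (Pi.single a 1) • y) +
    s * π (fderiv ℝ η z (Pi.single a I) • y)) = _
  simp only [map_smul, Complex.real_smul, ContinuousLinearMap.comp_apply, Complex.ofRealCLM_apply]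
  ring

/-- the coefficient of the flat operator -/
def az (h : HM L) (K : Kah A) (i : A.ι) (z : Fin n → ℂ) :
    (Fin n → ℂ) →L[ℝ] ((Fin n → ℂ) × (Fin n → ℂ)) :=
  LinearMap.toContinuousLinearMap
    { toFun := fun y => (wz h i z • y, Gz K i z *ᵥ y)
      map_add' := fun y y' => by rw [smul_add, Matrix.mulVec_add]; rfl
      map_smul' := fun c y => by
        rw [smul_comm, Matrix.mulVec_smul]; rfl }

theorem az_apply (h : HM L) (K : Kah A) (z y : Fin n → ℂ) :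
    az h K i z y = (wz h i z • y, Gz K i z *ᵥ y) := rfl

theorem sm_az (h : HM L) (K : Kah A) (i : A.ι) : ContDiffOn ℝ ∞ (az h K i) (Tz A i) := by
  refine contDiffOn_clm_apply.2 fun y => ?_
  simp only [az_apply]
  refine ((sm_wz h i).smul contDiffOn_const).prodMk (contDiffOn_pi.2 fun a => ?_)
  simp only [Matrix.mulVec, dotProduct]
  exact ContDiffOn.sum fun b _ => (sm_Gz K i a b).mul contDiffOn_const

end

end Crest.Agent.T223.Hm
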