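import Crest.Agent.T223.Hm6_77

/-!
# Row 223, module HOER (helper77), part 7: the weak equations in a chart
-/

set_option autoImplicit false
set_option linter.unusedSectionVars false

open Set Filter Topology Complex Matrix MeasureTheory
open scoped ContDiff Matrix ComplexConjugate ComplexOrder ENNReal

namespace Crest.Agent.T223.Hm

open Crest.Agent.R275 Crest.Agent.R275.Geo Crest.Agent.R275.Core144
open Crest.Agent.R275.OmT75 (dl)
open Crest.Agent.R273.Defs_333 Crest.Agent.R273.Kah_333 Crest.Agent.R273.Vm_333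

noncomputable section

variable {n : ℕ} {M : Type} [TopologicalSpace M] {A : Atl n M} {N L : LB A} [Countable A.ι]
  (h : HM ((KB A)⁻¹ * N)) (vol : HM (KB A)⁻¹) (K : Kah A)

/-- chart components of a vector given in the unitary frame -/
def un (i : A.ι) (x : M) (u : E2 n) : Fin n → ℂ :=
  (o1 h vol i x)⁻¹ • ((S2 K i x)ᴴ *ᵥ WithLp.ofLp u)

/-- flat components of an `L²` field -/
def gz (g : M → E2 n) (i : A.ι) (z : Fin n → ℂ) : Fin n → ℂ :=
  un h vol K i (sz A i z) (g (sz A i z))

/-- flat component of an `L²` section -/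
def tz (t : M → ℂ) (i : A.ι) (z : Fin n → ℂ) : ℂ := (o1 h vol i (sz A i z))⁻¹ * t (sz A i z)

variable {i : A.ι} {x : M} {g : M → E2 n} {t : M → ℂ}

theorem t2_un (hx : x ∈ (A.e i).source) (u : E2 n) : t2 h vol K i x (un h vol K i x u) = u := by
  rw [t2, un, Matrix.mulVec_smul, smul_smul, mul_inv_cancel₀ (o1_ne h vol i x), one_smul,
    Matrix.mulVec_mulVec, O2_S2H K hx, Matrix.one_mulVec]

theorem t2_gz {z : Fin n → ℂ} (hz : z ∈ Tz A i) :
    t2 h vol K i (sz A i z) (gz h vol K g i z) = g (sz A i z) := t2_un h vol K (sz_mem hz) _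

theorem o1_tz (z : Fin n → ℂ) : o1 h vol i (sz A i z) * tz h vol t i z = t (sz A i z) :=
  mul_inv_cancel_left₀ (o1_ne h vol i _) _

theorem hq_smul (P : Mx n) (y : Fin n → ℂ) (r : ℝ) : hq P (r • y) = r ^ 2 * hq P y := by
  rw [hq, hq, star_smul, Matrix.mulVec_smul, smul_dotProduct, dotProduct_smul, smul_smul,
    Complex.smul_re, star_trivial, smul_eq_mul, sq]

theorem hU_smul (P U : Mx n) (r : ℝ) : hU P (r • U) = r ^ 2 * hU P U := by
  rw [hU, hU, Matrix.conjTranspose_smul, Matrix.smul_mul, Matrix.smul_mul, Matrix.mul_smul,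
    Matrix.smul_mul, Matrix.smul_mul, smul_smul, Matrix.trace_smul, Complex.smul_re, star_trivial,
    smul_eq_mul, sq]

theorem hq_pos {P : Mx n} (hP : (Pᵀ).PosDef) {y : Fin n → ℂ} (hy : y ≠ 0) : 0 < hq P y :=
  (Complex.pos_iff.1 (hP.dotProduct_mulVec_pos hy)).1

theorem contOn_wr (i : A.ι) : ContinuousOn (fun z => h.w i (sz A i z)) (Tz A i) :=
  (smAt_flat (h.sm i)).continuousOn

theorem contOn_hq (i : A.ι) : ContinuousOn
    (fun p : (Fin n → ℂ) × (Fin n → ℂ) => h.w i (sz A i p.1) * hq (K.g i (sz A i p.1)) p.2)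
    (Tz A i ×ˢ univ) := by
  refine ((contOn_wr h i).comp continuousOn_fst fun p hp => hp.1).mul ?_
  have h1 : Continuous fun p : Mx n × (Fin n → ℂ) => hq p.1 p.2 := by
    unfold hq
    exact Complex.continuous_re.comp (continuous_snd.star.dotProduct
      (continuous_fst.matrix_transpose.matrix_mulVec continuous_snd))
  exact h1.comp_continuousOn (s := Tz A i ×ˢ univ)
    (f := fun p : (Fin n → ℂ) × (Fin n → ℂ) => (K.g i (sz A i p.1), p.2))
    ((((contOn_g K i).comp (contOn_sz i) fun _ hz => sz_mem hz).comp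
      continuousOn_fst fun p hp => hp.1).prodMk continuousOn_snd)

theorem contOn_hU (i : A.ι) : ContinuousOn
    (fun p : (Fin n → ℂ) × (Fin n → Fin n → ℂ) =>
      h.w i (sz A i p.1) * hU (K.g i (sz A i p.1)) (Matrix.of p.2)) (Tz A i ×ˢ univ) := by
  refine ((contOn_wr h i).comp continuousOn_fst fun p hp => hp.1).mul ?_
  have h1 : Continuous fun p : Mx n × Mx n => (Matrix.trace (p.2ᴴ * p.1 * p.2 * p.1ᵀ)).re :=
    Complex.continuous_re.comp (((continuous_snd.matrix_conjTranspose.mul continuous_fst).mul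
      continuous_snd).mul continuous_fst.matrix_transpose).matrix_trace
  have h2 := h1.comp_continuousOn (s := Tz A i ×ˢ univ)
    (f := fun p : (Fin n → ℂ) × (Fin n → Fin n → ℂ) =>
      (((K.g i (sz A i p.1))ᵀ)⁻¹, Matrix.of p.2))
    ((((contOn_gTi K i).comp (contOn_sz i) fun _ hz => sz_mem hz).comp
      continuousOn_fst fun p hp => hp.1).prodMk continuousOn_snd)
  refine h2.congr fun p _ => ?_
  simp only [hU, Function.comp, ← Matrix.transpose_nonsing_inv, Matrix.transpose_transpose]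

variable [T2Space M] [MeasurableSpace M] [BorelSpace M]

theorem int_r2 {v : A.ι → M → Fin n → ℂ} (hv : IsF N v)
    (h0 : ∀ x ∉ (A.e i).source, v (ix A x) x = 0) (hg : AEStronglyMeasurable g (vm vol)) :
    ∫ x, inner ℂ (r2 h vol K v x) (g x) ∂(vm vol) =
      ∫ z in Tz A i, wz h i z * (star (v i (sz A i z)) ⬝ᵥ (Gz K i z *ᵥ gz h vol K g i z)) := by
  rw [← setIntegral_eq_integral_of_forall_compl_eq_zero (s := (A.e i).source)
    fun x hx => by rw [r2, h0 x hx, t2_zero, inner_zero_left],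
    integral_chart vol ((aesm_r2 h vol K hv.sm _).inner hg).restrict]
  refine setIntegral_congr_fun (isOpen_Tz i).measurableSet fun z hz => ?_
  rw [r2_eq h vol K hv (sz_mem hz), ← t2_gz h vol K (g := g) hz, inner_t2 h vol K (sz_mem hz),
    Complex.real_smul, mul_inv_cancel_left₀ (w_ne vol (sz_mem hz))]
  rfl

theorem int_r1 {s : A.ι → M → ℂ} (hs : IsS N s)
    (h0 : ∀ x ∉ (A.e i).source, s (ix A x) x = 0) (ht : AEStronglyMeasurable t (vm vol)) :
    ∫ x, conj (r1 h vol s x) * t x ∂(vm vol) =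
      ∫ z in Tz A i, wz h i z * (conj (s i (sz A i z)) * tz h vol t i z) := by
  rw [← setIntegral_eq_integral_of_forall_compl_eq_zero (s := (A.e i).source)
    fun x hx => by rw [r1, h0 x hx, mul_zero, map_zero, zero_mul],
    integral_chart vol (f := fun x => conj (r1 h vol s x) * t x)
      ((Complex.continuous_conj.comp_aestronglyMeasurable (aesm_r1 h vol hs.sm _)).mul ht).restrict]
  refine setIntegral_congr_fun (isOpen_Tz i).measurableSet fun z hz => ?_
  have h1 := w_ne vol (sz_mem hz)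
  rw [r1_eq h vol hs.tr (sz_mem hz), ← o1_tz h vol (t := t) (i := i) z, map_mul, mul_mul_mul_comm,
    o1_conj h vol (sz_mem hz), Complex.real_smul, wz]
  push_cast
  field_simp

/-- the weak divergence equation in a chart -/
theorem weak1 (hg : AEStronglyMeasurable g (vm vol)) (ht : AEStronglyMeasurable t (vm vol))
    (hW : ∀ s, IsS N s → Cs s → ∫ x, inner ℂ (r2 h vol K (sh K s) x) (g x) ∂(vm vol) =
      ∫ x, conj (r1 h vol s x) * t x ∂(vm vol)) {Φ : (Fin n → ℂ) → ℂ} (hΦ : Tst A i Φ) :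
    ∫ z in Tz A i, wz h i z * ∑ a, conj (wF I a Φ z) * gz h vol K g i z a =
      ∫ z in Tz A i, wz h i z * (conj (Φ z) * tz h vol t i z) := by
  obtain ⟨C, hC, hs, h0⟩ := extS_supp (N := N) hΦ
  have h1 := hW _ (extS_isS hΦ) (extS_cs hΦ)
  rw [int_r2 h vol K (i := i) (sh_isF K (extS_isS hΦ)) (fun x hx => by
      have h1 : dbs (extS N i Φ) (ix A x) x = 0 := funext fun a =>
        dd_zero_off hC (h0 _) (ix_mem x) fun h' => hx (hs h')
      rw [sh, h1, Matrix.mulVec_zero]) hg,
    int_r1 h vol (i := i) (extS_isS hΦ) (fun x hx => extS_off hx _) ht] at h1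
  refine Eq.trans ?_ (h1.trans ?_)
  · refine setIntegral_congr_fun (isOpen_Tz i).measurableSet fun z hz => ?_
    congr 1
    have h2 : (Gz K i z)ᴴ = Gz K i z := (posDef_gT K (sz_mem hz)).isHermitian.eq
    rw [Matrix.dotProduct_mulVec, ← h2, ← Matrix.star_mulVec]
    have h3 : Gz K i z *ᵥ sh K (extS N i Φ) i (sz A i z) = fun a => wF I a Φ z :=
      (lw_sh K _ (sz_mem hz)).trans (funext fun a => dbs_extS hz a)
    rw [h3]
    rfl
  · refine setIntegral_congr_fun (isOpen_Tz i).measurableSet fun z hz => ?_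
    rw [extS_sz hz]

/-- weak `∂̄`-closedness in a chart -/
theorem weak2 (hg : AEStronglyMeasurable g (vm vol))
    (hN : ∀ v, IsF N v → Cs v → (∀ i, ∀ x ∈ (A.e i).source, dv h v i x = 0) →
      ∫ x, inner ℂ (r2 h vol K v x) (g x) ∂(vm vol) = 0) {Φ : (Fin n → ℂ) → ℂ} (hΦ : Tst A i Φ)
    (k l : Fin n) :
    ∫ z in Tz A i, (conj (wF (-I) k Φ z) * (Gz K i z *ᵥ gz h vol K g i z) l -
      conj (wF (-I) l Φ z) * (Gz K i z *ᵥ gz h vol K g i z) k) = 0 := by
  obtain ⟨δ, hδ⟩ : ∃ δ : Fin n → Fin n → ℂ, ∀ a b, δ a b = if a = b then 1 else 0 :=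
    ⟨_, fun _ _ => rfl⟩
  obtain ⟨e, he⟩ : ∃ e : (Fin n → ℂ) → Fin n → ℂ, ∀ z a, e z a =
    (wz h i z)⁻¹ * (δ a l * wF (-I) k Φ z - δ a k * wF (-I) l Φ z) := ⟨_, fun _ _ => rfl⟩
  have hT : ∀ a, Tst A i fun z => e z a := fun a => by
    simp only [he]
    exact (((hΦ.wF _ k).mul contDiffOn_const).sub ((hΦ.wF _ l).mul contDiffOn_const)).mul
      ((sm_wz h i).inv fun z hz => wz_ne h hz)
  obtain ⟨C, hC, hs, h0⟩ := extF_supp (N := N) hT
  have hd : ∀ a z, DifferentiableAt ℝ (wF (-I) a Φ) z := fun a z =>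
    ((contDiff_wF hΦ.contDiff).differentiable (by simp)) z
  have h1 : ∀ x ∈ (A.e i).source, dv h (extF N i e) i x = 0 := by
    intro x hx
    have hz := cz_mem hx
    rw [← sz_cz hx, dv_extF h hz]
    have h2 : ∀ a, wF (-I) a (fun y => wz h i y * e y a) (cz A i x) =
        δ a l * wF (-I) a (wF (-I) k Φ) (cz A i x) - δ a k * wF (-I) a (wF (-I) l Φ) (cz A i x) := by
      intro a
      rw [← wF_lin _ _ (hd k _) (hd l _)]
      exact wF_congrOn hz fun y hy => by rw [he, mul_inv_cancel_left₀ (wz_ne h hy)]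
    simp only [h2, hδ, Finset.sum_sub_distrib, ite_mul, one_mul, zero_mul, Finset.sum_ite_eq',
      Finset.mem_univ, if_true]
    rw [wF_comm hΦ.contDiff, sub_self, mul_zero]
  have h2 := hN _ (extF_isF hT) (extF_cs hT) fun j x hx => by
    by_cases hi : x ∈ (A.e i).source
    · rw [(dv_isS h (extF_isF hT)).tr j i x ⟨hx, hi⟩, h1 x hi, mul_zero]
    · exact dv_off h hC h0 hx fun h' => hi (hs h')
  rw [int_r2 h vol K (i := i) (extF_isF hT) (fun x hx => extF_off hx _) hg] at h2
  refine Eq.trans ?_ h2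
  refine setIntegral_congr_fun (isOpen_Tz i).measurableSet fun z hz => ?_
  have h3 : conj (wz h i z) = wz h i z := Complex.conj_ofReal _
  rw [extF_sz hz, dotProduct]
  simp only [Pi.star_apply, he, star_def, map_mul, map_sub, map_inv₀, h3, mul_assoc,
    ← Finset.mul_sum, mul_inv_cancel_left₀ (wz_ne h hz), hδ, sub_mul, Finset.sum_sub_distrib,
    apply_ite conj, map_zero, ite_mul, one_mul, zero_mul, Finset.sum_ite_eq',
    Finset.mem_univ, if_true]

theorem aesm_ind {W : Type*} [TopologicalSpace W] [Zero W] {C : Set (Fin n → ℂ)} (hC : IsCompact C)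
    (hs : C ⊆ Tz A i) {f : M → W}
    (hf : AEStronglyMeasurable f ((vm vol).restrict (A.e i).source)) :
    AEStronglyMeasurable (C.indicator fun z => f (sz A i z)) volume :=
  (aestronglyMeasurable_indicator_iff hC.measurableSet).2
    ((aesm_flat vol hf).mono_measure (Measure.restrict_mono hs le_rfl))

theorem l2c_gz (hg : MemLp g 2 (vm vol)) {C : Set (Fin n → ℂ)} (hC : IsCompact C)
    (hs : C ⊆ Tz A i) (a : Fin n) : L2C volume C fun z => C.indicator (gz h vol K g i) z a := by
  refine ⟨MemLp.eval ?_ a, fun z hz => by simp only [indicator_of_notMem hz, Pi.zero_apply]⟩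
  obtain ⟨c, hc, hb⟩ := quad_lb (Q := fun z y => h.w i (sz A i z) * hq (K.g i (sz A i z)) y) hC
    ((contOn_hq h K i).mono (prod_mono hs subset_rfl)) (fun z y r => by rw [hq_smul]; ring)
    fun z hz y hy => mul_pos (h.pos i _ (sz_mem (hs hz))) (hq_pos (posDef_gT K (sz_mem (hs hz))) hy)
  refine ⟨aesm_ind vol hC hs (f := fun x => un h vol K i x (g x)) (aesm_pi fun b => ?_), ?_⟩
  · simp only [un, Pi.smul_apply, smul_eq_mul, Matrix.mulVec, dotProduct,
      Matrix.conjTranspose_apply]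
    refine (aesm_o1 h vol i _).aemeasurable.inv.aestronglyMeasurable.mul
      (Finset.aestronglyMeasurable_fun_sum _ fun d _ => ?_)
    exact (continuous_star.comp_aestronglyMeasurable (aesm_S2 K i _ d b)).mul
      (hg.eval_piLp d).1.restrict
  · refine (flat_le vol (i := i) hg.1 hc (fun z hz => indicator_of_notMem (fun h' => hz (hs h')) _)
      fun z hz => ?_).trans_lt (ENNReal.mul_lt_top ENNReal.ofReal_lt_top hg.2)
    have hv := vol.pos i _ (sz_mem hz)
    by_cases hz' : z ∈ C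
    · rw [indicator_of_mem hz', ← t2_gz h vol K (g := g) hz, norm_t2 h vol K (sz_mem hz),
        mul_inv_cancel_left₀ hv.ne']
      exact hb z hz' _
    · rw [indicator_of_notMem hz', norm_zero, zero_pow two_ne_zero]
      positivity

theorem l2c_tz (ht : MemLp t 2 (vm vol)) {C : Set (Fin n → ℂ)} (hC : IsCompact C)
    (hs : C ⊆ Tz A i) : L2C volume C (C.indicator (tz h vol t i)) := by
  refine ⟨?_, fun z hz => indicator_of_notMem hz _⟩
  obtain ⟨c, hc, hb⟩ := quad_lb (Q := fun z (y : ℂ) => h.w i (sz A i z) * ‖y‖ ^ 2) hC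
    ((((contOn_wr h i).mono hs).comp continuousOn_fst fun p hp => hp.1).mul
      (continuous_snd.norm.pow 2).continuousOn)
    (fun z y r => by rw [norm_smul, mul_pow, Real.norm_eq_abs, sq_abs]; ring)
    fun z hz y hy => mul_pos (h.pos i _ (sz_mem (hs hz))) (pow_pos (norm_pos_iff.2 hy) 2)
  refine ⟨aesm_ind vol hC hs (f := fun x => (o1 h vol i x)⁻¹ * t x)
    ((aesm_o1 h vol i _).aemeasurable.inv.aestronglyMeasurable.mul ht.1.restrict), ?_⟩
  refine (flat_le vol (i := i) ht.1 hc (fun z hz => indicator_of_notMem (fun h' => hz (hs h')) _)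
    fun z hz => ?_).trans_lt (ENNReal.mul_lt_top ENNReal.ofReal_lt_top ht.2)
  have hv := vol.pos i _ (sz_mem hz)
  by_cases hz' : z ∈ C
  · rw [indicator_of_mem hz', ← o1_tz h vol (t := t) (i := i) z, norm_t1 h vol (sz_mem hz),
      mul_inv_cancel_left₀ hv.ne']
    exact hb z hz' _
  · rw [indicator_of_notMem hz', norm_zero, zero_pow two_ne_zero]
    positivity

end

end Crest.Agent.T223.Hm
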