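import Crest.Agent.R271.H3_88

/-!
# Row 223 (helper7): Friedrichs' commutator lemma in a flat space
-/

set_option autoImplicit false
set_option linter.unusedSectionVars false

noncomputable section

open Set Filter Topology MeasureTheory Metric
open scoped Convolution ENNReal ContDiff

namespace Crest.Agent.T223.Hm.Fr7

open Crest.Agent.R271.H88

variable {E : Type*} [NormedAddCommGroup E] [NormedSpace ℝ E] [FiniteDimensional ℝ E]
  [MeasurableSpace E] [BorelSpace E] (μ : Measure E) [μ.IsAddHaarMeasure]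
  {V : Type*} [NormedAddCommGroup V] [NormedSpace ℝ V] [FiniteDimensional ℝ V]
  {V' : Type*} [NormedAddCommGroup V'] [NormedSpace ℝ V'] [FiniteDimensional ℝ V']
  {W : Type*} [NormedAddCommGroup W] [NormedSpace ℝ W] [FiniteDimensional ℝ W]
  {r : ℝ} (hr : 0 < r)

theorem int_drho {v : E → V} (hv : LocallyIntegrable v μ) (x : E) :
    Integrable (fun t => (fderiv ℝ (rho μ hr) (x - t)).smulRight (v t)) μ := by
  have h1 := (((rho_cs μ hr).fderiv ℝ).convolutionExists_left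
    ((ContinuousLinearMap.lsmul ℝ ℝ : ℝ →L[ℝ] V →L[ℝ] V).precompL E)
    ((rho_contDiff μ hr).continuous_fderiv (by simp)) hv x).integrable_swap
  refine h1.congr (Eventually.of_forall fun t => ?_)
  ext e
  simp [ContinuousLinearMap.precompL_apply]

/-- the derivative falls on the mollifier -/
theorem fderiv_mo_left {v : E → V} (hv : LocallyIntegrable v μ) (x : E) :
    fderiv ℝ (mo μ hr v) x = ∫ t, (fderiv ℝ (rho μ hr) (x - t)).smulRight (v t) ∂μ := by
  have hfd : fderiv ℝ (mo μ hr v) x =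
      (fderiv ℝ (rho μ hr) ⋆[(ContinuousLinearMap.lsmul ℝ ℝ).precompL E, μ] v) x :=
    ((rho_cs μ hr).hasFDerivAt_convolution_left _
      ((rho_contDiff μ hr).of_le (by exact_mod_cast le_top)) hv x).fderiv
  rw [hfd, convolution_eq_swap]
  refine integral_congr_ae (Eventually.of_forall fun t => ?_)
  ext e
  simp [ContinuousLinearMap.precompL_apply]

/-- the derivative falls on the function -/
theorem fderiv_mo_right {g : E → V} (hg : ContDiff ℝ 1 g) (hc : HasCompactSupport g) (x : E) :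
    fderiv ℝ (mo μ hr g) x = mo μ hr (fderiv ℝ g) x := by
  have h := (hc.hasFDerivAt_convolution_right (ContinuousLinearMap.lsmul ℝ ℝ)
    (rho_integrable μ hr).locallyIntegrable hg x).fderiv
  refine h.trans ?_
  unfold mo
  rw [convolution_def, convolution_def]
  refine integral_congr_ae (Eventually.of_forall fun t => ?_)
  ext e
  simp [ContinuousLinearMap.precompR_apply]

theorem drho_zero {y : E} (hy : r < ‖y‖) : fderiv ℝ (rho μ hr) y = 0 := by
  have h4 : y ∉ tsupport (rho μ hr) := by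
    intro h5
    have h6 : tsupport (rho μ hr) ⊆ closedBall 0 r := by
      rw [tsupport, rho_support]; exact closure_ball_subset_closedBall
    have := h6 h5
    rw [mem_closedBall, dist_zero_right] at this
    exact absurd hy (not_lt.mpr this)
  have := (notMem_tsupport_iff_eventuallyEq.mp h4).fderiv_eq (𝕜 := ℝ)
  rw [this]; simp

/-- the weak equation passes to the mollification -/
theorem lo_fderiv_mo (L : (E →L[ℝ] V) →L[ℝ] W) {v : E → V} {w : E → W}
    (hv : LocallyIntegrable v μ) {K U : Set E} (hKU : cthickening (2 * r) K ⊆ U)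
    (hvK : ∀ x ∉ K, v x = 0) (hwK : ∀ x ∉ K, w x = 0)
    (h : ∀ θ : E → ℝ, ContDiff ℝ ∞ θ → HasCompactSupport θ → tsupport θ ⊆ U →
      ∫ x, L ((fderiv ℝ θ x).smulRight (v x)) ∂μ = - ∫ x, θ x • w x ∂μ) (x : E) :
    L (fderiv ℝ (mo μ hr v) x) = mo μ hr w x := by
  rw [fderiv_mo_left μ hr hv, ← L.integral_comp_comm (int_drho μ hr hv x)]
  by_cases hx : ∀ y ∈ K, r < dist x y
  · rw [mo_zero μ hr hwK fun y hy => (hx y hy).le]
    refine integral_eq_zero_of_ae (Eventually.of_forall fun t => ?_)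
    have h4 : (fderiv ℝ (rho μ hr) (x - t)).smulRight (v t) = 0 := by
      by_cases ht : t ∈ K
      · rw [drho_zero μ hr (by rw [← dist_eq_norm]; exact hx t ht)]; ext e; simp
      · ext e; simp [hvK t ht]
    simp [h4]
  · push Not at hx
    obtain ⟨y, hy, hxy⟩ := hx
    have hθs : ContDiff ℝ ∞ (fun t => rho μ hr (x - t)) :=
      (rho_contDiff μ hr).comp (contDiff_const.sub contDiff_id)
    have hts : tsupport (fun t => rho μ hr (x - t)) ⊆ closedBall x r := by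
      apply closure_minimal _ isClosed_closedBall
      intro t ht
      rw [mem_closedBall, dist_comm, dist_eq_norm]
      by_contra hlt
      exact ht (rho_zero μ hr (by linarith))
    have hθU : tsupport (fun t => rho μ hr (x - t)) ⊆ U := by
      refine hts.trans (Subset.trans (fun t ht => ?_) hKU)
      rw [mem_closedBall] at ht
      refine mem_cthickening_of_dist_le t y _ _ hy ?_
      linarith [dist_triangle t x y]
    have h3 := h _ hθs
      ((isCompact_closedBall x r).of_isClosed_subset (isClosed_tsupport _) hts) hθU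
    rw [mo_apply]
    have h5 : ∀ t, L ((fderiv ℝ (fun t => rho μ hr (x - t)) t).smulRight (v t)) =
        - L ((fderiv ℝ (rho μ hr) (x - t)).smulRight (v t)) := by
      intro t
      have h5 : HasFDerivAt (fun t : E => x - t) (-(ContinuousLinearMap.id ℝ E)) t := by
        simpa using (hasFDerivAt_id (𝕜 := ℝ) t).const_sub x
      have h6 : HasFDerivAt (rho μ hr) (fderiv ℝ (rho μ hr) (x - t)) (x - t) :=
        ((rho_contDiff μ hr).differentiable (by simp) (x - t)).hasFDerivAt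
      have h7 : HasFDerivAt (fun t => rho μ hr (x - t)) _ t := h6.comp t h5
      rw [h7.fderiv, ← map_neg]
      congr 1
      ext e
      simp
    simp_rw [h5] at h3
    rwa [integral_neg, neg_inj] at h3

theorem tsupport_mo {v : E → V} {K : Set E} (hvK : ∀ x ∉ K, v x = 0) :
    tsupport (mo μ hr v) ⊆ cthickening r K := by
  refine closure_minimal (fun x hx => ?_) isClosed_cthickening
  by_contra hcon
  refine hx (mo_zero μ hr hvK fun y hy => ?_)
  by_contra hlt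
  exact hcon (mem_cthickening_of_dist_le x y r _ hy (by linarith))

/-! ### scaling of the mollifier -/

theorem bp_scale (y : E) : bp (E := E) hr y = bp (E := E) one_pos (r⁻¹ • y) := by
  rw [ContDiffBump.apply, ContDiffBump.apply]
  have h1 : r / (r / 2) = 1 / (1 / 2) := by field_simp
  have h2 : (r / 2)⁻¹ = (1 / 2)⁻¹ * r⁻¹ := by field_simp
  simp only [bp, sub_zero, smul_smul, h1, h2]

theorem rho_scale (y : E) :
    rho μ hr y = (r ^ Module.finrank ℝ E)⁻¹ * rho μ one_pos (r⁻¹ • y) := by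
  have h1 : ∫ x, bp (E := E) hr x ∂μ = r ^ Module.finrank ℝ E • ∫ x, bp (E := E) one_pos x ∂μ := by
    simp only [bp_scale hr]
    exact Measure.integral_comp_inv_smul_of_nonneg μ (fun x => bp (E := E) one_pos x) hr.le
  rw [rho, rho, ContDiffBump.normed_def, ContDiffBump.normed_def, h1, bp_scale hr, smul_eq_mul]
  field_simp

theorem integral_drho : ∫ y, r * ‖fderiv ℝ (rho μ hr) y‖ ∂μ =
    ∫ y, ‖fderiv ℝ (rho μ one_pos) y‖ ∂μ := by
  have h0 : 0 < r ^ Module.finrank ℝ E := pow_pos hr _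
  have h1 : ∀ y, r * ‖fderiv ℝ (rho μ hr) y‖ =
      (r ^ Module.finrank ℝ E)⁻¹ * ‖fderiv ℝ (rho μ one_pos) (r⁻¹ • y)‖ := fun y => by
    have h2 : HasFDerivAt (fun y : E => r⁻¹ • y) (r⁻¹ • ContinuousLinearMap.id ℝ E) y :=
      (hasFDerivAt_id y).const_smul r⁻¹
    have h3 := ((((rho_contDiff μ one_pos).differentiable (by simp) (r⁻¹ • y)).hasFDerivAt.comp y
      h2).const_mul (r ^ Module.finrank ℝ E)⁻¹).fderiv
    have h4 : rho μ hr = fun y => (r ^ Module.finrank ℝ E)⁻¹ *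
        (rho μ one_pos ∘ fun y : E => r⁻¹ • y) y := funext fun y => rho_scale μ hr y
    rw [h4, h3, ContinuousLinearMap.comp_smul, ContinuousLinearMap.comp_id, norm_smul, norm_smul,
      Real.norm_of_nonneg (inv_pos.2 h0).le, Real.norm_of_nonneg (inv_pos.2 hr).le]
    field_simp
  simp only [h1]
  rw [integral_const_mul, Measure.integral_comp_inv_smul_of_nonneg μ
    (fun y => ‖fderiv ℝ (rho μ one_pos) y‖) hr.le, smul_eq_mul, inv_mul_cancel_left₀ h0.ne']

theorem lintegral_drho : ∫⁻ y, ENNReal.ofReal (r * ‖fderiv ℝ (rho μ hr) y‖) ∂μ =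
    ENNReal.ofReal (∫ y, ‖fderiv ℝ (rho μ one_pos) y‖ ∂μ) := by
  have h1 : Integrable (fderiv ℝ (rho μ hr)) μ :=
    ((rho_contDiff μ hr).continuous_fderiv (by simp)).integrable_of_hasCompactSupport
      ((rho_cs μ hr).fderiv ℝ)
  rw [← integral_drho μ hr, ofReal_integral_eq_lintegral_ofReal (h1.norm.const_mul r)
    (Eventually.of_forall fun y => by positivity)]

/-! ### the commutator -/

/-- `b ∘ D (ρ * v) - D (ρ * (b v))` -/
def cm (b : E → V →L[ℝ] V') (v : E → V) (x : E) : E →L[ℝ] V' :=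
  (b x).comp (fderiv ℝ (mo μ hr v) x) - fderiv ℝ (mo μ hr fun t => b t (v t)) x

theorem memLp_app {b : E → V →L[ℝ] V'} (hb : Continuous b) {B : ℝ} (hB : ∀ x, ‖b x‖ ≤ B)
    {v : E → V} (hv : MemLp v 2 μ) : MemLp (fun t => b t (v t)) 2 μ := by
  refine hv.of_le_mul (c := B) ?_ (Eventually.of_forall fun x =>
    ((b x).le_opNorm _).trans (mul_le_mul_of_nonneg_right (hB x) (norm_nonneg _)))
  exact isBoundedBilinearMap_apply.continuous.comp_aestronglyMeasurable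
    (hb.aestronglyMeasurable.prodMk hv.1)

theorem cm_bound {b : E → V →L[ℝ] V'} (hb : Continuous b) {B : ℝ} (hB0 : 0 ≤ B)
    (hB : ∀ x, ‖b x‖ ≤ B) (hL : ∀ x y, ‖b x - b y‖ ≤ B * ‖x - y‖) {v : E → V}
    (hv : MemLp v 2 μ) : eLpNorm (cm μ hr b v) 2 μ ≤
      ENNReal.ofReal B * ENNReal.ofReal (∫ y, ‖fderiv ℝ (rho μ one_pos) y‖ ∂μ) *
        eLpNorm v 2 μ := by
  have h1 := locInt μ hv
  have h2 := locInt μ (memLp_app μ hb hB hv)
  set k : E → ℝ≥0∞ := fun y => ENNReal.ofReal B * ENNReal.ofReal (r * ‖fderiv ℝ (rho μ hr) y‖)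
    with hk
  have hm : Measurable fun y => ENNReal.ofReal (r * ‖fderiv ℝ (rho μ hr) y‖) :=
    (continuous_const.mul ((rho_contDiff μ hr).continuous_fderiv (by simp)).norm).measurable
      |>.ennreal_ofReal
  have hpt : ∀ x, ‖cm μ hr b v x‖ₑ ≤ ∫⁻ t, k (x - t) * ‖v t‖ₑ ∂μ := fun x => by
    have e1 : (b x).comp (fderiv ℝ (mo μ hr v) x) =
        ∫ t, (fderiv ℝ (rho μ hr) (x - t)).smulRight (b x (v t)) ∂μ := by
      rw [fderiv_mo_left μ hr h1]
      exact ((ContinuousLinearMap.compL ℝ E V V' (b x)).integral_comp_comm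
        (int_drho μ hr h1 x)).symm.trans
        (integral_congr_ae (Eventually.of_forall fun t => by ext e; simp))
    have e2 : Integrable (fun t => (fderiv ℝ (rho μ hr) (x - t)).smulRight (b x (v t))) μ :=
      ((ContinuousLinearMap.compL ℝ E V V' (b x)).integrable_comp (int_drho μ hr h1 x)).congr
        (Eventually.of_forall fun t => by ext e; simp)
    rw [cm, e1, fderiv_mo_left μ hr h2, ← integral_sub e2 (int_drho μ hr h2 x)]
    refine (enorm_integral_le_lintegral_enorm _).trans (lintegral_mono fun t => ?_)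
    have e3 : (fderiv ℝ (rho μ hr) (x - t)).smulRight (b x (v t)) -
        (fderiv ℝ (rho μ hr) (x - t)).smulRight (b t (v t)) =
        (fderiv ℝ (rho μ hr) (x - t)).smulRight ((b x - b t) (v t)) := by
      ext e; simp [smul_sub]
    simp only [hk]
    rw [e3, ← ofReal_norm, ← ofReal_norm, ← ENNReal.ofReal_mul hB0,
      ← ENNReal.ofReal_mul (by positivity), ContinuousLinearMap.norm_smulRight_apply]
    refine ENNReal.ofReal_le_ofReal ?_
    by_cases ht : r < ‖x - t‖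
    · rw [drho_zero μ hr ht]; simp
    · have e4 : ‖(b x - b t) (v t)‖ ≤ B * r * ‖v t‖ :=
        ((b x - b t).le_opNorm _).trans (mul_le_mul_of_nonneg_right
          ((hL x t).trans (mul_le_mul_of_nonneg_left (not_lt.1 ht) hB0)) (norm_nonneg _))
      calc _ ≤ ‖fderiv ℝ (rho μ hr) (x - t)‖ * (B * r * ‖v t‖) :=
            mul_le_mul_of_nonneg_left e4 (norm_nonneg _)
        _ = _ := by ring
  have hy := (lintegral_mono fun x => pow_le_pow_left' (hpt x) 2).trans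
    (young_lintegral μ (k := k) (g := fun x => ‖v x‖ₑ) (hm.const_mul _) hv.1.enorm)
  rw [hk, lintegral_const_mul _ hm, lintegral_drho] at hy
  rw [eLpNorm_two, eLpNorm_two]
  refine (ENNReal.rpow_le_rpow hy (by norm_num)).trans (le_of_eq ?_)
  rw [ENNReal.mul_rpow_of_nonneg _ _ (by norm_num), ← ENNReal.rpow_natCast, ← ENNReal.rpow_mul]
  norm_num

theorem cm_cont {b : E → V →L[ℝ] V'} (hb : Continuous b) {v : E → V} (h1 : LocallyIntegrable v μ)
    (h2 : LocallyIntegrable (fun t => b t (v t)) μ) : Continuous (cm μ hr b v) :=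
  (hb.clm_comp ((mo_contDiff μ hr h1).continuous_fderiv (by simp))).sub
    ((mo_contDiff μ hr h2).continuous_fderiv (by simp))

theorem cm_sub (b : E → V →L[ℝ] V') {v φ : E → V} (h1 : LocallyIntegrable v μ)
    (h2 : LocallyIntegrable (fun t => b t (v t)) μ) (h3 : LocallyIntegrable φ μ)
    (h4 : LocallyIntegrable (fun t => b t (φ t)) μ) (x : E) :
    cm μ hr b (v - φ) x = cm μ hr b v x - cm μ hr b φ x := by
  have e : (fun t => b t ((v - φ) t)) = (fun t => b t (v t)) - fun t => b t (φ t) := by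
    funext t; simp
  have d : ∀ {X : Type _} [NormedAddCommGroup X] [NormedSpace ℝ X] [FiniteDimensional ℝ X]
      {g : E → X}, LocallyIntegrable g μ → DifferentiableAt ℝ (mo μ hr g) x :=
    fun h => (mo_contDiff μ hr h).differentiable (by simp) x
  have d' : ∀ {g : E → V'}, LocallyIntegrable g μ → DifferentiableAt ℝ (mo μ hr g) x :=
    fun h => (mo_contDiff μ hr h).differentiable (by simp) x
  rw [cm, cm, cm, e, mo_sub μ hr h1 h3, mo_sub μ hr h2 h4, fderiv_sub (d h1) (d h3),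
    fderiv_sub (d' h2) (d' h4), ContinuousLinearMap.comp_sub]
  abel

theorem alg_bound (Lo : (E →L[ℝ] V') →L[ℝ] W) (b₀ : V →L[ℝ] V') (b₁ : E →L[ℝ] V →L[ℝ] V')
    {B : ℝ} (hB : 1 ≤ B) (hB1 : ‖b₀‖ ≤ B) (hB2 : ‖b₁‖ ≤ B) (y1 : V) (y2 : E →L[ℝ] V')
    (y3 : E →L[ℝ] V) (y4 : E →L[ℝ] V') (y5 : W) :
    ‖Lo (b₁.flip y1 + y2 + b₀.comp y3 - y4) + y5‖ ≤
      (‖Lo‖ + 1) * B * ‖‖y1‖ + ‖y2‖ + ‖y3‖ + ‖y4‖ + ‖y5‖‖ := by
  rw [Real.norm_of_nonneg (by positivity)]
  have e1 : ‖b₁.flip y1‖ ≤ B * ‖y1‖ :=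
    (ContinuousLinearMap.le_opNorm _ _).trans (mul_le_mul_of_nonneg_right
      ((ContinuousLinearMap.opNorm_flip _).le.trans hB2) (norm_nonneg _))
  have e3 : ‖b₀.comp y3‖ ≤ B * ‖y3‖ :=
    (ContinuousLinearMap.opNorm_comp_le _ _).trans (mul_le_mul_of_nonneg_right hB1 (norm_nonneg _))
  have e2 := le_mul_of_one_le_left (norm_nonneg y2) hB
  have e4 := le_mul_of_one_le_left (norm_nonneg y4) hB
  have e5 := le_mul_of_one_le_left (norm_nonneg y5) hB
  have e6 : ‖b₁.flip y1 + y2 + b₀.comp y3 - y4‖ ≤ B * (‖y1‖ + ‖y2‖ + ‖y3‖ + ‖y4‖) := by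
    linarith [norm_sub_le (b₁.flip y1 + y2 + b₀.comp y3) y4,
      norm_add₃_le (a := b₁.flip y1) (b := y2) (c := b₀.comp y3)]
  have e7 := (Lo.le_opNorm _).trans (mul_le_mul_of_nonneg_left e6 (norm_nonneg Lo))
  have e8 : 0 ≤ B * (‖y1‖ + ‖y2‖ + ‖y3‖ + ‖y4‖) := by positivity
  have e9 : 0 ≤ ‖Lo‖ * (B * ‖y5‖) := by positivity
  refine (norm_add_le _ _).trans ?_
  have e10 : (‖Lo‖ + 1) * B * (‖y1‖ + ‖y2‖ + ‖y3‖ + ‖y4‖ + ‖y5‖) =
      ‖Lo‖ * (B * (‖y1‖ + ‖y2‖ + ‖y3‖ + ‖y4‖)) + ‖Lo‖ * (B * ‖y5‖) +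
        B * (‖y1‖ + ‖y2‖ + ‖y3‖ + ‖y4‖) + B * ‖y5‖ := by ring
  linarith

theorem five {X1 X2 X3 X4 X5 : Type*} [NormedAddCommGroup X1] [NormedAddCommGroup X2]
    [NormedAddCommGroup X3] [NormedAddCommGroup X4] [NormedAddCommGroup X5]
    {f1 : E → X1} {f2 : E → X2} {f3 : E → X3} {f4 : E → X4} {f5 : E → X5}
    (m1 : AEStronglyMeasurable f1 μ) (m2 : AEStronglyMeasurable f2 μ)
    (m3 : AEStronglyMeasurable f3 μ) (m4 : AEStronglyMeasurable f4 μ)
    (m5 : AEStronglyMeasurable f5 μ) :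
    eLpNorm (fun x => ‖f1 x‖ + ‖f2 x‖ + ‖f3 x‖ + ‖f4 x‖ + ‖f5 x‖) 2 μ ≤
      eLpNorm f1 2 μ + eLpNorm f2 2 μ + eLpNorm f3 2 μ + eLpNorm f4 2 μ + eLpNorm f5 2 μ := by
  have t1 := eLpNorm_add_le (p := 2) m1.norm m2.norm (by norm_num)
  have t2 := eLpNorm_add_le (p := 2) (m1.norm.add m2.norm) m3.norm (by norm_num)
  have t3 := eLpNorm_add_le (p := 2) ((m1.norm.add m2.norm).add m3.norm) m4.norm (by norm_num)
  have t4 := eLpNorm_add_le (p := 2) (((m1.norm.add m2.norm).add m3.norm).add m4.norm) m5.norm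
    (by norm_num)
  rw [eLpNorm_norm] at t2 t3 t4
  rw [eLpNorm_norm, eLpNorm_norm] at t1
  exact t4.trans (add_le_add_left (t3.trans (add_le_add_left (t2.trans
    (add_le_add_left t1 _)) _)) _)

theorem ident (Lo : (E →L[ℝ] V') →L[ℝ] W) {b : E → V →L[ℝ] V'} (hb : ContDiff ℝ ∞ b)
    {v φ : E → V} {ψ : E → V'} {w : E → W} (hψ : ψ = fun t => b t (φ t))
    (hlv : LocallyIntegrable v μ) (hbv : LocallyIntegrable (fun t => b t (v t)) μ)
    (hφs : ContDiff ℝ ∞ φ) (hφc : HasCompactSupport φ) (hψs : ContDiff ℝ ∞ ψ)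
    (hψc : HasCompactSupport ψ) (x : E)
    (hkey : Lo (fderiv ℝ (mo μ hr fun t => b t (v t)) x) = mo μ hr w x) :
    Lo (fderiv ℝ (fun y => b y (mo μ hr v y)) x) - w x =
      Lo ((fderiv ℝ b x).flip ((mo μ hr v - φ) x) + cm μ hr b (v - φ) x +
        (b x).comp ((mo μ hr (fderiv ℝ φ) - fderiv ℝ φ) x) -
        (mo μ hr (fderiv ℝ ψ) - fderiv ℝ ψ) x) + (mo μ hr w - w) x := by
  have hbd : DifferentiableAt ℝ b x := hb.differentiable (by simp) x
  have e1 := fderiv_clm_apply hbd ((mo_contDiff μ hr hlv).differentiable (by simp) x)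
  have e2 : fderiv ℝ ψ x = _ := hψ ▸ fderiv_clm_apply hbd (hφs.differentiable (by simp) x)
  rw [cm_sub μ hr b hlv hbv hφs.continuous.locallyIntegrable
      (hψ ▸ hψs.continuous.locallyIntegrable), cm, cm,
    fderiv_mo_right μ hr (hφs.of_le (by simp)) hφc, ← hψ,
    fderiv_mo_right μ hr (hψs.of_le (by simp)) hψc]
  simp only [Pi.sub_apply]
  rw [e1, e2, ← hkey, map_sub ((fderiv ℝ b x).flip), ContinuousLinearMap.comp_sub]
  simp only [map_add, map_sub]
  abel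

theorem exists_bd {X : Type*} [NormedAddCommGroup X] [NormedSpace ℝ X] {b : E → X}
    (hb : ContDiff ℝ ∞ b) (hbc : HasCompactSupport b) : ∃ B, 1 ≤ B ∧ (∀ x, ‖b x‖ ≤ B) ∧
      (∀ x, ‖fderiv ℝ b x‖ ≤ B) ∧ ∀ x y, ‖b x - b y‖ ≤ B * ‖x - y‖ := by
  obtain ⟨B1, hB1⟩ := hbc.exists_bound_of_continuous hb.continuous
  obtain ⟨B2, hB2⟩ := (hbc.fderiv ℝ).exists_bound_of_continuous (hb.continuous_fderiv (by simp))
  have h2 : ∀ x, ‖fderiv ℝ b x‖ ≤ max 1 (max B1 B2) :=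
    fun x => (hB2 x).trans ((le_max_right _ _).trans (le_max_right _ _))
  exact ⟨max 1 (max B1 B2), le_max_left _ _,
    fun x => (hB1 x).trans ((le_max_left _ _).trans (le_max_right _ _)), h2, fun x y =>
    convex_univ.norm_image_sub_le_of_norm_fderiv_le (fun z _ => hb.differentiable (by simp) z)
      (fun z _ => h2 z) (mem_univ y) (mem_univ x)⟩

/-- Friedrichs' lemma for a coefficient that is smooth with compact support -/
theorem fried_cs (Lo : (E →L[ℝ] V') →L[ℝ] W) {b : E → V →L[ℝ] V'} (hb : ContDiff ℝ ∞ b)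
    (hbc : HasCompactSupport b) {C U : Set E} (hC : IsCompact C) {d : ℝ} (hd : 0 < d)
    (hU : cthickening (2 * d) C ⊆ U) {v : E → V} {w : E → W} (hv : MemLp v 2 μ)
    (hw : MemLp w 2 μ) (hvC : ∀ x ∉ C, v x = 0) (hwC : ∀ x ∉ C, w x = 0)
    (h : ∀ θ : E → ℝ, ContDiff ℝ ∞ θ → HasCompactSupport θ → tsupport θ ⊆ U →
      ∫ x, Lo ((fderiv ℝ θ x).smulRight (b x (v x))) ∂μ = - ∫ x, θ x • w x ∂μ)
    {ε : ℝ≥0∞} (hε : 0 < ε) :
    ∃ f : E → V, ContDiff ℝ ∞ f ∧ tsupport f ⊆ cthickening d C ∧ eLpNorm (f - v) 2 μ ≤ ε ∧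
      eLpNorm (fun x => Lo (fderiv ℝ (fun y => b y (f y)) x) - w x) 2 μ ≤ ε := by
  have hb0 := hb.continuous
  obtain ⟨B, hB, hB1, hB2, hL⟩ := exists_bd hb hbc
  have hB0 : 0 ≤ B := by linarith
  obtain ⟨K, hK⟩ : ∃ K : ℝ≥0∞, K =
    ENNReal.ofReal B * ENNReal.ofReal (∫ y, ‖fderiv ℝ (rho μ one_pos) y‖ ∂μ) := ⟨_, rfl⟩
  obtain ⟨A, hA⟩ : ∃ A : ℝ, A = (‖Lo‖ + 1) * B := ⟨_, rfl⟩
  obtain ⟨η, hη, hηε⟩ := ENNReal.exists_nnreal_pos_mul_lt
    (a := ENNReal.ofReal A * (5 + K) + 1) (by simp [hK, ENNReal.mul_eq_top]) hε.ne'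
  have hη' : (η : ℝ≥0∞) ≠ 0 := by exact_mod_cast hη.ne'
  obtain ⟨δ₁, hδ₁, h₁⟩ := mo_tendsto μ hv hη'
  have hlv := locInt μ hv
  obtain ⟨φ, hφs, hφc, hφv⟩ : ∃ φ : E → V, ContDiff ℝ ∞ φ ∧ HasCompactSupport φ ∧
      eLpNorm (v - φ) 2 μ ≤ η :=
    ⟨mo μ hδ₁ v, mo_contDiff μ hδ₁ hlv, (hC.cthickening (r := δ₁)).of_isClosed_subset
      (isClosed_tsupport _) (tsupport_mo μ hδ₁ hvC),
      by rw [eLpNorm_sub_comm]; exact h₁ δ₁ hδ₁ le_rfl⟩
  have hφm : MemLp φ 2 μ := hφs.continuous.memLp_of_hasCompactSupport hφc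
  obtain ⟨ψ, hψ⟩ : ∃ ψ : E → V', ψ = fun t => b t (φ t) := ⟨_, rfl⟩
  have hψs : ContDiff ℝ ∞ ψ := hψ ▸ hb.clm_apply hφs
  have hψc : HasCompactSupport ψ := hφc.mono fun x hx h0 => hx (by simp [hψ, h0])
  have hφ1 : Continuous (fderiv ℝ φ) := hφs.continuous_fderiv (by simp)
  have hψ1 : Continuous (fderiv ℝ ψ) := hψs.continuous_fderiv (by simp)
  have hφm' : MemLp (fderiv ℝ φ) 2 μ := hφ1.memLp_of_hasCompactSupport (hφc.fderiv ℝ)
  have hψm' : MemLp (fderiv ℝ ψ) 2 μ := hψ1.memLp_of_hasCompactSupport (hψc.fderiv ℝ)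
  obtain ⟨δ₂, hδ₂, h₂⟩ := mo_tendsto μ hw hη'
  obtain ⟨δ₃, hδ₃, h₃⟩ := mo_tendsto μ hφm' hη'
  obtain ⟨δ₄, hδ₄, h₄⟩ := mo_tendsto μ hψm' hη'
  obtain ⟨r, hr, r0, r1, r2, r3, r4⟩ : ∃ r : ℝ, 0 < r ∧ r ≤ d ∧ r ≤ δ₁ ∧ r ≤ δ₂ ∧ r ≤ δ₃ ∧ r ≤ δ₄ :=
    ⟨min (min d δ₁) (min δ₂ (min δ₃ δ₄)), by positivity, by simp, by simp, by simp, by simp,
      by simp⟩
  have hfs : ContDiff ℝ ∞ (mo μ hr v) := mo_contDiff μ hr hlv
  refine ⟨mo μ hr v, hfs, (tsupport_mo μ hr hvC).trans (cthickening_mono r0 C),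
    (h₁ r hr r1).trans (le_trans ?_ hηε.le), ?_⟩
  · exact le_mul_of_one_le_right' le_add_self
  have hbv := locInt μ (memLp_app μ hb0 hB1 hv)
  have hkey := lo_fderiv_mo μ hr Lo hbv ((cthickening_mono (by linarith) C).trans hU)
    (fun x hx => by simp [hvC x hx]) hwC h
  have hpt : ∀ x, ‖Lo (fderiv ℝ (fun y => b y (mo μ hr v y)) x) - w x‖ ≤
      A * ‖‖(mo μ hr v - φ) x‖ + ‖cm μ hr b (v - φ) x‖ + ‖(mo μ hr (fderiv ℝ φ) - fderiv ℝ φ) x‖ +
        ‖(mo μ hr (fderiv ℝ ψ) - fderiv ℝ ψ) x‖ + ‖(mo μ hr w - w) x‖‖ := fun x => by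
    rw [ident μ hr Lo hb hψ hlv hbv hφs hφc hψs hψc x (hkey x), hA]
    exact alg_bound Lo _ _ hB (hB1 x) (hB2 x) _ _ _ _ _
  refine (eLpNorm_le_mul_eLpNorm_of_ae_le_mul (Eventually.of_forall hpt) 2).trans
    (le_trans ?_ hηε.le)
  have m1 : AEStronglyMeasurable (mo μ hr v - φ) μ := (mo_aesm μ hr hlv).sub hφm.1
  have m2 : AEStronglyMeasurable (cm μ hr b (v - φ)) μ :=
    (cm_cont μ hr hb0 (locInt μ (hv.sub hφm))
      (locInt μ (memLp_app μ hb0 hB1 (hv.sub hφm)))).aestronglyMeasurable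
  have m3 := (mo_aesm μ hr (locInt μ hφm')).sub hφm'.1
  have m4 := (mo_aesm μ hr (locInt μ hψm')).sub hψm'.1
  have m5 := (mo_aesm μ hr (locInt μ hw)).sub hw.1
  have n1 : eLpNorm (mo μ hr v - φ) 2 μ ≤ η + η := by
    have e : mo μ hr v - φ = (mo μ hr v - v) + (v - φ) := by abel
    rw [e]
    exact (eLpNorm_add_le ((mo_aesm μ hr hlv).sub hv.1) (hv.1.sub hφm.1) (by norm_num)).trans
      (add_le_add (h₁ r hr r1) hφv)
  have n2 : eLpNorm (cm μ hr b (v - φ)) 2 μ ≤ K * η :=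
    hK ▸ (cm_bound μ hr hb0 hB0 hB1 hL (hv.sub hφm)).trans (mul_le_mul_right hφv _)
  have t5 := (five μ m1 m2 m3 m4 m5).trans (add_le_add (add_le_add (add_le_add
    (add_le_add n1 n2) (h₃ r hr r3)) (h₄ r hr r4)) (h₂ r hr r2))
  calc _ ≤ ENNReal.ofReal A * (η + η + K * η + η + η + η) := mul_le_mul_right t5 _
    _ = η * (ENNReal.ofReal A * (5 + K)) := by ring
    _ ≤ _ := mul_le_mul_right le_self_add _

end Crest.Agent.T223.Hm.Fr7
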