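import Crest.Agent.T223.Hm0_77
import Crest.Agent.T223.HmFrA_7

/-!
# Row 223 (helper7): the leaf `FriedStmt` (Friedrichs' lemma)
-/

set_option autoImplicit false

open Set Filter Topology MeasureTheory Metric
open scoped ContDiff Manifold

namespace Crest.Agent.T223.Hm

/-- leaf FRIED -/
theorem fried : FriedStmt := by
  intro E V V' W _ _ _ _ _ _ _ _ _ _ _ _ _ _ μ _ Lo a C U hC hU hCU ha v w hv hw hvC hwC h
  obtain ⟨d, hd, hdU⟩ := hC.exists_cthickening_subset_open hU hCU
  have h1 : cthickening (d / 2) C ⊆ interior (cthickening d C) :=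
    (cthickening_subset_thickening' hd (by linarith) C).trans
      (interior_maximal (thickening_subset_cthickening d C) isOpen_thickening)
  obtain ⟨χ, hχ1, hχ0, -⟩ := exists_contMDiffMap_one_nhds_of_subset_interior (n := ⊤) 𝓘(ℝ, E)
    isClosed_cthickening h1
  have hχ : ContDiff ℝ ∞ χ := χ.contMDiff.contDiff
  have hχ1' : ∀ x ∈ cthickening (d / 2) C, χ x = 1 := hχ1.self_of_nhdsSet
  have hts : tsupport (fun x => χ x • a x) ⊆ cthickening d C :=
    closure_minimal (fun x hx => by_contra fun hc => hx (by simp [hχ0 x hc])) isClosed_cthickening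
  have hb : ContDiff ℝ ∞ fun x => χ x • a x := by
    refine contDiff_iff_contDiffAt.2 fun x => ?_
    by_cases hx : x ∈ tsupport fun x => χ x • a x
    · exact hχ.contDiffAt.smul (ha.contDiffAt (hU.mem_nhds (hdU (hts hx))))
    · exact contDiffAt_const.congr_of_eventuallyEq (notMem_tsupport_iff_eventuallyEq.1 hx)
  have hbc : HasCompactSupport fun x => χ x • a x :=
    (hC.cthickening (r := d)).of_isClosed_subset (isClosed_tsupport _) hts
  have hd2 : 2 * (d / 2) = d := by ring
  refine ⟨cthickening (d / 2) C, hC.cthickening, self_subset_cthickening C,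
    (cthickening_mono (by linarith) C).trans hdU, fun ε hε => ?_⟩
  obtain ⟨f, hf1, hf2, hf3, hf4⟩ := Fr7.fried_cs μ Lo hb hbc hC (half_pos hd) (hd2.symm ▸ hdU) hv hw
    hvC hwC (fun θ h1 h2 h3 => by
      rw [← h θ h1 h2 h3]
      refine integral_congr_ae (Eventually.of_forall fun x => ?_)
      by_cases hx : x ∈ C
      · simp only [hχ1' x (self_subset_cthickening C hx), one_smul]
      · simp only [hvC x hx, map_zero]) hε
  refine ⟨f, hf1, hf2, hf3, le_trans (le_of_eq ?_) hf4⟩
  have e : (fun y => a y (f y)) = fun y => (χ y • a y) (f y) := funext fun y => by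
    by_cases hy : y ∈ tsupport f
    · rw [hχ1' y (hf2 hy), one_smul]
    · rw [image_eq_zero_of_notMem_tsupport hy, map_zero, map_zero]
  rw [e]

end Crest.Agent.T223.Hm
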