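import Crest.Agent.T223.Hm7_77
import Crest.Agent.T223.HmFr_7

/-!
# Row 223, module HOER (helper77), part 8: density of test fields in the graph norm
-/

set_option autoImplicit false
set_option linter.unusedSectionVars false

open Set Filter Topology Complex Matrix MeasureTheory
open scoped ContDiff Matrix ComplexConjugate ComplexOrder ENNReal

namespace Crest.Agent.T223.Hm

open Crest.Agent.R275 Crest.Agent.R275.Geo Crest.Agent.R275.Core144
open Crest.Agent.R275.OmT75 (dl)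
open Crest.Agent.R273.Defs_333 Crest.Agent.R273.Kah_333 Crest.Agent.R273.Vm_333

noncomputable section

variable {n : ℕ} {M : Type} [TopologicalSpace M] {A : Atl n M} {N L : LB A} [Countable A.ι]
  (h : HM ((KB A)⁻¹ * N)) (vol : HM (KB A)⁻¹) (K : Kah A)

/-- from flat data to the graph space -/
def TT (i : A.ι) (z : Fin n → ℂ) (y : Fin n → ℂ) (d : ℂ × (Fin n → Fin n → ℂ)) : EW n :=
  (t2 h vol K i (sz A i z) y, -(o1 h vol i (sz A i z) * ((wz h i z)⁻¹ * d.1)),
    t3 h vol K i (sz A i z) (Matrix.of d.2))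

/-- the flat right hand side -/
def WT (i : A.ι) (ϑ : (Fin n → ℂ) → ℂ) (z : Fin n → ℂ) (y : Fin n → ℂ) (τ : ℂ) :
    ℂ × (Fin n → Fin n → ℂ) :=
  (wz h i z * (∑ a, wF (-I) a ϑ z * y a - ϑ z * τ),
    fun k l => wF I k ϑ z * (Gz K i z *ᵥ y) l - wF I l ϑ z * (Gz K i z *ᵥ y) k)

variable {i : A.ι} {x : M} {g : M → E2 n} {t : M → ℂ} {θ : M → ℝ} {z : Fin n → ℂ}

theorem TT_sub (y y' : Fin n → ℂ) (d d' : ℂ × (Fin n → Fin n → ℂ)) :
    TT h vol K i z y d - TT h vol K i z y' d' = TT h vol K i z (y - y') (d - d') := by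
  simp only [TT, Prod.mk_sub_mk, t2_sub, ← t3_sub, Prod.fst_sub, Prod.snd_sub]
  congr 2
  ring

theorem TT_zero : TT h vol K i z 0 0 = 0 := by
  simp only [TT, t2_zero, Prod.fst_zero, Prod.snd_zero, mul_zero, neg_zero]
  rw [show Matrix.of (0 : Fin n → Fin n → ℂ) = 0 from rfl, t3_zero]
  rfl

theorem WT_zero (ϑ : (Fin n → ℂ) → ℂ) : WT h K i ϑ z 0 0 = 0 := by
  simp only [WT, Matrix.mulVec_zero, Pi.zero_apply, mul_zero, sub_zero, Finset.sum_const_zero]
  rfl

theorem wF_real {Φ : (Fin n → ℂ) → ℂ} (hr : ∀ z, conj (Φ z) = Φ z) (a : Fin n) (z : Fin n → ℂ) :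
    conj (wF I a Φ z) = wF (-I) a Φ z := by
  have h1 := wF_conj (s := -I) (a := a) (Φ := Φ) (z := z)
  simp only [hr, map_neg, Complex.conj_I, neg_neg] at h1
  exact h1.symm

theorem wF_real' {Φ : (Fin n → ℂ) → ℂ} (hr : ∀ z, conj (Φ z) = Φ z) (a : Fin n) (z : Fin n → ℂ) :
    conj (wF (-I) a Φ z) = wF I a Φ z := by rw [← wF_real hr, Complex.conj_conj]

theorem PP_chart (hθ : A.Sm θ) {ϑ : (Fin n → ℂ) → ℂ} (hϑ : ∀ z ∈ Tz A i, ϑ z = θ (sz A i z))
    (hr : ∀ z, conj (ϑ z) = ϑ z) (hz : z ∈ Tz A i) :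
    PP K g t θ (sz A i z) = TT h vol K i z (ϑ z • gz h vol K g i z)
      (WT h K i ϑ z (gz h vol K g i z) (tz h vol t i z)) := by
  have hx := sz_mem hz
  have hd : dbr A θ i (sz A i z) = fun a => wF I a ϑ z := funext fun a => by
    rw [dbr, dd_flat, cz_sz hz]
    exact wF_congrOn hz fun y hy => (hϑ y hy).symm
  rw [PP, bb_eq K hθ hx, hd, ← t2_gz h vol K (g := g) hz, ← o1_tz h vol (t := t) (i := i) z, PQ, TT,
    WT]
  generalize gz h vol K g i z = y
  generalize tz h vol t i z = τ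
  refine Prod.ext ?_ (Prod.ext ?_ ?_)
  · dsimp only
    rw [t2_smul, hϑ z hz, Complex.coe_smul]
  · dsimp only
    rw [inner_toLp, t2, dotProduct_smul, Matrix.star_mulVec, ← Matrix.dotProduct_mulVec,
      Matrix.mulVec_mulVec, S2H_O2 K hx, Matrix.one_mulVec, inv_mul_cancel_left₀ (wz_ne h hz),
      Complex.real_smul, ← hϑ z hz, dotProduct]
    simp only [Pi.star_apply, star_def, wF_real hr, smul_eq_mul]
    ring
  · dsimp only
    have h1 : (Matrix.of fun k l =>
        wF I k ϑ z * (Gz K i z *ᵥ y) l - wF I l ϑ z * (Gz K i z *ᵥ y) k) =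
        vecMulVec (fun a => wF I a ϑ z) (Gz K i z *ᵥ y) -
          vecMulVec (Gz K i z *ᵥ y) fun a => wF I a ϑ z := by
      ext k l
      simp only [Matrix.of_apply, Matrix.sub_apply, vecMulVec_apply]
      ring
    rw [h1, t3, t2, Matrix.mul_sub, Matrix.sub_mul, Matrix.mul_vecMulVec, Matrix.mul_vecMulVec,
      Matrix.vecMulVec_mul, Matrix.vecMulVec_mul, Matrix.vecMul_transpose, Matrix.vecMul_transpose,
      Matrix.mulVec_mulVec, Gz, S2_gT K hx, vecMulVec_smul, smul_vecMulVec, smul_sub]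

theorem RR_chart [T2Space M] {f : (Fin n → ℂ) → Fin n → ℂ} (hT : ∀ a, Tst A i fun z => f z a)
    (hf : ContDiff ℝ ∞ f) (hz : z ∈ Tz A i) :
    RR h vol K (extF N i f) (sz A i z) =
      TT h vol K i z (f z) (Lo n (fderiv ℝ (fun y => az h K i y (f y)) z)) := by
  have hx := sz_mem hz
  have hv := extF_isF (N := N) hT
  have hD : DifferentiableAt ℝ (fun y => az h K i y (f y)) z :=
    (((sm_az h K i).contDiffAt ((isOpen_Tz i).mem_nhds hz)).clm_apply
      hf.contDiffAt).differentiableAt (by simp)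
  rw [RR, TT, r2_eq h vol K hv hx, r1_eq h vol (dv_isS h hv).tr hx, r3_eq h vol K hv hx, extF_sz hz,
    dv_extF h hz, Lo_apply]
  simp only [wP_fderiv hD]
  congr 3
  ext k l
  exact al_extF K hz k l

theorem memW {C : Set (Fin n → ℂ)} {H : (Fin n → ℂ) → ℂ × (Fin n → Fin n → ℂ)}
    (h1 : L2C volume C fun z => (H z).1) (h2 : ∀ k l, L2C volume C fun z => (H z).2 k l) :
    MemLp H 2 volume ∧ ∀ z ∉ C, H z = 0 :=
  ⟨MemLp.of_fst_snd ⟨h1.1, MemLp.of_eval fun k => MemLp.of_eval fun l => (h2 k l).1⟩,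
    fun z hz => Prod.ext (h1.2 z hz) (funext fun k => funext fun l => (h2 k l).2 z hz)⟩

theorem intW {C : Set (Fin n → ℂ)} (hC : IsCompact C) {H : (Fin n → ℂ) → ℂ × (Fin n → Fin n → ℂ)}
    (h1 : L2C volume C fun z => (H z).1) (h2 : ∀ k l, L2C volume C fun z => (H z).2 k l) :
    Integrable H volume :=
  memLp_one_iff_integrable.1 ((memW h1 h2).1.mono_exponent_of_measure_support_ne_top (memW h1 h2).2
    hC.measure_lt_top.ne (by norm_num))

theorem integral_W {H : (Fin n → ℂ) → ℂ × (Fin n → Fin n → ℂ)} (hi : Integrable H volume)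
    (h1 : ∫ z, (H z).1 = 0) (h2 : ∀ k l, ∫ z, (H z).2 k l = 0) : ∫ z, H z = 0 := by
  refine Prod.ext ?_ (funext fun k => funext fun l => ?_)
  · exact ((ContinuousLinearMap.fst ℝ ℂ (Fin n → Fin n → ℂ)).integral_comp_comm hi).symm.trans h1
  · exact (((ContinuousLinearMap.proj (R := ℝ) (φ := fun _ : Fin n => ℂ) l).comp
      ((ContinuousLinearMap.proj (R := ℝ) (φ := fun _ : Fin n => Fin n → ℂ) k).comp
        (ContinuousLinearMap.snd ℝ ℂ (Fin n → Fin n → ℂ)))).integral_comp_comm hi).symm.trans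
      (h2 k l)

theorem eLpNorm_prod_le {X Y Z : Type*} [MeasurableSpace X] [NormedAddCommGroup Y]
    [NormedAddCommGroup Z] {μ : Measure X} {f : X → Y × Z} (hf : AEStronglyMeasurable f μ) :
    eLpNorm f 2 μ ≤ eLpNorm (fun x => (f x).1) 2 μ + eLpNorm (fun x => (f x).2) 2 μ := by
  have h1 : ∀ x, ‖f x‖ ≤ ((fun x => ‖(f x).1‖) + fun x => ‖(f x).2‖) x := fun x => by
    rw [Prod.norm_def]
    exact max_le_add_of_nonneg (norm_nonneg _) (norm_nonneg _)
  refine (eLpNorm_mono_real h1).trans ((eLpNorm_add_le hf.fst.norm hf.snd.norm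
    (by norm_num)).trans ?_)
  rw [eLpNorm_norm, eLpNorm_norm]

variable [T2Space M] [MeasurableSpace M] [BorelSpace M]

/-- the weak equation in the form of Friedrichs' lemma -/
theorem weak_eq (hg : MemLp g 2 (vm vol)) (ht : MemLp t 2 (vm vol))
    (hN : ∀ v, IsF N v → Cs v → (∀ i, ∀ x ∈ (A.e i).source, dv h v i x = 0) →
      ∫ x, inner ℂ (r2 h vol K v x) (g x) ∂(vm vol) = 0)
    (hW : ∀ s, IsS N s → Cs s → ∫ x, inner ℂ (r2 h vol K (sh K s) x) (g x) ∂(vm vol) =
      ∫ x, conj (r1 h vol s x) * t x ∂(vm vol))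
    {C : Set (Fin n → ℂ)} (hC : IsCompact C) (hs : C ⊆ Tz A i) {ϑ : (Fin n → ℂ) → ℂ}
    (hT : Tst A i ϑ) (h0 : ∀ z ∉ C, ϑ z = 0) (hr : ∀ z, conj (ϑ z) = ϑ z)
    (η : (Fin n → ℂ) → ℝ) (hη : ContDiff ℝ ∞ η) :
    ∫ z, Lo n ((fderiv ℝ η z).smulRight (az h K i z (ϑ z • C.indicator (gz h vol K g i) z))) =
      -∫ z, η z • WT h K i ϑ z (C.indicator (gz h vol K g i) z) (C.indicator (tz h vol t i) z) := by
  have hgf := l2c_gz h vol K hg hC hs
  have htf := l2c_tz h vol ht hC hs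
  have e1 : ∀ z ∈ C, C.indicator (gz h vol K g i) z = gz h vol K g i z :=
    fun z hz => indicator_of_mem hz _
  have e2 : ∀ z ∈ C, C.indicator (tz h vol t i) z = tz h vol t i z :=
    fun z hz => indicator_of_mem hz _
  generalize C.indicator (gz h vol K g i) = gf at *
  generalize C.indicator (tz h vol t i) = tf at *
  have hηc : ContDiff ℝ ∞ fun z => (η z : ℂ) := Complex.ofRealCLM.contDiff.comp hη
  have cη : ContinuousOn (fun z => (η z : ℂ)) C := hηc.continuous.continuousOn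
  have cdη : ∀ s a, ContinuousOn (wF s a fun z => (η z : ℂ)) C := fun s a =>
    (contDiff_wF hηc).continuous.continuousOn
  have cϑ : ContinuousOn ϑ C := hT.contDiff.continuous.continuousOn
  have cdϑ : ∀ s a, ContinuousOn (wF s a ϑ) C := fun s a =>
    (contDiff_wF hT.contDiff).continuous.continuousOn
  have cw : ContinuousOn (wz h i) C := (sm_wz h i).continuousOn.mono hs
  have hlf : ∀ l, L2C volume C fun z => (Gz K i z *ᵥ gf z) l := fun l =>
    L2C.sum fun b => (hgf b).mul hC ((sm_Gz K i l b).continuousOn.mono hs)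
  have hF : ∀ z, Lo n ((fderiv ℝ η z).smulRight (az h K i z (ϑ z • gf z))) =
      (∑ a, wF (-I) a (fun z => (η z : ℂ)) z * (wz h i z * (ϑ z * gf z a)),
        fun k l => wF I k (fun z => (η z : ℂ)) z * (ϑ z * (Gz K i z *ᵥ gf z) l) -
          wF I l (fun z => (η z : ℂ)) z * (ϑ z * (Gz K i z *ᵥ gf z) k)) := fun z => by
    rw [Lo_apply, az_apply, Matrix.mulVec_smul]
    simp only [wP_smulRight (hη.differentiable (by simp) z)]
    rfl
  have hG : ∀ z, η z • WT h K i ϑ z (gf z) (tf z) =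
      ((η z : ℂ) * (wz h i z * (∑ a, wF (-I) a ϑ z * gf z a - ϑ z * tf z)), fun k l =>
        (η z : ℂ) * (wF I k ϑ z * (Gz K i z *ᵥ gf z) l - wF I l ϑ z * (Gz K i z *ᵥ gf z) k)) :=
    fun z => rfl
  simp only [hF, hG]
  have i1 := intW hC (H := fun z =>
      (∑ a, wF (-I) a (fun z => (η z : ℂ)) z * (wz h i z * (ϑ z * gf z a)),
        fun k l => wF I k (fun z => (η z : ℂ)) z * (ϑ z * (Gz K i z *ᵥ gf z) l) -
          wF I l (fun z => (η z : ℂ)) z * (ϑ z * (Gz K i z *ᵥ gf z) k)))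
    (L2C.sum fun a => (((hgf a).mul hC cϑ).mul hC cw).mul hC (cdη _ a))
    fun k l => (((hlf l).mul hC cϑ).mul hC (cdη _ k)).sub (((hlf k).mul hC cϑ).mul hC (cdη _ l))
  have i2 := intW hC (H := fun z =>
      ((η z : ℂ) * (wz h i z * (∑ a, wF (-I) a ϑ z * gf z a - ϑ z * tf z)), fun k l =>
        (η z : ℂ) * (wF I k ϑ z * (Gz K i z *ᵥ gf z) l - wF I l ϑ z * (Gz K i z *ᵥ gf z) k)))
    ((((L2C.sum fun a => (hgf a).mul hC (cdϑ _ a)).sub (htf.mul hC cϑ)).mul hC cw).mul hC cη)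
    fun k l => (((hlf l).mul hC (cdϑ _ k)).sub ((hlf k).mul hC (cdϑ _ l))).mul hC cη
  rw [eq_neg_iff_add_eq_zero, ← integral_add i1 i2]
  obtain ⟨φ, hφ⟩ : ∃ φ : (Fin n → ℂ) → ℂ, φ = fun z => (η z : ℂ) * ϑ z := ⟨_, rfl⟩
  have hφT : Tst A i φ := hφ ▸ hT.mul hηc.contDiffOn
  have hφ0 : ∀ z ∉ C, φ z = 0 := fun z hz => by simp only [hφ, h0 z hz, mul_zero]
  have hφr : ∀ z, conj (φ z) = φ z := fun z => by simp only [hφ, map_mul, hr, Complex.conj_ofReal]
  have hφd : ∀ s a z, wF s a φ z = wF s a (fun z => (η z : ℂ)) z * ϑ z + η z * wF s a ϑ z :=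
    fun s a z => hφ ▸ wF_mul (hηc.differentiable (by simp) z) (hT.contDiff.differentiable (by simp) z)
  have cφ : ContinuousOn φ C := hφT.contDiff.continuous.continuousOn
  have cdφ : ∀ s a, ContinuousOn (wF s a φ) C := fun s a =>
    (contDiff_wF hφT.contDiff).continuous.continuousOn
  have hoff : ∀ s a, ∀ z ∉ C, wF s a φ z = 0 := fun s a z hz => wF_off hC hφ0 hz
  refine integral_W (i1.add i2) ?_ fun k l => ?_
  · have h1 := weak1 h vol K hg.1 ht.1 hW hφT
    simp only [wF_real hφr, hφr] at h1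
    rw [setIntegral_eq_integral_of_forall_compl_eq_zero fun z hz => by
        simp [hoff _ _ z fun h' => hz (hs h')],
      setIntegral_eq_integral_of_forall_compl_eq_zero fun z hz => by
        simp [hφ0 z fun h' => hz (hs h')]] at h1
    have h2 : (fun z => wz h i z * ∑ a, wF (-I) a φ z * gz h vol K g i z a) =
        fun z => wz h i z * ∑ a, wF (-I) a φ z * gf z a := by
      funext z
      by_cases hz : z ∈ C
      · rw [e1 z hz]
      · simp [hoff _ _ z hz]
    have h3 : (fun z => wz h i z * (φ z * tz h vol t i z)) = fun z => wz h i z * (φ z * tf z) := by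
      funext z
      by_cases hz : z ∈ C
      · rw [e2 z hz]
      · simp [hφ0 z hz]
    rw [h2, h3, ← sub_eq_zero, ← integral_sub
      (((L2C.sum fun a => (hgf a).mul hC (cdφ _ a)).mul hC cw).integrable hC)
      (((htf.mul hC cφ).mul hC cw).integrable hC)] at h1
    refine Eq.trans (integral_congr_ae (Eventually.of_forall fun z => ?_)) h1
    simp only [Prod.fst_add, hφd, add_mul, Finset.sum_add_distrib, mul_add, mul_sub, Finset.mul_sum]
    rw [hφ, add_sub_assoc]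
    congr 1
    · exact Finset.sum_congr rfl fun a _ => by ring
    · congr 1
      · exact Finset.sum_congr rfl fun a _ => by ring
      · ring
  · have h1 := weak2 h vol K hg.1 hN hφT k l
    simp only [wF_real' hφr] at h1
    rw [setIntegral_eq_integral_of_forall_compl_eq_zero fun z hz => by
        simp [hoff _ _ z fun h' => hz (hs h')]] at h1
    refine Eq.trans (integral_congr_ae (Eventually.of_forall fun z => ?_)) h1
    by_cases hz : z ∈ C
    · simp only [Prod.snd_add, Pi.add_apply, hφd, e1 z hz]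
      ring
    · simp only [Prod.snd_add, Pi.add_apply, hoff _ _ z hz, (hlf _).2 z hz]
      ring

/-- **the chart piece** -/
theorem ap_chart (hg : MemLp g 2 (vm vol)) (ht : MemLp t 2 (vm vol))
    (hN : ∀ v, IsF N v → Cs v → (∀ i, ∀ x ∈ (A.e i).source, dv h v i x = 0) →
      ∫ x, inner ℂ (r2 h vol K v x) (g x) ∂(vm vol) = 0)
    (hW : ∀ s, IsS N s → Cs s → ∫ x, inner ℂ (r2 h vol K (sh K s) x) (g x) ∂(vm vol) =
      ∫ x, conj (r1 h vol s x) * t x ∂(vm vol))
    (i : A.ι) (θ : M → ℝ) (C0 : Set M) (hθ : A.Sm θ) (hC0 : IsCompact C0)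
    (hs0 : C0 ⊆ (A.e i).source) (h00 : ∀ x ∉ C0, θ x = 0) : Ap h vol K (PP K g t θ) := by
  have hm := aesm_PP K hg.1 ht.1 hθ
  refine ⟨hm, fun ε hε => ?_⟩
  obtain ⟨C, hCd⟩ : ∃ C, C = cz A i '' C0 := ⟨_, rfl⟩
  have hC : IsCompact C := hCd ▸ hC0.image_of_continuousOn ((contOn_cz i).mono hs0)
  have hs : C ⊆ Tz A i := by
    rw [hCd]
    rintro _ ⟨x, hx, rfl⟩
    exact cz_mem (hs0 hx)
  have hC1 : ∀ z ∈ Tz A i, z ∉ C → sz A i z ∉ C0 := fun z hz hz' h' =>
    hz' (hCd ▸ ⟨_, h', cz_sz hz⟩)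
  obtain ⟨ϑ, hϑd⟩ : ∃ ϑ : (Fin n → ℂ) → ℂ, ϑ = (Tz A i).indicator fun z => (θ (sz A i z) : ℂ) :=
    ⟨_, rfl⟩
  have hϑ : ∀ z ∈ Tz A i, ϑ z = θ (sz A i z) := fun z hz => by rw [hϑd, indicator_of_mem hz]
  have h0 : ∀ z ∉ C, ϑ z = 0 := fun z hz => by
    by_cases hz' : z ∈ Tz A i
    · rw [hϑ z hz', h00 _ (hC1 z hz' hz), Complex.ofReal_zero]
    · rw [hϑd, indicator_of_notMem hz']
  have hr : ∀ z, conj (ϑ z) = ϑ z := fun z => by
    by_cases hz' : z ∈ Tz A i
    · rw [hϑ z hz', Complex.conj_ofReal]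
    · rw [hϑd, indicator_of_notMem hz', map_zero]
  have hT : Tst A i ϑ := ⟨(smAt_flat (C1d194.smAt_ofReal (hθ i))).congr hϑ, C, hC, hs, h0⟩
  have hgf := l2c_gz h vol K hg hC hs
  have htf := l2c_tz h vol ht hC hs
  have hwk := weak_eq h vol K hg ht hN hW hC hs hT h0 hr
  have hP : ∀ z ∈ Tz A i, PP K g t θ (sz A i z) =
      TT h vol K i z (ϑ z • C.indicator (gz h vol K g i) z)
        (WT h K i ϑ z (C.indicator (gz h vol K g i) z) (C.indicator (tz h vol t i) z)) := by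
    intro z hz
    by_cases hz' : z ∈ C
    · rw [indicator_of_mem hz', indicator_of_mem hz', PP_chart h vol K hθ hϑ hr hz]
    · rw [indicator_of_notMem hz', indicator_of_notMem hz', smul_zero, WT_zero, TT_zero, PP,
        h00 _ (hC1 z hz hz'), bb_off K hC0 h00 (hC1 z hz hz'), PQ_zero]
  generalize C.indicator (gz h vol K g i) = gf at *
  generalize C.indicator (tz h vol t i) = tf at *
  have cϑ : ContinuousOn ϑ C := hT.contDiff.continuous.continuousOn
  have cdϑ : ∀ s a, ContinuousOn (wF s a ϑ) C := fun s a =>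
    (contDiff_wF hT.contDiff).continuous.continuousOn
  have cw : ContinuousOn (wz h i) C := (sm_wz h i).continuousOn.mono hs
  have hlf : ∀ l, L2C volume C fun z => (Gz K i z *ᵥ gf z) l := fun l =>
    L2C.sum fun b => (hgf b).mul hC ((sm_Gz K i l b).continuousOn.mono hs)
  obtain ⟨w1, w2⟩ := memW (C := C) (H := fun z => WT h K i ϑ z (gf z) (tf z))
    (((L2C.sum fun a => (hgf a).mul hC (cdϑ _ a)).sub (htf.mul hC cϑ)).mul hC cw)
    fun k l => ((hlf l).mul hC (cdϑ _ k)).sub ((hlf k).mul hC (cdϑ _ l))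
  have v2 : ∀ z ∉ C, ϑ z • gf z = 0 := fun z hz => by rw [h0 z hz, zero_smul]
  obtain ⟨C', hC', hCC', hs', H⟩ := fried (Fin n → ℂ) (Fin n → ℂ) ((Fin n → ℂ) × (Fin n → ℂ))
    (ℂ × (Fin n → Fin n → ℂ)) volume (Lo n) (az h K i) C (Tz A i) hC (isOpen_Tz i) hs (sm_az h K i)
    (fun z => ϑ z • gf z) _ (MemLp.of_eval fun a => ((hgf a).mul hC cϑ).1) w1 v2 w2
    fun η hη _ _ => hwk η hη
  obtain ⟨c1, hc1, b1⟩ := quad_ub (Q := fun z y => h.w i (sz A i z) * hq (K.g i (sz A i z)) y) hC'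
    ((contOn_hq h K i).mono (prod_mono hs' subset_rfl)) fun z y r => by rw [hq_smul]; ring
  obtain ⟨c2, hc2, b2⟩ := quad_ub (Q := fun z (d : ℂ × (Fin n → Fin n → ℂ)) =>
      h.w i (sz A i z) * ‖(wz h i z)⁻¹ * d.1‖ ^ 2 +
        h.w i (sz A i z) * hU (K.g i (sz A i z)) (Matrix.of d.2)) hC'
    (by
      refine ContinuousOn.add ((((contOn_wr h i).mono hs').comp continuousOn_fst
        fun p hp => hp.1).mul ((((((sm_wz h i).continuousOn.mono hs').inv₀ fun z hz =>
          wz_ne h (hs' hz)).comp continuousOn_fst fun p hp => hp.1).mul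
            (continuous_snd.fst).continuousOn).norm.pow 2)) ?_
      exact (contOn_hU h K i).comp
        (f := fun p : (Fin n → ℂ) × ℂ × (Fin n → Fin n → ℂ) => (p.1, p.2.2)) (by fun_prop)
        fun p hp => ⟨hs' hp.1, trivial⟩)
    fun z d r => by
      rw [Prod.smul_fst, Prod.smul_snd, show Matrix.of (r • d.2) = r • Matrix.of d.2 from rfl,
        hU_smul, mul_smul_comm, norm_smul, mul_pow, Real.norm_eq_abs, sq_abs]
      ring
  obtain ⟨δ, hδ, hδ2⟩ := ENNReal.exists_nnreal_pos_mul_lt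
    (a := ENNReal.ofReal c1 + ENNReal.ofReal c2) (by simp) hε.ne'
  obtain ⟨f, f1, f2, f3, f4⟩ := H δ (by exact_mod_cast hδ)
  have f0 : ∀ z ∉ C', f z = 0 := fun z hz => image_eq_zero_of_notMem_tsupport fun h' => hz (f2 h')
  have hTf : ∀ a, Tst A i fun z => f z a := fun a =>
    ⟨(contDiff_pi.1 f1 a).contDiffOn, C', hC', hs', fun z hz => by rw [f0 z hz]; rfl⟩
  have hv := extF_isF (N := N) hTf
  refine ⟨_, hv, extF_cs hTf, ?_⟩
  have hY := (memLp_RR h vol K hv (extF_cs hTf)).1.sub hm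
  have hY0 : ∀ x ∉ (A.e i).source, (RR h vol K (extF N i f) - PP K g t θ) x = 0 := by
    intro x hx
    obtain ⟨C1, k1, k2, k3⟩ := extF_supp (N := N) hTf
    have hx1 : x ∉ C1 := fun h' => hx (k2 h')
    have hx0 : x ∉ C0 := fun h' => hx (hs0 h')
    rw [Pi.sub_apply, PP, h00 x hx0, bb_off K hC0 h00 hx0, PQ_zero, sub_zero, RR, r1, r2, r3,
      k3 _ x hx1, dv_off h k1 k3 (ix_mem x) hx1, al_off K hv k1 k3 (ix_mem x) hx1, t2_zero, t3_zero,
      mul_zero, neg_zero]
    rfl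
  have hY1 : ∀ z ∈ Tz A i, (RR h vol K (extF N i f) - PP K g t θ) (sz A i z) =
      TT h vol K i z (f z - ϑ z • gf z)
        (Lo n (fderiv ℝ (fun y => az h K i y (f y)) z) - WT h K i ϑ z (gf z) (tf z)) :=
    fun z hz => by rw [Pi.sub_apply, RR_chart h vol K hTf f1 hz, hP z hz, TT_sub]
  have hY2 : ∀ z ∉ C', f z - ϑ z • gf z = 0 ∧
      Lo n (fderiv ℝ (fun y => az h K i y (f y)) z) - WT h K i ϑ z (gf z) (tf z) = 0 := by
    intro z hz
    have hz' : z ∉ C := fun h' => hz (hCC' h')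
    refine ⟨by rw [f0 z hz, v2 z hz', sub_zero], ?_⟩
    have h1 : (fun y => az h K i y (f y)) =ᶠ[𝓝 z] fun _ => 0 := by
      filter_upwards [hC'.isClosed.isOpen_compl.mem_nhds hz] with y hy
      rw [f0 y hy, map_zero]
    rw [h1.fderiv_eq, w2 z hz']
    simp
  have k1 := le_flat vol (i := i) hY.fst (F := f - fun z => ϑ z • gf z) hc1
    (fun x hx => by rw [hY0 x hx]; rfl) fun z hz => by
      rw [hY1 z hz, Pi.sub_apply]
      by_cases hz' : z ∈ C'
      · rw [TT, norm_t2 h vol K (sz_mem hz), mul_inv_cancel_left₀ (vol.pos i _ (sz_mem hz)).ne']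
        exact b1 z hz' _
      · rw [(hY2 z hz').1, (hY2 z hz').2, TT_zero]
        simp
  have k2 := le_flat vol (i := i) hY.snd (F := fun z =>
      Lo n (fderiv ℝ (fun y => az h K i y (f y)) z) - WT h K i ϑ z (gf z) (tf z)) hc2
    (fun x hx => by rw [hY0 x hx]; rfl) fun z hz => by
      rw [hY1 z hz]
      by_cases hz' : z ∈ C'
      · have hv := vol.pos i _ (sz_mem hz)
        refine le_trans ?_ (b2 z hz' _)
        rw [← mul_inv_cancel_left₀ hv.ne' (h.w _ _ * ‖_‖ ^ 2),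
          ← mul_inv_cancel_left₀ hv.ne' (_ * hU _ _),
          ← norm_t1 h vol (sz_mem hz), ← norm_t3 h vol K (sz_mem hz), ← mul_add, TT]
        refine mul_le_mul_of_nonneg_left ?_ hv.le
        rw [Prod.norm_mk, norm_neg]
        rcases max_choice ‖o1 h vol i (sz A i z) * ((wz h i z)⁻¹ * (Lo n (fderiv ℝ
          (fun y => az h K i y (f y)) z) - WT h K i ϑ z (gf z) (tf z)).1)‖
          ‖t3 h vol K i (sz A i z) (Matrix.of (Lo n (fderiv ℝ
          (fun y => az h K i y (f y)) z) - WT h K i ϑ z (gf z) (tf z)).2)‖ with e | e <;> rw [e]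
        · exact le_add_of_nonneg_right (by positivity)
        · exact le_add_of_nonneg_left (by positivity)
      · rw [(hY2 z hz').1, (hY2 z hz').2, TT_zero]
        simp
  calc _ ≤ _ := eLpNorm_prod_le hY
    _ ≤ ENNReal.ofReal c1 * δ + ENNReal.ofReal c2 * δ :=
        add_le_add (k1.trans (by gcongr)) (k2.trans (by gcongr))
    _ ≤ ε := by rw [← add_mul, mul_comm]; exact hδ2.le

theorem dens : DensStmt := by
  intro n M _ _ _ _ A _ P K hK N h vol g t hg ht hN hW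
  exact (ap_of_chart P hK hg ht (ap_chart h vol K hg ht hN hW)).2

end

end Crest.Agent.T223.Hm
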