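import Crest.Agent.T223.HnP4_76
import Crest.Agent.T223.TrTr_90
import Crest.Agent.T223.HnHJ_93
import Crest.Agent.T223.FrB_38
import Crest.Agent.T223.U0S_15
import Crest.Agent.T223.LoCal_18

/-!
# Row 223, HARN (helper76): scalar curvature and volume along the complete flow, Harnack
-/

set_option autoImplicit false
set_option linter.unusedVariables false
set_option linter.unusedSectionVars false

open Set Filter Topology Metric
open scoped ContDiff ComplexConjugate Matrix ComplexOrder

namespace Crest.Agent.T223.Hn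

open Crest.Agent.R275.Geo Crest.Agent.R273.Kah_333 Crest.Agent.R273.RMan4_798
open Crest.Agent.T223.Br Crest.Agent.T223.Tr

noncomputable section

variable {n : ℕ} {M : Type} [TopologicalSpace M] [T2Space M] [ConnectedSpace M] {A : Atl n M}
  {K0 : Kah A} {p : M}

/-- scalar curvature (chart free) -/
def scK (K : Kah A) (x : M) : ℝ := scal (gc K (A.cover x).choose) (A.e (A.cover x).choose x)

/-- `log (det g₀ / det g)` (chart free) -/
def lvK (K0 K : Kah A) (x : M) : ℝ := lvol K0 (gc K) (A.cover x).choose x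

theorem scK_eq (K : Kah A) {i : A.ι} {x : M} (hx : x ∈ (A.e i).source) :
    scal (gc K i) (A.e i x) = scK K x :=
  (kahOn_gc K univ).scal_indep hx (A.cover x).choose_spec univ_mem

theorem scK_symm (K : Kah A) {i : A.ι} {z : Cn n} (hz : z ∈ (A.e i).target) :
    scK K ((A.e i).symm z) = scal (gc K i) z := by
  rw [← scK_eq K ((A.e i).map_target hz), (A.e i).right_inv hz]

theorem lvK_eq (K0 K : Kah A) {i : A.ι} {x : M} (hx : x ∈ (A.e i).source) :
    lvol K0 (gc K) i x = lvK K0 K x :=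
  lvol_indep K0 (trOn_gc K univ) hx (A.cover x).choose_spec (mem_univ _)
    (gc_pos K _ ((A.e _).map_source (A.cover x).choose_spec))

theorem dK_mono {K K' : Kah A} (h : KLe K 1 K') (x y : M) : dK K x y ≤ dK K' x y := by
  have h1 : LipOn (gc K') univ 1 (dK K x) := by
    intro i z hz hU ε hε
    filter_upwards [U0.lipOn_dK K x i z hz hU ε hε] with w hw
    refine hw.trans (mul_le_mul_of_nonneg_left (Real.sqrt_le_sqrt ?_) (by positivity))
    rw [gc_e K hz, gc_e K' hz]
    simpa using h i z hz (w - A.e i z)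
  have h2 := Lp93.lipOn_dK h1 zero_le_one x y
  have h3 : dK K x x = 0 := dist_self (α := (ofKah K).M) x
  rw [h3, sub_zero, one_mul] at h2
  exact (le_abs_self _).trans h2

theorem dK_comm (K : Kah A) (x y : M) : dK K x y = dK K y x := dist_comm (α := (ofKah K).M) x y

variable (F : Flow K0 p)

theorem tr_at {t : ℝ} (ht : 0 < t) (i : A.ι) {z : Cn n} (hz : z ∈ (A.e i).target) :
    ContDiffAt ℝ ∞ (fun q : ℝ × Cn n => scal (gc (F.K q.1) i) q.2) (t, z) ∧
    (ric (gc (F.K t) i) z).PosSemidef ∧ 0 ≤ scal (gc (F.K t) i) z ∧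
    BKle (gc (F.K t) i) z (scal (gc (F.K t) i) z) ∧
    HasDerivAt (fun s => ldet (gc (F.K s) i) z) (-scal (gc (F.K t) i) z) t ∧
    0 ≤ deriv (fun s => scal (gc (F.K s) i) z) t + scal (gc (F.K t) i) z / t ∧
    ∀ v, (fderiv ℝ (scal (gc (F.K t) i)) z v) ^ 2 ≤
      4 * scal (gc (F.K t) i) z * (deriv (fun s => scal (gc (F.K s) i) z) t +
        scal (gc (F.K t) i) z / t) * nq (gc (F.K t) i z) v :=
  traceStmt n (fun s => gc (F.K s) i) t z ht (F.krf t ht i z hz) (F.lyh t ht i z hz)
    (F.bk t ht i z hz)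

theorem flow_anti {s t : ℝ} (hs : 0 < s) (hst : s ≤ t) : KLe (F.K t) 1 (F.K s) := by
  intro i x hx v
  have hz := (A.e i).map_source hx
  have hd : ∀ u ∈ Ioi (0 : ℝ), HasDerivAt (fun s => nq (gc (F.K s) i (A.e i x)) v)
      (-nq (ric (gc (F.K u) i) (A.e i x)) v) u := fun u hu =>
    Lo.krf_nq (F.krf u hu i _ hz) v
  have h1 : AntitoneOn (fun s => nq (gc (F.K s) i (A.e i x)) v) (Ioi 0) := by
    refine antitoneOn_of_deriv_nonpos (convex_Ioi 0)
      (fun u hu => (hd u hu).continuousAt.continuousWithinAt)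
      (fun u hu => (hd u (interior_subset hu)).differentiableAt.differentiableWithinAt) ?_
    intro u hu
    have hu' : u ∈ Ioi (0 : ℝ) := interior_subset hu
    rw [(hd u hu').deriv]
    exact neg_nonpos.2 (nq_nonneg (tr_at F hu' i hz).2.1 v)
  have h2 := h1 hs (hs.trans_le hst) hst
  simp only [gc_e _ hx] at h2
  simpa using h2

theorem sc_nonneg {t : ℝ} (ht : 0 < t) (x : M) : 0 ≤ scK (F.K t) x :=
  (tr_at F ht _ ((A.e _).map_source (A.cover x).choose_spec)).2.2.1

theorem lv_deriv {t : ℝ} (ht : 0 < t) (x : M) :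
    HasDerivAt (fun s => lvK K0 (F.K s) x) (scK (F.K t) x) t := by
  have h := (tr_at F ht _ ((A.e _).map_source (A.cover x).choose_spec)).2.2.2.2.1
  have h2 := h.const_sub (ldet (gc K0 (A.cover x).choose) (A.e (A.cover x).choose x))
  rw [neg_neg] at h2
  exact h2

theorem lv_nonneg {t : ℝ} (ht : 0 < t) (x : M) : 0 ≤ lvK K0 (F.K t) x := by
  have hx := (A.cover x).choose_spec
  have hz := (A.e _).map_source hx
  have h := Lo.logdet_le (gc_pos (F.K t) _ hz) (gc_pos K0 _ hz) one_pos (fun v => by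
    rw [gc_e _ hx, gc_e _ hx]; exact F.le0 t ht _ x hx v)
  unfold lvK lvol ldet
  simpa using h

theorem sc_diff {t : ℝ} (ht : 0 < t) (i : A.ι) {z : Cn n} (hz : z ∈ (A.e i).target) :
    DifferentiableAt ℝ (fun s => scal (gc (F.K s) i) z) t := by
  have h := (tr_at F ht i hz).1.differentiableAt (by simp)
  exact h.comp t (f := fun s : ℝ => (s, z)) (differentiableAt_id.prodMk (differentiableAt_const _))

theorem sc_mono (x : M) : MonotoneOn (fun t => t * scK (F.K t) x) (Ioi 0) := by
  have hz := (A.e _).map_source (A.cover x).choose_spec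
  have hd : ∀ u ∈ Ioi (0 : ℝ), HasDerivAt (fun t => t * scK (F.K t) x)
      (1 * scK (F.K u) x + u * deriv (fun t => scK (F.K t) x) u) u := fun u hu =>
    (hasDerivAt_id u).mul (sc_diff F hu _ hz).hasDerivAt
  refine monotoneOn_of_deriv_nonneg (convex_Ioi 0)
    (fun u hu => (hd u hu).continuousAt.continuousWithinAt)
    (fun u hu => (hd u (interior_subset hu)).differentiableAt.differentiableWithinAt) ?_
  intro u hu
  have hu' : 0 < u := interior_subset (s := Ioi (0 : ℝ)) hu
  rw [(hd u hu').deriv]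
  have h1 : 0 ≤ deriv (fun t => scK (F.K t) x) u + scK (F.K u) x / u :=
    (tr_at F hu' _ hz).2.2.2.2.2.1
  have h2 : 1 * scK (F.K u) x + u * deriv (fun t => scK (F.K t) x) u =
      u * (deriv (fun t => scK (F.K t) x) u + scK (F.K u) x / u) := by field_simp; ring
  rw [h2]; positivity

theorem harnack_log {t1 t2 δ : ℝ} (h1 : 0 < t1) (h12 : t1 < t2) (hδ : 0 < δ) (x y : M) :
    Real.log (δ + t1 * scK (F.K t1) x) ≤ Real.log (δ + t2 * scK (F.K t2) y) +
      dK (F.K t1) x y ^ 2 / (t2 - t1) := by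
  have h := hjStmt n M A (F.K t1) (fun t x => Real.log (δ + t * scK (F.K t) x)) t1 t2 4 h12
    (by norm_num) ?_ x y
  · have e : 4 * dK (F.K t1) x y ^ 2 / (4 * (t2 - t1)) = dK (F.K t1) x y ^ 2 / (t2 - t1) := by
      rw [mul_div_mul_left _ _ (by norm_num : (4 : ℝ) ≠ 0)]
    rwa [e] at h
  intro t ht i z hz
  have ht0 : 0 < t := h1.trans_le ht.1
  obtain ⟨a1, -, a3, -, -, a6, a7⟩ := tr_at F ht0 i hz
  set R := scal (gc (F.K t) i) z with hR
  set Rt := deriv (fun s => scal (gc (F.K s) i) z) t with hRt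
  have hF : 0 < δ + t * R := by positivity
  have e1 : (fun q : ℝ × Cn n => Real.log (δ + q.1 * scK (F.K q.1) ((A.e i).symm q.2))) =ᶠ[𝓝 (t, z)]
      fun q => Real.log (δ + q.1 * scal (gc (F.K q.1) i) q.2) := by
    filter_upwards [continuousAt_snd.eventually ((A.e i).open_target.mem_nhds hz)] with q hq
    rw [scK_symm _ hq]
  have e2 : (fun s => Real.log (δ + s * scK (F.K s) ((A.e i).symm z))) =
      fun s => Real.log (δ + s * scal (gc (F.K s) i) z) := by
    funext s; rw [scK_symm _ hz]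
  have e3 : (fun w => Real.log (δ + t * scK (F.K t) ((A.e i).symm w))) =ᶠ[𝓝 z]
      fun w => Real.log (δ + t * scal (gc (F.K t) i) w) := by
    filter_upwards [(A.e i).open_target.mem_nhds hz] with w hw
    rw [scK_symm _ hw]
  have d1 : HasDerivAt (fun s => Real.log (δ + s * scal (gc (F.K s) i) z))
      ((1 * R + t * Rt) / (δ + t * R)) t :=
    (((hasDerivAt_id t).mul (sc_diff F ht0 i hz).hasDerivAt).const_add δ).log hF.ne'
  have d2' : DifferentiableAt ℝ (scal (gc (F.K t) i)) z :=
    (a1.differentiableAt (by simp)).comp z (f := fun w : Cn n => (t, w))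
      ((differentiableAt_const _).prodMk differentiableAt_id)
  have d2 : HasFDerivAt (fun w => Real.log (δ + t * scal (gc (F.K t) i) w))
      ((δ + t * R)⁻¹ • (t • fderiv ℝ (scal (gc (F.K t) i)) z)) z :=
    ((d2'.hasFDerivAt.const_mul t).const_add δ).log hF.ne'
  have e4 : 1 * R + t * Rt = t * (Rt + R / t) := by field_simp; ring
  refine ⟨?_, ?_, fun v => ?_⟩
  · refine DifferentiableAt.congr_of_eventuallyEq ?_ e1
    exact ((differentiableAt_fst.mul (a1.differentiableAt (by simp))).const_add δ).log hF.ne'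
  · rw [e2, d1.deriv, e4]; positivity
  · rw [e2, d1.deriv, e4, e3.fderiv_eq, d2.fderiv]
    have b1 := a7 v
    have b2 : nq (gc (F.K t) i z) v ≤ nq (gc (F.K t1) i z) v := by
      have := flow_anti F h1 ht.1 i _ ((A.e i).map_target hz) v
      rw [one_mul] at this
      exact this
    have b3 : 0 ≤ nq (gc (F.K t) i z) v := nq_nonneg (gc_pos _ i hz).posSemidef v
    simp only [ContinuousLinearMap.smul_apply, smul_eq_mul]
    set D := fderiv ℝ (scal (gc (F.K t) i)) z v
    set P := Rt + R / t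
    have b4 : ((δ + t * R)⁻¹ * (t * D)) ^ 2 = (t / (δ + t * R)) ^ 2 * D ^ 2 := by
      field_simp
    have b5 : t * R / (δ + t * R) ≤ 1 := (div_le_one hF).2 (by linarith)
    calc ((δ + t * R)⁻¹ * (t * D)) ^ 2 = (t / (δ + t * R)) ^ 2 * D ^ 2 := b4
      _ ≤ (t / (δ + t * R)) ^ 2 * (4 * R * P * nq (gc (F.K t) i z) v) := by gcongr
      _ = 4 * (t * P / (δ + t * R)) * nq (gc (F.K t) i z) v * (t * R / (δ + t * R)) := by
          field_simp
      _ ≤ 4 * (t * P / (δ + t * R)) * nq (gc (F.K t) i z) v * 1 := by gcongr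
      _ ≤ 4 * (t * P / (δ + t * R)) * nq (gc (F.K t1) i z) v := by rw [mul_one]; gcongr

/-- **Harnack inequality** -/
theorem harnack {t1 t2 : ℝ} (h1 : 0 < t1) (h12 : t1 < t2) (x y : M) :
    t1 * scK (F.K t1) x ≤ t2 * scK (F.K t2) y * Real.exp (dK (F.K t1) x y ^ 2 / (t2 - t1)) := by
  have a1 := sc_nonneg F h1 x
  have a2 := sc_nonneg F (h1.trans h12) y
  have h2 : 0 < t2 := h1.trans h12
  set E := Real.exp (dK (F.K t1) x y ^ 2 / (t2 - t1)) with hE
  have hEp : 0 < E := Real.exp_pos _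
  refine le_of_forall_pos_le_add fun ε hε => ?_
  have h := harnack_log F h1 h12 (δ := ε / E) (by positivity) x y
  have h3 := Real.exp_le_exp.2 h
  rw [Real.exp_add, Real.exp_log (by positivity), Real.exp_log (by positivity), ← hE, add_mul,
    div_mul_cancel₀ _ hEp.ne'] at h3
  have : 0 < ε / E := by positivity
  linarith

end

end Crest.Agent.T223.Hn
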