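import Crest.Agent.T223.HnG1_76

/-!
# Row 223, HARN + PINCH (helper76): `geoStmt : 1 ≤ n → QCStmt n → GeoStmt n`
-/

set_option autoImplicit false
set_option linter.unusedVariables false
set_option linter.unusedSectionVars false

open Set Filter Topology Metric
open scoped ContDiff ComplexConjugate Matrix ComplexOrder

namespace Crest.Agent.T223.Hn

open Crest.Agent.R275.Geo Crest.Agent.R273.Kah_333 Crest.Agent.R273.RMan4_798
open Crest.Agent.T223.Br Crest.Agent.T223.Tr

noncomputable section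

/-- comparison of increments from comparison of derivatives -/
theorem incr_le {f g f' g' : ℝ → ℝ} {a b : ℝ} (hab : a ≤ b)
    (hf : ∀ s ∈ Icc a b, HasDerivAt f (f' s) s) (hg : ∀ s ∈ Icc a b, HasDerivAt g (g' s) s)
    (h : ∀ s ∈ Icc a b, f' s ≤ g' s) : f b - f a ≤ g b - g a := by
  have h1 : MonotoneOn (fun s => g s - f s) (Icc a b) := by
    refine monotoneOn_of_deriv_nonneg (convex_Icc a b)
      (fun s hs => ((hg s hs).sub (hf s hs)).continuousAt.continuousWithinAt)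
      (fun s hs => ((hg s (interior_subset hs)).sub
        (hf s (interior_subset hs))).differentiableAt.differentiableWithinAt) ?_
    intro s hs
    have hs' := interior_subset hs
    have := ((hg s hs').sub (hf s hs')).deriv
    change 0 ≤ deriv (g - f) s
    rw [this]
    linarith [h s hs']
  have := h1 (left_mem_Icc.2 hab) (right_mem_Icc.2 hab) hab
  simp only at this
  linarith

variable {n : ℕ} {M : Type} [TopologicalSpace M] [T2Space M] [ConnectedSpace M] {A : Atl n M}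
  {K0 : Kah A} {p : M} (F : Flow K0 p)

theorem exists_R_le : ∃ C, 0 ≤ C ∧ ∀ t, 1 ≤ t → scK (F.K t) p ≤ C := by
  obtain ⟨C, hC⟩ := F.sig
  have hC' : ∀ t, 0 < t → lvK K0 (F.K t) p ≤ C * (1 + t) := fun t ht =>
    hC t ht _ (A.cover p).choose_spec
  have hC0 : 0 ≤ C := by
    have := (lv_nonneg F one_pos p).trans (hC' 1 one_pos)
    linarith
  refine ⟨6 * C, by positivity, fun t ht => ?_⟩
  have ht0 : 0 < t := by linarith
  have h1 := incr_le (f := fun s => scK (F.K t) p / 2 * s) (g := fun s => lvK K0 (F.K s) p)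
    (f' := fun _ => scK (F.K t) p / 2) (g' := fun s => scK (F.K s) p) (a := t) (b := 2 * t)
    (by linarith) (fun s _ => by simpa using (hasDerivAt_id s).const_mul (scK (F.K t) p / 2))
    (fun s hs => lv_deriv F (ht0.trans_le hs.1) p) (fun s hs => by
      have hs0 : 0 < s := ht0.trans_le hs.1
      have h2 : t * scK (F.K t) p ≤ s * scK (F.K s) p := sc_mono F p ht0 hs0 hs.1
      have h3 := sc_nonneg F hs0 p
      have h4 : s * scK (F.K s) p ≤ 2 * t * scK (F.K s) p := by gcongr; exact hs.2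
      have h5 : t * scK (F.K t) p ≤ t * (2 * scK (F.K s) p) := by linarith
      have := le_of_mul_le_mul_left h5 ht0
      linarith)
  have h2 := hC' (2 * t) (by linarith)
  have h3 := lv_nonneg F ht0 p
  have h4 : t * scK (F.K t) p ≤ t * (6 * C) := by nlinarith
  exact le_of_mul_le_mul_left h4 ht0

theorem exists_chart {ε0 N : ℝ} (hε0 : 0 < ε0) (hN : 0 < N)
    (hQ : ∀ (G : MF A) (U : Set M) (ρ : M → ℝ) (c r σ : ℝ), IsOpen U → KahOn G U → 0 < c → 0 < r →
      LipOn G U c ρ → IsCompact {y | y ∈ U ∧ ρ y ≤ σ} →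
      (∀ i, ∀ y ∈ (A.e i).source, y ∈ U → ρ y ≤ σ →
        BKge (G i) (A.e i y) (ε0 / r ^ 2) ∧ BKle (G i) (A.e i y) (ε0 / r ^ 2)) →
      ∀ x ∈ U, ρ x ≤ σ - N * c * r → ∃ ψ : Cn n → M, QC G {y | y ∈ U ∧ ρ y ≤ σ} x r (1 / 2) ψ)
    {t r : ℝ} (ht : 0 < t) (hr : 0 < r)
    (hc : ∀ y, dK (F.K t) p y ≤ N * r → scK (F.K t) y ≤ ε0 / r ^ 2) :
    ∃ ψ : Cn n → M, Imm A ψ (ball 0 1) ∧ ψ 0 = p ∧
      pbm (F.K t) ψ 0 = ((r ^ 2 : ℝ) : ℂ) • (1 : Mat n) ∧
      (∀ w ∈ ball (0 : Cn n) 1, ∀ v, r ^ 2 / 2 * ‖v‖ ^ 2 ≤ nq (pbm (F.K t) ψ w) v) ∧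
      ∀ w ∈ ball (0 : Cn n) 1, ∀ v, nq (pbm (F.K t) ψ w) v ≤ 2 * r ^ 2 * ‖v‖ ^ 2 := by
  have hcpt : IsCompact {y | y ∈ (univ : Set M) ∧ dK (F.K t) p y ≤ N * r} := by
    have := F.proper t ht
    have h1 := isCompact_closedBall (α := (ofKah (F.K t)).M) p (N * r)
    have h2 : {y | y ∈ (univ : Set M) ∧ dK (F.K t) p y ≤ N * r} =
        closedBall (α := (ofKah (F.K t)).M) p (N * r) := by
      ext y
      simp only [mem_univ, true_and, mem_ofPred_eq]
      rw [dK_comm]
      rfl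
    rw [h2]; exact h1
  obtain ⟨ψ, hψ⟩ := hQ (gc (F.K t)) univ (dK (F.K t) p) 1 r (N * r) isOpen_univ (kahOn_gc _ _)
    one_pos hr (U0.lipOn_dK _ p) hcpt (fun i y hy _ hd => by
      have hz := (A.e i).map_source hy
      have hpos := (gc_pos (F.K t) i hz).posSemidef
      constructor
      · intro v w
        have h1 := F.bk t ht i _ hz v w
        have h2 : 0 ≤ ε0 / r ^ 2 * nq (gc (F.K t) i (A.e i y)) v * nq (gc (F.K t) i (A.e i y)) w :=
          mul_nonneg (mul_nonneg (by positivity) (nq_nonneg hpos v)) (nq_nonneg hpos w)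
        simp only [zero_mul, neg_zero] at h1
        linarith
      · intro v w
        refine ((tr_at F ht i hz).2.2.2.1 v w).trans ?_
        rw [scK_eq _ hy]
        exact mul_le_mul_of_nonneg_right (mul_le_mul_of_nonneg_right (hc y hd) (nq_nonneg hpos v))
          (nq_nonneg hpos w)) p (mem_univ _) (by
      have h3 : dK (F.K t) p p = 0 := dist_self (α := (ofKah (F.K t)).M) p
      rw [h3]; simp)
  refine ⟨ψ, hψ.imm, hψ.zero, by rw [← pull_gc]; exact hψ.ctr, fun w hw v => ?_, fun w hw v => ?_⟩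
  · have := hψ.lo w hw v
    rw [pull_gc] at this
    linarith
  · have := hψ.hi w hw v
    rw [pull_gc] at this
    nlinarith [mul_nonneg (sq_nonneg r) (sq_nonneg ‖v‖)]

theorem exists_unit (hn : 1 ≤ n) : ∃ e : Cn n, ‖e‖ = 1 :=
  ⟨EuclideanSpace.single ⟨0, hn⟩ 1, by simp⟩

theorem exists_top (hn : 1 ≤ n) {P : Mat n} (hP : P.PosDef) :
    ∃ e : Cn n, ‖e‖ = 1 ∧ Real.log P.det.re ≤ n * Real.log (nq P e) := by
  obtain ⟨e0, he0⟩ := exists_unit hn
  have hc : Continuous (nq P) := by unfold nq; fun_prop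
  obtain ⟨e, he, hmax⟩ := (isCompact_sphere (0 : Cn n) 1).exists_isMaxOn
    ⟨e0, by simpa using he0⟩ hc.continuousOn
  have he1 : ‖e‖ = 1 := by simpa using he
  have hpos : 0 < nq P e := nq_pos_76 hP (by rintro rfl; simp at he1)
  refine ⟨e, he1, ?_⟩
  have h := Lo.logdet_le hP Matrix.PosDef.one hpos (fun v => by
    rw [nq_one]
    by_cases hv : v = 0
    · subst hv
      have := nq_vsmul P 0 0
      simp at this
      simp [this]
    have hn' : 0 < ‖v‖ := norm_pos_iff.2 hv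
    have h2 : nq P (‖v‖⁻¹ • v) ≤ nq P e := hmax (by simp [norm_smul, hn'.ne'])
    rw [nq_vsmul] at h2
    have h3 : nq P v = (‖v‖⁻¹ ^ 2 * nq P v) * ‖v‖ ^ 2 := by field_simp
    rw [h3]
    gcongr)
  simpa using h

theorem logdet_pbm (K K' : Kah A) {ψ : Cn n → M} (hψ : Imm A ψ (ball 0 1)) {w : Cn n}
    (hw : w ∈ ball (0 : Cn n) 1) :
    Real.log (pbm K ψ w).det.re = Real.log (pbm K' ψ w).det.re + lvK K K' (ψ w) := by
  obtain ⟨i, hi⟩ := A.cover (ψ w)
  have h1 : 0 < ‖(fderiv ℂ (rd A i ψ) w).det‖ ^ 2 :=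
    pow_pos (norm_pos_iff.2 ((det_ne_zero_iff _).2 (hψ.2 w hw i hi))) 2
  rw [det_pbm K hψ.1 hw hi, det_pbm K' hψ.1 hw hi, ← lvK_eq K K' hi,
    Real.log_mul h1.ne' (det_re_pos (K.pos i _ hi)).ne',
    Real.log_mul h1.ne' (det_re_pos (K'.pos i _ hi)).ne']
  unfold lvol ldet
  rw [gc_e K hi, gc_e K' hi]
  ring

theorem lv_lower {C : ℝ} (hC0 : 0 ≤ C) (hC : ∀ t, 1 ≤ t → scK (F.K t) p ≤ C) {Q : Set M}
    (hQ : IsCompact Q) : ∃ κ > 0, ∀ t, 1 ≤ t → ∀ x ∈ Q,
      κ * (lvK K0 (F.K t) p - lvK K0 (F.K 1) p - C) ≤ lvK K0 (F.K t) x := by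
  have hc : ContinuousOn (dK K0 p) Q := fun x _ =>
    (Lp93.LipOn_continuousAt (U0.lipOn_dK K0 p) (mem_univ x)).continuousWithinAt
  obtain ⟨D, hD⟩ := hQ.bddAbove_image hc
  set κ := Real.exp (-D ^ 2) / 2 with hκ
  have hκ0 : 0 < κ := by positivity
  refine ⟨κ, hκ0, fun t ht x hx => ?_⟩
  have hup : ∀ a b, 1 ≤ a → a ≤ b → lvK K0 (F.K b) p - lvK K0 (F.K a) p ≤ C * b - C * a :=
    fun a b ha hab => incr_le (f := fun s => lvK K0 (F.K s) p) (g := fun s => C * s)
      (f' := fun s => scK (F.K s) p) (g' := fun _ => C) hab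
      (fun s hs => lv_deriv F (by linarith [hs.1]) p)
      (fun s _ => by simpa using (hasDerivAt_id s).const_mul C)
      (fun s hs => hC s (ha.trans hs.1))
  by_cases h2 : t ≤ 2
  · have h3 := hup 1 t le_rfl ht
    have h4 := lv_nonneg F (by linarith : 0 < t) x
    have h5 : lvK K0 (F.K t) p - lvK K0 (F.K 1) p - C ≤ 0 := by nlinarith
    nlinarith
  push Not at h2
  have h1 := incr_le (f := fun s => κ * lvK K0 (F.K s) p) (g := fun s => lvK K0 (F.K (s + 1)) x)
    (f' := fun s => κ * scK (F.K s) p) (g' := fun s => scK (F.K (s + 1)) x) (a := 1) (b := t - 1)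
    (by linarith) (fun s hs => (lv_deriv F (by linarith [hs.1]) p).const_mul κ)
    (fun s hs => (lv_deriv F (by linarith [hs.1] : 0 < s + 1) x).comp_add_const s 1)
    (fun s hs => by
      have hs0 : 0 < s := by linarith [hs.1]
      have a1 := harnack F hs0 (by linarith : s < s + 1) p x
      have a2 : dK (F.K s) p x ≤ D := (dK_mono (F.le0 s hs0) p x).trans (hD ⟨x, hx, rfl⟩)
      have a3 := Lp93.dK_nonneg (F.K s) p x
      have a4 : Real.exp (dK (F.K s) p x ^ 2 / (s + 1 - s)) ≤ Real.exp (D ^ 2) := by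
        refine Real.exp_le_exp.2 ?_
        rw [add_sub_cancel_left, div_one]
        gcongr
      have a5 := sc_nonneg F (by linarith : 0 < s + 1) x
      have a6 : s * scK (F.K s) p ≤ s * (2 * scK (F.K (s + 1)) x * Real.exp (D ^ 2)) :=
        calc s * scK (F.K s) p ≤ _ := a1
          _ ≤ (2 * s) * scK (F.K (s + 1)) x * Real.exp (D ^ 2) := by
              gcongr; linarith [hs.1]
          _ = _ := by ring
      have a7 := le_of_mul_le_mul_left a6 hs0
      have a8 : κ * (2 * scK (F.K (s + 1)) x * Real.exp (D ^ 2)) = scK (F.K (s + 1)) x := by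
        rw [hκ, Real.exp_neg]; field_simp
      rw [← a8]
      gcongr)
  simp only [sub_add_cancel] at h1
  have h3 := hup (t - 1) t (by linarith) (by linarith)
  have h4 := lv_nonneg F (by norm_num : (0 : ℝ) < 1 + 1) x
  have h5 : κ * (lvK K0 (F.K t) p - lvK K0 (F.K 1) p - C) ≤
      κ * (lvK K0 (F.K (t - 1)) p - lvK K0 (F.K 1) p) := by
    refine mul_le_mul_of_nonneg_left ?_ hκ0.le
    linarith
  linarith

theorem geoStmt {n : ℕ} (hn : 1 ≤ n) (hQC : QCStmt n) : GeoStmt n := by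
  intro M _ _ _ A K0 p H F
  obtain ⟨ε0, N, hε0, hN, hQ⟩ := hQC (1 / 2) (by norm_num)
  have hQ' := hQ M A
  obtain ⟨C, hC0, hC⟩ := exists_R_le F
  have hb : ball (0 : Cn n) (1 / 2) ⊆ ball 0 1 := ball_subset_ball (by norm_num)
  have h0b : (0 : Cn n) ∈ ball (0 : Cn n) (1 / 2) := mem_ball_self (by norm_num)
  -- positivity of the scalar curvature at `p`
  have hpos : ∃ t0, 1 ≤ t0 ∧ 0 < scK (F.K t0) p := by
    by_contra hcon
    push Not at hcon
    have h1 : ∀ y, scK (F.K 1) y ≤ 0 := fun y => by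
      have a1 := harnack F one_pos one_lt_two y p
      have a2 : scK (F.K 2) p = 0 := le_antisymm (hcon 2 one_le_two) (sc_nonneg F two_pos p)
      rw [a2] at a1
      simpa using a1
    obtain ⟨c, c2, hc, hc2, hP⟩ := pinchStmt n M A K0 H.bk {p} isCompact_singleton
    obtain ⟨i, hi⟩ := A.cover p
    set B := trg ((F.K 1).g i p) (K0.g i p) with hB
    set s := 2 * Real.exp ((Real.log (2 * B) + 1) / c) / c2 with hs
    have hs0 : 0 < s := by positivity
    obtain ⟨ψ, hψ, hψ0, hctr, hlo, -⟩ := exists_chart F hε0 hN hQ' one_pos (Real.sqrt_pos.2 hs0)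
      (fun y _ => (h1 y).trans (by positivity))
    rw [Real.sq_sqrt hs0.le] at hctr hlo
    obtain ⟨e, he⟩ := exists_unit hn
    have hlo0 : ∀ w ∈ ball (0 : Cn n) 1, ∀ v, s / 2 * ‖v‖ ^ 2 ≤ nq (pbm K0 ψ w) v := fun w hw v =>
      (hlo w hw v).trans (by simpa using (F.le0 1 one_pos).pbm ψ w v)
    have a1 := hP ψ (s / 2) hψ (by positivity) hlo0 0 h0b hψ0 e e he he
    have hi' : ψ 0 ∈ (A.e i).source := hψ0 ▸ hi
    have a2 : nq (pbm K0 ψ 0) e ≤ B * s := by
      have b1 : nq (pbm (F.K 1) ψ 0) e = s := by rw [hctr, nq_smul, nq_one, he]; simp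
      rw [← b1, nq_pbm K0 hψ.1 (hb h0b) hi', nq_pbm (F.K 1) hψ.1 (hb h0b) hi', hψ0]
      exact nq_le_trg_of_nq ((F.K 1).pos i p hi) (nq_nonneg (K0.pos i p hi).posSemidef) _
    have a3 : s / 2 ≤ nq (pbm K0 ψ 0) e := by simpa [he] using hlo0 0 (hb h0b) e
    have hBp : 0 < B := by
      by_contra h
      push Not at h
      nlinarith
    have a4 : Real.log (nq (pbm K0 ψ 0) e) ≤ Real.log (2 * B) + Real.log (s / 2) := by
      rw [← Real.log_mul (by positivity) (by positivity)]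
      exact Real.log_le_log (by linarith) (by linarith)
    have a5 : (Real.log (2 * B) + 1) / c ≤ Real.log (c2 * nq (pbm K0 ψ 0) e) := by
      rw [Real.le_log_iff_exp_le (mul_pos hc2 (by linarith))]
      calc Real.exp ((Real.log (2 * B) + 1) / c) = c2 * (s / 2) := by rw [hs]; field_simp
        _ ≤ _ := by gcongr
    rw [div_le_iff₀ hc] at a5
    nlinarith
  -- the charts
  set X := 2 * C * Real.exp (N ^ 2) + 1 with hX
  have hXp : 0 < X := by positivity
  set τ := min 1 (ε0 / X) with hτ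
  have hτ0 : 0 < τ := lt_min one_pos (by positivity)
  have hch : ∀ t, ∃ ψ : Cn n → M, 1 ≤ t → (Imm A ψ (ball 0 1) ∧ ψ 0 = p ∧
      pbm (F.K t) ψ 0 = ((τ : ℝ) : ℂ) • (1 : Mat n) ∧
      (∀ w ∈ ball (0 : Cn n) 1, ∀ v, τ / 2 * ‖v‖ ^ 2 ≤ nq (pbm (F.K t) ψ w) v) ∧
      ∀ w ∈ ball (0 : Cn n) 1, ∀ v, nq (pbm (F.K t) ψ w) v ≤ 2 * τ * ‖v‖ ^ 2) := by
    intro t
    by_cases ht : 1 ≤ t
    · have ht0 : 0 < t := by linarith
      obtain ⟨ψ, h⟩ := exists_chart F hε0 hN hQ' ht0 (Real.sqrt_pos.2 hτ0) (fun y hy => by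
        rw [Real.sq_sqrt hτ0.le]
        have a1 := harnack F ht0 (by linarith : t < t + 1) y p
        have a2 : Real.sqrt τ ≤ 1 := Real.sqrt_le_one.2 (min_le_left _ _)
        have a3 : dK (F.K t) y p ≤ N := by
          rw [dK_comm]
          exact hy.trans (by nlinarith)
        have a3' := Lp93.dK_nonneg (F.K t) y p
        have a4 : Real.exp (dK (F.K t) y p ^ 2 / (t + 1 - t)) ≤ Real.exp (N ^ 2) := by
          refine Real.exp_le_exp.2 ?_
          rw [add_sub_cancel_left, div_one]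
          gcongr
        have a5 := hC (t + 1) (by linarith)
        have a6 : t * scK (F.K t) y ≤ t * (2 * C * Real.exp (N ^ 2)) :=
          calc t * scK (F.K t) y ≤ _ := a1
            _ ≤ (2 * t) * C * Real.exp (N ^ 2) := by
                have := sc_nonneg F (by linarith : 0 < t + 1) p
                gcongr; linarith
            _ = _ := by ring
        have a7 := le_of_mul_le_mul_left a6 ht0
        have a8 : X ≤ ε0 / τ := by
          rw [le_div_iff₀ hτ0]
          calc X * τ ≤ X * (ε0 / X) := by gcongr; exact min_le_right _ _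
            _ = ε0 := by field_simp
        linarith)
      rw [Real.sq_sqrt hτ0.le] at h
      exact ⟨ψ, fun _ => h⟩
    · exact ⟨fun _ => p, fun h => absurd h ht⟩
  choose ψ hψ using hch
  have hΛ2 : (2 : ℝ) ≤ max 2 τ⁻¹ := le_max_left _ _
  refine ⟨{ τ := τ, Λ := max 2 τ⁻¹, ψ := ψ, sg := fun t => lvK K0 (F.K t) p,
            R := fun t => scK (F.K t) p, C := C, one_le := by linarith, τ_lo := ?_, qc := ?_,
            zero := fun t ht => (hψ t ht).2.1, ctr := fun t ht => (hψ t ht).2.2.1,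
            anti := fun s t hs hst => flow_anti F hs hst,
            sg_eq := fun t _ i hi => lvK_eq K0 _ hi, R_eq := fun t _ i hi => scK_eq _ hi,
            sg_deriv := fun t ht => lv_deriv F ht p, sg_nonneg := fun t ht => lv_nonneg F ht p,
            sg_top := ?_, R_nonneg := fun t ht => sc_nonneg F ht p, R_mono := sc_mono F p,
            R_le := hC, R_pos := hpos, pinch := ?_, ricpos := ricPos_of_BKpos H.bk }⟩
  · calc (1 : ℝ) = τ⁻¹ * τ := by field_simp
      _ ≤ _ := by gcongr; exact le_max_right _ _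
  · intro t ht
    obtain ⟨h1, -, -, h4, h5⟩ := hψ t ht
    refine ⟨h1, fun w hw v => ?_, fun w hw v => (h5 w hw v).trans (by gcongr)⟩
    have a1 := h4 w hw v
    have a2 := nq_pbm_nonneg (F.K t) (ψ t) w v
    nlinarith
  · obtain ⟨t0, ht0, hR⟩ := hpos
    have ht0' : 0 < t0 := by linarith
    set a := t0 * scK (F.K t0) p with ha
    have hap : 0 < a := by positivity
    have h1 : Tendsto (fun t => a * Real.log t - a * Real.log t0) atTop atTop :=
      tendsto_atTop_add_const_right _ _ (Real.tendsto_log_atTop.const_mul_atTop hap)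
    refine tendsto_atTop_mono' _ ?_ h1
    filter_upwards [eventually_ge_atTop t0] with t ht
    have h2 := incr_le (f := fun s => a * Real.log s) (g := fun s => lvK K0 (F.K s) p)
      (f' := fun s => a * s⁻¹) (g' := fun s => scK (F.K s) p) ht
      (fun s hs => (Real.hasDerivAt_log (ht0'.trans_le hs.1).ne').const_mul a)
      (fun s hs => lv_deriv F (ht0'.trans_le hs.1) p) (fun s hs => by
        have hs0 : 0 < s := ht0'.trans_le hs.1
        have b1 : a ≤ s * scK (F.K s) p := sc_mono F p ht0' hs0 hs.1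
        rw [← div_eq_mul_inv, div_le_iff₀ hs0]
        linarith)
    have h3 := lv_nonneg F ht0' p
    linarith
  · intro Q hQc
    obtain ⟨c, c2, hc, hc2, hP⟩ := pinchStmt n M A K0 H.bk Q hQc
    obtain ⟨κ, hκ, hlv⟩ := lv_lower F hC0 hC hQc
    have hn' : (0 : ℝ) < n := by exact_mod_cast hn
    refine ⟨c * κ / n, -(Real.log (τ / 2) + c * (Real.log c2 + Real.log (τ / 2) -
      κ * (lvK K0 (F.K 1) p + C) / n)), by positivity, ?_⟩
    intro t ht w hw hwQ v
    have ht0 : 0 < t := by linarith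
    obtain ⟨h1, -, -, h4, -⟩ := hψ t ht
    have hlo0 : ∀ w ∈ ball (0 : Cn n) 1, ∀ v, τ / 2 * ‖v‖ ^ 2 ≤ nq (pbm K0 (ψ t) w) v :=
      fun w hw v => (h4 w hw v).trans (by simpa using (F.le0 t ht0).pbm (ψ t) w v)
    by_cases hv : v = 0
    · subst hv
      simpa using nq_pbm_nonneg K0 (ψ t) w 0
    have hnv : 0 < ‖v‖ := norm_pos_iff.2 hv
    have hPd : (pbm K0 (ψ t) w).PosDef := posDef_of_nq (pbm_herm _ _ _) fun u hu =>
      lt_of_lt_of_le (mul_pos (by positivity) (pow_pos (norm_pos_iff.2 hu) 2)) (hlo0 w (hb hw) u)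
    obtain ⟨e, he, hdet⟩ := exists_top hn hPd
    have he0 : ‖‖v‖⁻¹ • v‖ = 1 := by simp [norm_smul, hnv.ne']
    have a1 := hP (ψ t) (τ / 2) h1 (by positivity) hlo0 w hw hwQ _ e he0 he
    have a2 := logdet_pbm K0 (F.K t) h1 (hb hw)
    have a3 : n * Real.log (τ / 2) ≤ Real.log (pbm (F.K t) (ψ t) w).det.re := by
      rw [← Real.log_pow]
      exact Real.log_le_log (by positivity)
        (det_ge_of_nq (pbm_herm _ _ _) (by positivity) (h4 w (hb hw)))
    have a4 := hlv t ht _ hwQ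
    have a5 : 0 < nq (pbm K0 (ψ t) w) e := nq_pos_76 hPd (by rintro rfl; simp at he)
    have a6 : Real.log (τ / 2) + κ * (lvK K0 (F.K t) p - lvK K0 (F.K 1) p - C) / n ≤
        Real.log (nq (pbm K0 (ψ t) w) e) := by
      rw [← mul_le_mul_iff_right₀ hn', mul_add, mul_div_cancel₀ _ hn'.ne']
      linarith
    rw [Real.log_mul hc2.ne' a5.ne'] at a1
    have a7 : 0 < nq (pbm K0 (ψ t) w) (‖v‖⁻¹ • v) := nq_pos_76 hPd (by
      intro h; rw [h] at he0; simp at he0)
    have a8 : c * κ / n * lvK K0 (F.K t) p - -(Real.log (τ / 2) + c * (Real.log c2 +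
        Real.log (τ / 2) - κ * (lvK K0 (F.K 1) p + C) / n)) ≤
        Real.log (nq (pbm K0 (ψ t) w) (‖v‖⁻¹ • v)) := by
      refine le_trans ?_ a1
      calc _ = Real.log (τ / 2) + c * (Real.log c2 + (Real.log (τ / 2) +
          κ * (lvK K0 (F.K t) p - lvK K0 (F.K 1) p - C) / n)) := by ring
        _ ≤ _ := by gcongr
    rw [Real.le_log_iff_exp_le a7, nq_vsmul] at a8
    have a9 : nq (pbm K0 (ψ t) w) v = (‖v‖⁻¹ ^ 2 * nq (pbm K0 (ψ t) w) v) * ‖v‖ ^ 2 := by
      field_simp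
    rw [a9]
    gcongr

end

end Crest.Agent.T223.Hn
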