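import Crest.Agent.T223.GeoDef_76
import Crest.Agent.T223.TrEnd_90

/-!
# Row 223, PINCH, part 1 (helper76): second derivative test on complex lines, curvature barrier
-/

set_option autoImplicit false
set_option linter.unusedVariables false
set_option linter.unusedSectionVars false

open Set Filter Topology Metric
open scoped ContDiff ComplexConjugate Matrix ComplexOrder

namespace Crest.Agent.T223.Hn

open Crest.Agent.R275.Geo Crest.Agent.R275.EDR890 Crest.Agent.R273.Kah_333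
open Crest.Agent.R273.Hess_333 Crest.Agent.R273.HessB_333 Crest.Agent.R273.Defs_333
open Crest.Agent.T223.Br Crest.Agent.T223.Tr

noncomputable section

variable {n : ℕ}

theorem snd_nonpos_76 {E : Type*} [NormedAddCommGroup E] [NormedSpace ℝ E] {u : E → ℝ} {z v : E}
    (hu : ContDiffAt ℝ 2 u z) (hm : ∀ᶠ t in 𝓝 (0 : ℝ), u (z + t • v) ≤ u z) :
    fderiv ℝ (fderiv ℝ u) z v v ≤ 0 := by
  by_contra hcon
  push Not at hcon
  have hline : ∀ t : ℝ, HasDerivAt (fun s : ℝ => z + s • v) v t := fun t => by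
    simpa using ((hasDerivAt_id t).smul_const v).const_add z
  set g : ℝ → ℝ := fun t => u (z + t • v) with hg
  have hg0 : g 0 = u z := by simp [hg]
  have hmax : IsLocalMax g 0 := by
    filter_upwards [hm] with t ht
    rwa [hg0]
  have htend : Tendsto (fun t : ℝ => z + t • v) (𝓝 0) (𝓝 z) := by
    simpa using (hline 0).continuousAt.tendsto
  have hd1 : ∀ᶠ t in 𝓝 (0 : ℝ), HasDerivAt g (fderiv ℝ u (z + t • v) v) t := by
    have := (hu.of_le (m := 1) (by norm_num)).eventually (by simp)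
    filter_upwards [htend.eventually this] with t ht
    exact (ht.differentiableAt (by simp)).hasFDerivAt.comp_hasDerivAt t (hline t)
  have hdg : deriv g =ᶠ[𝓝 0] fun t => fderiv ℝ u (z + t • v) v := by
    filter_upwards [hd1] with t ht using ht.deriv
  have hd2 : HasDerivAt (fun t : ℝ => fderiv ℝ u (z + t • v) v)
      (fderiv ℝ (fderiv ℝ u) z v v) 0 := by
    have h2 : HasFDerivAt (fderiv ℝ u) (fderiv ℝ (fderiv ℝ u) z) (z + (0 : ℝ) • v) := by
      simpa using ((hu.fderiv_right (m := 1) (by norm_num)).differentiableAt (by simp)).hasFDerivAt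
    have h2' : HasDerivAt (fun t : ℝ => fderiv ℝ u (z + t • v)) (fderiv ℝ (fderiv ℝ u) z v) 0 :=
      HasFDerivAt.comp_hasDerivAt (f := fun t : ℝ => z + t • v) (0 : ℝ) h2 (hline 0)
    simpa using h2'.clm_apply (hasDerivAt_const (0 : ℝ) v)
  have h0 : deriv g 0 = 0 := hmax.deriv_eq_zero
  have hdd : deriv (deriv g) 0 = fderiv ℝ (fderiv ℝ u) z v v := by
    rw [hdg.deriv_eq]; exact hd2.deriv
  have hmin : IsLocalMin g 0 :=
    isLocalMin_of_deriv_deriv_pos (by rw [hdd]; exact hcon) h0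
      hd1.self_of_nhds.continuousAt
  have hconst : g =ᶠ[𝓝 0] fun _ => g 0 := by
    filter_upwards [hmax, hmin] with t h1 h2 using le_antisymm h1 h2
  have h3 : deriv g =ᶠ[𝓝 0] fun _ => 0 := by
    filter_upwards [hconst.eventually_nhds] with t ht
    rw [EventuallyEq.deriv_eq ht]; simp
  rw [h3.deriv_eq] at hdd
  simp at hdd
  linarith

/-- second derivative test along a complex line -/
theorem hess_nonpos_line {u : Cn n → ℝ} {z v : Cn n} (hu : ContDiffAt ℝ ∞ u z)
    (hm : ∀ᶠ ζ in 𝓝 (0 : ℂ), u (z + ζ • v) ≤ u z) : nq (hess u z) v ≤ 0 := by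
  have h2 : ContDiffAt ℝ 2 u z := hu.of_le (by norm_cast)
  have h0 : nq (hess u z) v = lev u z v / 4 := hq_re hu v
  have ha : fderiv ℝ (fderiv ℝ u) z v v ≤ 0 := by
    refine snd_nonpos_76 h2 ?_
    have ht : Tendsto (fun t : ℝ => (t : ℂ)) (𝓝 0) (𝓝 0) := by
      simpa using Complex.continuous_ofReal.tendsto 0
    filter_upwards [ht.eventually hm] with t h
    exact h
  have hb : fderiv ℝ (fderiv ℝ u) z (Complex.I • v) (Complex.I • v) ≤ 0 := by
    refine snd_nonpos_76 h2 ?_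
    have ht : Tendsto (fun t : ℝ => (t : ℂ) * Complex.I) (𝓝 0) (𝓝 0) := by
      have : Continuous (fun t : ℝ => (t : ℂ) * Complex.I) := by fun_prop
      simpa using this.tendsto 0
    filter_upwards [ht.eventually hm] with t h
    rw [mul_smul] at h
    exact h
  rw [h0]
  unfold lev
  rw [iteratedFDeriv_two_apply, iteratedFDeriv_two_apply]
  simp only [Matrix.cons_val_zero, Matrix.cons_val_one]
  linarith

/-- the affine holomorphic vector field with value `s0` at `z` and derivative `σ` -/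
def afv (z s0 : Cn n) (σ : Fin n → Fin n → ℂ) (w : Cn n) : Cn n :=
  WithLp.toLp 2 fun a => s0 a + ∑ k, (w k - z k) * σ k a

theorem afv_apply (z s0 : Cn n) (σ : Fin n → Fin n → ℂ) (w : Cn n) (a : Fin n) :
    afv z s0 σ w a = s0 a + ∑ k, (w k - z k) * σ k a := rfl

theorem afv_self (z s0 : Cn n) (σ : Fin n → Fin n → ℂ) : afv z s0 σ z = s0 := by
  ext a; simp [afv_apply]

theorem afv_hasFDerivAt (z s0 : Cn n) (σ : Fin n → Fin n → ℂ) (a : Fin n) (w : Cn n) :
    HasFDerivAt (fun w => afv z s0 σ w a)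
      (∑ k, σ k a • (EuclideanSpace.proj k : Cn n →L[ℂ] ℂ)) w := by
  simp only [afv_apply]
  refine HasFDerivAt.const_add _ (HasFDerivAt.fun_sum fun k _ => ?_)
  have h1 : HasFDerivAt (fun w : Cn n => w k - z k) (EuclideanSpace.proj k : Cn n →L[ℂ] ℂ) w :=
    (EuclideanSpace.proj k : Cn n →L[ℂ] ℂ).hasFDerivAt.sub_const _
  exact h1.mul_const _

theorem afv_diff (z s0 : Cn n) (σ : Fin n → Fin n → ℂ) : Differentiable ℂ (afv z s0 σ) :=
  differentiable_euclidean.2 fun a w => (afv_hasFDerivAt z s0 σ a w).differentiableAt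

theorem afv_contDiff (z s0 : Cn n) (σ : Fin n → Fin n → ℂ) (a : Fin n) (w : Cn n) :
    ContDiffAt ℝ ∞ (fun w => afv z s0 σ w a) w :=
  real_contDiffAt (Eventually.of_forall fun y => (afv_hasFDerivAt z s0 σ a y).differentiableAt)

theorem wd_afv (z s0 : Cn n) (σ : Fin n → Fin n → ℂ) (a k : Fin n) (w : Cn n) :
    wd (false, k) (fun w => afv z s0 σ w a) w = σ k a := by
  rw [wd_hol' (afv_hasFDerivAt z s0 σ a w).differentiableAt, (afv_hasFDerivAt z s0 σ a w).fderiv]
  simp [PiLp.single_apply]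

theorem wdb_afv (z s0 : Cn n) (σ : Fin n → Fin n → ℂ) (a k : Fin n) (w : Cn n) :
    wd (true, k) (fun w => afv z s0 σ w a) w = 0 :=
  wd_hol (afv_hasFDerivAt z s0 σ a w).differentiableAt k

theorem wd_cafv (z s0 : Cn n) (σ : Fin n → Fin n → ℂ) (a k : Fin n) (w : Cn n) :
    wd (false, k) (fun w => conj (afv z s0 σ w a)) w = 0 := by
  have h := conj_wd (true, k) ((afv_contDiff z s0 σ a w).differentiableAt (by simp))
  rw [wdb_afv] at h
  simpa using h.symm

theorem wdb_cafv (z s0 : Cn n) (σ : Fin n → Fin n → ℂ) (a k : Fin n) (w : Cn n) :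
    wd (true, k) (fun w => conj (afv z s0 σ w a)) w = conj (σ k a) := by
  have h := conj_wd (false, k) ((afv_contDiff z s0 σ a w).differentiableAt (by simp))
  rw [wd_afv] at h
  simpa using h.symm

theorem cafv_contDiff (z s0 : Cn n) (σ : Fin n → Fin n → ℂ) (a : Fin n) (w : Cn n) :
    ContDiffAt ℝ ∞ (fun w => conj (afv z s0 σ w a)) w :=
  Complex.conjCLE.contDiff.contDiffAt.comp w (afv_contDiff z s0 σ a w)

theorem herm_sum_im {H : Mat n} (hH : H.IsHermitian) (v : Cn n) :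
    (((∑ a, ∑ b, H a b * v a * conj (v b)).re : ℝ) : ℂ) = ∑ a, ∑ b, H a b * v a * conj (v b) := by
  rw [← Complex.conj_eq_iff_re, map_sum]
  simp only [map_sum, map_mul, Complex.conj_conj]
  rw [Finset.sum_comm]
  refine Finset.sum_congr rfl fun a _ => Finset.sum_congr rfl fun b _ => ?_
  have := hH.apply a b
  rw [RCLike.star_def] at this
  rw [this]; ring

theorem wd3 {f g h : Cn n → ℂ} {z : Cn n} (hf : DifferentiableAt ℝ f z)
    (hg : DifferentiableAt ℝ g z) (hh : DifferentiableAt ℝ h z) (r : WI n) :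
    wd r (fun w => f w * g w * h w) z =
      wd r f z * g z * h z + f z * wd r g z * h z + f z * g z * wd r h z := by
  rw [wd_mul (f := fun w => f w * g w) (hf.fun_mul hg) hh, wd_mul hf hg]; ring

theorem wd_sum2 {F : Fin n → Fin n → Cn n → ℂ} {z : Cn n}
    (hF : ∀ a b, DifferentiableAt ℝ (F a b) z) (r : WI n) :
    wd r (fun w => ∑ a, ∑ b, F a b w) z = ∑ a, ∑ b, wd r (F a b) z := by
  rw [wd_sum (f := fun a w => ∑ b, F a b w) _ fun a _ => DifferentiableAt.fun_sum fun b _ => hF a b]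
  exact Finset.sum_congr rfl fun a _ => wd_sum _ (fun b _ => hF a b) r

theorem sum4_comm (F : Fin n → Fin n → Fin n → Fin n → ℂ) :
    ∑ k, ∑ l, ∑ a, ∑ b, F k l a b = ∑ a, ∑ b, ∑ k, ∑ l, F k l a b :=
  calc ∑ k, ∑ l, ∑ a, ∑ b, F k l a b = ∑ k, ∑ a, ∑ l, ∑ b, F k l a b :=
        Finset.sum_congr rfl fun k _ => Finset.sum_comm
    _ = ∑ a, ∑ k, ∑ l, ∑ b, F k l a b := Finset.sum_comm
    _ = ∑ a, ∑ k, ∑ b, ∑ l, F k l a b :=
        Finset.sum_congr rfl fun a _ => Finset.sum_congr rfl fun k _ => Finset.sum_comm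
    _ = ∑ a, ∑ b, ∑ k, ∑ l, F k l a b := Finset.sum_congr rfl fun a _ => Finset.sum_comm

theorem hess_field {g : Cn n → Mat n} {z : Cn n} {s c : Fin n → Cn n → ℂ} {σ : Fin n → Fin n → ℂ}
    {N : Cn n → ℝ} (hsm : ∀ᶠ w in 𝓝 z, ∀ a b, ContDiffAt ℝ ∞ (fun y => g y a b) w)
    (hcu : cu N =ᶠ[𝓝 z] fun w => ∑ a, ∑ b, g w a b * s a w * c b w)
    (hs1 : ∀ a w, DifferentiableAt ℝ (s a) w) (hs2 : ∀ a w, DifferentiableAt ℝ (c a) w)
    (d1 : ∀ a k w, wd (false, k) (s a) w = σ k a) (d2 : ∀ a k w, wd (true, k) (s a) w = 0)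
    (d3 : ∀ a k w, wd (false, k) (c a) w = 0) (d4 : ∀ a k w, wd (true, k) (c a) w = conj (σ k a))
    (k l : Fin n) : hess N z k l =
      ∑ a, ∑ b, (wdM (false, k) (wdM (true, l) g) z a b * s a z * c b z +
        wdM (true, l) g z a b * σ k a * c b z +
        (wdM (false, k) g z a b * s a z + g z a b * σ k a) * conj (σ l b)) := by
  have h1 : wd (true, l) (cu N) =ᶠ[𝓝 z] fun w =>
      ∑ a, ∑ b, (wd (true, l) (fun y => g y a b) w * s a w * c b w +
        g w a b * s a w * conj (σ l b)) := by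
    filter_upwards [hcu.eventually_nhds, hsm] with w hw hw'
    have hg : ∀ a b, DifferentiableAt ℝ (fun y => g y a b) w := fun a b =>
      (hw' a b).differentiableAt (by simp)
    rw [wd_congr hw, wd_sum2 (F := fun a b y => g y a b * s a y * c b y)
      fun a b => ((hg a b).fun_mul (hs1 a w)).fun_mul (hs2 b w)]
    refine Finset.sum_congr rfl fun a _ => Finset.sum_congr rfl fun b _ => ?_
    rw [wd3 (hg a b) (hs1 a w) (hs2 b w), d2, d4]
    ring
  have hz := hsm.self_of_nhds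
  have hg : ∀ a b, DifferentiableAt ℝ (fun y => g y a b) z := fun a b =>
    (hz a b).differentiableAt (by simp)
  have hg' : ∀ a b, DifferentiableAt ℝ (wd (true, l) (fun y => g y a b)) z := fun a b =>
    (contDiffAt_wd (hz a b) _).differentiableAt (by simp)
  rw [hess_apply, wd_congr h1, wd_sum2 (F := fun a b w =>
    wd (true, l) (fun y => g y a b) w * s a w * c b w + g w a b * s a w * conj (σ l b))
    fun a b => (((hg' a b).fun_mul (hs1 a z)).fun_mul (hs2 b z)).fun_add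
      (((hg a b).fun_mul (hs1 a z)).mul_const _)]
  refine Finset.sum_congr rfl fun a _ => Finset.sum_congr rfl fun b _ => ?_
  rw [wd_add (((hg' a b).fun_mul (hs1 a z)).fun_mul (hs2 b z))
    (((hg a b).fun_mul (hs1 a z)).mul_const _), wd3 (hg' a b) (hs1 a z) (hs2 b z),
    wd3 (hg a b) (hs1 a z) (differentiableAt_const _), d1, d3, wd_const]
  have e1 : wdM (false, k) (wdM (true, l) g) z a b =
      wd (false, k) (wd (true, l) fun y => g y a b) z := rfl
  have e2 : wdM (true, l) g z a b = wd (true, l) (fun y => g y a b) z := rfl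
  have e3 : wdM (false, k) g z a b = wd (false, k) (fun y => g y a b) z := rfl
  rw [e1, e2, e3]
  ring

theorem field_alg {G P Q W : Mat n} (hdet : IsUnit G.det) (s0 c0 τ : Fin n → ℂ) :
    ∑ a, ∑ b, (W a b * s0 a * c0 b + Q a b * (-(s0 ᵥ* (P * G⁻¹))) a * c0 b +
        (P a b * s0 a + G a b * (-(s0 ᵥ* (P * G⁻¹))) a) * τ b) =
      -∑ a, ∑ b, (-W + P * G⁻¹ * Q) a b * s0 a * c0 b := by
  set σ : Fin n → ℂ := -(s0 ᵥ* (P * G⁻¹)) with hσ
  have h3 : ∀ b, ∑ a, (P a b * s0 a + G a b * σ a) = 0 := by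
    intro b
    have e1 : σ ᵥ* G = -(s0 ᵥ* P) := by
      rw [hσ]
      simp only [Matrix.neg_vecMul, Matrix.vecMul_vecMul, Matrix.mul_assoc,
        Matrix.nonsing_inv_mul _ hdet, Matrix.mul_one]
    have e2 : ∑ a, σ a * G a b = -∑ a, s0 a * P a b := congrFun e1 b
    rw [Finset.sum_add_distrib]
    have e3 : ∑ a, G a b * σ a = ∑ a, σ a * G a b := Finset.sum_congr rfl fun a _ => mul_comm _ _
    have e4 : ∑ a, P a b * s0 a = ∑ a, s0 a * P a b := Finset.sum_congr rfl fun a _ => mul_comm _ _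
    rw [e3, e4, e2]; ring
  have h4 : ∀ b, ∑ a, Q a b * σ a = -∑ a, (P * G⁻¹ * Q) a b * s0 a := by
    intro b
    have e1 : σ ᵥ* Q = -(s0 ᵥ* (P * G⁻¹ * Q)) := by
      rw [hσ]
      simp only [Matrix.neg_vecMul, Matrix.vecMul_vecMul]
    have e2 : ∑ a, σ a * Q a b = -∑ a, s0 a * (P * G⁻¹ * Q) a b := congrFun e1 b
    have e3 : ∑ a, Q a b * σ a = ∑ a, σ a * Q a b := Finset.sum_congr rfl fun a _ => mul_comm _ _
    rw [e3, e2]
    congr 1
    exact Finset.sum_congr rfl fun a _ => mul_comm _ _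
  clear_value σ
  rw [Finset.sum_comm, Finset.sum_comm (f := fun a b => (-W + P * G⁻¹ * Q) a b * s0 a * c0 b),
    ← Finset.sum_neg_distrib]
  refine Finset.sum_congr rfl fun b _ => ?_
  rw [Finset.sum_add_distrib, Finset.sum_add_distrib, ← Finset.sum_mul, ← Finset.sum_mul,
    ← Finset.sum_mul, h3, h4, zero_mul, add_zero, ← Finset.sum_mul, ← add_mul, ← neg_mul]
  congr 1
  rw [← Finset.sum_neg_distrib, ← Finset.sum_neg_distrib, ← Finset.sum_add_distrib]
  refine Finset.sum_congr rfl fun a _ => ?_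
  simp only [Matrix.add_apply, Matrix.neg_apply]
  ring

theorem contDiffAt_nq {g : Cn n → Mat n} {s : Cn n → Cn n} {z : Cn n}
    (hg : ∀ a b, ContDiffAt ℝ ∞ (fun y => g y a b) z)
    (hs : ∀ a, ContDiffAt ℝ ∞ (fun y => s y a) z) : ContDiffAt ℝ ∞ (fun w => nq (g w) (s w)) z := by
  have hc : ∀ a, ContDiffAt ℝ ∞ (fun y => conj (s y a)) z := fun a =>
    Complex.conjCLE.contDiff.contDiffAt.comp z (hs a)
  have hHc : ContDiffAt ℝ ∞ (fun w => ∑ a, ∑ b, g w a b * s w a * conj (s w b)) z :=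
    ContDiffAt.sum fun a _ => ContDiffAt.sum fun b _ => ((hg a b).mul (hs a)).mul (hc b)
  exact Complex.reCLM.contDiff.contDiffAt.comp z hHc

theorem nq_of_hess {H : Mat n} {g : Cn n → Mat n} {z s0 : Cn n}
    (h5 : ∀ k l, H k l = -∑ a, ∑ b, Rm g z k l a b * s0 a * conj (s0 b)) (v : Cn n) :
    nq H v = -bis g z s0 v := by
  unfold bis nq
  generalize Rm g z = T at h5 ⊢
  rw [← Complex.neg_re]
  refine congrArg Complex.re ?_
  simp only [h5, neg_mul, Finset.sum_neg_distrib, Finset.sum_mul]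
  exact congrArg Neg.neg
    (sum4_comm fun k l a b => T k l a b * s0 a * conj (s0 b) * v k * conj (v l))

theorem cu_nq {g : Cn n → Mat n} {s : Cn n → Cn n} {z : Cn n}
    (hH : ∀ᶠ w in 𝓝 z, (g w).IsHermitian) :
    cu (fun w => nq (g w) (s w)) =ᶠ[𝓝 z] fun w => ∑ a, ∑ b, g w a b * s w a * conj (s w b) := by
  filter_upwards [hH] with w hw
  exact herm_sum_im hw (s w)

/-- **curvature barrier**: the Levi form of `|s|²_g` for the affine holomorphic field that is
parallel at `z` is minus the bisectional curvature -/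
theorem exists_field {g : Cn n → Mat n} {z : Cn n}
    (hsm : ∀ᶠ w in 𝓝 z, ∀ a b, ContDiffAt ℝ ∞ (fun y => g y a b) w)
    (hH : ∀ᶠ w in 𝓝 z, (g w).IsHermitian) (hpos : (g z).PosDef) (s0 : Cn n) :
    ∃ s : Cn n → Cn n, Differentiable ℂ s ∧ s z = s0 ∧
      ContDiffAt ℝ ∞ (fun w => nq (g w) (s w)) z ∧
      ∀ v, nq (hess (fun w => nq (g w) (s w)) z) v = -bis g z s0 v := by
  obtain ⟨σ, hσ⟩ : ∃ σ : Fin n → Fin n → ℂ, ∀ k, σ k =
    -((fun a => s0 a) ᵥ* (wdM (false, k) g z * (g z)⁻¹)) := ⟨_, fun _ => rfl⟩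
  refine ⟨afv z s0 σ, afv_diff z s0 σ, afv_self z s0 σ,
    contDiffAt_nq hsm.self_of_nhds fun a => afv_contDiff z s0 σ a z, nq_of_hess fun k l => ?_⟩
  have hdet : IsUnit (g z).det := (Matrix.isUnit_iff_isUnit_det _).1 hpos.isUnit
  have h1 := hess_field (s := fun a w => afv z s0 σ w a) (c := fun a w => conj (afv z s0 σ w a))
      hsm (cu_nq hH) (fun a w => (afv_contDiff z s0 σ a w).differentiableAt (by simp))
      (fun a w => (cafv_contDiff z s0 σ a w).differentiableAt (by simp))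
      (wd_afv z s0 σ) (wdb_afv z s0 σ) (wd_cafv z s0 σ) (wdb_cafv z s0 σ) k l
  rw [h1]
  simp only [afv_self]
  rw [hσ k]
  exact field_alg hdet (fun a => s0 a) (fun b => conj (s0 b)) (fun b => conj (σ l b))

end

end Crest.Agent.T223.Hn
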