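import Crest.Agent.T223.HnP1_76

/-!
# Row 223, PINCH, part 2 (helper76): auxiliary lemmas (Levi forms, compactness constants)
-/

set_option autoImplicit false
set_option linter.unusedVariables false
set_option linter.unusedSectionVars false

open Set Filter Topology Metric
open scoped ContDiff ComplexConjugate Matrix ComplexOrder

namespace Crest.Agent.T223.Hn

open Crest.Agent.R275.Geo Crest.Agent.R275.EDR890 Crest.Agent.R273.Kah_333
open Crest.Agent.R273.Hess_333 Crest.Agent.R273.HessB_333 Crest.Agent.R273.Defs_333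
open Crest.Agent.T223.Br Crest.Agent.T223.Tr

noncomputable section

variable {n : ℕ}

theorem nq_add_76 (g g' : Mat n) (v : Cn n) : nq (g + g') v = nq g v + nq g' v := by
  simp only [nq, Matrix.add_apply, add_mul, Finset.sum_add_distrib, Complex.add_re]

theorem nq_neg_76 (g : Mat n) (v : Cn n) : nq (-g) v = -nq g v := by
  simp only [nq, Matrix.neg_apply, neg_mul, Finset.sum_neg_distrib, Complex.neg_re]

theorem nq_zero_76 (v : Cn n) : nq (0 : Mat n) v = 0 := by simp [nq]

theorem nq_vsmul (g : Mat n) (a : ℝ) (v : Cn n) : nq g (a • v) = a ^ 2 * nq g v := by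
  unfold nq
  rw [← Complex.re_ofReal_mul]
  refine congrArg Complex.re ?_
  simp only [PiLp.smul_apply, Complex.real_smul, map_mul, Complex.conj_ofReal, Finset.mul_sum]
  refine Finset.sum_congr rfl fun a _ => Finset.sum_congr rfl fun b _ => ?_
  push_cast; ring

theorem nq_pos_76 {g : Mat n} (hg : g.PosDef) {v : Cn n} (hv : v ≠ 0) : 0 < nq g v := by
  rw [nq_eq_dot]
  refine (Complex.pos_iff.1 (hg.dotProduct_mulVec_pos ?_)).1
  intro h
  apply hv
  ext a
  simpa using congrFun h a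

theorem bis_smul (g : Cn n → Mat n) (z : Cn n) (a b : ℝ) (s v : Cn n) :
    bis g z (a • s) (b • v) = a ^ 2 * b ^ 2 * bis g z s v := by
  unfold bis
  generalize Rm g z = T
  rw [← Complex.re_ofReal_mul]
  refine congrArg Complex.re ?_
  simp only [PiLp.smul_apply, Complex.real_smul, map_mul, Complex.conj_ofReal, Finset.mul_sum]
  refine Finset.sum_congr rfl fun a _ => Finset.sum_congr rfl fun b _ =>
    Finset.sum_congr rfl fun c _ => Finset.sum_congr rfl fun d _ => ?_
  push_cast; ring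

theorem bis_zero_left (g : Cn n → Mat n) (z v : Cn n) : bis g z 0 v = 0 := by
  have := bis_smul g z 0 1 0 v
  simpa using this

theorem bis_zero_right (g : Cn n → Mat n) (z v : Cn n) : bis g z v 0 = 0 := by
  have := bis_smul g z 1 0 v 0
  simpa using this

theorem nq_hess_comp {u : Cn n → ℝ} {T : Cn n → Cn n} {z : Cn n} (hu : ContDiffAt ℝ ∞ u (T z))
    (hT : ∀ᶠ w in 𝓝 z, DifferentiableAt ℂ T w) (v : Cn n) :
    nq (hess (fun w => u (T w)) z) v = nq (hess u (T z)) (fderiv ℂ T z v) := by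
  rw [← nq_pull]
  congr 1
  ext a b
  rw [hess_comp hu hT]
  simp only [Matrix.mul_apply, Matrix.transpose_apply, Matrix.map_apply, Finset.sum_mul, mat,
    Matrix.of_apply]
  rw [Finset.sum_comm]

theorem hess_const_76 (c : ℝ) (z : Cn n) : hess (fun _ => c) z = 0 := by
  ext a b
  rw [hess_apply]
  have : wd (true, b) (cu fun _ : Cn n => c) = fun _ => 0 := by
    funext w; exact wd_const _ _ _
  rw [this, wd_const]; rfl

theorem nq_hess_normSq (z1 z v : Cn n) : nq (hess (fun w => ‖w - z1‖ ^ 2) z) v = ‖v‖ ^ 2 := by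
  set σ : Fin n → Fin n → ℂ := fun k a => if k = a then 1 else 0 with hσ
  have h0 : ∀ w, afv z1 0 σ w = w - z1 := by
    intro w; ext a; simp [afv_apply, hσ]
  have h1 : (fun w : Cn n => ‖w - z1‖ ^ 2) = fun w => nq ((fun _ => (1 : Mat n)) w) (afv z1 0 σ w) := by
    funext w; rw [h0, nq_one]
  have h2 : hess (fun w : Cn n => ‖w - z1‖ ^ 2) z = 1 := by
    ext k l
    rw [h1, hess_field (g := fun _ => (1 : Mat n)) (s := fun a w => afv z1 0 σ w a)
      (c := fun a w => conj (afv z1 0 σ w a))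
      (Eventually.of_forall fun w a b => contDiffAt_const)
      (cu_nq (Eventually.of_forall fun w => Matrix.isHermitian_one))
      (fun a w => (afv_contDiff z1 0 σ a w).differentiableAt (by simp))
      (fun a w => (cafv_contDiff z1 0 σ a w).differentiableAt (by simp))
      (wd_afv z1 0 σ) (wdb_afv z1 0 σ) (wd_cafv z1 0 σ) (wdb_cafv z1 0 σ) k l]
    have e1 : ∀ r : WI n, wdM r (fun _ => (1 : Mat n)) = fun _ => 0 := by
      intro r; funext w; ext a b; exact wd_const _ _ _
    have e2 : ∀ r : WI n, wdM r (fun _ => (0 : Mat n)) = fun _ => 0 := by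
      intro r; funext w; ext a b; exact wd_const _ _ _
    simp only [e1, e2]
    simp [hσ, Matrix.one_apply]
  rw [h2, nq_one]

theorem contDiffAt_normSq (z1 z : Cn n) : ContDiffAt ℝ ∞ (fun w : Cn n => ‖w - z1‖ ^ 2) z :=
  (contDiffAt_id.sub contDiffAt_const).norm_sq ℝ

theorem continuousAt_Rm {g : Cn n → Mat n} {z : Cn n}
    (hg : ∀ a b, ContDiffAt ℝ ∞ (fun y => g y a b) z) (hpos : (g z).PosDef) (c d a b : Fin n) :
    ContinuousAt (fun w => Rm g w c d a b) z := by
  have h1 : ∀ r : WI n, ContinuousAt (wdM r g) z := fun r =>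
    continuousAt_pi.2 fun a => continuousAt_pi.2 fun b => (contDiffAt_wd (hg a b) r).continuousAt
  have h2 : ContinuousAt (wdM (false, c) (wdM (true, d) g)) z :=
    continuousAt_pi.2 fun a => continuousAt_pi.2 fun b =>
      (contDiffAt_wd (contDiffAt_wd (hg a b) _) _).continuousAt
  have h3 : ContinuousAt g z :=
    continuousAt_pi.2 fun a => continuousAt_pi.2 fun b => (hg a b).continuousAt
  have h4 : ContinuousAt (fun w => (g w)⁻¹) z := by
    refine ContinuousAt.comp (f := g) (continuousAt_matrix_inv _ ?_) h3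
    rw [Ring.inverse_eq_inv']
    exact continuousAt_inv₀ hpos.det_pos.ne'
  have h5 : ContinuousAt (fun w => Rm g w c d) z :=
    h2.neg.add (((h1 _).mul h4).mul (h1 _))
  exact continuousAt_pi.1 (continuousAt_pi.1 h5 a) b

variable {M : Type} [TopologicalSpace M] {A : Atl n M}

theorem gc_sm (K : Kah A) (i : A.ι) {z : Cn n} (hz : z ∈ (A.e i).target) :
    ∀ᶠ w in 𝓝 z, ∀ a b, ContDiffAt ℝ ∞ (fun y => gc K i y a b) w := by
  filter_upwards [(A.e i).open_target.mem_nhds hz] with w hw a b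
  exact contDiffAt_g K i hw a b

theorem gc_pos (K : Kah A) (i : A.ι) {z : Cn n} (hz : z ∈ (A.e i).target) : (gc K i z).PosDef :=
  K.pos i _ ((A.e i).map_target hz)

theorem gc_herm (K : Kah A) (i : A.ι) {z : Cn n} (hz : z ∈ (A.e i).target) :
    ∀ᶠ w in 𝓝 z, (gc K i w).IsHermitian := by
  filter_upwards [(A.e i).open_target.mem_nhds hz] with w hw
  exact (gc_pos K i hw).isHermitian

theorem gc_e (K : Kah A) {i : A.ι} {x : M} (hx : x ∈ (A.e i).source) :
    gc K i (A.e i x) = K.g i x := by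
  unfold gc; rw [(A.e i).left_inv hx]

theorem bis_nonneg_of_pos {K : Kah A} (hB : BKpos K) (i : A.ι) {z : Cn n}
    (hz : z ∈ (A.e i).target) (s v : Cn n) : 0 ≤ bis (gc K i) z s v := by
  by_cases hs : s = 0
  · rw [hs, bis_zero_left]
  by_cases hv : v = 0
  · rw [hv, bis_zero_right]
  exact (hB i z hz s v hs hv).le

theorem exists_upper (K : Kah A) (i : A.ι) {S : Set (Cn n)} (hS : IsCompact S)
    (hsub : S ⊆ (A.e i).target) : ∃ C > 0, ∀ z ∈ S, ∀ v, nq (gc K i z) v ≤ C * ‖v‖ ^ 2 := by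
  have hc : ContinuousOn (fun q : Cn n × Cn n => nq (gc K i q.1) q.2) (S ×ˢ sphere 0 1) := by
    intro q hq
    refine ContinuousAt.continuousWithinAt ?_
    unfold nq
    refine Complex.continuous_re.continuousAt.comp ?_
    refine tendsto_finsetSum _ fun a _ => tendsto_finsetSum _ fun b _ => ?_
    have h1 : ContinuousAt (fun q : Cn n × Cn n => gc K i q.1 a b) q :=
      ((gc_sm K i (hsub hq.1)).self_of_nhds a b).continuousAt.comp continuousAt_fst
    have h2 : Continuous fun q : Cn n × Cn n => q.2 a := by fun_prop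
    have h3 : Continuous fun q : Cn n × Cn n => conj (q.2 b) := by fun_prop
    exact (h1.mul h2.continuousAt).mul h3.continuousAt
  obtain ⟨B, hB⟩ := (hS.prod (isCompact_sphere (0 : Cn n) 1)).bddAbove_image hc
  refine ⟨max B 1, by positivity, fun z hz v => ?_⟩
  by_cases hv : v = 0
  · subst hv
    have := nq_vsmul (gc K i z) 0 0
    simp at this
    simp [this]
  have hn : 0 < ‖v‖ := norm_pos_iff.2 hv
  have h1 : (‖v‖⁻¹ • v) ∈ sphere (0 : Cn n) 1 := by
    simp [norm_smul, hn.ne']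
  have h2 : nq (gc K i z) (‖v‖⁻¹ • v) ≤ B := hB ⟨(z, ‖v‖⁻¹ • v), ⟨hz, h1⟩, rfl⟩
  rw [nq_vsmul] at h2
  have h3 : nq (gc K i z) v = ‖v‖ ^ 2 * (‖v‖⁻¹ ^ 2 * nq (gc K i z) v) := by field_simp
  rw [h3, mul_comm (max B 1)]
  exact mul_le_mul_of_nonneg_left (h2.trans (le_max_left _ _)) (by positivity)

theorem exists_bis_lower {K : Kah A} (hB : BKpos K) (i : A.ι) {S : Set (Cn n)} (hS : IsCompact S)
    (hsub : S ⊆ (A.e i).target) :
    ∃ c > 0, ∀ z ∈ S, ∀ s v, c * nq (gc K i z) s * ‖v‖ ^ 2 ≤ bis (gc K i) z s v := by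
  have hc : ContinuousOn (fun q : Cn n × Cn n × Cn n => bis (gc K i) q.1 q.2.1 q.2.2)
      (S ×ˢ sphere 0 1 ×ˢ sphere 0 1) := by
    intro q hq
    refine ContinuousAt.continuousWithinAt ?_
    unfold bis
    refine Complex.continuous_re.continuousAt.comp ?_
    refine tendsto_finsetSum _ fun a _ => tendsto_finsetSum _ fun b _ =>
      tendsto_finsetSum _ fun c _ => tendsto_finsetSum _ fun d _ => ?_
    have h1 : ContinuousAt (fun q : Cn n × Cn n × Cn n => Rm (gc K i) q.1 c d a b) q :=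
      (continuousAt_Rm (gc_sm K i (hsub hq.1)).self_of_nhds (gc_pos K i (hsub hq.1))
        c d a b).comp continuousAt_fst
    have h2 : Continuous fun q : Cn n × Cn n × Cn n => q.2.1 a := by fun_prop
    have h3 : Continuous fun q : Cn n × Cn n × Cn n => conj (q.2.1 b) := by fun_prop
    have h4 : Continuous fun q : Cn n × Cn n × Cn n => q.2.2 c := by fun_prop
    have h5 : Continuous fun q : Cn n × Cn n × Cn n => conj (q.2.2 d) := by fun_prop
    exact (((h1.mul h2.continuousAt).mul h3.continuousAt).mul h4.continuousAt).mul h5.continuousAt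
  obtain ⟨m, hm, hle⟩ := (hS.prod ((isCompact_sphere (0 : Cn n) 1).prod
    (isCompact_sphere (0 : Cn n) 1))).exists_forall_le' hc (a := 0) (by
      rintro ⟨z, s, v⟩ ⟨hz, hs, hv⟩
      refine hB i z (hsub hz) s v ?_ ?_
      · rintro rfl; simp at hs
      · rintro rfl; simp at hv)
  obtain ⟨C, hC, hup⟩ := exists_upper K i hS hsub
  refine ⟨m / C, by positivity, fun z hz s v => ?_⟩
  have h0 : m / C * nq (gc K i z) s * ‖v‖ ^ 2 ≤ m * ‖s‖ ^ 2 * ‖v‖ ^ 2 := by
    refine mul_le_mul_of_nonneg_right ?_ (by positivity)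
    calc m / C * nq (gc K i z) s ≤ m / C * (C * ‖s‖ ^ 2) :=
          mul_le_mul_of_nonneg_left (hup z hz s) (by positivity)
      _ = m * ‖s‖ ^ 2 := by field_simp
  refine h0.trans ?_
  by_cases hs : s = 0
  · simp [hs, bis_zero_left]
  by_cases hv : v = 0
  · simp [hv, bis_zero_right]
  have hn : 0 < ‖s‖ := norm_pos_iff.2 hs
  have hn' : 0 < ‖v‖ := norm_pos_iff.2 hv
  have h1 : (‖s‖⁻¹ • s) ∈ sphere (0 : Cn n) 1 := by simp [norm_smul, hn.ne']
  have h1' : (‖v‖⁻¹ • v) ∈ sphere (0 : Cn n) 1 := by simp [norm_smul, hn'.ne']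
  have h2 : m ≤ bis (gc K i) z (‖s‖⁻¹ • s) (‖v‖⁻¹ • v) :=
    hle (z, ‖s‖⁻¹ • s, ‖v‖⁻¹ • v) ⟨hz, h1, h1'⟩
  rw [bis_smul] at h2
  have h3 : bis (gc K i) z s v =
      (‖s‖⁻¹ ^ 2 * ‖v‖⁻¹ ^ 2 * bis (gc K i) z s v) * ‖s‖ ^ 2 * ‖v‖ ^ 2 := by field_simp
  rw [h3]
  gcongr

end

end Crest.Agent.T223.Hn
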