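import Crest.Agent.T223.HnP2_76

/-!
# Row 223, PINCH, part 3 (helper76): the logarithmic pole and its barriers
-/

set_option autoImplicit false
set_option linter.unusedVariables false
set_option linter.unusedSectionVars false

open Set Filter Topology Metric
open scoped ContDiff ComplexConjugate Matrix ComplexOrder InnerProductSpace

namespace Crest.Agent.T223.Hn

open Crest.Agent.R275.Geo Crest.Agent.R275.EDR890 Crest.Agent.R273.Kah_333
open Crest.Agent.R273.Hess_333 Crest.Agent.R273.HessB_333 Crest.Agent.R273.Defs_333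
open Crest.Agent.T223.Br Crest.Agent.T223.Tr

noncomputable section

variable {n : ℕ} {M : Type} [TopologicalSpace M] [T2Space M] {A : Atl n M}

/-- the complex line -/
def lin (w0 e : Cn n) (ζ : ℂ) : Cn n := w0 + ζ • e

theorem lin_zero (w0 e : Cn n) : lin w0 e 0 = w0 := by simp [lin]

theorem lin_diff (w0 e : Cn n) : Differentiable ℂ (lin w0 e) := by
  unfold lin; fun_prop

theorem lin_mem {w0 e : Cn n} (hw : w0 ∈ ball (0 : Cn n) (1 / 2)) (he : ‖e‖ = 1) {ζ : ℂ}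
    (hζ : ‖ζ‖ < 1 / 2) : lin w0 e ζ ∈ ball (0 : Cn n) 1 := by
  rw [mem_ball_zero_iff] at hw ⊢
  calc ‖lin w0 e ζ‖ ≤ ‖w0‖ + ‖ζ • e‖ := norm_add_le _ _
    _ < 1 := by rw [norm_smul, he]; linarith

/-- the coordinate on the line -/
def lco (w0 e : Cn n) (w : Cn n) : ℂ := ⟪e, w - w0⟫_ℂ

theorem lco_lin {w0 e : Cn n} (he : ‖e‖ = 1) (ζ : ℂ) : lco w0 e (lin w0 e ζ) = ζ := by
  simp [lco, lin, inner_smul_right, inner_self_eq_norm_sq_to_K, he]

theorem lco_diff (w0 e : Cn n) : Differentiable ℂ (lco w0 e) := by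
  have : lco w0 e = fun w => innerSL ℂ e (w - w0) := rfl
  rw [this]; fun_prop

/-- the chart image of the disc -/
def dsc (A : Atl n M) (i : A.ι) (ψ : Cn n → M) (w0 e : Cn n) (ζ : ℂ) : Cn n :=
  rd A i ψ (lin w0 e ζ)

/-- the smooth branch of the pole -/
def plb (A : Atl n M) (i : A.ι) (ψ : Cn n → M) (w0 e : Cn n) (r : ℝ) (ζ : ℂ) : ℝ :=
  ‖dslope (dsc A i ψ w0 e) 0 ζ‖ ^ 2 / r ^ 2 *
    Real.exp (1 - ‖dsc A i ψ w0 e ζ - rd A i ψ w0‖ ^ 2 / r ^ 2)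

open Classical in
/-- the pole function divided by `|ζ|²` -/
def plE (A : Atl n M) (i : A.ι) (ψ : Cn n → M) (w0 e : Cn n) (r : ℝ) (ζ : ℂ) : ℝ :=
  if ψ (lin w0 e ζ) ∈ (A.e i).source ∧ ‖dsc A i ψ w0 e ζ - rd A i ψ w0‖ < r then
    plb A i ψ w0 e r ζ else 1 / ‖ζ‖ ^ 2

variable {i : A.ι} {ψ : Cn n → M} {w0 e : Cn n} {r : ℝ}

theorem dsc_zero : dsc A i ψ w0 e 0 = rd A i ψ w0 := by rw [dsc, lin_zero]

theorem plb_eq {ζ : ℂ} (hζ : ζ ≠ 0) : plb A i ψ w0 e r ζ =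
    (‖dsc A i ψ w0 e ζ - rd A i ψ w0‖ ^ 2 / r ^ 2 *
      Real.exp (1 - ‖dsc A i ψ w0 e ζ - rd A i ψ w0‖ ^ 2 / r ^ 2)) * (1 / ‖ζ‖ ^ 2) := by
  rw [plb, dslope_of_ne _ hζ, slope, dsc_zero, norm_smul, vsub_eq_sub, sub_zero, norm_inv]
  have : ‖ζ‖ ≠ 0 := norm_ne_zero_iff.2 hζ
  field_simp

theorem plb_le {ζ : ℂ} (hζ : ζ ≠ 0) : plb A i ψ w0 e r ζ ≤ 1 / ‖ζ‖ ^ 2 := by
  rw [plb_eq hζ]
  set t := ‖dsc A i ψ w0 e ζ - rd A i ψ w0‖ ^ 2 / r ^ 2
  have h1 : t * Real.exp (1 - t) ≤ 1 := by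
    have h2 : t ≤ Real.exp (t - 1) := by linarith [Real.add_one_le_exp (t - 1)]
    calc t * Real.exp (1 - t) ≤ Real.exp (t - 1) * Real.exp (1 - t) :=
          mul_le_mul_of_nonneg_right h2 (Real.exp_pos _).le
      _ = 1 := by rw [← Real.exp_add]; simp
  calc t * Real.exp (1 - t) * (1 / ‖ζ‖ ^ 2) ≤ 1 * (1 / ‖ζ‖ ^ 2) :=
        mul_le_mul_of_nonneg_right h1 (by positivity)
    _ = _ := one_mul _

theorem plE_le {ζ : ℂ} (hζ : ζ ≠ 0) : plE A i ψ w0 e r ζ ≤ 1 / ‖ζ‖ ^ 2 := by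
  unfold plE
  split_ifs
  · exact plb_le hζ
  · exact le_rfl

theorem cond_zero (hr : 0 < r) (h0 : ψ w0 ∈ (A.e i).source) :
    ψ (lin w0 e 0) ∈ (A.e i).source ∧ ‖dsc A i ψ w0 e 0 - rd A i ψ w0‖ < r := by
  rw [dsc_zero, lin_zero]; simpa using ⟨h0, hr⟩

theorem plb_le_plE (hr : 0 < r) (h0 : ψ w0 ∈ (A.e i).source) (ζ : ℂ) :
    plb A i ψ w0 e r ζ ≤ plE A i ψ w0 e r ζ := by
  unfold plE
  split_ifs with h
  · exact le_rfl
  · refine plb_le ?_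
    rintro rfl
    exact h (cond_zero hr h0)

theorem dsc_diff (hψ : Hol A ψ (ball 0 1)) (hw : w0 ∈ ball (0 : Cn n) (1 / 2)) (he : ‖e‖ = 1)
    {ζ0 : ℂ} (hζ : ‖ζ0‖ < 1 / 2) (hs : ψ (lin w0 e ζ0) ∈ (A.e i).source) :
    ∀ᶠ ζ in 𝓝 ζ0, ψ (lin w0 e ζ) ∈ (A.e i).source ∧ DifferentiableAt ℂ (dsc A i ψ w0 e) ζ := by
  have h1 := hψ.eventually isOpen_ball (lin_mem hw he hζ) hs
  filter_upwards [(lin_diff w0 e ζ0).continuousAt.eventually h1] with ζ h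
  exact ⟨h.2.1, h.2.2.comp ζ (lin_diff w0 e ζ)⟩

theorem dsl_diff (hψ : Hol A ψ (ball 0 1)) (hw : w0 ∈ ball (0 : Cn n) (1 / 2)) (he : ‖e‖ = 1)
    {ζ0 : ℂ} (hζ : ‖ζ0‖ < 1 / 2) (hs : ψ (lin w0 e ζ0) ∈ (A.e i).source) :
    ∀ᶠ ζ in 𝓝 ζ0, DifferentiableAt ℂ (dslope (dsc A i ψ w0 e) 0) ζ := by
  have h1 := dsc_diff hψ hw he hζ hs
  by_cases h0 : ζ0 = 0
  · subst h0
    obtain ⟨U, hU, hUo, hU0⟩ := _root_.eventually_nhds_iff.1 h1
    have h2 : DifferentiableOn ℂ (dsc A i ψ w0 e) U := fun ζ h =>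
      (hU ζ h).2.differentiableWithinAt
    have h3 := (Complex.differentiableOn_dslope (hUo.mem_nhds hU0)).2 h2
    filter_upwards [hUo.mem_nhds hU0] with ζ h
    exact h3.differentiableAt (hUo.mem_nhds h)
  · filter_upwards [h1, isOpen_ne.mem_nhds h0] with ζ h h'
    exact (differentiableAt_dslope_of_ne h').2 h.2

/-- a continuous majorant touching at `ζ0` -/
theorem plE_usc (hψ : Hol A ψ (ball 0 1)) (hw : w0 ∈ ball (0 : Cn n) (1 / 2)) (he : ‖e‖ = 1)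
    (hr : 0 < r) (h0 : ψ w0 ∈ (A.e i).source) {ζ0 : ℂ} (hζ : ‖ζ0‖ < 1 / 2) :
    ∃ V : ℂ → ℝ, ContinuousAt V ζ0 ∧ V ζ0 = plE A i ψ w0 e r ζ0 ∧
      ∀ᶠ ζ in 𝓝 ζ0, plE A i ψ w0 e r ζ ≤ V ζ := by
  by_cases hc : ψ (lin w0 e ζ0) ∈ (A.e i).source ∧ ‖dsc A i ψ w0 e ζ0 - rd A i ψ w0‖ < r
  · have h1 := dsc_diff hψ hw he hζ hc.1
    have h2 := (dsl_diff hψ hw he hζ hc.1).self_of_nhds.continuousAt
    have h3 := h1.self_of_nhds.2.continuousAt
    refine ⟨plb A i ψ w0 e r, ?_, by rw [plE, if_pos hc], ?_⟩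
    · unfold plb
      exact ((h2.norm.pow 2).div_const _).mul
        (continuousAt_const.sub (((h3.sub continuousAt_const).norm.pow 2).div_const _)).rexp
    · have h4 : ∀ᶠ ζ in 𝓝 ζ0, ‖dsc A i ψ w0 e ζ - rd A i ψ w0‖ < r :=
        (h3.sub continuousAt_const).norm.eventually (gt_mem_nhds hc.2)
      filter_upwards [h1, h4] with ζ h h'
      rw [plE, if_pos ⟨h.1, h'⟩]
  · have hne : ζ0 ≠ 0 := by
      rintro rfl
      exact hc (cond_zero hr h0)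
    refine ⟨fun ζ => 1 / ‖ζ‖ ^ 2, ?_, by rw [plE, if_neg hc], ?_⟩
    · exact continuousAt_const.div (continuous_norm.continuousAt.pow 2)
        (pow_ne_zero _ (norm_ne_zero_iff.2 hne))
    · filter_upwards [isOpen_ne.mem_nhds hne] with ζ h using plE_le h

/-- barriers for the truncated pole -/
theorem pole_barrier {K0 : Kah A} (hB : BKpos K0) {c0 : ℝ} (hc0 : 0 < c0)
    (hψ : Hol A ψ (ball 0 1)) (hw : w0 ∈ ball (0 : Cn n) (1 / 2)) (he : ‖e‖ = 1)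
    (hr : 0 < r) (h0 : ψ w0 ∈ (A.e i).source)
    (hsub : closedBall (rd A i ψ w0) r ⊆ (A.e i).target)
    (hlow : ∀ z ∈ closedBall (rd A i ψ w0) r, ∀ s v,
      c0 * nq (gc K0 i z) s * ‖v‖ ^ 2 ≤ bis (gc K0 i) z s v)
    {ζ0 : ℂ} (hζ : ‖ζ0‖ < 1 / 2) :
    ∃ j, ψ (lin w0 e ζ0) ∈ (A.e j).source ∧ ∃ β : Cn n → ℝ, ContDiffAt ℝ ∞ β (lin w0 e ζ0) ∧
      β (lin w0 e ζ0) = Real.log (max (plE A i ψ w0 e r ζ0) 16) ∧
      (∀ᶠ ζ in 𝓝 ζ0, β (lin w0 e ζ) ≤ Real.log (max (plE A i ψ w0 e r ζ) 16)) ∧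
      ∀ s, 0 ≤ bis (gc K0 j) (rd A j ψ (lin w0 e ζ0)) s
          (fderiv ℂ (rd A j ψ) (lin w0 e ζ0) e) +
        c0 * r ^ 2 * nq (gc K0 j (rd A j ψ (lin w0 e ζ0))) s * nq (hess β (lin w0 e ζ0)) e := by
  obtain ⟨j, hj⟩ := A.cover (ψ (lin w0 e ζ0))
  have hjt : rd A j ψ (lin w0 e ζ0) ∈ (A.e j).target := (A.e j).map_source hj
  by_cases hE : plE A i ψ w0 e r ζ0 ≤ 16
  · refine ⟨j, hj, fun _ => Real.log 16, contDiffAt_const, by rw [max_eq_right hE],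
      Eventually.of_forall fun ζ => Real.log_le_log (by norm_num) (le_max_right _ _), fun s => ?_⟩
    rw [hess_const_76, nq_zero_76, mul_zero, add_zero]
    exact bis_nonneg_of_pos hB j hjt _ _
  push Not at hE
  have hlc : Tendsto (lco w0 e) (𝓝 (lin w0 e ζ0)) (𝓝 ζ0) := by
    have := (lco_diff w0 e (lin w0 e ζ0)).continuousAt.tendsto
    rwa [lco_lin he] at this
  by_cases hc : ψ (lin w0 e ζ0) ∈ (A.e i).source ∧ ‖dsc A i ψ w0 e ζ0 - rd A i ψ w0‖ ≤ r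
  · -- the smooth branch
    have hEb : plE A i ψ w0 e r ζ0 = plb A i ψ w0 e r ζ0 := by
      rcases hc.2.lt_or_eq with h | h
      · rw [plE, if_pos ⟨hc.1, h⟩]
      · have hne : ζ0 ≠ 0 := by
          rintro rfl
          rw [dsc_zero] at h
          simp at h
          exact hr.ne h
        rw [plE, if_neg (fun h' => h'.2.ne h), plb_eq hne, h, div_self (by positivity)]
        simp
    set F := dslope (dsc A i ψ w0 e) 0 with hF
    set a := F ζ0 with ha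
    have ha0 : a ≠ 0 := by
      intro h
      rw [hEb, plb, ← hF, ← ha, h] at hE
      simp at hE
      linarith
    have hna : 0 < ‖a‖ := norm_pos_iff.2 ha0
    have hFd := dsl_diff hψ hw he hζ hc.1
    have hT := (hψ.eventually isOpen_ball (lin_mem hw he hζ) hc.1).mono fun _ h => h.2.2
    set f : Cn n → ℂ := fun w => innerSL ℂ a (F (lco w0 e w)) with hf
    have hfd : ∀ᶠ w in 𝓝 (lin w0 e ζ0), DifferentiableAt ℂ f w := by
      filter_upwards [hlc.eventually hFd] with w h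
      exact (innerSL ℂ a).differentiableAt.comp w (h.comp w (lco_diff w0 e w))
    have hfl : ∀ ζ, f (lin w0 e ζ) = ⟪a, F ζ⟫_ℂ := fun ζ => by
      simp only [hf, lco_lin he, innerSL_apply_apply]
    have hf0 : ‖f (lin w0 e ζ0)‖ = ‖a‖ ^ 2 := by
      rw [hfl, ← ha, inner_self_eq_norm_sq_to_K]; simp
    have hfne : f (lin w0 e ζ0) ≠ 0 := by
      rw [← norm_ne_zero_iff, hf0]; positivity
    have hc1 : ContDiffAt ℝ ∞ (fun w => Real.log (‖f w‖ ^ 2)) (lin w0 e ζ0) :=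
      ((real_contDiffAt hfd).norm_sq ℝ).log (pow_ne_zero _ (norm_ne_zero_iff.2 hfne))
    have hc2 : ContDiffAt ℝ ∞ (fun w => ‖rd A i ψ w - rd A i ψ w0‖ ^ 2) (lin w0 e ζ0) :=
      (contDiffAt_normSq _ _).comp _ (real_contDiffAt hT)
    have hc3 : ContDiffAt ℝ ∞ (fun w => (-(1 / r ^ 2)) * ‖rd A i ψ w - rd A i ψ w0‖ ^ 2)
        (lin w0 e ζ0) := contDiffAt_const.mul hc2
    have hc4 : ContDiffAt ℝ ∞ (fun w => (1 - Real.log (‖a‖ ^ 2 * r ^ 2)) +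
        (-(1 / r ^ 2)) * ‖rd A i ψ w - rd A i ψ w0‖ ^ 2) (lin w0 e ζ0) := contDiffAt_const.add hc3
    have hlog : ∀ ζ, F ζ ≠ 0 → Real.log (plb A i ψ w0 e r ζ) = Real.log (‖F ζ‖ ^ 2) -
        Real.log (r ^ 2) + (1 - ‖dsc A i ψ w0 e ζ - rd A i ψ w0‖ ^ 2 / r ^ 2) := by
      intro ζ h
      have : 0 < ‖F ζ‖ := norm_pos_iff.2 h
      rw [plb, ← hF, Real.log_mul (by positivity) (Real.exp_pos _).ne', Real.log_exp,
        Real.log_div (by positivity) (by positivity)]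
    refine ⟨i, hc.1, fun w => Real.log (‖f w‖ ^ 2) + ((1 - Real.log (‖a‖ ^ 2 * r ^ 2)) +
      (-(1 / r ^ 2)) * ‖rd A i ψ w - rd A i ψ w0‖ ^ 2), hc1.add hc4, ?_, ?_, fun s => ?_⟩
    · rw [max_eq_left hE.le, hEb, hlog ζ0 ha0, ← ha]
      simp only [hf0]
      rw [Real.log_mul (by positivity) (by positivity), show (‖a‖ ^ 2) ^ 2 = ‖a‖ ^ 2 * ‖a‖ ^ 2 by ring,
        Real.log_mul (by positivity) (by positivity)]
      unfold dsc
      ring
    · have h5 : ∀ᶠ ζ in 𝓝 ζ0, f (lin w0 e ζ) ≠ 0 :=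
        (hfd.self_of_nhds.continuousAt.comp (lin_diff w0 e ζ0).continuousAt).eventually_ne hfne
      filter_upwards [h5] with ζ h
      have hFζ : F ζ ≠ 0 := by
        intro h'
        rw [hfl, h', inner_zero_right] at h
        exact h rfl
      have hn : 0 < ‖F ζ‖ := norm_pos_iff.2 hFζ
      have h6 : ‖f (lin w0 e ζ)‖ ^ 2 ≤ ‖a‖ ^ 2 * ‖F ζ‖ ^ 2 := by
        rw [hfl, ← mul_pow]
        exact pow_le_pow_left₀ (norm_nonneg _) (norm_inner_le_norm _ _) 2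
      have h7 := Real.log_le_log (pow_pos (norm_pos_iff.2 h) 2) h6
      rw [Real.log_mul (by positivity) (by positivity)] at h7
      have hpos : 0 < plb A i ψ w0 e r ζ := by rw [plb, ← hF]; positivity
      have h8 : Real.log (plb A i ψ w0 e r ζ) ≤ Real.log (max (plE A i ψ w0 e r ζ) 16) :=
        Real.log_le_log hpos ((plb_le_plE hr h0 ζ).trans (le_max_left _ _))
      rw [hlog ζ hFζ] at h8
      rw [Real.log_mul (by positivity) (by positivity)]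
      have h9 : -(1 / r ^ 2) * ‖rd A i ψ (lin w0 e ζ) - rd A i ψ w0‖ ^ 2 =
          -(‖dsc A i ψ w0 e ζ - rd A i ψ w0‖ ^ 2 / r ^ 2) := by unfold dsc; ring
      rw [h9]
      linarith
    · rw [hess_add hc1 hc4, hess_add contDiffAt_const hc3, hess_log_norm hfd hfne, hess_const_76,
        hess_const_mul _ hc2, zero_add, zero_add, nq_smul,
        nq_hess_comp (u := fun z => ‖z - rd A i ψ w0‖ ^ 2) (contDiffAt_normSq _ _) hT,
        nq_hess_normSq]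
      have h1 := hlow (rd A i ψ (lin w0 e ζ0)) (by rw [mem_closedBall, dist_eq_norm]; exact hc.2) s
        (fderiv ℂ (rd A i ψ) (lin w0 e ζ0) e)
      have h2 : c0 * r ^ 2 * nq (gc K0 i (rd A i ψ (lin w0 e ζ0))) s *
          (-(1 / r ^ 2) * ‖fderiv ℂ (rd A i ψ) (lin w0 e ζ0) e‖ ^ 2) =
          -(c0 * nq (gc K0 i (rd A i ψ (lin w0 e ζ0))) s *
            ‖fderiv ℂ (rd A i ψ) (lin w0 e ζ0) e‖ ^ 2) := by field_simp
      rw [h2]; linarith
  · -- outside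
    have hne : ζ0 ≠ 0 := by
      rintro rfl
      exact hc ⟨(cond_zero (e := e) hr h0).1, (cond_zero (e := e) hr h0).2.le⟩
    have hZ : IsClosed ((A.e i).symm '' closedBall (rd A i ψ w0) r) :=
      ((isCompact_closedBall _ _).image_of_continuousOn
        ((A.e i).continuousOn_symm.mono hsub)).isClosed
    have hn0 : ψ (lin w0 e ζ0) ∉ (A.e i).symm '' closedBall (rd A i ψ w0) r := by
      rintro ⟨z, hz, hz'⟩
      refine hc ⟨hz' ▸ (A.e i).map_target (hsub hz), ?_⟩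
      have : dsc A i ψ w0 e ζ0 = z := by
        unfold dsc rd
        rw [← hz', (A.e i).right_inv (hsub hz)]
      rw [this, ← dist_eq_norm]
      exact hz
    have hcont : ContinuousAt (fun ζ => ψ (lin w0 e ζ)) ζ0 :=
      (hψ _ (lin_mem hw he hζ)).1.comp (lin_diff w0 e ζ0).continuousAt
    have h1 : ∀ᶠ ζ in 𝓝 ζ0, plE A i ψ w0 e r ζ = 1 / ‖ζ‖ ^ 2 := by
      filter_upwards [hcont.eventually (hZ.isOpen_compl.mem_nhds hn0)] with ζ h
      rw [plE, if_neg]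
      rintro ⟨h2, h3⟩
      refine h ⟨dsc A i ψ w0 e ζ, by rw [mem_closedBall, dist_eq_norm]; exact h3.le, ?_⟩
      unfold dsc rd
      rw [(A.e i).left_inv h2]
    have hl0 : lco w0 e (lin w0 e ζ0) ≠ 0 := by rwa [lco_lin he]
    have hld : ∀ᶠ w in 𝓝 (lin w0 e ζ0), DifferentiableAt ℂ (lco w0 e) w :=
      Eventually.of_forall (lco_diff w0 e)
    have hc1 : ContDiffAt ℝ ∞ (fun w => Real.log (‖lco w0 e w‖ ^ 2)) (lin w0 e ζ0) :=
      ((real_contDiffAt hld).norm_sq ℝ).log (pow_ne_zero _ (norm_ne_zero_iff.2 hl0))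
    refine ⟨j, hj, fun w => -Real.log (‖lco w0 e w‖ ^ 2), hc1.neg, ?_, ?_, fun s => ?_⟩
    · rw [max_eq_left hE.le, h1.self_of_nhds, one_div, Real.log_inv]
      simp only [lco_lin he]
    · filter_upwards [h1, isOpen_ne.mem_nhds hne] with ζ h h'
      simp only [lco_lin he]
      rw [← Real.log_inv, ← one_div, ← h]
      refine Real.log_le_log ?_ (le_max_left _ _)
      rw [h]
      have : 0 < ‖ζ‖ := norm_pos_iff.2 h'
      positivity
    · rw [hess_neg hc1, hess_log_norm hld hl0, neg_zero, nq_zero_76, mul_zero, add_zero]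
      exact bis_nonneg_of_pos hB j hjt _ _

end

end Crest.Agent.T223.Hn
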