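import Crest.Agent.T223.LbLeaf_78
import Crest.Agent.T223.TrPb_90

/-!
# Row 223 (S0345), module LB (helper78): directional Wirtinger calculus

`dv b ξ f z` is `∂_ξ f` (`b = false`) or `∂̄_ξ f` (`b = true`), `dd ξ f z = ∂_ξ ∂̄_ξ f`.
-/

set_option autoImplicit false
set_option linter.unusedVariables false

open Set Filter Topology Metric Complex
open scoped ContDiff ComplexConjugate Matrix ComplexOrder

namespace Crest.Agent.T223.Lb

open Crest.Agent.R275.Geo Crest.Agent.R275.EDR890 Crest.Agent.R273.Kah_333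
open Crest.Agent.R273.Hess_333 Crest.Agent.R273.HessB_333 Crest.Agent.R273.RMan4_798
open Crest.Agent.T223.Br Crest.Agent.T223.Tr

noncomputable section

variable {n : ℕ}

/-- directional Wirtinger derivative -/
def dv (b : Bool) (ξ : Cn n) (f : Cn n → ℂ) (z : Cn n) : ℂ :=
  (1 / 2 : ℂ) * (fderiv ℝ f z ξ + cI b * fderiv ℝ f z (I • ξ))

/-- `∂_ξ ∂̄_ξ` -/
def dd (ξ : Cn n) (f : Cn n → ℂ) (z : Cn n) : ℂ := dv false ξ (dv true ξ f) z

theorem dv_eq_sum (b : Bool) (ξ : Cn n) (f : Cn n → ℂ) (z : Cn n) :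
    dv b ξ f z = ∑ a, cj b (ξ a) * wd (b, a) f z := wdL_vec b (fderiv ℝ f z) ξ

theorem dv_congr {f g : Cn n → ℂ} {z : Cn n} (h : f =ᶠ[𝓝 z] g) (b : Bool) (ξ : Cn n) :
    dv b ξ f z = dv b ξ g z := by
  simp only [dv, h.fderiv_eq]

theorem dv_congr' {f g : Cn n → ℂ} {z : Cn n} (h : f =ᶠ[𝓝 z] g) (b : Bool) (ξ : Cn n) :
    dv b ξ f =ᶠ[𝓝 z] dv b ξ g := by
  filter_upwards [h.eventuallyEq_nhds] with w hw using dv_congr hw b ξ

theorem dd_congr {f g : Cn n → ℂ} {z : Cn n} (h : f =ᶠ[𝓝 z] g) (ξ : Cn n) :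
    dd ξ f z = dd ξ g z := dv_congr (dv_congr' h true ξ) false ξ

theorem dv_const (b : Bool) (ξ : Cn n) (c : ℂ) (z : Cn n) : dv b ξ (fun _ => c) z = 0 := by
  simp [dv]

theorem dv_add {f g : Cn n → ℂ} {z : Cn n} (hf : DifferentiableAt ℝ f z)
    (hg : DifferentiableAt ℝ g z) (b : Bool) (ξ : Cn n) :
    dv b ξ (fun w => f w + g w) z = dv b ξ f z + dv b ξ g z := by
  simp only [dv_eq_sum, wd_add hf hg, mul_add, Finset.sum_add_distrib]

theorem dv_mul {f g : Cn n → ℂ} {z : Cn n} (hf : DifferentiableAt ℝ f z)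
    (hg : DifferentiableAt ℝ g z) (b : Bool) (ξ : Cn n) :
    dv b ξ (fun w => f w * g w) z = dv b ξ f z * g z + f z * dv b ξ g z := by
  simp only [dv_eq_sum, wd_mul hf hg, Finset.sum_mul, Finset.mul_sum, ← Finset.sum_add_distrib]
  exact Finset.sum_congr rfl fun a _ => by ring

theorem dv_sum {ι : Type*} (S : Finset ι) {f : ι → Cn n → ℂ} {z : Cn n}
    (hf : ∀ i ∈ S, DifferentiableAt ℝ (f i) z) (b : Bool) (ξ : Cn n) :
    dv b ξ (fun w => ∑ i ∈ S, f i w) z = ∑ i ∈ S, dv b ξ (f i) z := by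
  simp only [dv_eq_sum, wd_sum S hf, Finset.mul_sum]
  rw [Finset.sum_comm]

theorem dv_const_mul {f : Cn n → ℂ} {z : Cn n} (c : ℂ) (hf : DifferentiableAt ℝ f z)
    (b : Bool) (ξ : Cn n) : dv b ξ (fun w => c * f w) z = c * dv b ξ f z := by
  rw [dv_mul (differentiableAt_const c) hf, dv_const, zero_mul, zero_add]

theorem contDiffAt_dv {f : Cn n → ℂ} {z : Cn n} (hf : ContDiffAt ℝ ∞ f z) (b : Bool) (ξ : Cn n) :
    ContDiffAt ℝ ∞ (dv b ξ f) z := by
  have h : dv b ξ f = fun w => ∑ a, cj b (ξ a) * wd (b, a) f w := funext fun w => dv_eq_sum b ξ f w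
  rw [h]
  exact ContDiffAt.sum fun a _ => contDiffAt_const.mul (contDiffAt_wd hf _)

theorem ev_diff {W : Type*} [NormedAddCommGroup W] [NormedSpace ℝ W] {f : Cn n → W} {z : Cn n}
    (hf : ContDiffAt ℝ ∞ f z) : ∀ᶠ w in 𝓝 z, DifferentiableAt ℝ f w := by
  have := (hf.of_le (m := 1) (by exact_mod_cast le_top)).eventually (by simp)
  filter_upwards [this] with y hy
  exact hy.differentiableAt (by simp)

theorem diffAt {W : Type*} [NormedAddCommGroup W] [NormedSpace ℝ W] {f : Cn n → W} {z : Cn n}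
    (hf : ContDiffAt ℝ ∞ f z) : DifferentiableAt ℝ f z := hf.differentiableAt (by simp)

theorem dv_comp {f : Cn n → ℂ} {T : Cn n → Cn n} {z : Cn n} (hf : DifferentiableAt ℝ f (T z))
    (hT : DifferentiableAt ℂ T z) (b : Bool) (ξ : Cn n) :
    dv b ξ (fun w => f (T w)) z = dv b (fderiv ℂ T z ξ) f (T z) := by
  have h1 : fderiv ℝ (fun w => f (T w)) z =
      (fderiv ℝ f (T z)).comp ((fderiv ℂ T z).restrictScalars ℝ) :=
    (hf.hasFDerivAt.comp z (hT.hasFDerivAt.restrictScalars ℝ)).fderiv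
  simp only [dv, h1, ContinuousLinearMap.comp_apply, ContinuousLinearMap.coe_restrictScalars',
    map_smul]

theorem dv_true_hol {f : Cn n → ℂ} {z : Cn n} (hf : DifferentiableAt ℂ f z) (ξ : Cn n) :
    dv true ξ f z = 0 := by
  simp only [dv_eq_sum, wd_hol hf, mul_zero, Finset.sum_const_zero]

theorem dv_false_hol {f : Cn n → ℂ} {z : Cn n} (hf : DifferentiableAt ℂ f z) (ξ : Cn n) :
    dv false ξ f z = fderiv ℂ f z ξ := by
  simp only [dv, hf.fderiv_restrictScalars ℝ, ContinuousLinearMap.coe_restrictScalars', map_smul,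
    cI_false, smul_eq_mul]
  linear_combination (-(1 / 2 : ℂ) * fderiv ℂ f z ξ) * I_mul_I

theorem conj_dv {f : Cn n → ℂ} {z : Cn n} (hf : DifferentiableAt ℝ f z) (b : Bool) (ξ : Cn n) :
    conj (dv b ξ f z) = dv (!b) ξ (fun w => conj (f w)) z := by
  simp only [dv_eq_sum, map_sum, map_mul, conj_wd _ hf]
  refine Finset.sum_congr rfl fun a _ => ?_
  cases b <;> simp

theorem diff_conj {f : Cn n → ℂ} {z : Cn n} (hf : DifferentiableAt ℝ f z) :
    DifferentiableAt ℝ (fun w => conj (f w)) z :=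
  (conjCLE : ℂ →L[ℝ] ℂ).differentiableAt.comp z hf

theorem dv_false_conj {f : Cn n → ℂ} {z : Cn n} (hf : DifferentiableAt ℂ f z) (ξ : Cn n) :
    dv false ξ (fun w => conj (f w)) z = 0 := by
  have h := conj_dv (hf.restrictScalars ℝ) true ξ
  rw [dv_true_hol hf, map_zero] at h
  exact h.symm

theorem dv_true_conj {f : Cn n → ℂ} {z : Cn n} (hf : DifferentiableAt ℂ f z) (ξ : Cn n) :
    dv true ξ (fun w => conj (f w)) z = conj (fderiv ℂ f z ξ) := by
  have h := conj_dv (hf.restrictScalars ℝ) false ξ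
  rw [dv_false_hol hf] at h
  exact h.symm

theorem conj_dv_real {u : Cn n → ℝ} {z : Cn n} (hu : DifferentiableAt ℝ u z) (b : Bool)
    (ξ : Cn n) : conj (dv b ξ (cu u) z) = dv (!b) ξ (cu u) z := by
  have h1 : DifferentiableAt ℝ (cu u) z := Complex.ofRealCLM.differentiableAt.comp z hu
  rw [conj_dv h1]
  congr 1
  funext w
  simp [cu]

theorem dd_eq_sum {f : Cn n → ℂ} {z : Cn n} (hf : ContDiffAt ℝ ∞ f z) (ξ : Cn n) :
    dd ξ f z = ∑ c, ∑ d, wd (false, c) (wd (true, d) f) z * ξ c * conj (ξ d) := by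
  have h : dv true ξ f = fun w => ∑ d, conj (ξ d) * wd (true, d) f w :=
    funext fun w => dv_eq_sum true ξ f w
  rw [dd, h, dv_sum _ fun d _ => (diffAt (contDiffAt_wd hf _)).const_mul _, Finset.sum_comm]
  refine Finset.sum_congr rfl fun d _ => ?_
  rw [dv_const_mul _ (diffAt (contDiffAt_wd hf _)), dv_eq_sum, Finset.mul_sum]
  refine Finset.sum_congr rfl fun c _ => ?_
  simp only [cj_false]
  ring

theorem nq_hess {u : Cn n → ℝ} {z : Cn n} (hu : ContDiffAt ℝ ∞ u z) (ξ : Cn n) :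
    nq (hess u z) ξ = (dd ξ (cu u) z).re := by
  rw [dd_eq_sum (contDiffAt_cu hu)]
  rfl

theorem hol_contDiffAt {W : Type} [NormedAddCommGroup W] [NormedSpace ℂ W] [CompleteSpace W]
    {T : Cn n → W} {z : Cn n} (hT : ∀ᶠ w in 𝓝 z, DifferentiableAt ℂ T w) :
    AnalyticAt ℂ T z := by
  obtain ⟨U, hU, hUo, hUz⟩ := _root_.eventually_nhds_iff.1 hT
  have h1 : DifferentiableOn ℂ T U := fun w hw => (hU w hw).differentiableWithinAt
  exact Crest.Agent.R266.SCV.analyticOnNhd_of_differentiableOn hUo h1 z hUz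

theorem hol_smooth {T : Cn n → Cn n} {z : Cn n} (hT : ∀ᶠ w in 𝓝 z, DifferentiableAt ℂ T w) :
    ContDiffAt ℝ ∞ T z :=
  ((hol_contDiffAt hT).contDiffAt (n := ∞)).restrict_scalars ℝ

theorem dd_comp {f : Cn n → ℂ} {T : Cn n → Cn n} {z : Cn n} (hf : ContDiffAt ℝ ∞ f (T z))
    (hT : ∀ᶠ w in 𝓝 z, DifferentiableAt ℂ T w) (ξ : Cn n) :
    dd ξ (fun w => f (T w)) z = dd (fderiv ℂ T z ξ) f (T z) := by
  have hTz : DifferentiableAt ℂ T z := hT.self_of_nhds
  have h1 : dv true ξ (fun w => f (T w)) =ᶠ[𝓝 z] fun w => ∑ d,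
      conj (fderiv ℂ T w ξ d) * wd (true, d) f (T w) := by
    filter_upwards [hT, hTz.continuousAt.eventually (ev_diff hf)] with w hw hw'
    rw [dv_comp hw' hw, dv_eq_sum]
    rfl
  have hJ : ∀ d : Fin n, DifferentiableAt ℂ (fun w => fderiv ℂ T w ξ d) z := by
    intro d
    have h3 : DifferentiableAt ℂ (fderiv ℂ T) z := (hol_contDiffAt hT).fderiv.differentiableAt
    have h4 : DifferentiableAt ℂ (fun w => fderiv ℂ T w ξ) z :=
      h3.clm_apply (differentiableAt_const ξ)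
    exact (EuclideanSpace.proj d : Cn n →L[ℂ] ℂ).differentiableAt.comp z h4
  have hW : ∀ d : Fin n, DifferentiableAt ℝ (fun w => wd (true, d) f (T w)) z := fun d =>
    (diffAt (contDiffAt_wd hf _)).comp z (hTz.restrictScalars ℝ)
  have h : dv true (fderiv ℂ T z ξ) f = fun w => ∑ d, conj (fderiv ℂ T z ξ d) * wd (true, d) f w :=
    funext fun w => dv_eq_sum true _ f w
  rw [dd, dv_congr h1, dd, h,
    dv_sum _ fun d _ => (diff_conj ((hJ d).restrictScalars ℝ)).fun_mul (hW d),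
    dv_sum _ fun d _ => (diffAt (contDiffAt_wd hf _)).const_mul _]
  refine Finset.sum_congr rfl fun d _ => ?_
  rw [dv_mul (diff_conj ((hJ d).restrictScalars ℝ)) (hW d), dv_false_conj (hJ d), zero_mul,
    zero_add, dv_comp (diffAt (contDiffAt_wd hf _)) hTz,
    dv_const_mul _ (diffAt (contDiffAt_wd hf _))]

theorem nq_hess_comp {u : Cn n → ℝ} {T : Cn n → Cn n} {z : Cn n} (hu : ContDiffAt ℝ ∞ u (T z))
    (hT : ∀ᶠ w in 𝓝 z, DifferentiableAt ℂ T w) (ξ : Cn n) :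
    nq (hess (fun w => u (T w)) z) ξ = nq (hess u (T z)) (fderiv ℂ T z ξ) := by
  rw [nq_hess (u := fun w => u (T w)) (hu.comp z (hol_smooth hT)), nq_hess hu, ← dd_comp (contDiffAt_cu hu) hT]
  rfl

theorem dd_add {f g : Cn n → ℂ} {z : Cn n} (hf : ContDiffAt ℝ ∞ f z) (hg : ContDiffAt ℝ ∞ g z)
    (ξ : Cn n) : dd ξ (fun w => f w + g w) z = dd ξ f z + dd ξ g z := by
  have h1 : dv true ξ (fun w => f w + g w) =ᶠ[𝓝 z] fun w => dv true ξ f w + dv true ξ g w := by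
    filter_upwards [ev_diff hf, ev_diff hg] with w h1 h2 using dv_add h1 h2 _ _
  rw [dd, dv_congr h1, dv_add (diffAt (contDiffAt_dv hf _ _)) (diffAt (contDiffAt_dv hg _ _))]
  rfl

theorem dd_mul {f g : Cn n → ℂ} {z : Cn n} (hf : ContDiffAt ℝ ∞ f z) (hg : ContDiffAt ℝ ∞ g z)
    (ξ : Cn n) : dd ξ (fun w => f w * g w) z = dd ξ f z * g z + dv true ξ f z * dv false ξ g z +
      dv false ξ f z * dv true ξ g z + f z * dd ξ g z := by
  have h1 : dv true ξ (fun w => f w * g w) =ᶠ[𝓝 z]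
      fun w => dv true ξ f w * g w + f w * dv true ξ g w := by
    filter_upwards [ev_diff hf, ev_diff hg] with w h1 h2 using dv_mul h1 h2 _ _
  have h2 := diffAt (contDiffAt_dv hf true ξ)
  have h3 := diffAt (contDiffAt_dv hg true ξ)
  rw [dd, dv_congr h1, dv_add (h2.fun_mul (diffAt hg)) ((diffAt hf).fun_mul h3), dv_mul h2 (diffAt hg),
    dv_mul (diffAt hf) h3]
  simp only [dd]
  ring

theorem dd_sum {ι : Type*} (S : Finset ι) {f : ι → Cn n → ℂ} {z : Cn n}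
    (hf : ∀ i ∈ S, ContDiffAt ℝ ∞ (f i) z) (ξ : Cn n) :
    dd ξ (fun w => ∑ i ∈ S, f i w) z = ∑ i ∈ S, dd ξ (f i) z := by
  have h1 : dv true ξ (fun w => ∑ i ∈ S, f i w) =ᶠ[𝓝 z] fun w => ∑ i ∈ S, dv true ξ (f i) w := by
    have h2 : ∀ᶠ w in 𝓝 z, ∀ i ∈ S, DifferentiableAt ℝ (f i) w :=
      (Finset.eventually_all S).2 fun i hi => ev_diff (hf i hi)
    filter_upwards [h2] with w hw using dv_sum S hw _ _
  rw [dd, dv_congr h1, dv_sum S fun i hi => diffAt (contDiffAt_dv (hf i hi) _ _)]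
  rfl

/-- chain rule with a real function of one variable -/
theorem dv_real_comp {u : Cn n → ℝ} {φ : ℝ → ℝ} {φ' : ℝ} {z : Cn n}
    (hu : DifferentiableAt ℝ u z) (hφ : HasDerivAt φ φ' (u z)) (b : Bool) (ξ : Cn n) :
    dv b ξ (cu fun w => φ (u w)) z = φ' * dv b ξ (cu u) z := by
  have h1 : HasFDerivAt (cu fun w => φ (u w)) (ofRealCLM.comp (φ' • fderiv ℝ u z)) z :=
    ofRealCLM.hasFDerivAt.comp z (hφ.comp_hasFDerivAt z hu.hasFDerivAt)
  have h2 : HasFDerivAt (cu u) (ofRealCLM.comp (fderiv ℝ u z)) z :=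
    ofRealCLM.hasFDerivAt.comp z hu.hasFDerivAt
  simp only [dv, h1.fderiv, h2.fderiv, ContinuousLinearMap.comp_apply,
    _root_.smul_apply, smul_eq_mul, ofRealCLM_apply, ofReal_mul]
  ring

/-- the Levi form of a logarithm -/
theorem nq_hess_log {u : Cn n → ℝ} {z : Cn n} (hu : ContDiffAt ℝ ∞ u z) (h0 : 0 < u z)
    (ξ : Cn n) : nq (hess (fun w => Real.log (u w)) z) ξ =
      nq (hess u z) ξ / u z - ‖dv false ξ (cu u) z‖ ^ 2 / u z ^ 2 := by
  have hpos : ∀ᶠ w in 𝓝 z, 0 < u w := hu.continuousAt.eventually (lt_mem_nhds h0)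
  have hinv : ContDiffAt ℝ ∞ (fun w => (u w)⁻¹) z := hu.inv h0.ne'
  have h1 : dv true ξ (cu fun w => Real.log (u w)) =ᶠ[𝓝 z]
      fun w => cu (fun w => (u w)⁻¹) w * dv true ξ (cu u) w := by
    filter_upwards [hpos, ev_diff hu] with w h1 h2
    rw [dv_real_comp h2 (Real.hasDerivAt_log h1.ne')]
    rfl
  rw [nq_hess (hu.log h0.ne'), nq_hess hu, dd, dv_congr h1,
    dv_mul (diffAt (contDiffAt_cu hinv)) (diffAt (contDiffAt_dv (contDiffAt_cu hu) _ _)),
    dv_real_comp (diffAt hu) (hasDerivAt_inv h0.ne')]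
  have h2 := conj_dv_real (diffAt hu) false ξ
  simp only [Bool.not_false] at h2
  rw [← h2, mul_assoc, Complex.mul_conj, Complex.normSq_eq_norm_sq]
  simp only [cu, dd, add_re, re_ofReal_mul, ofReal_re]
  field_simp
  ring

end

end Crest.Agent.T223.Lb
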