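import Crest.Agent.T223.LbWin_78

/-!
# Row 223 (S0345), module LB (helper78): propagation of the barrier of `d²` along a minimiser
-/

set_option autoImplicit false
set_option linter.unusedVariables false
set_option linter.unusedSectionVars false

open Set Filter Topology Metric Complex MeasureTheory
open scoped ContDiff ComplexConjugate Matrix ComplexOrder

namespace Crest.Agent.T223.Lb

open Crest.Agent.R275.Geo Crest.Agent.R275.EDR890 Crest.Agent.R273.Kah_333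
open Crest.Agent.R273.Hess_333 Crest.Agent.R273.HessB_333 Crest.Agent.R273.RMan4_798
open Crest.Agent.R275.Core144
open Crest.Agent.T223.Br Crest.Agent.T223.Tr

noncomputable section

/-- induction along an interval -/
theorem ind_Icc {P : ℝ → Prop} {b : ℝ} (h0 : P 0)
    (hstep : ∀ τ ∈ Icc (0 : ℝ) b, ∃ δ > 0, ∀ s t, 0 ≤ s → s < t → t ≤ b → τ - δ < s → t < τ + δ →
      P s → P t) : ∀ t ∈ Icc (0 : ℝ) b, P t := by
  by_contra hcon
  push Not at hcon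
  set S : Set ℝ := {t | t ∈ Icc (0 : ℝ) b ∧ ¬ P t} with hS
  have hne : S.Nonempty := hcon
  have hbd : BddBelow S := ⟨0, fun t ht => ht.1.1⟩
  set τ := sInf S with hτ
  have hτ0 : 0 ≤ τ := le_csInf hne fun t ht => ht.1.1
  obtain ⟨t0, ht0⟩ := hne
  have hτb : τ ≤ b := (csInf_le hbd ht0).trans ht0.1.2
  obtain ⟨δ, hδ, h⟩ := hstep τ ⟨hτ0, hτb⟩
  obtain ⟨t, ht, htl⟩ := exists_lt_of_csInf_lt ⟨t0, ht0⟩ (show sInf S < τ + δ by linarith)
  have hτt : τ ≤ t := csInf_le hbd ht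
  have hs : P (max 0 (τ - δ / 2)) := by
    rcases le_total (τ - δ / 2) 0 with h1 | h1
    · rwa [max_eq_left h1]
    · rw [max_eq_right h1]
      by_contra h2
      have h3 : τ ≤ τ - δ / 2 := csInf_le hbd ⟨⟨h1, by linarith⟩, h2⟩
      linarith
  have ht0' : 0 < t := by
    rcases ht.1.1.eq_or_lt with h1 | h1
    · exact absurd (h1 ▸ h0) ht.2
    · exact h1
  exact ht.2 (h _ t (le_max_left _ _) (max_lt ht0' (by linarith)) ht.1.2
    (lt_max_of_lt_right (by linarith)) htl hs)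

theorem sq_add_le {a b s r F E : ℝ} (hs : 0 ≤ s) (hr : 0 ≤ r) (hF : 0 ≤ F) (hE : 0 ≤ E)
    (ha : a ^ 2 ≤ s * F) (hb : b ^ 2 ≤ r * E) : (a + b) ^ 2 ≤ (s + r) * (F + E) := by
  have h1 : (a * b) ^ 2 ≤ ((s * E + r * F) / 2) ^ 2 := by
    have h2 : a ^ 2 * b ^ 2 ≤ (s * F) * (r * E) :=
      mul_le_mul ha hb (sq_nonneg _) (mul_nonneg hs hF)
    nlinarith [sq_nonneg (s * E - r * F)]
  have h3 : a * b ≤ (s * E + r * F) / 2 := (abs_le_of_sq_le_sq' h1 (by positivity)).2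
  nlinarith

variable {n : ℕ} {M : Type} [TopologicalSpace M] {A : Atl n M}

theorem nq_hess_add {u v : Cn n → ℝ} {z : Cn n} (hu : ContDiffAt ℝ ∞ u z) (hv : ContDiffAt ℝ ∞ v z)
    (ξ : Cn n) : nq (hess (fun w => u w + v w) z) ξ = nq (hess u z) ξ + nq (hess v z) ξ := by
  rw [hess_add hu hv, nq_eq_h2, h2_add_mat, add_re]
  rfl

theorem nq_hess_mul {u : Cn n → ℝ} {z : Cn n} (c : ℝ) (hu : ContDiffAt ℝ ∞ u z) (ξ : Cn n) :
    nq (hess (fun w => c * u w) z) ξ = c * nq (hess u z) ξ := by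
  rw [hess_const_mul c hu, nq_smul]

theorem nq_hess_const (c : ℝ) (z ξ : Cn n) : nq (hess (fun _ => c) z) ξ = 0 := by
  rw [nq_hess contDiffAt_const]
  have h : dv true ξ (cu fun _ : Cn n => c) = fun _ => 0 := funext fun w => dv_const true ξ _ w
  rw [dd, h, dv_const, zero_re]

theorem bis_nonneg {K : Kah A} (h : BKpos K) {i : A.ι} {z : Cn n} (hz : z ∈ (A.e i).target)
    (u η : Cn n) : 0 ≤ bis (gc K i) z u η := by
  by_cases hu : u = 0
  · simp [bis, hu]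
  by_cases hη : η = 0
  · simp [bis, hη]
  exact (h i z hz u η hu hη).le

/-! ### change of charts -/

theorem tr_hol {i j : A.ι} {y : M} (hi : y ∈ (A.e i).source) (hj : y ∈ (A.e j).source) :
    ∀ᶠ w in 𝓝 (A.e i y), DifferentiableAt ℂ (fun w => A.e j ((A.e i).symm w)) w := by
  have ho : IsOpen (A.ov i j) := isOpen_ov i j
  filter_upwards [ho.mem_nhds (mem_ov ⟨hi, hj⟩)] with w hw
  exact (A.holo i j).differentiableAt (ho.mem_nhds hw)

theorem tr_symm {i j : A.ι} {y : M} (hi : y ∈ (A.e i).source) (hj : y ∈ (A.e j).source) :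
    ∀ᶠ w in 𝓝 (A.e i y), (A.e j).symm (A.e j ((A.e i).symm w)) = (A.e i).symm w := by
  have ho : IsOpen (A.ov i j) := isOpen_ov i j
  filter_upwards [ho.mem_nhds (mem_ov ⟨hi, hj⟩)] with w hw
  exact (A.e j).left_inv hw.2

theorem gc_at (K : Kah A) {i : A.ι} {y : M} (hi : y ∈ (A.e i).source) :
    gc K i (A.e i y) = K.g i y := by
  rw [gc, (A.e i).left_inv hi]

theorem nq_tr (K : Kah A) {i j : A.ι} {y : M} (hi : y ∈ (A.e i).source) (hj : y ∈ (A.e j).source)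
    (v : Cn n) : nq (K.g i y) v =
      nq (K.g j y) (fderiv ℂ (fun w => A.e j ((A.e i).symm w)) (A.e i y) v) := by
  rw [K.tr i j y ⟨hi, hj⟩, ← nq_pull]
  rfl

theorem USup.tr {i j : A.ι} {y : M} (hi : y ∈ (A.e i).source) (hj : y ∈ (A.e j).source)
    {f : M → ℝ} {b : Cn n → ℝ} (h : USup A j f y b) (K : Kah A) {c : ℝ}
    (hb : ∀ v, nq (hess b (A.e j y)) v ≤ c * nq (K.g j y) v) :
    ∃ b', USup A i f y b' ∧ ∀ v, nq (hess b' (A.e i y)) v ≤ c * nq (K.g i y) v := by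
  have h0 : A.e j ((A.e i).symm (A.e i y)) = A.e j y := by rw [(A.e i).left_inv hi]
  have hs : ContDiffAt ℝ ∞ b (A.e j ((A.e i).symm (A.e i y))) := by rw [h0]; exact h.sm
  have hT := tr_hol hi hj
  refine ⟨fun w => b (A.e j ((A.e i).symm w)), 
    ⟨hs.comp (f := fun w => A.e j ((A.e i).symm w)) _ (hol_smooth hT), ?_, ?_⟩, fun v => ?_⟩
  · rw [h0]; exact h.eq
  · have h1 : Tendsto (fun w => A.e j ((A.e i).symm w)) (𝓝 (A.e i y)) (𝓝 (A.e j y)) := by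
      rw [← h0]; exact hT.self_of_nhds.continuousAt
    filter_upwards [h1.eventually h.le, tr_symm hi hj] with w h2 h3
    rwa [h3] at h2
  · rw [nq_hess_comp (T := fun w => A.e j ((A.e i).symm w)) hs hT, h0, nq_tr K hi hj]
    exact hb _

variable [T2Space M] [ConnectedSpace M]

theorem dK_nonneg (K : Kah A) (x y : M) : 0 ≤ dK K x y := dist_nonneg

theorem dK_tri (K : Kah A) (x y z : M) : dK K x z ≤ dK K x y + dK K y z :=
  dist_triangle (α := (ofKah K).M) x y z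

theorem dK_self (K : Kah A) (x : M) : dK K x x = 0 := dist_self (α := (ofKah K).M) x

theorem dK_pos (K : Kah A) {x y : M} (h : x ≠ y) : 0 < dK K x y :=
  (dist_pos (γ := (ofKah K).M)).2 h

/-- a minimiser with its velocity in the charts -/
structure RV (K : Kah A) (γ : ℝ → M) (ℓ b : ℝ) (vel : A.ι → ℝ → Cn n) : Prop where
  nn : 0 ≤ ℓ
  ray : Ray K γ ℓ b
  der : ∀ i, ∀ t ∈ Icc (0 : ℝ) b, γ t ∈ (A.e i).source →
    HasDerivWithinAt (fun s => A.e i (γ s)) (vel i t) (Icc 0 b) t ∧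
      ContinuousWithinAt (vel i) (Icc 0 b) t ∧ nq (K.g i (γ t)) (vel i t) = ℓ ^ 2

variable {K : Kah A} {γ : ℝ → M} {ℓ b : ℝ} {vel : A.ι → ℝ → Cn n}

theorem Ray.cont (h : Ray K γ ℓ b) (hl : 0 ≤ ℓ) : ContinuousOn γ (Icc 0 b) := by
  have h1 : LipschitzOnWith (β := (ofKah K).M) ⟨ℓ, hl⟩ γ (Icc 0 b) := by
    refine LipschitzOnWith.of_dist_le_mul fun s hs t ht => ?_
    rw [Real.dist_eq]
    exact (h s hs t ht).le
  exact h1.continuousOn

theorem Ray.dist0 (h : Ray K γ ℓ b) {t : ℝ} (ht : t ∈ Icc (0 : ℝ) b) :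
    dK K (γ 0) (γ t) = ℓ * t := by
  rw [h 0 ⟨le_rfl, ht.1.trans ht.2⟩ t ht, zero_sub, abs_neg, abs_of_nonneg ht.1]

theorem Ray.win (h : Ray K γ ℓ b) (hl : 0 ≤ ℓ) {τ : ℝ} (hτ : τ ∈ Icc (0 : ℝ) b) {i : A.ι}
    (hi : γ τ ∈ (A.e i).source) :
    ∃ δ > 0, ∀ u ∈ Icc (0 : ℝ) b, τ - δ < u → u < τ + δ → γ u ∈ (A.e i).source := by
  have h1 := (h.cont hl τ hτ).eventually ((A.e i).open_source.mem_nhds hi)
  obtain ⟨δ, hδ, h2⟩ := Metric.mem_nhdsWithin_iff.1 h1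
  refine ⟨δ, hδ, fun u hu h3 h4 => h2 ⟨?_, hu⟩⟩
  rw [mem_ball, Real.dist_eq, abs_lt]
  constructor <;> linarith

theorem RV.cur (h : RV K γ ℓ b vel) {i : A.ι} {s t : ℝ} (hs : 0 ≤ s) (hst : s ≤ t) (ht : t ≤ b)
    (hi : ∀ τ ∈ Icc s t, γ τ ∈ (A.e i).source) : Cur A i (fun τ => A.e i (γ τ)) (vel i) s t where
  le := hst
  mem τ hτ := (A.e i).map_source (hi τ hτ)
  der τ hτ := (h.der i τ ⟨hs.trans hτ.1, hτ.2.trans ht⟩ (hi τ hτ)).1.mono (Icc_subset_Icc hs ht)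
  cont τ hτ := (h.der i τ ⟨hs.trans hτ.1, hτ.2.trans ht⟩ (hi τ hτ)).2.1.mono (Icc_subset_Icc hs ht)

theorem RV.speed (h : RV K γ ℓ b vel) {i : A.ι} {τ : ℝ} (hτ : τ ∈ Icc (0 : ℝ) b)
    (hi : γ τ ∈ (A.e i).source) : nq (gc K i (A.e i (γ τ))) (vel i τ) = ℓ ^ 2 := by
  rw [gc_at K hi]
  exact (h.der i τ hτ hi).2.2

/-- **one step** -/
theorem step1 (h : RV K γ ℓ b vel) {i : A.ι} {s t κ : ℝ} (hs : 0 ≤ s) (hst : s < t) (ht : t ≤ b)
    (hi : ∀ τ ∈ Icc s t, γ τ ∈ (A.e i).source) (hκ0 : 0 ≤ κ)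
    (hκ : ∀ τ ∈ Icc s t, ∀ u η, κ * nq (gc K i (A.e i (γ τ))) u * nq (gc K i (A.e i (γ τ))) η ≤
      bis (gc K i) (A.e i (γ τ)) u η)
    (hB : s = 0 ∨ ∃ B, USup A i (fun z => dK K (γ 0) z ^ 2) (γ s) B ∧
      ∀ v, nq (hess B (A.e i (γ s))) v ≤ 1 * nq (K.g i (γ s)) v) :
    ∃ B, USup A i (fun z => dK K (γ 0) z ^ 2) (γ t) B ∧
      ∀ v, nq (hess B (A.e i (γ t))) v ≤
        (1 - κ * ℓ ^ 2 * s ^ 2 * (t - s) / t) * nq (K.g i (γ t)) v := by
  have ht0 : 0 < t := hs.trans_lt hst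
  have hc := h.cur hs hst.le ht hi
  set c : ℝ → Cn n := fun τ => A.e i (γ τ) with hcdef
  have hsI : s ∈ Icc s t := left_mem_Icc.2 hst.le
  have htI : t ∈ Icc s t := right_mem_Icc.2 hst.le
  have hI : ∀ τ ∈ Icc s t, τ ∈ Icc (0 : ℝ) b := fun τ hτ => ⟨hs.trans hτ.1, hτ.2.trans ht⟩
  obtain ⟨P, hP1, hP, hPn⟩ := hc.exists_par K
  set V : ℝ → Cn n →L[ℂ] Cn n := fun τ => ((τ / t : ℝ) : ℂ) • P τ with hV
  set V' : ℝ → Cn n →L[ℂ] Cn n := fun τ => ((1 / t : ℝ) : ℂ) • P τ -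
    ((τ / t : ℝ) : ℂ) • (GamL (gc K i) (c τ) (vel i τ)).comp (P τ) with hV'
  have hPc : ∀ w, ContinuousOn (fun τ => P τ w) (Icc s t) := fun w τ hτ =>
    (hP w τ hτ).continuousWithinAt
  have hVd : ∀ w, ∀ τ ∈ Icc s t, HasDerivWithinAt (fun τ => V τ w) (V' τ w) (Icc s t) τ := by
    intro w τ hτ
    have h1 : HasDerivWithinAt (fun τ : ℝ => ((τ / t : ℝ) : ℂ)) ((1 / t : ℝ) : ℂ) (Icc s t) τ :=
      ((hasDerivAt_id' τ).div_const t).ofReal_comp.hasDerivWithinAt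
    refine (h1.smul (hP w τ hτ)).congr_deriv ?_
    simp only [hV', _root_.sub_apply, _root_.smul_apply,
      ContinuousLinearMap.comp_apply, GamL_apply, smul_neg]
    abel
  have hV'c : ∀ w, ContinuousOn (fun τ => V' τ w) (Icc s t) := by
    intro w
    have h1 : ContinuousOn (fun τ : ℝ => ((τ / t : ℝ) : ℂ)) (Icc s t) := by fun_prop
    exact ((hPc w).const_smul _).sub (h1.smul ((hc.cont_Gam K).clm_apply (hPc w)))
  obtain ⟨E, hE1, hE2, hE3, -, hE5⟩ := window K hc hVd hV'c (Q := fun _ => 0)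
    (Eventually.of_forall fun _ => differentiableAt_const _) rfl (by simp)
  have hN : ∀ ξ, 0 ≤ nq (gc K i (c t)) ξ := fun ξ => Lb13.nq_gc_nonneg K i (hc.mem t htI) ξ
  have hE2' : E 0 = (t - s) * ℓ ^ 2 := by
    rw [hE2, intervalIntegral.integral_congr (g := fun _ => ℓ ^ 2), intervalIntegral.integral_const,
      smul_eq_mul]
    intro τ hτ
    rw [uIcc_of_le hst.le] at hτ
    exact h.speed (hI τ hτ) (hi τ hτ)
  have hVn : ∀ τ ∈ Icc s t, ∀ ξ, nq (gc K i (c τ)) (V τ ξ) = (τ / t) ^ 2 * nq (gc K i (c t)) ξ := by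
    intro τ hτ ξ
    rw [← hPn ξ τ hτ, ← nq_rsmul]
    rfl
  have hE5' : ∀ ξ, nq (hess E 0) ξ ≤
      (t - s) * (((1 / t) ^ 2 - κ * ℓ ^ 2 * (s / t) ^ 2) * nq (gc K i (c t)) ξ) := by
    intro ξ
    obtain ⟨h1, h2⟩ := hE5 ξ
    rw [h2, ← smul_eq_mul, ← intervalIntegral.integral_const]
    refine intervalIntegral.integral_mono_on hst.le (h1.intervalIntegrable_of_Icc hst.le)
      intervalIntegrable_const fun τ hτ => ?_
    have h3 : V' τ ξ + Gam (gc K i) (c τ) (vel i τ) (V τ ξ) = ((1 / t : ℝ) : ℂ) • P τ ξ := by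
      rw [← GamL_apply]
      simp only [hV', hV, _root_.sub_apply, _root_.smul_apply,
        ContinuousLinearMap.comp_apply, map_smul]
      abel
    have h4 := hκ τ hτ (vel i τ) (V τ ξ)
    rw [h.speed (hI τ hτ) (hi τ hτ), hVn τ hτ] at h4
    rw [h3, nq_rsmul, hPn ξ τ hτ]
    have h5 : (s / t) ^ 2 ≤ (τ / t) ^ 2 :=
      pow_le_pow_left₀ (div_nonneg hs ht0.le) (div_le_div_of_nonneg_right hτ.1 ht0.le) 2
    have h6 : κ * ℓ ^ 2 * ((s / t) ^ 2 * nq (gc K i (c t)) ξ) ≤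
        κ * ℓ ^ 2 * ((τ / t) ^ 2 * nq (gc K i (c t)) ξ) :=
      mul_le_mul_of_nonneg_left (mul_le_mul_of_nonneg_right h5 (hN ξ)) (by positivity)
    change _ - bis (gc K i) (A.e i (γ τ)) (vel i τ) (V τ ξ) ≤ _
    nlinarith
  -- the old barrier
  obtain ⟨F, hF1, hF2, hF3, hF4⟩ : ∃ F : Cn n → ℝ, ContDiffAt ℝ ∞ F 0 ∧ F 0 = s * ℓ ^ 2 ∧
      (∀ᶠ w in 𝓝 (0 : Cn n), 0 ≤ F w ∧ dK K (γ 0) ((A.e i).symm (c s + V s w)) ^ 2 ≤ s * F w) ∧
      ∀ ξ, nq (hess F 0) ξ ≤ s / t ^ 2 * nq (gc K i (c t)) ξ := by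
    rcases hs.eq_or_lt with rfl | hs0
    · refine ⟨fun _ => 0, contDiffAt_const, by simp, Eventually.of_forall fun w => ⟨le_rfl, ?_⟩,
        fun ξ => by rw [nq_hess_const]; simp⟩
      have h1 : c 0 + V 0 w = A.e i (γ 0) := by simp [hV, hcdef]
      rw [h1, (A.e i).left_inv (hi 0 hsI), dK_self]
      simp
    obtain ⟨B, hB1, hB2⟩ := hB.resolve_left hs0.ne'
    have hT : ∀ w, HasFDerivAt (fun w => c s + V s w) (V s) w := fun w =>
      (V s).hasFDerivAt.const_add _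
    have hT' : ∀ᶠ w in 𝓝 (0 : Cn n), DifferentiableAt ℂ (fun w => c s + V s w) w :=
      Eventually.of_forall fun w => (hT w).differentiableAt
    have h0 : c s + V s 0 = A.e i (γ s) := by simp [hcdef]
    have hBs : ContDiffAt ℝ ∞ B (c s + V s 0) := by rw [h0]; exact hB1.sm
    have hBc : ContDiffAt ℝ ∞ (fun w => B (c s + V s w)) 0 :=
      hBs.comp (f := fun w => c s + V s w) 0 (hol_smooth hT')
    refine ⟨fun w => s⁻¹ * B (c s + V s w), contDiffAt_const.mul hBc, ?_, ?_, fun ξ => ?_⟩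
    · simp only [h0, hB1.eq, h.ray.dist0 (hI s hsI)]
      field_simp
    · have h1 : Tendsto (fun w => c s + V s w) (𝓝 0) (𝓝 (A.e i (γ s))) := by
        rw [← h0]; exact (hT 0).continuousAt
      filter_upwards [h1.eventually hB1.le] with w hw
      refine ⟨mul_nonneg (inv_nonneg.2 hs) ((sq_nonneg _).trans hw), ?_⟩
      rwa [← mul_assoc, mul_inv_cancel₀ hs0.ne', one_mul]
    · rw [nq_hess_mul _ hBc, nq_hess_comp (T := fun w => c s + V s w) hBs hT', (hT 0).fderiv, h0]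
      have h1 := hB2 (V s ξ)
      rw [one_mul, ← gc_at K (hi s hsI), hVn s hsI] at h1
      refine (mul_le_mul_of_nonneg_left h1 (inv_nonneg.2 hs)).trans (le_of_eq ?_)
      field_simp
  have hT : ∀ z, HasFDerivAt (fun z => z - c t) (ContinuousLinearMap.id ℂ (Cn n)) z := fun z =>
    (hasFDerivAt_id z).sub_const _
  have hT' : ∀ᶠ z in 𝓝 (c t), DifferentiableAt ℂ (fun z => z - c t) z :=
    Eventually.of_forall fun z => (hT z).differentiableAt
  have hG : ContDiffAt ℝ ∞ (fun w => t * (F w + E w)) (c t - c t) := by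
    rw [sub_self]; exact contDiffAt_const.mul (hF1.add hE1)
  refine ⟨fun z => t * (F (z - c t) + E (z - c t)),
    ⟨hG.comp (f := fun z => z - c t) (c t) (hol_smooth hT'), ?_, ?_⟩, fun v => ?_⟩
  · change t * (F (c t - c t) + E (c t - c t)) = _
    rw [sub_self, hF2, hE2', h.ray.dist0 (hI t htI)]
    ring
  · have h1 : Tendsto (fun z => z - c t) (𝓝 (c t)) (𝓝 0) := by
      rw [← sub_self (c t)]; exact (hT _).continuousAt
    filter_upwards [h1.eventually hF3, h1.eventually hE3] with z h2 h3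
    have h4 : c t + V t (z - c t) + 0 = z := by
      simp [hV, hP1, ht0.ne']
    rw [h4, add_zero] at h3
    have h5 : 0 ≤ E (z - c t) :=
      nonneg_of_mul_nonneg_right ((sq_nonneg _).trans h3) (sub_pos.2 hst)
    have h6 := sq_add_le hs (sub_pos.2 hst).le h2.1 h5 h2.2 h3
    rw [add_sub_cancel] at h6
    exact (pow_le_pow_left₀ (dK_nonneg K _ _) (dK_tri K _ _ _) 2).trans h6
  · change nq (hess (fun z => (fun w => t * (F w + E w)) (z - c t)) (c t)) v ≤ _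
    rw [nq_hess_comp (T := fun z => z - c t) hG hT', (hT _).fderiv, sub_self,
      nq_hess_mul _ (hF1.add hE1), nq_hess_add hF1 hE1, ← gc_at K (hi t htI)]
    refine (mul_le_mul_of_nonneg_left (add_le_add (hF4 _) (hE5' _)) ht0.le).trans (le_of_eq ?_)
    simp only [ContinuousLinearMap.id_apply, hcdef]
    field_simp
    ring

/-- the barrier along the whole minimiser -/
theorem lb_ray (hK : BKpos K) (h : RV K γ ℓ b vel) : ∀ t ∈ Icc (0 : ℝ) b, t = 0 ∨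
    ∀ i, γ t ∈ (A.e i).source → ∃ B, USup A i (fun z => dK K (γ 0) z ^ 2) (γ t) B ∧
      ∀ v, nq (hess B (A.e i (γ t))) v ≤ 1 * nq (K.g i (γ t)) v := by
  refine ind_Icc (Or.inl rfl) fun τ hτ => ?_
  obtain ⟨j, hj⟩ := A.cover (γ τ)
  obtain ⟨δ, hδ, hw⟩ := h.ray.win h.nn hτ hj
  refine ⟨δ, hδ, fun s t hs hst ht h1 h2 hP => Or.inr fun i hi => ?_⟩
  have hj' : ∀ u ∈ Icc s t, γ u ∈ (A.e j).source := fun u hu =>
    hw u ⟨hs.trans hu.1, hu.2.trans ht⟩ (h1.trans_le hu.1) (hu.2.trans_lt h2)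
  obtain ⟨B, hB1, hB2⟩ := step1 h (κ := 0) hs hst ht hj' le_rfl
    (fun u hu a η => by
      rw [zero_mul, zero_mul]; exact bis_nonneg hK ((A.e j).map_source (hj' u hu)) a η)
    (hP.imp id fun h3 => h3 j (hj' s (left_mem_Icc.2 hst.le)))
  simp only [zero_mul, zero_div, sub_zero] at hB2
  exact hB1.tr hi (hj' t (right_mem_Icc.2 hst.le)) K hB2

end

end Crest.Agent.T223.Lb
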