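import Crest.Agent.T223.LbDef_78

/-!
# Row 223 (S0345), module LB (helper78): the Riemannian leaves of the energy trick

* `Ray K γ ℓ b` : `γ : [0,b] → M` is a minimiser of constant speed `ℓ`
* `GeoStmt` : minimisers are `C¹` up to the end points in the charts of the atlas
* `LenStmt` : `d² ≤ (t - s) · energy` for a `C¹` path inside one chart
* `RayStmt` : minimisers exist; a horofunction with asymptotic rays
-/

set_option autoImplicit false
set_option linter.unusedVariables false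

open Set Filter Topology Metric
open scoped ContDiff ComplexConjugate Matrix ComplexOrder

namespace Crest.Agent.T223.Lb

open Crest.Agent.R275.Geo Crest.Agent.R275.EDR890 Crest.Agent.R273.Kah_333
open Crest.Agent.R273.Hess_333 Crest.Agent.R273.RMan4_798
open Crest.Agent.T223.Br Crest.Agent.T223.Tr

/-- `γ : [0,b] → M` is a minimiser of constant speed `ℓ` -/
def Ray {n : ℕ} {M : Type} [TopologicalSpace M] [T2Space M] [ConnectedSpace M] {A : Atl n M}
    (K : Kah A) (γ : ℝ → M) (ℓ b : ℝ) : Prop :=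
  ∀ s ∈ Icc (0 : ℝ) b, ∀ t ∈ Icc (0 : ℝ) b, dK K (γ s) (γ t) = ℓ * |s - t|

/-- leaf GEO: minimisers are `C¹` up to the end points, with speed `ℓ`, in every chart -/
def GeoStmt (n : ℕ) : Prop :=
  ∀ (M : Type) [TopologicalSpace M] [T2Space M] [ConnectedSpace M] (A : Atl n M) (K : Kah A),
    ProperSpace (ofKah K).M → ∀ (γ : ℝ → M) (ℓ b : ℝ), 0 < ℓ → 0 < b → Ray K γ ℓ b →
    ∃ vel : A.ι → ℝ → Cn n, ∀ i, ∀ t ∈ Icc (0 : ℝ) b, γ t ∈ (A.e i).source →
      HasDerivWithinAt (fun s => A.e i (γ s)) (vel i t) (Icc 0 b) t ∧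
      ContinuousWithinAt (vel i) (Icc 0 b) t ∧ nq (K.g i (γ t)) (vel i t) = ℓ ^ 2

/-- leaf LEN: distance and energy of a `C¹` path inside one chart -/
def LenStmt (n : ℕ) : Prop :=
  ∀ (M : Type) [TopologicalSpace M] [T2Space M] [ConnectedSpace M] (A : Atl n M) (K : Kah A)
    (i : A.ι) (c c' : ℝ → Cn n) (s t : ℝ), s ≤ t → (∀ τ ∈ Icc s t, c τ ∈ (A.e i).target) →
    (∀ τ ∈ Icc s t, HasDerivWithinAt c (c' τ) (Icc s t) τ) → ContinuousOn c' (Icc s t) →
    dK K ((A.e i).symm (c s)) ((A.e i).symm (c t)) ^ 2 ≤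
      (t - s) * ∫ τ in s..t, nq (gc K i (c τ)) (c' τ)

/-- leaf RAY: minimisers between two points; a horofunction with asymptotic rays -/
def RayStmt (n : ℕ) : Prop :=
  ∀ (M : Type) [TopologicalSpace M] [T2Space M] [ConnectedSpace M] (A : Atl n M) (K : Kah A),
    ProperSpace (ofKah K).M →
    (∀ x y : M, ∃ γ : ℝ → M, γ 0 = x ∧ γ 1 = y ∧ Ray K γ (dK K x y) 1) ∧
    (NoncompactSpace M → ∃ b : M → ℝ, (∀ x y, |b x - b y| ≤ dK K x y) ∧
      ∀ x : M, ∃ γ : ℝ → M, γ 0 = x ∧ ∀ T : ℝ, 0 ≤ T → Ray K γ 1 T ∧ b (γ T) = b x + T)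

end Crest.Agent.T223.Lb
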