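import Crest.Agent.T223.LbLeaf_78

/-!
# Row 223, module LB (helper13): the distance is at most the length of a `C¹` curve in a chart
-/

set_option autoImplicit false

open Set Filter Topology Manifold Bundle MeasureTheory
open scoped ContDiff Manifold ComplexConjugate Matrix

namespace Crest.Agent.T223.Lb13

open Crest.Agent.R275.Geo Crest.Agent.R273.Kah_333 Crest.Agent.R273.RMan4_798
open Crest.Agent.R273.Ric_798 Crest.Agent.R273.RMan_798
open Crest.Agent.T223.Br Crest.Agent.T223.Tr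

noncomputable section

theorem ch_mem {d : ℕ} {X : Type} [TopologicalSpace X] (R : RAtl d X) (i : R.ι) :
    R.ch i ∈ atlas (EE d) R.M := mem_range_self i

theorem mfderiv_ch_symm {d : ℕ} {X : Type} [TopologicalSpace X] (R : RAtl d X) (i : R.ι) {y : EE d}
    (hy : y ∈ (R.c i).target) :
    mfderiv (𝓡 d) (𝓡 d) (R.ch i).symm y = R.T i (R.idx ((R.ch i).symm y)) ((R.ch i).symm y) := by
  set q : R.M := (R.ch i).symm y with hq
  have h1 : MDifferentiableAt (𝓡 d) (𝓡 d) (R.ch i).symm y :=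
    mdifferentiableAt_atlas_symm (I := 𝓡 d) (ch_mem R i) hy
  rw [h1.mfderiv]
  simp only [writtenInExtChartAt, extChartAt_model_space_eq_id, modelWithCornersSelf_coe, range_id,
    fderivWithin_univ]
  have h2 : R.c i q = y := (R.ch i).right_inv hy
  unfold RAtl.T
  rw [h2]
  rfl

theorem len_ratl {d : ℕ} {X : Type} [TopologicalSpace X] [T2Space X] [ConnectedSpace X]
    (R : RAtl d X) (i : R.ι) {c c' : ℝ → EE d} {a b : ℝ} (hab : a ≤ b)
    (hm : ∀ t ∈ Icc a b, c t ∈ (R.c i).target)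
    (hd : ∀ t ∈ Icc a b, HasDerivWithinAt c (c' t) (Icc a b) t) (hc : ContinuousOn c' (Icc a b)) :
    dist (α := R.M) ((R.c i).symm (c a)) ((R.c i).symm (c b))
      ≤ ∫ t in a..b, √(R.bil i (c t) (c' t) (c' t)) := by
  rcases hab.eq_or_lt with rfl | hab'
  · rw [intervalIntegral.integral_same]
    exact (dist_self (α := R.M) _).le
  have hu := uniqueDiffOn_Icc hab'
  have hc1 : ContDiffOn ℝ 1 c (Icc a b) := by
    rw [contDiffOn_one_iff_derivWithin hu]
    exact ⟨fun t ht => (hd t ht).differentiableWithinAt,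
      hc.congr fun t ht => (hd t ht).derivWithin (hu t ht)⟩
  have hs : ContMDiffOn (𝓡 d) (𝓡 d) 1 (R.ch i).symm (R.ch i).target :=
    contMDiffOn_symm_of_mem_maximalAtlas (IsManifold.subset_maximalAtlas ⟨i, rfl⟩)
  have hγ : ContMDiffOn 𝓘(ℝ, ℝ) (𝓡 d) 1 ((R.ch i).symm ∘ c) (Icc a b) :=
    hs.comp hc1.contMDiffOn hm
  have hcont : ContinuousOn (fun t => √(R.bil i (c t) (c' t) (c' t))) (Icc a b) :=
    ((((R.contDiffOn_bil i).continuousOn.comp hc1.continuousOn hm).clm_apply hc).clm_apply hc).sqrt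
  have h1 : edist (α := R.M) ((R.ch i).symm (c a)) ((R.ch i).symm (c b)) ≤
      ENNReal.ofReal (∫ t in a..b, √(R.bil i (c t) (c' t) (c' t))) := by
    rw [IsRiemannianManifold.out (I := 𝓡 d)]
    refine (riemannianEDist_le_pathELength hγ rfl rfl hab).trans (le_of_eq ?_)
    rw [pathELength_eq_lintegral_mfderivWithin_Icc, intervalIntegral.integral_of_le hab,
      ← integral_Icc_eq_integral_Ioc, ofReal_integral_eq_lintegral_ofReal
        (hcont.integrableOn_Icc) (Eventually.of_forall fun t => Real.sqrt_nonneg _)]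
    refine setLIntegral_congr_fun measurableSet_Icc fun t ht => ?_
    have h2 : mfderivWithin 𝓘(ℝ, ℝ) (𝓡 d) ((R.ch i).symm ∘ c) (Icc a b) t =
        (mfderiv (𝓡 d) (𝓡 d) (R.ch i).symm (c t)).comp
          (mfderivWithin 𝓘(ℝ, ℝ) (𝓡 d) c (Icc a b) t) := by
      apply mfderiv_comp_mfderivWithin
      · exact mdifferentiableAt_atlas_symm (I := 𝓡 d) (ch_mem R i) (hm t ht)
      · exact hc1.contMDiffOn.mdifferentiableOn (by simp) t ht
      · rw [uniqueMDiffWithinAt_iff_uniqueDiffWithinAt]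
        exact hu t ht
    have h3 : (mfderivWithin 𝓘(ℝ, ℝ) (𝓡 d) c (Icc a b) t (1 : ℝ) : EE d) = c' t := by
      rw [mfderivWithin_eq_fderivWithin]
      exact (hd t ht).derivWithin (hu t ht)
    set q : R.M := (R.ch i).symm (c t) with hq
    have h4 : (mfderivWithin 𝓘(ℝ, ℝ) (𝓡 d) ((R.ch i).symm ∘ c) (Icc a b) t (1 : ℝ) : EE d)
        = R.T i (R.idx q) q (c' t) := by
      have := congrArg (fun L => L (1 : ℝ)) h2
      refine this.trans ?_
      rw [mfderiv_ch_symm R i (hm t ht)]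
      exact congrArg (R.T i (R.idx q) q) h3
    have h5 := R.bil_tr i (R.idx q) ((R.ch i).map_target (hm t ht)) (R.idx_mem q) (c' t) (c' t)
    have h6 : R.c i q = c t := (R.ch i).right_inv (hm t ht)
    rw [h6] at h5
    change ‖mfderivWithin 𝓘(ℝ, ℝ) (𝓡 d) ((R.ch i).symm ∘ c) (Icc a b) t (1 : ℝ)‖ₑ = _
    rw [← ofReal_norm, norm_eq_sqrt_real_inner, RAtl.inner_M, h4, h5]
    rfl
  rw [edist_dist] at h1
  exact (ENNReal.ofReal_le_ofReal_iff
    (intervalIntegral.integral_nonneg hab fun t _ => Real.sqrt_nonneg _)).1 h1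

variable {n : ℕ} {M : Type} [TopologicalSpace M] {A : Atl n M}

theorem nq_eq_G (K : Kah A) (i : A.ι) (z v : Cn n) : nq (gc K i z) v = G (KK K i) z v v := by
  unfold nq G
  congr 1
  simp only [dotProduct, Matrix.mulVec, Finset.mul_sum, Pi.star_apply, RCLike.star_def, KK, gc,
    Matrix.transpose_apply]
  rw [Finset.sum_comm]
  refine Finset.sum_congr rfl fun a _ => Finset.sum_congr rfl fun b _ => ?_
  ring

theorem bil_eq_nq (K : Kah A) (i : A.ι) {z : Cn n} (hz : z ∈ (A.e i).target) (v : Cn n) :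
    (ofKah K).bil i (eR n z) (eR n v) (eR n v) = nq (gc K i z) v := by
  have hz' : (eR n).symm (eR n z) ∈ (A.e i).target := by simpa using hz
  rw [nq_eq_G]
  refine (RAtl.bil_apply (ofKah K) i _ _ _).trans ?_
  refine (sum_hm (eR n) ((kd K i).pd _ hz').1 (eR n v) (eR n v)).trans ?_
  simp

theorem nq_gc_nonneg (K : Kah A) (i : A.ι) {z : Cn n} (hz : z ∈ (A.e i).target) (v : Cn n) :
    0 ≤ nq (gc K i z) v := by
  rw [nq_eq_G]
  by_cases hv : v = 0
  · simp [hv, G]
  · exact (G_self_pos ((kd K i).pd z hz) hv).le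

theorem continuousOn_nq (K : Kah A) (i : A.ι) {c c' : ℝ → Cn n} {s : Set ℝ}
    (hm : ∀ t ∈ s, c t ∈ (A.e i).target) (hc : ContinuousOn c s) (hc' : ContinuousOn c' s) :
    ContinuousOn (fun t => nq (gc K i (c t)) (c' t)) s := by
  unfold nq
  refine Complex.continuous_re.comp_continuousOn ?_
  have hp : ∀ a, ContinuousOn (fun t => c' t a) s := fun a =>
    (EuclideanSpace.proj a : Cn n →L[ℂ] ℂ).continuous.comp_continuousOn hc'
  refine continuousOn_finsetSum _ fun a _ => continuousOn_finsetSum _ fun b _ => ?_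
  exact (((K.sm i a b).continuousOn.comp hc hm).mul (hp a)).mul
    (Complex.continuous_conj.comp_continuousOn (hp b))

variable [T2Space M] [ConnectedSpace M]

/-- **length bound** for a `C¹` curve in a holomorphic chart -/
theorem dK_le_len (K : Kah A) (i : A.ι) {c c' : ℝ → Cn n} {a b : ℝ} (hab : a ≤ b)
    (hm : ∀ t ∈ Icc a b, c t ∈ (A.e i).target)
    (hd : ∀ t ∈ Icc a b, HasDerivWithinAt c (c' t) (Icc a b) t) (hc : ContinuousOn c' (Icc a b)) :
    dK K ((A.e i).symm (c a)) ((A.e i).symm (c b)) ≤ ∫ t in a..b, √(nq (gc K i (c t)) (c' t)) := by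
  have h := len_ratl (ofKah K) i (c := fun t => eR n (c t)) (c' := fun t => eR n (c' t)) hab
    (fun t ht => (Set.ext_iff.1 (cR_target (A := A) i) _).2 (by simpa using hm t ht))
    (fun t ht => (eR n : Cn n →L[ℝ] EE (2 * n)).hasFDerivAt.comp_hasDerivWithinAt t (hd t ht))
    ((eR n).continuous.comp_continuousOn hc)
  have e : ∀ z : Cn n, ((ofKah K).c i).symm (eR n z) = (A.e i).symm z := fun z =>
    congrArg (A.e i).symm ((eR n).symm_apply_apply z)
  rw [e, e] at h
  refine h.trans (le_of_eq (intervalIntegral.integral_congr fun t ht => ?_))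
  rw [uIcc_of_le hab] at ht
  simp only [bil_eq_nq K i (hm t ht)]

theorem sq_integral_sqrt_le {f : ℝ → ℝ} {a b : ℝ} (hab : a ≤ b) (hf : ContinuousOn f (Icc a b))
    (h0 : ∀ t ∈ Icc a b, 0 ≤ f t) : (∫ t in a..b, √(f t)) ^ 2 ≤ (b - a) * ∫ t in a..b, f t := by
  rcases hab.eq_or_lt with rfl | hab'
  · simp
  have hi : IntervalIntegrable f volume a b := (hf.mono (uIcc_of_le hab).le).intervalIntegrable
  have hi' : IntervalIntegrable (fun t => √(f t)) volume a b :=
    (hf.sqrt.mono (uIcc_of_le hab).le).intervalIntegrable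
  set m := (∫ t in a..b, √(f t)) / (b - a) with hm
  have hba : 0 < b - a := sub_pos.2 hab'
  have h1 : ∫ t in a..b, (2 * m * √(f t) - m ^ 2) ≤ ∫ t in a..b, f t := by
    refine intervalIntegral.integral_mono_on hab ((hi'.const_mul _).sub (by simp)) hi
      fun t ht => ?_
    have := Real.sq_sqrt (h0 t ht)
    nlinarith [sq_nonneg (√(f t) - m)]
  rw [intervalIntegral.integral_sub (hi'.const_mul _) (by simp),
    intervalIntegral.integral_const_mul, intervalIntegral.integral_const, smul_eq_mul] at h1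
  have h2 : ∫ t in a..b, √(f t) = m * (b - a) := by rw [hm]; field_simp
  rw [h2] at h1 ⊢
  nlinarith

/-- **energy bound** for a `C¹` curve in a holomorphic chart -/
theorem dK_sq_le_energy (K : Kah A) (i : A.ι) {c c' : ℝ → Cn n} {a b : ℝ} (hab : a ≤ b)
    (hm : ∀ t ∈ Icc a b, c t ∈ (A.e i).target)
    (hd : ∀ t ∈ Icc a b, HasDerivWithinAt c (c' t) (Icc a b) t) (hc : ContinuousOn c' (Icc a b)) :
    dK K ((A.e i).symm (c a)) ((A.e i).symm (c b)) ^ 2
      ≤ (b - a) * ∫ t in a..b, nq (gc K i (c t)) (c' t) :=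
  (pow_le_pow_left₀ dist_nonneg (dK_le_len K i hab hm hd hc) 2).trans (sq_integral_sqrt_le hab
    (continuousOn_nq K i hm (fun t ht => (hd t ht).continuousWithinAt) hc)
    fun t ht => nq_gc_nonneg K i (hm t ht) _)

end

end Crest.Agent.T223.Lb13

theorem Crest.Agent.T223.Lb.lenStmt (n : ℕ) : Crest.Agent.T223.Lb.LenStmt n :=
  fun _ _ _ _ _ K i _ _ _ _ hst hm hd hc => Crest.Agent.T223.Lb13.dK_sq_le_energy K i hst hm hd hc
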