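import Crest.Agent.T223.LbInd_78

/-!
# Row 223 (S0345), module LB (helper78): the barrier for `log d`
-/

set_option autoImplicit false
set_option linter.unusedVariables false
set_option linter.unusedSectionVars false

open Set Filter Topology Metric Complex MeasureTheory
open scoped ContDiff ComplexConjugate Matrix ComplexOrder

namespace Crest.Agent.T223.Lb

open Crest.Agent.R275.Geo Crest.Agent.R275.EDR890 Crest.Agent.R273.Kah_333
open Crest.Agent.R273.Hess_333 Crest.Agent.R273.HessB_333 Crest.Agent.R273.RMan4_798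
open Crest.Agent.R275.Core144
open Crest.Agent.T223.Br Crest.Agent.T223.Tr

noncomputable section

variable {n : ℕ} {M : Type} [TopologicalSpace M] {A : Atl n M} [T2Space M] [ConnectedSpace M]

/-- a holomorphic family of end points with its energy -/
structure Fam (K : Kah A) (x : M) (i : A.ι) (y : M) (s e : ℝ) (v : Cn n) (D : Cn n → Cn n)
    (E : Cn n → ℝ) : Prop where
  hol : ∀ᶠ w in 𝓝 (0 : Cn n), DifferentiableAt ℂ D w
  zero : D 0 = A.e i y
  sm : ContDiffAt ℝ ∞ E 0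
  val : E 0 = e
  le : ∀ᶠ w in 𝓝 (0 : Cn n), 0 ≤ E w ∧ dK K x ((A.e i).symm (D w)) ^ 2 ≤ s * E w
  d1 : dv false v (cu E) 0 = (e : ℂ)

variable {K : Kah A} {γ : ℝ → M} {ℓ b : ℝ} {vel : A.ι → ℝ → Cn n}

theorem Fam.tr {x y : M} {i j : A.ι} {s e : ℝ} {v : Cn n} {D : Cn n → Cn n} {E : Cn n → ℝ}
    (h : Fam K x i y s e v D E) (hi : y ∈ (A.e i).source) (hj : y ∈ (A.e j).source) :
    Fam K x j y s e v (fun w => A.e j ((A.e i).symm (D w))) E := by
  have h1 : Tendsto D (𝓝 0) (𝓝 (A.e i y)) := by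
    rw [← h.zero]; exact h.hol.self_of_nhds.continuousAt
  refine ⟨?_, ?_, h.sm, h.val, ?_, h.d1⟩
  · filter_upwards [h.hol, h1.eventually (tr_hol hi hj)] with w h2 h3
    exact h3.comp w h2
  · rw [h.zero, (A.e i).left_inv hi]
  · filter_upwards [h.le, h1.eventually (tr_symm hi hj)] with w h2 h3
    rwa [h3]

theorem stepL (hK : BKpos K) (h : RV K γ ℓ b vel) (hl : 0 < ℓ) {i : A.ι} {s t : ℝ} (hs : 0 ≤ s)
    (hst : s < t) (ht : t ≤ b) (hi : ∀ τ ∈ Icc s t, γ τ ∈ (A.e i).source) {v : Cn n} (hv : v ≠ 0)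
    {D : Cn n → Cn n} {E : Cn n → ℝ} (hF : Fam K (γ 0) i (γ s) s (s * ℓ ^ 2) v D E)
    (hE : nq (hess E 0) v ≤ s * ℓ ^ 2) :
    ∃ D' E', Fam K (γ 0) i (γ t) t (t * ℓ ^ 2) v D' E' ∧ nq (hess E' 0) v < t * ℓ ^ 2 := by
  have hc := h.cur hs hst.le ht hi
  set c : ℝ → Cn n := fun τ => A.e i (γ τ) with hcdef
  have hsI : s ∈ Icc s t := left_mem_Icc.2 hst.le
  have htI : t ∈ Icc s t := right_mem_Icc.2 hst.le
  have hI : ∀ τ ∈ Icc s t, τ ∈ Icc (0 : ℝ) b := fun τ hτ => ⟨hs.trans hτ.1, hτ.2.trans ht⟩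
  have hsp : ∀ τ ∈ Icc s t, nq (gc K i (c τ)) (vel i τ) = ℓ ^ 2 := fun τ hτ =>
    h.speed (hI τ hτ) (hi τ hτ)
  set L := fderiv ℂ D 0 with hL
  obtain ⟨X, hX0, hX⟩ := hc.exists_rad K (L v)
  set lam : Cn n →L[ℂ] ℂ := ((‖v‖ ^ 2 : ℝ) : ℂ)⁻¹ • innerSL ℂ v with hlam
  have hlv : lam v = 1 := by
    have h1 : ((‖v‖ ^ 2 : ℝ) : ℂ) ≠ 0 := by
      exact_mod_cast pow_ne_zero 2 (norm_ne_zero_iff.2 hv)
    simp only [hlam, _root_.smul_apply, innerSL_apply_apply, inner_self_eq_norm_sq_to_K,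
      smul_eq_mul]
    rw [inv_mul_eq_one₀ h1]
    simp
  set X' : ℝ → Cn n := fun τ => -Gam (gc K i) (c τ) (vel i τ) (X τ) + vel i τ with hX'
  set V : ℝ → Cn n →L[ℂ] Cn n := fun τ => L + lam.smulRight (X τ - X s) with hV
  set V' : ℝ → Cn n →L[ℂ] Cn n := fun τ => lam.smulRight (X' τ) with hV'
  have hXc : ContinuousOn X (Icc s t) := fun τ hτ => (hX τ hτ).continuousWithinAt
  have hX'c : ContinuousOn X' (Icc s t) := ((hc.cont_Gam K).clm_apply hXc).neg.add hc.cont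
  have hVd : ∀ w, ∀ τ ∈ Icc s t, HasDerivWithinAt (fun τ => V τ w) (V' τ w) (Icc s t) τ :=
    fun w τ hτ => (((hX τ hτ).sub_const (X s)).const_smul (lam w)).const_add (L w)
  have hV'c : ∀ w, ContinuousOn (fun τ => V' τ w) (Icc s t) := fun w => hX'c.const_smul (lam w)
  have hVv : ∀ τ, V τ v = X τ := fun τ => by
    simp only [hV, _root_.add_apply, ContinuousLinearMap.smulRight_apply, hlv, one_smul, ← hX0]
    abel
  have hcov : ∀ τ, V' τ v + Gam (gc K i) (c τ) (vel i τ) (V τ v) = vel i τ := fun τ => by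
    simp only [hVv, hV', ContinuousLinearMap.smulRight_apply, hlv, one_smul, hX']
    abel
  set Q : Cn n → Cn n := fun w => D w - c s - L w with hQ
  have hQh : ∀ᶠ w in 𝓝 (0 : Cn n), DifferentiableAt ℂ Q w := by
    filter_upwards [hF.hol] with w hw using (hw.sub_const _).sub L.differentiableAt
  have hQ0 : Q 0 = 0 := by simp [hQ, hF.zero, hcdef]
  have hQ1 : fderiv ℂ Q 0 = 0 := by
    have h1 : HasFDerivAt Q (L - L) 0 :=
      (hF.hol.self_of_nhds.hasFDerivAt.sub_const _).sub L.hasFDerivAt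
    rw [h1.fderiv, sub_self]
  obtain ⟨E1, hE1, hE2, hE3, hE4, hE5⟩ := window K hc hVd hV'c hQh hQ0 hQ1
  have hE2' : E1 0 = (t - s) * ℓ ^ 2 := by
    rw [hE2, intervalIntegral.integral_congr (g := fun _ => ℓ ^ 2), intervalIntegral.integral_const,
      smul_eq_mul]
    intro τ hτ
    rw [uIcc_of_le hst.le] at hτ
    exact hsp τ hτ
  have hE4' : dv false v (cu E1) 0 = (((t - s) * ℓ ^ 2 : ℝ) : ℂ) := by
    rw [hE4, intervalIntegral.integral_congr (g := fun _ => ((ℓ ^ 2 : ℝ) : ℂ)),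
      intervalIntegral.integral_const]
    · simp
    intro τ hτ
    rw [uIcc_of_le hst.le] at hτ
    simp only [hcov]
    rw [← h2_real (KahAt.herm (kah_gc K (hc.mem τ hτ))), hsp τ hτ]
  have hvel : ∀ τ ∈ Icc s t, vel i τ ≠ 0 := fun τ hτ h0 => by
    have h1 := hsp τ hτ
    rw [h0] at h1
    simp only [nq, PiLp.zero_apply, mul_zero, map_zero, Finset.sum_const_zero, zero_re] at h1
    exact (pow_pos hl 2).ne h1
  have hex : ∃ τ ∈ Icc s t, X τ ≠ 0 := by
    by_contra hcon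
    push Not at hcon
    have h1 : HasDerivWithinAt X 0 (Icc s t) s :=
      (hasDerivWithinAt_const s (Icc s t) (0 : Cn n)).congr hcon (hcon s hsI)
    have h2 := (uniqueDiffOn_Icc hst s hsI).eq_deriv _ (hX s hsI) h1
    rw [hcon s hsI, ← GamL_apply, map_zero, neg_zero, zero_add] at h2
    exact hvel s hsI h2
  have hE5' : nq (hess E1 0) v < (t - s) * ℓ ^ 2 := by
    obtain ⟨h1, h2⟩ := hE5 v
    rw [h2, ← smul_eq_mul, ← intervalIntegral.integral_const]
    refine intervalIntegral.integral_lt_integral_of_continuousOn_of_le_of_exists_lt hst h1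
      continuousOn_const (fun τ hτ => ?_) ?_
    · have hτ' := Ioc_subset_Icc_self hτ
      rw [hcov, hsp τ hτ']
      linarith [bis_nonneg hK (hc.mem τ hτ') (vel i τ) (V τ v)]
    · obtain ⟨τ, hτ, h3⟩ := hex
      refine ⟨τ, hτ, ?_⟩
      rw [hcov, hsp τ hτ, hVv]
      linarith [hK i _ (hc.mem τ hτ) (vel i τ) (X τ) (hvel τ hτ) h3]
  refine ⟨fun w => c t + V t w + Q w, fun w => E w + E1 w, ⟨?_, ?_, hF.sm.add hE1, ?_, ?_, ?_⟩, ?_⟩
  · filter_upwards [hQh] with w hw using ((V t).differentiableAt.const_add _).add hw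
  · simp [hQ0, hcdef]
  · rw [hF.val, hE2']; ring
  · filter_upwards [hF.le, hE3] with w h2 h3
    have h4 : c s + V s w + Q w = D w := by
      simp only [hV, hQ, sub_self, _root_.add_apply, ContinuousLinearMap.smulRight_apply, smul_zero]
      abel
    rw [h4] at h3
    have h5 : 0 ≤ E1 w := nonneg_of_mul_nonneg_right ((sq_nonneg _).trans h3) (sub_pos.2 hst)
    have h6 := sq_add_le hs (sub_pos.2 hst).le h2.1 h5 h2.2 h3
    rw [add_sub_cancel] at h6
    exact ⟨add_nonneg h2.1 h5, (pow_le_pow_left₀ (dK_nonneg K _ _) (dK_tri K _ _ _) 2).trans h6⟩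
  · have h1 : (cu fun w => E w + E1 w) = fun w => cu E w + cu E1 w := by
      funext w; simp [cu]
    rw [h1, dv_add (diffAt (contDiffAt_cu hF.sm)) (diffAt (contDiffAt_cu hE1)), hF.d1, hE4']
    push_cast
    ring
  · rw [nq_hess_add hF.sm hE1]
    linarith

theorem log_ray (hK : BKpos K) (h : RV K γ ℓ b vel) (hl : 0 < ℓ) {v : Cn n} (hv : v ≠ 0) :
    ∀ t ∈ Icc (0 : ℝ) b, ∀ i, γ t ∈ (A.e i).source →
      ∃ D E, Fam K (γ 0) i (γ t) t (t * ℓ ^ 2) v D E ∧ nq (hess E 0) v ≤ t * ℓ ^ 2 ∧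
        (0 < t → nq (hess E 0) v < t * ℓ ^ 2) := by
  refine ind_Icc (fun i hi => ?_) fun τ hτ => ?_
  · refine ⟨fun _ => A.e i (γ 0), fun _ => 0, ⟨Eventually.of_forall fun _ =>
      differentiableAt_const _, rfl, contDiffAt_const, by simp, Eventually.of_forall fun w =>
      ⟨le_rfl, ?_⟩, ?_⟩, by rw [nq_hess_const]; simp, fun h => absurd h (lt_irrefl _)⟩
    · rw [(A.e i).left_inv hi, dK_self]; simp
    · have h1 : (cu fun _ : Cn n => (0 : ℝ)) = fun _ => 0 := by funext w; simp [cu]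
      rw [h1, dv_const]; simp
  obtain ⟨j, hj⟩ := A.cover (γ τ)
  obtain ⟨δ, hδ, hw⟩ := h.ray.win h.nn hτ hj
  refine ⟨δ, hδ, fun s t hs hst ht h1 h2 hP i hi => ?_⟩
  have hj' : ∀ u ∈ Icc s t, γ u ∈ (A.e j).source := fun u hu =>
    hw u ⟨hs.trans hu.1, hu.2.trans ht⟩ (h1.trans_le hu.1) (hu.2.trans_lt h2)
  obtain ⟨D, E, hF, hE, -⟩ := hP j (hj' s (left_mem_Icc.2 hst.le))
  obtain ⟨D', E', hF', hE'⟩ := stepL hK h hl hs hst ht hj' hv hF hE
  exact ⟨_, E', hF'.tr (hj' t (right_mem_Icc.2 hst.le)) hi, hE'.le, fun _ => hE'⟩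

theorem log_of (hK : BKpos K)
    (hR : ∀ x y : M, x ≠ y → ∃ γ vel, γ 0 = x ∧ γ 1 = y ∧ RV K γ (dK K x y) 1 vel) : LOG K := by
  intro x i y hy hxy
  obtain ⟨γ, vel, rfl, rfl, h⟩ := hR x y hxy
  have hl := dK_pos K hxy
  set ℓ := dK K (γ 0) (γ 1) with hℓ
  have h1 : (1 : ℝ) ∈ Icc (0 : ℝ) 1 := right_mem_Icc.2 zero_le_one
  have hv : vel i 1 ≠ 0 := fun h0 => by
    have h2 := (h.der i 1 h1 hy).2.2
    rw [h0] at h2
    simp only [nq, PiLp.zero_apply, mul_zero, map_zero, Finset.sum_const_zero, zero_re] at h2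
    exact (pow_pos hl 2).ne h2
  obtain ⟨D, E, hF, -, hE⟩ := log_ray hK h hl hv 1 h1 i hy
  have hE' := hE one_pos
  rw [one_mul] at hE' hF
  have hE0 : 0 < E 0 := by rw [hF.val]; exact pow_pos hl 2
  have hls : ContDiffAt ℝ ∞ (fun w => Real.log (E w)) 0 := hF.sm.log hE0.ne'
  refine ⟨D, fun w => (1 / 2) * Real.log (E w), vel i 1, hF.hol, hF.zero,
    contDiffAt_const.mul hls, ?_, ?_, ?_⟩
  · simp only [hF.val, Real.log_pow]
    push_cast
    ring
  · have h2 : ContinuousAt (fun w => dK K (γ 0) ((A.e i).symm (D w))) 0 := by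
      have h3 : Continuous fun z : M => dK K (γ 0) z :=
        (continuous_const.dist continuous_id : Continuous fun z : (ofKah K).M =>
          dist (α := (ofKah K).M) (γ 0) z)
      refine h3.continuousAt.comp (f := fun w => (A.e i).symm (D w)) ?_
      refine ContinuousAt.comp (f := D) ?_ hF.hol.self_of_nhds.continuousAt
      rw [hF.zero]
      exact (A.e i).continuousAt_symm ((A.e i).map_source hy)
    have h4 : 0 < dK K (γ 0) ((A.e i).symm (D 0)) := by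
      rw [hF.zero, (A.e i).left_inv hy]; exact hl
    filter_upwards [hF.le, h2.eventually (lt_mem_nhds h4)] with w h5 h6
    have h7 := Real.log_le_log (pow_pos h6 2) h5.2
    rw [one_mul, Real.log_pow] at h7
    push_cast at h7
    linarith
  · rw [nq_hess_mul _ hls, nq_hess_log hF.sm hE0, hF.d1, hF.val, Complex.norm_real,
      Real.norm_of_nonneg (sq_nonneg ℓ), div_self (pow_pos (pow_pos hl 2) 2).ne']
    have h3 : nq (hess E 0) (vel i 1) / ℓ ^ 2 < 1 := (div_lt_one (pow_pos hl 2)).2 hE'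
    linarith

end

end Crest.Agent.T223.Lb
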