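import Crest.Agent.T223.LbDv_78

/-!
# Row 223 (S0345), module LB (helper78): integrals `∫ F (p τ, w) dτ` with `F` smooth and `p` only
continuous: smoothness in `w`, Wirtinger derivatives under the integral sign.
-/

set_option autoImplicit false
set_option linter.unusedVariables false
set_option linter.unusedSectionVars false

open Set Filter Topology Metric Complex MeasureTheory
open scoped ContDiff ComplexConjugate Matrix ComplexOrder

namespace Crest.Agent.T223.Lb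

open Crest.Agent.R275.Geo Crest.Agent.R275.EDR890 Crest.Agent.R273.Hess_333

noncomputable section

section gen

variable {X W : Type} [NormedAddCommGroup X] [NormedSpace ℝ X] [NormedAddCommGroup W]
  [NormedSpace ℝ W] [FiniteDimensional ℝ W] {O : Set (X × W)} {p : ℝ → X} {s t : ℝ}

/-- the partial derivative in the second variable -/
def d2 {G : Type} [NormedAddCommGroup G] [NormedSpace ℝ G] (F : X × W → G) (q : X × W) :
    W →L[ℝ] G := (fderiv ℝ F q).comp (ContinuousLinearMap.inr ℝ X W)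

theorem d2_smooth {G : Type} [NormedAddCommGroup G] [NormedSpace ℝ G] {F : X × W → G}
    (hO : IsOpen O) (hF : ContDiffOn ℝ ∞ F O) : ContDiffOn ℝ ∞ (d2 F) O :=
  (hF.fderiv_of_isOpen hO (by simp)).clm_comp contDiffOn_const

theorem d2_has {G : Type} [NormedAddCommGroup G] [NormedSpace ℝ G] {F : X × W → G}
    (hO : IsOpen O) (hF : ContDiffOn ℝ ∞ F O) {x : X} {w : W} (h : (x, w) ∈ O) :
    HasFDerivAt (fun y => F (x, y)) (d2 F (x, w)) w :=
  ((hF.contDiffAt (hO.mem_nhds h)).differentiableAt (by simp)).hasFDerivAt.comp w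
    (hasFDerivAt_prodMk_right x w)

theorem par_tube (hO : IsOpen O) (hp : ContinuousOn p (Icc s t)) {w0 : W}
    (h0 : ∀ τ ∈ Icc s t, (p τ, w0) ∈ O) :
    ∃ r > 0, ∀ τ ∈ Icc s t, ∀ w ∈ closedBall w0 r, (p τ, w) ∈ O := by
  have hK : IsCompact (p '' Icc s t) := isCompact_Icc.image_of_continuousOn hp
  obtain ⟨u, v, -, hv, h1, h2, h3⟩ := generalized_tube_lemma hK (isCompact_singleton (x := w0)) hO
    (by rintro ⟨x, w⟩ ⟨⟨τ, hτ, rfl⟩, rfl⟩; exact h0 τ hτ)
  obtain ⟨r, hr, hb⟩ := Metric.nhds_basis_closedBall.mem_iff.1 (hv.mem_nhds (h2 rfl))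
  exact ⟨r, hr, fun τ hτ w hw => h3 ⟨h1 ⟨τ, hτ, rfl⟩, hb hw⟩⟩

theorem par_open (hO : IsOpen O) (hp : ContinuousOn p (Icc s t)) :
    IsOpen {w : W | ∀ τ ∈ Icc s t, (p τ, w) ∈ O} := by
  rw [Metric.isOpen_iff]
  intro w hw
  obtain ⟨r, hr, h⟩ := par_tube hO hp hw
  exact ⟨r, hr, fun y hy τ hτ => h τ hτ y (ball_subset_closedBall hy)⟩

theorem par_cont {G : Type} [NormedAddCommGroup G] {F : X × W → G} (hF : ContinuousOn F O)
    (hp : ContinuousOn p (Icc s t)) {w : W} (h0 : ∀ τ ∈ Icc s t, (p τ, w) ∈ O) :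
    ContinuousOn (fun τ => F (p τ, w)) (Icc s t) :=
  hF.comp (hp.prodMk continuousOn_const) h0

theorem par_deriv {G : Type} [NormedAddCommGroup G] [NormedSpace ℝ G] [CompleteSpace G]
    {F : X × W → G} (hO : IsOpen O) (hF : ContDiffOn ℝ ∞ F O) (hst : s ≤ t)
    (hp : ContinuousOn p (Icc s t)) {w0 : W} (h0 : ∀ τ ∈ Icc s t, (p τ, w0) ∈ O) :
    HasFDerivAt (fun w => ∫ τ in s..t, F (p τ, w)) (∫ τ in s..t, d2 F (p τ, w0)) w0 := by
  obtain ⟨r, hr, h⟩ := par_tube hO hp h0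
  have : ProperSpace W := FiniteDimensional.proper_real W
  have hK : IsCompact ((p '' Icc s t) ×ˢ closedBall w0 r) :=
    (isCompact_Icc.image_of_continuousOn hp).prod (isCompact_closedBall w0 r)
  have hKO : (p '' Icc s t) ×ˢ closedBall w0 r ⊆ O := by
    rintro ⟨x, w⟩ ⟨⟨τ, hτ, rfl⟩, hw⟩
    exact h τ hτ w hw
  obtain ⟨C, hC⟩ := hK.exists_bound_of_continuousOn ((d2_smooth hO hF).continuousOn.mono hKO)
  have hI : uIoc s t ⊆ Icc s t := by rw [uIoc_of_le hst]; exact Ioc_subset_Icc_self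
  refine intervalIntegral.hasFDerivAt_integral_of_dominated_of_fderiv_le (𝕜 := ℝ) (μ := volume)
    (F := fun w τ => F (p τ, w)) (F' := fun w τ => d2 F (p τ, w)) (bound := fun _ => C)
    (s := ball w0 r) (ball_mem_nhds w0 hr) ?_ ?_ ?_ ?_ ?_ ?_
  · filter_upwards [closedBall_mem_nhds w0 hr] with w hw
    exact ((par_cont hF.continuousOn hp fun τ hτ => h τ hτ w hw).mono hI).aestronglyMeasurable
      measurableSet_uIoc
  · exact (par_cont hF.continuousOn hp h0).intervalIntegrable_of_Icc hst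
  · exact ((par_cont (d2_smooth hO hF).continuousOn hp h0).mono hI).aestronglyMeasurable
      measurableSet_uIoc
  · exact Eventually.of_forall fun τ hτ w hw =>
      hC (p τ, w) ⟨⟨τ, hI hτ, rfl⟩, ball_subset_closedBall hw⟩
  · exact intervalIntegrable_const
  · exact Eventually.of_forall fun τ hτ w hw =>
      d2_has hO hF (h τ (hI hτ) w (ball_subset_closedBall hw))

theorem par_smooth_nat (hO : IsOpen O) (hst : s ≤ t) (hp : ContinuousOn p (Icc s t)) (k : ℕ) :
    ∀ {G : Type} [NormedAddCommGroup G] [NormedSpace ℝ G] [CompleteSpace G] {F : X × W → G},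
      ContDiffOn ℝ ∞ F O → ContDiffOn ℝ k (fun w => ∫ τ in s..t, F (p τ, w))
        {w : W | ∀ τ ∈ Icc s t, (p τ, w) ∈ O} := by
  have hU := par_open hO hp
  induction k with
  | zero =>
    intro G _ _ _ F hF
    rw [Nat.cast_zero, contDiffOn_zero]
    exact fun w hw => (par_deriv hO hF hst hp hw).continuousAt.continuousWithinAt
  | succ k ih =>
    intro G _ _ _ F hF
    rw [Nat.cast_add, Nat.cast_one, contDiffOn_succ_iff_fderiv_of_isOpen hU]
    refine ⟨fun w hw => (par_deriv hO hF hst hp hw).differentiableAt.differentiableWithinAt,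
      by simp, ?_⟩
    exact (ih (d2_smooth hO hF)).congr fun w hw => (par_deriv hO hF hst hp hw).fderiv

theorem par_smooth {G : Type} [NormedAddCommGroup G] [NormedSpace ℝ G] [CompleteSpace G]
    {F : X × W → G} (hO : IsOpen O) (hF : ContDiffOn ℝ ∞ F O) (hst : s ≤ t)
    (hp : ContinuousOn p (Icc s t)) {w0 : W} (h0 : ∀ τ ∈ Icc s t, (p τ, w0) ∈ O) :
    ContDiffAt ℝ ∞ (fun w => ∫ τ in s..t, F (p τ, w)) w0 :=
  (contDiffOn_infty.2 fun k => par_smooth_nat hO hst hp k hF).contDiffAt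
    ((par_open hO hp).mem_nhds h0)

end gen

variable {n : ℕ} {X : Type} [NormedAddCommGroup X] [NormedSpace ℝ X] {O : Set (X × Cn n)}
  {p : ℝ → X} {s t : ℝ} {F : X × Cn n → ℂ}

/-- the Wirtinger derivative in the second variable -/
def Dv (b : Bool) (ξ : Cn n) (F : X × Cn n → ℂ) (q : X × Cn n) : ℂ :=
  (1 / 2 : ℂ) * (d2 F q ξ + cI b * d2 F q (I • ξ))

theorem Dv_smooth (hO : IsOpen O) (hF : ContDiffOn ℝ ∞ F O) (b : Bool) (ξ : Cn n) :
    ContDiffOn ℝ ∞ (Dv b ξ F) O :=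
  contDiffOn_const.mul (((d2_smooth hO hF).clm_apply contDiffOn_const).add
    (contDiffOn_const.mul ((d2_smooth hO hF).clm_apply contDiffOn_const)))

theorem Dv_eq (hO : IsOpen O) (hF : ContDiffOn ℝ ∞ F O) (b : Bool) (ξ : Cn n) {x : X} {w : Cn n}
    (h : (x, w) ∈ O) : Dv b ξ F (x, w) = dv b ξ (fun y => F (x, y)) w := by
  rw [dv, (d2_has hO hF h).fderiv]
  rfl

theorem Dv_Dv_eq (hO : IsOpen O) (hF : ContDiffOn ℝ ∞ F O) (ξ : Cn n) {x : X} {w : Cn n}
    (h : (x, w) ∈ O) : Dv false ξ (Dv true ξ F) (x, w) = dd ξ (fun y => F (x, y)) w := by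
  rw [Dv_eq hO (Dv_smooth hO hF true ξ) false ξ h, dd]
  refine dv_congr ?_ _ _
  have h1 : ∀ᶠ y in 𝓝 w, (x, y) ∈ O :=
    (continuous_const.prodMk continuous_id).continuousAt.eventually (hO.mem_nhds h)
  filter_upwards [h1] with y hy using Dv_eq hO hF true ξ hy

theorem par_Dv (hO : IsOpen O) (hF : ContDiffOn ℝ ∞ F O) (hst : s ≤ t)
    (hp : ContinuousOn p (Icc s t)) {w0 : Cn n} (h0 : ∀ τ ∈ Icc s t, (p τ, w0) ∈ O) (b : Bool)
    (ξ : Cn n) :
    dv b ξ (fun w => ∫ τ in s..t, F (p τ, w)) w0 = ∫ τ in s..t, Dv b ξ F (p τ, w0) := by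
  have hc := par_cont (d2_smooth hO hF).continuousOn hp h0
  have hi : IntervalIntegrable (fun τ => d2 F (p τ, w0)) volume s t :=
    hc.intervalIntegrable_of_Icc hst
  have hi' : ∀ v : Cn n, IntervalIntegrable (fun τ => d2 F (p τ, w0) v) volume s t := fun v =>
    (hc.clm_apply continuousOn_const).intervalIntegrable_of_Icc hst
  rw [dv, (par_deriv hO hF hst hp h0).fderiv, ContinuousLinearMap.intervalIntegral_apply hi,
    ContinuousLinearMap.intervalIntegral_apply hi]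
  simp only [Dv]
  rw [intervalIntegral.integral_const_mul, intervalIntegral.integral_add (hi' _)
    ((hi' _).const_mul _), intervalIntegral.integral_const_mul]

theorem par_dv (hO : IsOpen O) (hF : ContDiffOn ℝ ∞ F O) (hst : s ≤ t)
    (hp : ContinuousOn p (Icc s t)) {w0 : Cn n} (h0 : ∀ τ ∈ Icc s t, (p τ, w0) ∈ O) (b : Bool)
    (ξ : Cn n) : dv b ξ (fun w => ∫ τ in s..t, F (p τ, w)) w0 =
      ∫ τ in s..t, dv b ξ (fun y => F (p τ, y)) w0 := by
  rw [par_Dv hO hF hst hp h0]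
  refine intervalIntegral.integral_congr fun τ hτ => ?_
  rw [uIcc_of_le hst] at hτ
  exact Dv_eq hO hF b ξ (h0 τ hτ)

theorem par_dd (hO : IsOpen O) (hF : ContDiffOn ℝ ∞ F O) (hst : s ≤ t)
    (hp : ContinuousOn p (Icc s t)) {w0 : Cn n} (h0 : ∀ τ ∈ Icc s t, (p τ, w0) ∈ O) (ξ : Cn n) :
    ContinuousOn (fun τ => dd ξ (fun y => F (p τ, y)) w0) (Icc s t) ∧
    dd ξ (fun w => ∫ τ in s..t, F (p τ, w)) w0 =
      ∫ τ in s..t, dd ξ (fun y => F (p τ, y)) w0 := by
  have h2 := Dv_smooth hO hF true ξ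
  refine ⟨(par_cont (Dv_smooth hO h2 false ξ).continuousOn hp h0).congr fun τ hτ =>
    (Dv_Dv_eq hO hF ξ (h0 τ hτ)).symm, ?_⟩
  have h1 : dv true ξ (fun w => ∫ τ in s..t, F (p τ, w)) =ᶠ[𝓝 w0]
      fun w => ∫ τ in s..t, Dv true ξ F (p τ, w) := by
    filter_upwards [(par_open hO hp).mem_nhds h0] with w hw using par_Dv hO hF hst hp hw true ξ
  rw [dd, dv_congr h1, par_Dv hO h2 hst hp h0]
  refine intervalIntegral.integral_congr fun τ hτ => ?_
  rw [uIcc_of_le hst] at hτ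
  exact Dv_Dv_eq hO hF ξ (h0 τ hτ)

end

end Crest.Agent.T223.Lb
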