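import Crest.Agent.T223.LbDv_78

/-!
# Row 223 (S0345), module LB (helper78): first and second variation of the energy density

`h2 H v w = ∑ H a b v_a conj w_b`, `dM b X g z` the matrix of the derivatives `∂_X g`, `∂̄_X g`,
`Gam g z X u` the Chern connection; `var1`, `var2`: the variation formulas; `hasDeriv_nq`: metric
compatibility along a curve.
-/

set_option autoImplicit false
set_option linter.unusedVariables false

open Set Filter Topology Metric Complex
open scoped ContDiff ComplexConjugate Matrix ComplexOrder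

namespace Crest.Agent.T223.Lb

open Crest.Agent.R275.Geo Crest.Agent.R275.EDR890 Crest.Agent.R273.Kah_333
open Crest.Agent.R273.Hess_333 Crest.Agent.R273.HessB_333 Crest.Agent.R273.RMan4_798
open Crest.Agent.T223.Br Crest.Agent.T223.Tr

noncomputable section

variable {n : ℕ}

/-- the sesquilinear form of a matrix -/
def h2 (H : Mat n) (v w : Cn n) : ℂ := ∑ a, ∑ b, H a b * v a * conj (w b)

theorem nq_eq_h2 (H : Mat n) (v : Cn n) : nq H v = (h2 H v v).re := rfl

theorem h2_eq_dot (H : Mat n) (v w : Cn n) :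
    h2 H v w = (v.ofLp ᵥ* H) ⬝ᵥ fun b => conj (w b) := by
  simp only [h2, dotProduct, Matrix.vecMul, Finset.sum_mul]
  rw [Finset.sum_comm]
  exact Finset.sum_congr rfl fun b _ => Finset.sum_congr rfl fun a _ => by ring

theorem h2_add_left (H : Mat n) (v v' w : Cn n) : h2 H (v + v') w = h2 H v w + h2 H v' w := by
  simp only [h2, PiLp.add_apply, ← Finset.sum_add_distrib]
  exact Finset.sum_congr rfl fun a _ => Finset.sum_congr rfl fun b _ => by ring

theorem h2_add_right (H : Mat n) (v w w' : Cn n) : h2 H v (w + w') = h2 H v w + h2 H v w' := by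
  simp only [h2, PiLp.add_apply, map_add, ← Finset.sum_add_distrib]
  exact Finset.sum_congr rfl fun a _ => Finset.sum_congr rfl fun b _ => by ring

theorem h2_smul_left (H : Mat n) (c : ℂ) (v w : Cn n) : h2 H (c • v) w = c * h2 H v w := by
  simp only [h2, PiLp.smul_apply, smul_eq_mul, Finset.mul_sum]
  exact Finset.sum_congr rfl fun a _ => Finset.sum_congr rfl fun b _ => by ring

theorem h2_smul_right (H : Mat n) (c : ℂ) (v w : Cn n) : h2 H v (c • w) = conj c * h2 H v w := by
  simp only [h2, PiLp.smul_apply, smul_eq_mul, Finset.mul_sum, map_mul]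
  exact Finset.sum_congr rfl fun a _ => Finset.sum_congr rfl fun b _ => by ring

theorem h2_add_mat (H H' : Mat n) (v w : Cn n) : h2 (H + H') v w = h2 H v w + h2 H' v w := by
  simp only [h2, Matrix.add_apply, ← Finset.sum_add_distrib]
  exact Finset.sum_congr rfl fun a _ => Finset.sum_congr rfl fun b _ => by ring

theorem h2_neg_mat (H : Mat n) (v w : Cn n) : h2 (-H) v w = -h2 H v w := by
  simp only [h2, Matrix.neg_apply, ← Finset.sum_neg_distrib]
  exact Finset.sum_congr rfl fun a _ => Finset.sum_congr rfl fun b _ => by ring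

theorem conj_h2 (H : Mat n) (v w : Cn n) : conj (h2 H v w) = h2 Hᴴ w v := by
  simp only [h2, map_sum, map_mul, Matrix.conjTranspose_apply, RCLike.star_def, Complex.conj_conj]
  rw [Finset.sum_comm]
  exact Finset.sum_congr rfl fun a _ => Finset.sum_congr rfl fun b _ => by ring

theorem h2_real {H : Mat n} (h : H.IsHermitian) (v : Cn n) : ((nq H v : ℝ) : ℂ) = h2 H v v := by
  have h1 := conj_h2 H v v
  rw [h.eq] at h1
  exact Complex.conj_eq_iff_re.1 h1

theorem nq_rsmul (H : Mat n) (c : ℝ) (v : Cn n) : nq H ((c : ℂ) • v) = c ^ 2 * nq H v := by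
  rw [nq_eq_h2, h2_smul_left, h2_smul_right, Complex.conj_ofReal, ← mul_assoc, ← ofReal_mul,
    re_ofReal_mul, nq_eq_h2]
  ring

/-- `∂_X g`, `∂̄_X g` -/
def dM (b : Bool) (X : Cn n) (g : Cn n → Mat n) (z : Cn n) : Mat n :=
  Matrix.of fun a c => dv b X (fun w => g w a c) z

theorem dM_eq_sum (b : Bool) (X : Cn n) (g : Cn n → Mat n) (z : Cn n) :
    dM b X g z = ∑ c, cj b (X c) • wdM (b, c) g z := by
  ext a d
  simp only [dM, Matrix.of_apply, dv_eq_sum, Matrix.sum_apply, Matrix.smul_apply, wdM, smul_eq_mul]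

/-- the Chern connection: `Gam g z X u = u ∂_X g g⁻¹` -/
def Gam (g : Cn n → Mat n) (z X u : Cn n) : Cn n :=
  WithLp.toLp 2 (u.ofLp ᵥ* (dM false X g z * (g z)⁻¹))

variable {g : Cn n → Mat n} {z : Cn n}

theorem KahAt.herm (h : KahAt g z) : (g z).IsHermitian := h.pos.self_of_nhds.isHermitian

theorem KahAt.unit (h : KahAt g z) : IsUnit (g z).det :=
  (Matrix.isUnit_iff_isUnit_det _).1 h.pos.self_of_nhds.isUnit

theorem dM_conj (h : KahAt g z) (X : Cn n) : (dM false X g z)ᴴ = dM true X g z := by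
  ext a c
  rw [Matrix.conjTranspose_apply, RCLike.star_def]
  simp only [dM, Matrix.of_apply]
  rw [conj_dv (diffAt (h.sm c a))]
  refine dv_congr ?_ _ _
  filter_upwards [h.pos] with w hw
  exact hw.isHermitian.apply a c

theorem Gam_symm (h : KahAt g z) (X u : Cn n) : Gam g z X u = Gam g z u X := by
  have h1 : u.ofLp ᵥ* dM false X g z = X.ofLp ᵥ* dM false u g z := by
    funext b
    simp only [Matrix.vecMul, dotProduct, dM, Matrix.of_apply, dv_eq_sum, Finset.mul_sum, cj_false]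
    rw [Finset.sum_comm]
    refine Finset.sum_congr rfl fun c _ => Finset.sum_congr rfl fun a _ => ?_
    rw [h.closed.self_of_nhds a b c]
    ring
  unfold Gam
  rw [← Matrix.vecMul_vecMul, h1, Matrix.vecMul_vecMul]

theorem h2_Gam_left (h : KahAt g z) (X u w : Cn n) :
    h2 (g z) (Gam g z X u) w = h2 (dM false X g z) u w := by
  rw [h2_eq_dot, h2_eq_dot]
  simp only [Gam, Matrix.vecMul_vecMul]
  rw [Matrix.mul_assoc, Matrix.nonsing_inv_mul _ (KahAt.unit h), Matrix.mul_one]

theorem h2_Gam_right (h : KahAt g z) (X u w : Cn n) :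
    h2 (g z) w (Gam g z X u) = h2 (dM true X g z) w u := by
  have h1 := congrArg conj (h2_Gam_left h X u w)
  rwa [conj_h2, conj_h2, (KahAt.herm h).eq, dM_conj h] at h1

theorem h2_Gam_Gam (h : KahAt g z) (X u : Cn n) :
    h2 (g z) (Gam g z X u) (Gam g z X u) =
      h2 (dM false X g z * (g z)⁻¹ * dM true X g z) u u := by
  rw [h2_Gam_right h, h2_eq_dot, h2_eq_dot]
  simp only [Gam, Matrix.vecMul_vecMul]

/-- the matrix of the `∂_X ∂̄_X g_{a b̄}` -/
def ddM (X : Cn n) (g : Cn n → Mat n) (z : Cn n) : Mat n :=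
  Matrix.of fun a c => dd X (fun w => g w a c) z

theorem bis_eq (h : KahAt g z) (u X : Cn n) : bis g z u X =
    (-h2 (ddM X g z) u u + h2 (dM false X g z * (g z)⁻¹ * dM true X g z) u u).re := by
  have h1 : -ddM X g z + dM false X g z * (g z)⁻¹ * dM true X g z =
      ∑ c, ∑ d, (X c * conj (X d)) • Rm g z c d := by
    have h2 : ddM X g z = ∑ c, ∑ d, (X c * conj (X d)) • wdM (false, c) (wdM (true, d) g) z := by
      ext a b
      simp only [ddM, Matrix.of_apply, dd_eq_sum (h.sm a b), Matrix.sum_apply, Matrix.smul_apply,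
        smul_eq_mul]
      refine Finset.sum_congr rfl fun c _ => Finset.sum_congr rfl fun d _ => ?_
      change wd (false, c) (wd (true, d) fun w => g w a b) z * X c * conj (X d) =
        X c * conj (X d) * wd (false, c) (wd (true, d) fun w => g w a b) z
      ring
    rw [h2, dM_eq_sum, dM_eq_sum]
    simp only [Rm, smul_add, Finset.sum_add_distrib, smul_neg, Finset.sum_neg_distrib,
      Finset.sum_mul, Finset.mul_sum, cj_false, cj_true, Matrix.smul_mul, Matrix.mul_smul,
      smul_smul]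
    congr 1
    rw [Finset.sum_comm]
    refine Finset.sum_congr rfl fun c _ => Finset.sum_congr rfl fun d _ => ?_
    rw [mul_comm]
  rw [← h2_neg_mat, ← h2_add_mat, h1]
  unfold bis h2
  congr 1
  refine Finset.sum_congr rfl fun a _ => Finset.sum_congr rfl fun b _ => ?_
  simp only [Matrix.sum_apply, Matrix.smul_apply, smul_eq_mul, Finset.sum_mul]
  exact Finset.sum_congr rfl fun c _ => Finset.sum_congr rfl fun d _ => by ring

section var

variable {Z : Cn n → Cn n} (u : Cn n) (Y : Cn n →L[ℂ] Cn n)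

theorem aff_hol (a : Fin n) (w : Cn n) : HasFDerivAt (fun w => (u + Y w) a)
    ((EuclideanSpace.proj a : Cn n →L[ℂ] ℂ).comp Y) w :=
  (EuclideanSpace.proj a : Cn n →L[ℂ] ℂ).hasFDerivAt.comp w (Y.hasFDerivAt.const_add u)

theorem aff_sm (a : Fin n) (w : Cn n) : ContDiffAt ℝ ∞ (fun w => (u + Y w) a) w := by
  have h : ContDiff ℂ ∞ (fun w => (u + Y w) a) :=
    (EuclideanSpace.proj a : Cn n →L[ℂ] ℂ).contDiff.comp (contDiff_const.add Y.contDiff)
  exact (h.restrict_scalars ℝ).contDiffAt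

theorem aff_smc (a : Fin n) (w : Cn n) : ContDiffAt ℝ ∞ (fun w => conj ((u + Y w) a)) w :=
  (conjCLE : ℂ →L[ℝ] ℂ).contDiff.contDiffAt.comp w (aff_sm u Y a w)

theorem dv_aff2_false (a b : Fin n) (w ξ : Cn n) :
    dv false ξ (fun w => (u + Y w) a * conj ((u + Y w) b)) w = Y ξ a * conj ((u + Y w) b) := by
  rw [dv_mul (diffAt (aff_sm u Y a w)) (diffAt (aff_smc u Y b w)),
    dv_false_conj (aff_hol u Y b w).differentiableAt, dv_false_hol (aff_hol u Y a w).differentiableAt,
    (aff_hol u Y a w).fderiv]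
  simp

theorem dv_aff2_true (a b : Fin n) (w ξ : Cn n) :
    dv true ξ (fun w => (u + Y w) a * conj ((u + Y w) b)) w = (u + Y w) a * conj (Y ξ b) := by
  rw [dv_mul (diffAt (aff_sm u Y a w)) (diffAt (aff_smc u Y b w)),
    dv_true_conj (aff_hol u Y b w).differentiableAt, dv_true_hol (aff_hol u Y a w).differentiableAt,
    (aff_hol u Y b w).fderiv]
  simp

theorem dd_aff2 (a b : Fin n) (w ξ : Cn n) :
    dd ξ (fun w => (u + Y w) a * conj ((u + Y w) b)) w = Y ξ a * conj (Y ξ b) := by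
  have h : dv true ξ (fun w => (u + Y w) a * conj ((u + Y w) b)) =
      fun w => (u + Y w) a * conj (Y ξ b) := funext fun w => dv_aff2_true u Y a b w ξ
  rw [dd, h, dv_mul (diffAt (aff_sm u Y a w)) (differentiableAt_const _), dv_const,
    dv_false_hol (aff_hol u Y a w).differentiableAt, (aff_hol u Y a w).fderiv]
  simp

theorem cu_energy (h : KahAt g (Z 0)) (hZ : ContinuousAt Z 0) :
    (cu fun w => nq (g (Z w)) (u + Y w)) =ᶠ[𝓝 0]
      fun w => ∑ a, ∑ b, g (Z w) a b * ((u + Y w) a * conj ((u + Y w) b)) := by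
  filter_upwards [hZ.eventually h.pos] with w hw
  change ((nq (g (Z w)) (u + Y w) : ℝ) : ℂ) = _
  rw [h2_real hw.isHermitian]
  simp only [h2, mul_assoc]

/-- first variation -/
theorem var1 (h : KahAt g (Z 0)) (hZ : ∀ᶠ w in 𝓝 (0 : Cn n), DifferentiableAt ℂ Z w) (ξ : Cn n) :
    dv false ξ (cu fun w => nq (g (Z w)) (u + Y w)) 0 =
      h2 (g (Z 0)) (Y ξ + Gam g (Z 0) u (fderiv ℂ Z 0 ξ)) u := by
  have hZ0 := hZ.self_of_nhds
  have hs : ∀ a b, ContDiffAt ℝ ∞ (fun w => g (Z w) a b) 0 := fun a b =>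
    (h.sm a b).comp 0 (hol_smooth hZ)
  have hp : ∀ a b, ContDiffAt ℝ ∞ (fun w => (u + Y w) a * conj ((u + Y w) b)) 0 := fun a b =>
    (aff_sm u Y a 0).mul (aff_smc u Y b 0)
  rw [dv_congr (cu_energy u Y h hZ0.continuousAt),
    dv_sum _ fun a _ => diffAt (ContDiffAt.sum fun b _ => (hs a b).mul (hp a b)), Gam_symm h,
    h2_add_left, h2_Gam_left h]
  simp only [h2, ← Finset.sum_add_distrib]
  refine Finset.sum_congr rfl fun a _ => ?_
  rw [dv_sum _ fun b _ => diffAt ((hs a b).mul (hp a b))]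
  refine Finset.sum_congr rfl fun b _ => ?_
  rw [dv_mul (diffAt (hs a b)) (diffAt (hp a b)), dv_aff2_false,
    dv_comp (f := fun w => g w a b) (diffAt (h.sm a b)) hZ0]
  simp only [map_zero, add_zero, dM, Matrix.of_apply]
  ring

/-- second variation -/
theorem var2 (h : KahAt g (Z 0)) (hZ : ∀ᶠ w in 𝓝 (0 : Cn n), DifferentiableAt ℂ Z w) (ξ : Cn n) :
    (dd ξ (cu fun w => nq (g (Z w)) (u + Y w)) 0).re =
      nq (g (Z 0)) (Y ξ + Gam g (Z 0) u (fderiv ℂ Z 0 ξ)) - bis g (Z 0) u (fderiv ℂ Z 0 ξ) := by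
  have hZ0 := hZ.self_of_nhds
  have hs : ∀ a b, ContDiffAt ℝ ∞ (fun w => g (Z w) a b) 0 := fun a b =>
    (h.sm a b).comp 0 (hol_smooth hZ)
  have hp : ∀ a b, ContDiffAt ℝ ∞ (fun w => (u + Y w) a * conj ((u + Y w) b)) 0 := fun a b =>
    (aff_sm u Y a 0).mul (aff_smc u Y b 0)
  set X := fderiv ℂ Z 0 ξ with hX
  have key : dd ξ (cu fun w => nq (g (Z w)) (u + Y w)) 0 = h2 (ddM X g (Z 0)) u u +
      h2 (dM true X g (Z 0)) (Y ξ) u + h2 (dM false X g (Z 0)) u (Y ξ) +
        h2 (g (Z 0)) (Y ξ) (Y ξ) := by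
    rw [dd_congr (cu_energy u Y h hZ0.continuousAt),
      dd_sum _ fun a _ => ContDiffAt.sum fun b _ => (hs a b).mul (hp a b)]
    simp only [h2, ← Finset.sum_add_distrib]
    refine Finset.sum_congr rfl fun a _ => ?_
    rw [dd_sum _ fun b _ => (hs a b).mul (hp a b)]
    refine Finset.sum_congr rfl fun b _ => ?_
    rw [dd_mul (hs a b) (hp a b), dv_aff2_false, dv_aff2_true, dd_aff2,
      dv_comp (f := fun w => g w a b) (diffAt (h.sm a b)) hZ0,
      dv_comp (f := fun w => g w a b) (diffAt (h.sm a b)) hZ0,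
      dd_comp (f := fun w => g w a b) (h.sm a b) hZ]
    simp only [map_zero, add_zero, dM, ddM, Matrix.of_apply, ← hX]
    ring
  rw [key, bis_eq h, nq_eq_h2, Gam_symm h, h2_add_left, h2_add_right, h2_add_right, h2_Gam_Gam h,
    h2_Gam_left h, h2_Gam_right h]
  simp only [add_re, neg_re]
  ring

end var

/-- metric compatibility along a curve -/
theorem hasDeriv_nq {c v : ℝ → Cn n} {c' v' : Cn n} {S : Set ℝ} {τ : ℝ} (h : KahAt g (c τ))
    (hc : HasDerivWithinAt c c' S τ) (hv : HasDerivWithinAt v v' S τ) :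
    HasDerivWithinAt (fun s => nq (g (c s)) (v s))
      (2 * (h2 (g (c τ)) (v' + Gam g (c τ) c' (v τ)) (v τ)).re) S τ := by
  have h1 : ∀ a b, HasDerivWithinAt (fun s => g (c s) a b)
      (dM false c' g (c τ) a b + dM true c' g (c τ) a b) S τ := by
    intro a b
    have h2 := (diffAt (h.sm a b)).hasFDerivAt.comp_hasDerivWithinAt τ hc
    refine h2.congr_deriv ?_
    simp only [dM, Matrix.of_apply, dv, cI_false, cI_true]
    ring
  have h3 : ∀ a, HasDerivWithinAt (fun s => v s a) (v' a) S τ := fun a =>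
    ((EuclideanSpace.proj a : Cn n →L[ℂ] ℂ).restrictScalars ℝ).hasFDerivAt.comp_hasDerivWithinAt
      τ hv
  have h4 : ∀ a, HasDerivWithinAt (fun s => conj (v s a)) (conj (v' a)) S τ := fun a =>
    (conjCLE : ℂ →L[ℝ] ℂ).hasFDerivAt.comp_hasDerivWithinAt τ (h3 a)
  have h5 : HasDerivWithinAt (fun s => h2 (g (c s)) (v s) (v s))
      (h2 (g (c τ)) (v' + Gam g (c τ) c' (v τ)) (v τ) +
        h2 (g (c τ)) (v τ) (v' + Gam g (c τ) c' (v τ))) S τ := by
    have h6 := HasDerivWithinAt.fun_sum (u := Finset.univ) fun a _ =>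
      HasDerivWithinAt.fun_sum (u := Finset.univ) fun b _ =>
        ((h1 a b).fun_mul (h3 a)).fun_mul (h4 b)
    refine h6.congr_deriv ?_
    rw [h2_add_left, h2_add_right, h2_Gam_left h, h2_Gam_right h]
    simp only [h2, ← Finset.sum_add_distrib]
    exact Finset.sum_congr rfl fun a _ => Finset.sum_congr rfl fun b _ => by ring
  have h7 := Complex.reCLM.hasFDerivAt.comp_hasDerivWithinAt τ h5
  refine h7.congr_deriv ?_
  have h8 := conj_h2 (g (c τ)) (v' + Gam g (c τ) c' (v τ)) (v τ)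
  rw [(KahAt.herm h).eq] at h8
  rw [← h8]
  simp only [reCLM_apply, add_re, conj_re]
  ring

end

end Crest.Agent.T223.Lb
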