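import Crest.Agent.T223.LbVar_78
import Crest.Agent.T223.LbPar_78
import Crest.Agent.T223.LbLen_13
import Crest.Agent.N250.B1.Ex

/-!
# Row 223 (S0345), module LB (helper78): the energy of a holomorphic family of paths in one chart,
parallel transport.
-/

set_option autoImplicit false
set_option linter.unusedVariables false
set_option linter.unusedSectionVars false

open Set Filter Topology Metric Complex MeasureTheory
open scoped ContDiff ComplexConjugate Matrix ComplexOrder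

namespace Crest.Agent.T223.Lb

open Crest.Agent.R275.Geo Crest.Agent.R275.EDR890 Crest.Agent.R273.Kah_333
open Crest.Agent.R273.Hess_333 Crest.Agent.R273.HessB_333 Crest.Agent.R273.RMan4_798
open Crest.Agent.T223.Br Crest.Agent.T223.Tr

noncomputable section

variable {n : ℕ} {M : Type} [TopologicalSpace M] {A : Atl n M}

theorem kah_gc (K : Kah A) {i : A.ι} {z : Cn n} (hz : z ∈ (A.e i).target) : KahAt (gc K i) z where
  smE := by
    filter_upwards [(A.e i).open_target.mem_nhds hz] with w hw a b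
    exact (K.sm i a b).contDiffAt ((A.e i).open_target.mem_nhds hw)
  pos := by
    filter_upwards [(A.e i).open_target.mem_nhds hz] with w hw
    exact K.pos i _ ((A.e i).map_target hw)
  closed := by
    filter_upwards [(A.e i).open_target.mem_nhds hz] with w hw using K.closed i w hw
  closed' := by
    filter_upwards [(A.e i).open_target.mem_nhds hz] with w hw using K.closed' i w hw

/-- a `C¹` curve in the chart `i` -/
structure Cur (A : Atl n M) (i : A.ι) (c c' : ℝ → Cn n) (s t : ℝ) : Prop where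
  le : s ≤ t
  mem : ∀ τ ∈ Icc s t, c τ ∈ (A.e i).target
  der : ∀ τ ∈ Icc s t, HasDerivWithinAt c (c' τ) (Icc s t) τ
  cont : ContinuousOn c' (Icc s t)

theorem Cur.cont0 {i : A.ι} {c c' : ℝ → Cn n} {s t : ℝ} (h : Cur A i c c' s t) :
    ContinuousOn c (Icc s t) := fun τ hτ => (h.der τ hτ).continuousWithinAt

/-- the parameter space -/
abbrev PX (n : ℕ) : Type := Cn n × Cn n × (Cn n →L[ℝ] Cn n) × (Cn n →L[ℝ] Cn n)

theorem sm_pos : ContDiff ℝ ∞ (fun q : PX n × Cn n => q.1.1 + q.1.2.2.1 q.2) :=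
  contDiff_fst.fst.add (contDiff_fst.snd.snd.fst.clm_apply contDiff_snd)

theorem sm_vel : ContDiff ℝ ∞ (fun q : PX n × Cn n => q.1.2.1 + q.1.2.2.2 q.2) :=
  contDiff_fst.snd.fst.add (contDiff_fst.snd.snd.snd.clm_apply contDiff_snd)

theorem contDiffOn_nq {Y : Type*} [NormedAddCommGroup Y] [NormedSpace ℝ Y] (K : Kah A) (i : A.ι)
    {z v : Y → Cn n} {O : Set Y} (hz : ContDiffOn ℝ ∞ z O) (hv : ContDiffOn ℝ ∞ v O)
    (hm : ∀ q ∈ O, z q ∈ (A.e i).target) :
    ContDiffOn ℝ ∞ (fun q => nq (gc K i (z q)) (v q)) O := by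
  have h1 : ∀ a, ContDiffOn ℝ ∞ (fun q => v q a) O := fun a =>
    ((EuclideanSpace.proj a : Cn n →L[ℂ] ℂ).restrictScalars ℝ).contDiff.comp_contDiffOn hv
  have h2 : ∀ a, ContDiffOn ℝ ∞ (fun q => conj (v q a)) O := fun a =>
    (conjCLE : ℂ →L[ℝ] ℂ).contDiff.comp_contDiffOn (h1 a)
  refine Complex.reCLM.contDiff.comp_contDiffOn
    (ContDiffOn.sum fun a _ => ContDiffOn.sum fun b _ => ?_)
  exact (((K.sm i a b).comp hz hm).mul (h1 a)).mul (h2 b)

variable [T2Space M] [ConnectedSpace M]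

/-- **the energy of a holomorphic family of paths in one chart** -/
theorem window (K : Kah A) {i : A.ι} {c c' : ℝ → Cn n} {s t : ℝ} (hc : Cur A i c c' s t)
    {V V' : ℝ → Cn n →L[ℂ] Cn n}
    (hV : ∀ w, ∀ τ ∈ Icc s t, HasDerivWithinAt (fun τ => V τ w) (V' τ w) (Icc s t) τ)
    (hV' : ∀ w, ContinuousOn (fun τ => V' τ w) (Icc s t)) {Q : Cn n → Cn n}
    (hQ : ∀ᶠ w in 𝓝 (0 : Cn n), DifferentiableAt ℂ Q w) (hQ0 : Q 0 = 0) (hQ1 : fderiv ℂ Q 0 = 0) :
    ∃ E : Cn n → ℝ, ContDiffAt ℝ ∞ E 0 ∧ E 0 = ∫ τ in s..t, nq (gc K i (c τ)) (c' τ) ∧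
      (∀ᶠ w in 𝓝 (0 : Cn n), dK K ((A.e i).symm (c s + V s w + Q w))
        ((A.e i).symm (c t + V t w + Q w)) ^ 2 ≤ (t - s) * E w) ∧
      (∀ ξ, dv false ξ (cu E) 0 = ∫ τ in s..t,
        h2 (gc K i (c τ)) (V' τ ξ + Gam (gc K i) (c τ) (c' τ) (V τ ξ)) (c' τ)) ∧
      ∀ ξ, ContinuousOn (fun τ => nq (gc K i (c τ)) (V' τ ξ + Gam (gc K i) (c τ) (c' τ) (V τ ξ)) -
          bis (gc K i) (c τ) (c' τ) (V τ ξ)) (Icc s t) ∧
        nq (hess E 0) ξ = ∫ τ in s..t,
          (nq (gc K i (c τ)) (V' τ ξ + Gam (gc K i) (c τ) (c' τ) (V τ ξ)) -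
            bis (gc K i) (c τ) (c' τ) (V τ ξ)) := by
  obtain ⟨U, hU, hUo, hU0⟩ := _root_.eventually_nhds_iff.1 hQ
  have hQs : ContDiffOn ℝ ∞ Q U := fun w hw =>
    (hol_smooth (Filter.mem_of_superset (hUo.mem_nhds hw) hU)).contDiffWithinAt
  set U' : Set (PX n × Cn n) := {q | q.2 ∈ U} with hU'
  have hU'o : IsOpen U' := hUo.preimage continuous_snd
  set Z : PX n × Cn n → Cn n := fun q => q.1.1 + q.1.2.2.1 q.2 + Q q.2 with hZ
  have hZs : ContDiffOn ℝ ∞ Z U' :=
    sm_pos.contDiffOn.add (hQs.comp contDiff_snd.contDiffOn fun q hq => hq)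
  set O : Set (PX n × Cn n) := U' ∩ Z ⁻¹' (A.e i).target with hO
  have hOo : IsOpen O := hZs.continuousOn.isOpen_inter_preimage hU'o (A.e i).open_target
  set Fr : PX n × Cn n → ℝ := fun q => nq (gc K i (Z q)) (q.1.2.1 + q.1.2.2.2 q.2) with hFr
  have hFrs : ContDiffOn ℝ ∞ Fr O :=
    contDiffOn_nq K i (hZs.mono inter_subset_left) sm_vel.contDiffOn fun q hq => hq.2
  have hFs : ContDiffOn ℝ ∞ (fun q => (Fr q : ℂ)) O := Complex.ofRealCLM.contDiff.comp_contDiffOn hFrs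
  set p : ℝ → PX n := fun τ =>
    (c τ, c' τ, (V τ).restrictScalars ℝ, (V' τ).restrictScalars ℝ) with hp
  have hVc : ∀ w, ContinuousOn (fun τ => V τ w) (Icc s t) := fun w τ hτ =>
    (hV w τ hτ).continuousWithinAt
  have hpc : ContinuousOn p (Icc s t) :=
    hc.cont0.prodMk (hc.cont.prodMk (ContinuousOn.prodMk
      (continuousOn_clm_apply.2 fun w => hVc w) (continuousOn_clm_apply.2 fun w => hV' w)))
  have hZ0 : ∀ τ, Z (p τ, 0) = c τ := fun τ => by simp [hZ, hp, hQ0]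
  have h0 : ∀ τ ∈ Icc s t, (p τ, (0 : Cn n)) ∈ O := fun τ hτ =>
    ⟨hU0, by rw [mem_preimage, hZ0]; exact hc.mem τ hτ⟩
  have hcu : cu (fun w => ∫ τ in s..t, Fr (p τ, w)) = fun w => ∫ τ in s..t, (Fr (p τ, w) : ℂ) := by
    funext w
    exact (intervalIntegral.integral_ofReal).symm
  have hZh : ∀ τ, ∀ᶠ w in 𝓝 (0 : Cn n), DifferentiableAt ℂ (fun w => Z (p τ, w)) w := fun τ => by
    filter_upwards [hQ] with w hw
    exact ((V τ).differentiableAt.const_add (c τ)).add hw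
  have hZd : ∀ τ, fderiv ℂ (fun w => Z (p τ, w)) 0 = V τ := fun τ => by
    have h1 : HasFDerivAt (fun w => Z (p τ, w)) (V τ + fderiv ℂ Q 0) 0 :=
      ((V τ).hasFDerivAt.const_add (c τ)).add hQ.self_of_nhds.hasFDerivAt
    rw [h1.fderiv, hQ1, add_zero]
  have hk : ∀ τ ∈ Icc s t, KahAt (gc K i) (Z (p τ, 0)) := fun τ hτ => by
    rw [hZ0]; exact kah_gc K (hc.mem τ hτ)
  refine ⟨fun w => ∫ τ in s..t, Fr (p τ, w), par_smooth hOo hFrs hc.le hpc h0, ?_, ?_, ?_, ?_⟩
  · refine intervalIntegral.integral_congr fun τ _ => ?_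
    simp only [hFr, hZ0]
    simp [hp]
  · filter_upwards [(par_open hOo hpc).mem_nhds h0] with w hw
    exact lenStmt n M A K i (fun τ => c τ + V τ w + Q w) (fun τ => c' τ + V' τ w) s t hc.le
      (fun τ hτ => (hw τ hτ).2) (fun τ hτ => ((hc.der τ hτ).add (hV w τ hτ)).add_const _)
      (hc.cont.add (hV' w))
  · intro ξ
    rw [hcu, par_dv hOo hFs hc.le hpc h0]
    refine intervalIntegral.integral_congr fun τ hτ => ?_
    rw [uIcc_of_le hc.le] at hτ
    have h1 := var1 (Z := fun w => Z (p τ, w)) (c' τ) (V' τ) (hk τ hτ) (hZh τ) ξ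
    rw [hZd, hZ0] at h1
    exact h1
  · intro ξ
    obtain ⟨h1, h2⟩ := par_dd hOo hFs hc.le hpc h0 ξ
    have h3 : ∀ τ ∈ Icc s t, (dd ξ (fun y => (Fr (p τ, y) : ℂ)) 0).re =
        nq (gc K i (c τ)) (V' τ ξ + Gam (gc K i) (c τ) (c' τ) (V τ ξ)) -
          bis (gc K i) (c τ) (c' τ) (V τ ξ) := by
      intro τ hτ
      have h1 := var2 (Z := fun w => Z (p τ, w)) (c' τ) (V' τ) (hk τ hτ) (hZh τ) ξ
      rw [hZd, hZ0] at h1
      exact h1
    refine ⟨(Complex.continuous_re.comp_continuousOn h1).congr fun τ hτ => (h3 τ hτ).symm, ?_⟩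
    rw [nq_hess (par_smooth hOo hFrs hc.le hpc h0), hcu, h2]
    have h4 := Complex.reCLM.intervalIntegral_comp_comm (h1.intervalIntegrable_of_Icc (μ := volume) hc.le)
    simp only [reCLM_apply] at h4
    rw [← h4]
    refine intervalIntegral.integral_congr fun τ hτ => ?_
    rw [uIcc_of_le hc.le] at hτ
    exact h3 τ hτ

/-! ### the connection along a curve -/

/-- `Gam` as a continuous linear map -/
def GamL (g : Cn n → Mat n) (z X : Cn n) : Cn n →L[ℂ] Cn n :=
  LinearMap.toContinuousLinearMap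
    { toFun := fun u => Gam g z X u
      map_add' := fun u v => by
        simp only [Gam, WithLp.ofLp_add, Matrix.add_vecMul, WithLp.toLp_add]
      map_smul' := fun a u => by
        simp only [Gam, WithLp.ofLp_smul, Matrix.smul_vecMul, WithLp.toLp_smul, RingHom.id_apply] }

theorem GamL_apply (g : Cn n → Mat n) (z X u : Cn n) : GamL g z X u = Gam g z X u := rfl

theorem Cur.cont_Gam (K : Kah A) {i : A.ι} {c c' : ℝ → Cn n} {s t : ℝ} (hc : Cur A i c c' s t) :
    ContinuousOn (fun τ => GamL (gc K i) (c τ) (c' τ)) (Icc s t) := by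
  refine continuousOn_clm_apply.2 fun u => ?_
  have hg : ContinuousOn (fun τ => gc K i (c τ)) (Icc s t) := by
    refine continuousOn_pi.2 fun a => continuousOn_pi.2 fun b => ?_
    exact (K.sm i a b).continuousOn.comp hc.cont0 hc.mem
  have hinv : ContinuousOn (fun τ => (gc K i (c τ))⁻¹) (Icc s t) := by
    intro τ hτ
    have h1 : ContinuousAt (Ring.inverse : ℂ → ℂ) (gc K i (c τ)).det := by
      have h2 := (KahAt.unit (kah_gc K (hc.mem τ hτ))).ne_zero
      rw [Ring.inverse_eq_inv']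
      exact continuousAt_inv₀ h2
    exact (continuousAt_matrix_inv _ h1).comp_continuousWithinAt (f := fun τ => gc K i (c τ))
      (hg τ hτ)
  have hd : ∀ a b, ContinuousOn (fun τ => dM false (c' τ) (gc K i) (c τ) a b) (Icc s t) := by
    intro a b
    simp only [dM, Matrix.of_apply, dv_eq_sum, cj_false]
    refine continuousOn_finsetSum _ fun d _ => ContinuousOn.mul ?_ ?_
    · exact (EuclideanSpace.proj d : Cn n →L[ℂ] ℂ).continuous.comp_continuousOn hc.cont
    · exact (contDiffOn_wd (A.e i).open_target (K.sm i a b) _).continuousOn.comp hc.cont0 hc.mem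
  refine (PiLp.continuous_toLp 2 _).comp_continuousOn (continuousOn_pi.2 fun b => ?_)
  simp only [Matrix.vecMul, dotProduct, Matrix.mul_apply]
  refine continuousOn_finsetSum _ fun a _ => continuousOn_const.mul
    (continuousOn_finsetSum _ fun d _ => (hd a d).mul ?_)
  exact continuousOn_pi.1 (continuousOn_pi.1 hinv d) b

set_option synthInstance.maxHeartbeats 400000 in
/-- parallel transport, normalised at the right end point -/
theorem Cur.exists_par (K : Kah A) {i : A.ι} {c c' : ℝ → Cn n} {s t : ℝ} (hc : Cur A i c c' s t) :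
    ∃ P : ℝ → Cn n →L[ℂ] Cn n, P t = ContinuousLinearMap.id ℂ (Cn n) ∧
      (∀ w, ∀ τ ∈ Icc s t, HasDerivWithinAt (fun τ => P τ w)
        (-Gam (gc K i) (c τ) (c' τ) (P τ w)) (Icc s t) τ) ∧
      ∀ w, ∀ τ ∈ Icc s t, nq (gc K i (c τ)) (P τ w) = nq (gc K i (c t)) w := by
  set L : ℝ → (Cn n →L[ℂ] Cn n) →L[ℝ] (Cn n →L[ℂ] Cn n) := fun τ =>
    (ContinuousLinearMap.compL ℂ (Cn n) (Cn n) (Cn n)
      (-GamL (gc K i) (c τ) (c' τ))).restrictScalars ℝ with hL
  have hLc : ContinuousOn L (Icc s t) := by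
    refine continuousOn_clm_apply.2 fun P => ?_
    exact (hc.cont_Gam K).neg.clm_comp continuousOn_const
  obtain ⟨P, hP0, hP⟩ := Crest.Agent.N250.B1.exists_ivp_right hc.le hLc (G := fun _ => 0)
    continuousOn_const (ContinuousLinearMap.id ℂ (Cn n))
  have hD : ∀ w, ∀ τ ∈ Icc s t, HasDerivWithinAt (fun τ => P τ w)
      (-Gam (gc K i) (c τ) (c' τ) (P τ w)) (Icc s t) τ := by
    intro w τ hτ
    have h1 := ((ContinuousLinearMap.apply ℂ (Cn n) w).restrictScalars ℝ).hasFDerivAt.comp_hasDerivWithinAt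
      τ (hP τ hτ)
    refine h1.congr_deriv ?_
    simp [hL, GamL_apply]
  refine ⟨P, hP0, hD, fun w τ hτ => ?_⟩
  have h1 : ∀ τ ∈ Icc s t, HasDerivWithinAt (fun τ => nq (gc K i (c τ)) (P τ w)) 0 (Icc s t) τ := by
    intro τ hτ
    refine (hasDeriv_nq (kah_gc K (hc.mem τ hτ)) (hc.der τ hτ) (hD w τ hτ)).congr_deriv ?_
    simp [h2]
  have h2 := (convex_Icc s t).norm_image_sub_le_of_norm_hasDerivWithin_le (C := 0) h1
    (fun _ _ => by simp) hτ (right_mem_Icc.2 hc.le)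
  rw [zero_mul, norm_le_zero_iff, sub_eq_zero, hP0] at h2
  exact h2.symm

/-- the field with `∇ X = c'` and given value at the left end point -/
theorem Cur.exists_rad (K : Kah A) {i : A.ι} {c c' : ℝ → Cn n} {s t : ℝ} (hc : Cur A i c c' s t)
    (x0 : Cn n) : ∃ X : ℝ → Cn n, X s = x0 ∧ ∀ τ ∈ Icc s t, HasDerivWithinAt X
      (-Gam (gc K i) (c τ) (c' τ) (X τ) + c' τ) (Icc s t) τ := by
  set L : ℝ → Cn n →L[ℝ] Cn n := fun τ => -((GamL (gc K i) (c τ) (c' τ)).restrictScalars ℝ) with hL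
  have hLc : ContinuousOn L (Icc s t) := by
    refine ContinuousOn.neg ?_
    refine continuousOn_clm_apply.2 fun u => ?_
    exact (hc.cont_Gam K).clm_apply continuousOn_const
  obtain ⟨X, hX0, hX⟩ := Crest.Agent.N250.B1.exists_ivp_left hc.le hLc hc.cont x0
  exact ⟨X, hX0, fun τ hτ => hX τ hτ⟩

end

end Crest.Agent.T223.Lb
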