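import Crest.Agent.N207.P.U
import Crest.Agent.N207.P.Yl2

/-!
# Row 223, module LIMIT (helper19), part A: the a priori estimate with small perturbation
-/

set_option autoImplicit false
set_option linter.unusedSectionVars false
set_option linter.unusedVariables false

open Set Filter Topology Metric
open scoped ContDiff

noncomputable section

namespace Crest.Agent.T223.Lm

open Crest.Agent.N207.P

variable {E : Type} [NormedAddCommGroup E] [NormedSpace ℝ E] {m : ℕ}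

/-- directional derivative of a space-time function -/
def Dv (ξ : ℝ × E) (F : ℝ × E → ℂ) : ℝ × E → ℂ := fun q => fderiv ℝ F q ξ

/-- the basis vector -/
def bv (e : E ≃ₗᵢ[ℝ] En m) (p : Fin m) : E := e.symm (EuclideanSpace.single p 1)

/-- spatial partial derivative -/
def Dp (e : E ≃ₗᵢ[ℝ] En m) (p : Fin m) (F : ℝ × E → ℂ) : ℝ × E → ℂ := Dv ((0 : ℝ), bv e p) F

/-- time derivative -/
def Dt (F : ℝ × E → ℂ) : ℝ × E → ℂ := Dv ((1 : ℝ), (0 : E)) F

/-- Hoelder bounds on the slab `[s, s + τ] × E` -/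
def Yx (s τ A c : ℝ) (F : ℝ × E → ℂ) : Prop := Yb dist τ A c (fun σ x => F (s + σ, x))

theorem two_le : (2 : WithTop ℕ∞) ≤ ∞ := by
  have : ∀ k : ℕ, (k : WithTop ℕ∞) ≤ ∞ := fun k => by exact_mod_cast le_top
  exact this 2

theorem contDiffAt_Dv {F : ℝ × E → ℂ} {q : ℝ × E} (h : ContDiffAt ℝ ∞ F q) (ξ : ℝ × E) :
    ContDiffAt ℝ ∞ (Dv ξ F) q :=
  (h.fderiv_right (m := ∞) (by simp)).clm_apply contDiffAt_const

theorem Dv_congr {F G : ℝ × E → ℂ} {q : ℝ × E} (h : F =ᶠ[𝓝 q] G) (ξ : ℝ × E) :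
    Dv ξ F q = Dv ξ G q := by
  simp only [Dv, h.fderiv_eq]

theorem Dv_congr_ev {F G : ℝ × E → ℂ} {q : ℝ × E} (h : F =ᶠ[𝓝 q] G) (ξ : ℝ × E) :
    Dv ξ F =ᶠ[𝓝 q] Dv ξ G := h.eventually_nhds.mono fun _ hr => Dv_congr hr ξ

theorem ev_diff {F : ℝ × E → ℂ} {q : ℝ × E} (h : ContDiffAt ℝ ∞ F q) :
    ∀ᶠ r in 𝓝 q, DifferentiableAt ℝ F r :=
  ((h.of_le (m := 1) (by simp)).eventually (by simp)).mono fun _ hr =>
    hr.differentiableAt one_ne_zero

theorem Dv_add {F G : ℝ × E → ℂ} {q : ℝ × E} (hF : DifferentiableAt ℝ F q)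
    (hG : DifferentiableAt ℝ G q) (ξ : ℝ × E) :
    Dv ξ (fun r => F r + G r) q = Dv ξ F q + Dv ξ G q := by
  simp only [Dv, fderiv_fun_add hF hG, _root_.add_apply]

theorem Dv_mul {F G : ℝ × E → ℂ} {q : ℝ × E} (hF : DifferentiableAt ℝ F q)
    (hG : DifferentiableAt ℝ G q) (ξ : ℝ × E) :
    Dv ξ (fun r => F r * G r) q = Dv ξ F q * G q + F q * Dv ξ G q := by
  simp only [Dv, fderiv_fun_mul hF hG, _root_.add_apply,
    _root_.smul_apply, smul_eq_mul]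
  ring

theorem Dv_const (c : ℂ) (q ξ : ℝ × E) : Dv ξ (fun _ => c) q = 0 := by simp [Dv]

theorem Dv_sum {κ : Type*} (s : Finset κ) {F : κ → ℝ × E → ℂ} {q : ℝ × E}
    (hF : ∀ i ∈ s, DifferentiableAt ℝ (F i) q) (ξ : ℝ × E) :
    Dv ξ (fun r => ∑ i ∈ s, F i r) q = ∑ i ∈ s, Dv ξ (F i) q := by
  simp only [Dv, fderiv_fun_sum hF, _root_.sum_apply]

theorem Dv_comm {F : ℝ × E → ℂ} {q : ℝ × E} (h : ContDiffAt ℝ ∞ F q) (ξ η : ℝ × E) :
    Dv ξ (Dv η F) q = Dv η (Dv ξ F) q := by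
  have h2 : DifferentiableAt ℝ (fderiv ℝ F) q :=
    (h.fderiv_right (m := 1) two_le).differentiableAt one_ne_zero
  have e : ∀ ξ η : ℝ × E, Dv ξ (Dv η F) q = fderiv ℝ (fderiv ℝ F) q ξ η := fun ξ η => by
    have := (h2.hasFDerivAt.clm_apply (hasFDerivAt_const η q)).fderiv
    simp only [Dv]
    change fderiv ℝ (fun r => fderiv ℝ F r η) q ξ = _
    rw [this]
    simp
  rw [e, e]
  exact (h.isSymmSndFDerivAt (by simpa using two_le)).eq ξ η

theorem hasFDerivAt_slice {F : ℝ × E → ℂ} {t : ℝ} {x : E} (h : DifferentiableAt ℝ F (t, x)) :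
    HasFDerivAt (fun y => F (t, y)) ((fderiv ℝ F (t, x)).comp (ContinuousLinearMap.inr ℝ ℝ E)) x :=
  h.hasFDerivAt.comp x (hasFDerivAt_prodMk_right t x)

theorem hasDerivAt_time {F : ℝ × E → ℂ} {t : ℝ} {x : E} (h : DifferentiableAt ℝ F (t, x)) :
    HasDerivAt (fun s => F (s, x)) (Dt F (t, x)) t := by
  have h1 : HasDerivAt (fun s : ℝ => (s, x)) ((1 : ℝ), (0 : E)) t :=
    (hasDerivAt_id t).prodMk (hasDerivAt_const t x)
  exact h.hasFDerivAt.comp_hasDerivAt t h1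

theorem pd_slice (e : E ≃ₗᵢ[ℝ] En m) {F : ℝ × E → ℂ} {t : ℝ}
    (h : ∀ x, DifferentiableAt ℝ F (t, x)) (p : Fin m) :
    pd p (fun y => F (t, e.symm y)) = fun y => Dp e p F (t, e.symm y) := by
  funext y
  have h1 : HasFDerivAt (fun y => F (t, e.symm y)) _ y :=
    (hasFDerivAt_slice (h (e.symm y))).comp y
      (e.symm.toContinuousLinearEquiv : En m →L[ℝ] E).hasFDerivAt
  simp only [pd, h1.fderiv]
  rfl

theorem yb_iso (e : E ≃ₗᵢ[ℝ] En m) {τ A c : ℝ} {f : ℝ → E → ℂ} (h : Yb dist τ A c f) :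
    Yb dist τ A c (fun t y => f t (e.symm y)) :=
  ⟨h.cont.comp (f := fun p : ℝ × En m => (p.1, e.symm p.2)) (by fun_prop)
      fun p hp => ⟨hp.1, mem_univ _⟩,
    fun t ht y => h.sup t ht _, fun t ht y y' => by
      simpa using h.hol t ht (e.symm y) (e.symm y')⟩

theorem yb_iso' (e : E ≃ₗᵢ[ℝ] En m) {τ A c : ℝ} {f : ℝ → E → ℂ}
    (h : Yb dist τ A c (fun t y => f t (e.symm y))) : Yb dist τ A c f := by
  refine ⟨?_, fun t ht y => by simpa using h.sup t ht (e y), fun t ht y y' => by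
      simpa using h.hol t ht (e y) (e y')⟩
  have := h.cont.comp (f := fun p : ℝ × E => (p.1, e p.2)) (s := Icc 0 τ ×ˢ univ) (by fun_prop)
      fun p hp => ⟨hp.1, mem_univ _⟩
  simpa [Function.comp_def] using this

theorem yb_mul {X : Type*} [TopologicalSpace X] {d : X → X → ℝ} {τ A c A' c' : ℝ}
    {a g : ℝ → X → ℂ} (h : Yb d τ A c a) (h' : Yb d τ A' c' g) (hc : 0 ≤ c) :
    Yb d τ (A * A') (A * c' + c * A') (fun t x => a t x * g t x) := by
  refine ⟨h.cont.mul h'.cont, fun t ht x => ?_, fun t ht x y => ?_⟩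
  · rw [norm_mul]
    exact mul_le_mul (h.sup t ht x) (h'.sup t ht x) (norm_nonneg _)
      ((norm_nonneg _).trans (h.sup t ht x))
  · have e : a t x * g t x - a t y * g t y =
        a t x * (g t x - g t y) + (a t x - a t y) * g t y := by ring
    have hA : 0 ≤ A := (norm_nonneg _).trans (h.sup t ht x)
    rw [e]
    refine (norm_add_le _ _).trans ?_
    rw [norm_mul, norm_mul]
    have a1 := mul_le_mul (h.sup t ht x) (h'.hol t ht x y) (norm_nonneg _) hA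
    have a2 := mul_le_mul (h.hol t ht x y) (h'.sup t ht y) (norm_nonneg _) (by positivity)
    nlinarith

/-- the a priori estimate for space-time functions -/
theorem aprX (e : E ≃ₗᵢ[ℝ] En m) {a0 : Matrix (Fin m) (Fin m) ℝ} (ha : a0.PosDef) :
    ∃ C : ℝ, 1 ≤ C ∧ ∀ τ ∈ Ioc (0 : ℝ) 1, ∀ (s A c B : ℝ) (G W : ℝ × E → ℂ), 0 ≤ c →
      Yx s τ A c G → (∀ σ ∈ Icc 0 τ, ∀ x, ContDiffAt ℝ ∞ W (s + σ, x)) → (∀ x, W (s, x) = 0) →
      (∀ σ ∈ Icc 0 τ, ∀ x, ‖W (s + σ, x)‖ ≤ B) →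
      (∀ σ ∈ Icc 0 τ, ∀ x, Dt W (s + σ, x) =
        ∑ p, ∑ q, (a0 p q : ℂ) * Dp e p (Dp e q W) (s + σ, x) + G (s + σ, x)) →
      ∀ p q, Yx s τ (C * τ ^ (1 / 4 : ℝ) * (A + c)) (C * c) (Dp e p (Dp e q W)) := by
  obtain ⟨C, hC1, hC⟩ := apr m ℂ a0 ha
  refine ⟨C, hC1, fun τ hτ s A c B G W hc hG hW h0 hB he p q => ?_⟩
  have d1 : ∀ σ ∈ Icc 0 τ, ∀ x, DifferentiableAt ℝ W (s + σ, x) := fun σ hσ x =>
    (hW σ hσ x).differentiableAt (by simp)
  have d2 : ∀ q, ∀ σ ∈ Icc 0 τ, ∀ x, DifferentiableAt ℝ (Dp e q W) (s + σ, x) := fun q σ hσ x =>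
    (contDiffAt_Dv (hW σ hσ x) _).differentiableAt (by simp)
  have e2 : ∀ p q, ∀ σ ∈ Icc 0 τ, pd p (pd q (fun y => W (s + σ, e.symm y))) =
      fun y => Dp e p (Dp e q W) (s + σ, e.symm y) := fun p q σ hσ => by
    rw [pd_slice e (d1 σ hσ), pd_slice e (d2 q σ hσ)]
  have hS : Solves a0 τ (fun σ y => G (s + σ, e.symm y)) (fun σ y => W (s + σ, e.symm y)) := by
    refine ⟨fun x => by simp [h0], fun σ hσ => ?_, fun σ hσ y => ?_⟩
    · refine contDiff_iff_contDiffAt.2 fun y => ?_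
      have h1 : ContDiffAt ℝ 2 (fun y : En m => (s + σ, e.symm y)) y :=
        contDiffAt_const.prodMk e.symm.contDiff.contDiffAt
      exact ((hW σ hσ (e.symm y)).of_le two_le).comp y h1
    · have h1 := (hasDerivAt_time (d1 σ hσ (e.symm y))).comp_const_add s σ
      refine (h1.congr_deriv ?_).hasDerivWithinAt
      rw [he σ hσ]
      simp only [Lop, e2 _ _ σ hσ, Complex.real_smul]
  have hcont : ContinuousOn (fun r : ℝ × En m => W (s + r.1, e.symm r.2)) (Icc 0 τ ×ˢ univ) :=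
    fun r hr => (ContinuousAt.comp (f := fun r : ℝ × En m => (s + r.1, e.symm r.2))
      (hW r.1 hr.1 _).continuousAt (by fun_prop)).continuousWithinAt
  have := (hC τ hτ A c B _ _ hc (yb_iso e hG) hS hcont fun σ hσ y => hB σ hσ _).y2 p q
  exact yb_iso' e (yb_congr this fun σ hσ y => by rw [e2 p q σ hσ])

/-- small perturbations of the constant coefficient operator -/
theorem core (e : E ≃ₗᵢ[ℝ] En m) {a0 : Matrix (Fin m) (Fin m) ℝ} (ha : a0.PosDef) :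
    ∃ ε K : ℝ, 0 < ε ∧ 0 < K ∧ ∀ Lc : ℝ, 0 ≤ Lc → ∃ τ0 : ℝ, 0 < τ0 ∧ ∀ τ ∈ Ioc 0 τ0,
      ∀ (s A B M : ℝ) (c : Fin m → Fin m → ℝ × E → ℂ) (F W : ℝ × E → ℂ), 0 ≤ A → 0 ≤ M →
      (∀ p q, Yx s τ ε Lc (c p q)) → Yx s τ A A F →
      (∀ σ ∈ Icc 0 τ, ∀ x, ContDiffAt ℝ ∞ W (s + σ, x)) → (∀ x, W (s, x) = 0) →
      (∀ σ ∈ Icc 0 τ, ∀ x, ‖W (s + σ, x)‖ ≤ B) → (∀ p q, Yx s τ M M (Dp e p (Dp e q W))) →
      (∀ σ ∈ Icc 0 τ, ∀ x, Dt W (s + σ, x) =
        ∑ p, ∑ q, (a0 p q : ℂ) * Dp e p (Dp e q W) (s + σ, x) +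
          (∑ p, ∑ q, c p q (s + σ, x) * Dp e p (Dp e q W) (s + σ, x) + F (s + σ, x))) →
      ∀ p q, Yx s τ (K * A) (K * A) (Dp e p (Dp e q W)) := by
  obtain ⟨C, hC1, hC⟩ := aprX e ha
  have hC0 : 0 < C := by linarith
  set N : ℝ := (m : ℝ) * m with hN
  have hN0 : 0 ≤ N := by positivity
  refine ⟨1 / (4 * C * (N + 1)), 2 * C, by positivity, by positivity, fun Lc hLc => ?_⟩
  set ε : ℝ := 1 / (4 * C * (N + 1)) with hε
  have hε0 : 0 < ε := by positivity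
  have hε1 : C * (N * ε) ≤ 1 / 4 := by
    rw [hε, mul_one_div, ← mul_div_assoc, div_le_iff₀ (by positivity)]; nlinarith
  set μ : ℝ := 1 / (4 * (C * N * Lc + 1)) with hμ
  have hμ0 : 0 < μ := by positivity
  have hμ1 : C * N * Lc * μ ≤ 1 / 4 := by
    rw [hμ, mul_one_div, div_le_iff₀ (by positivity)]; nlinarith
  have hμ2 : μ ≤ 1 := by
    rw [hμ, div_le_iff₀ (by positivity)]
    have : 0 ≤ C * N * Lc := by positivity
    linarith
  refine ⟨min 1 ((μ / 2) ^ 4), by positivity, ?_⟩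
  intro τ hτ s A B M c F W hA hM hc hF hW h0 hB hM' he
  have hτ1 : τ ∈ Ioc (0 : ℝ) 1 := ⟨hτ.1, hτ.2.trans (min_le_left _ _)⟩
  have hlam : τ ^ (1 / 4 : ℝ) ≤ μ / 2 := by
    calc τ ^ (1 / 4 : ℝ) ≤ ((μ / 2) ^ 4) ^ (1 / 4 : ℝ) :=
          Real.rpow_le_rpow hτ.1.le (hτ.2.trans (min_le_right _ _)) (by norm_num)
      _ = μ / 2 := by
          rw [← Real.rpow_natCast, ← Real.rpow_mul (by positivity)]; norm_num
  have hlam0 : 0 ≤ τ ^ (1 / 4 : ℝ) := Real.rpow_nonneg hτ.1.le _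
  have step : ∀ X : ℝ, 0 ≤ X → (∀ p q, Yx s τ (μ * X) X (Dp e p (Dp e q W))) →
      ∀ p q, Yx s τ (μ * (X / 2 + C * A)) (X / 2 + C * A) (Dp e p (Dp e q W)) := by
    intro X hX hP p q
    have g2 := yb_add (yb_sum Finset.univ fun k _ => yb_sum Finset.univ fun l _ =>
      yb_mul (hc k l) (hP k l) hLc) hF
    simp only [Finset.sum_const, Finset.card_univ, Fintype.card_fin, nsmul_eq_mul] at g2
    have g3 : Yx s τ (N * ε * (μ * X) + A) (N * ε * X + N * Lc * (μ * X) + A)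
        (fun r => ∑ p, ∑ q, c p q r * Dp e p (Dp e q W) r + F r) :=
      yb_mono g2 (le_of_eq (by rw [hN]; ring)) (le_of_eq (by rw [hN]; ring))
    have g4 := hC τ hτ1 s _ _ B _ W (by positivity) g3 hW h0 hB he p q
    have a1 : C * (N * ε * X + N * Lc * (μ * X) + A) ≤ X / 2 + C * A := by
      nlinarith [mul_le_mul_of_nonneg_right hε1 hX, mul_le_mul_of_nonneg_right hμ1 hX]
    have a2 : C * (N * ε * (μ * X) + A) ≤ X / 2 + C * A := by
      have : μ * X ≤ X := by nlinarith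
      nlinarith [mul_le_mul hε1 this (by positivity) (by norm_num)]
    refine yb_mono g4 ?_ a1
    have : 0 ≤ X / 2 + C * A := by positivity
    calc _ = τ ^ (1 / 4 : ℝ) * (C * (N * ε * (μ * X) + A) +
          C * (N * ε * X + N * Lc * (μ * X) + A)) := by ring
      _ ≤ μ / 2 * ((X / 2 + C * A) + (X / 2 + C * A)) :=
          mul_le_mul hlam (add_le_add a2 a1) (by positivity) (by positivity)
      _ = _ := by ring
  have iter : ∀ k : ℕ, ∀ p q, Yx s τ (μ * (M / μ * (1 / 2) ^ k + 2 * C * A))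
      (M / μ * (1 / 2) ^ k + 2 * C * A) (Dp e p (Dp e q W)) := by
    intro k
    induction k with
    | zero =>
      intro p q
      have h1 : 0 ≤ 2 * C * A := by positivity
      have h2 : μ * (M / μ) = M := mul_div_cancel₀ _ hμ0.ne'
      have h3 : 0 ≤ M / μ := by positivity
      refine yb_mono (hM' p q) ?_ ?_ <;> simp only [pow_zero, mul_one] <;> nlinarith
    | succ k ih =>
      intro p q
      have e1 : M / μ * (1 / 2) ^ (k + 1) + 2 * C * A =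
          (M / μ * (1 / 2) ^ k + 2 * C * A) / 2 + C * A := by ring
      rw [e1]
      exact step _ (by positivity) ih p q
  intro p q
  have hl : Tendsto (fun k : ℕ => M / μ * (1 / 2) ^ k + 2 * C * A) atTop
      (𝓝 (M / μ * 0 + 2 * C * A)) :=
    ((tendsto_pow_atTop_nhds_zero_of_lt_one (by norm_num) (by norm_num)).const_mul _).add_const _
  rw [mul_zero, zero_add] at hl
  refine ⟨(hM' p q).cont, fun t ht y => ge_of_tendsto' hl fun k => ((iter k p q).sup t ht y).trans ?_,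
    fun t ht y y' => ge_of_tendsto' (hl.mul_const _) fun k => (iter k p q).hol t ht y y'⟩
  have : 0 ≤ M / μ * (1 / 2) ^ k + 2 * C * A := by positivity
  nlinarith

end Crest.Agent.T223.Lm
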