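import Crest.Agent.T223.LmA_19

/-!
# Row 223, module LIMIT (helper19), part B: interior Schauder estimate for families
-/

set_option autoImplicit false
set_option linter.unusedSectionVars false
set_option linter.unusedVariables false

open Set Filter Topology Metric
open scoped ContDiff

noncomputable section

namespace Crest.Agent.T223.Lm

open Crest.Agent.N207.P

variable {E : Type} [NormedAddCommGroup E] [NormedSpace ℝ E] {m : ℕ} {ι : Type}

/-- eventually smooth on `O` -/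
def Sm (l : Filter ι) (O : Set (ℝ × E)) (F : ι → ℝ × E → ℂ) : Prop :=
  ∀ᶠ j in l, ∀ q ∈ O, ContDiffAt ℝ ∞ (F j) q

/-- bounded and Hoelder (for the pairs in the relation `R`) on a ball -/
def HB (R : ℝ × E → ℝ × E → Prop) (q0 : ℝ × E) (r C : ℝ) (f : ℝ × E → ℂ) : Prop :=
  ∀ q ∈ ball q0 r, ‖f q‖ ≤ C ∧ ∀ q' ∈ ball q0 r, R q q' → ‖f q - f q'‖ ≤ C * √(dist q q')

/-- locally uniformly bounded and Hoelder -/
def YB (R : ℝ × E → ℝ × E → Prop) (l : Filter ι) (O : Set (ℝ × E)) (F : ι → ℝ × E → ℂ) : Prop :=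
  ∀ q0 ∈ O, ∃ r C : ℝ, 0 < r ∧ 0 ≤ C ∧ ∀ᶠ j in l, HB R q0 r C (F j)

/-- same time -/
def ST (q q' : ℝ × E) : Prop := q'.1 = q.1

variable {R : ℝ × E → ℝ × E → Prop} {l : Filter ι} {O : Set (ℝ × E)}

theorem HB.mono {q0 : ℝ × E} {r C r' C' : ℝ} {f : ℝ × E → ℂ} (h : HB R q0 r C f) (hr : r' ≤ r)
    (hC : C ≤ C') : HB R q0 r' C' f := fun q hq =>
  ⟨(h q (ball_subset_ball hr hq)).1.trans hC, fun q' hq' hR =>
    ((h q (ball_subset_ball hr hq)).2 q' (ball_subset_ball hr hq') hR).trans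
      (mul_le_mul_of_nonneg_right hC (Real.sqrt_nonneg _))⟩

theorem HB.add {q0 : ℝ × E} {r C C' : ℝ} {f g : ℝ × E → ℂ} (h : HB R q0 r C f)
    (h' : HB R q0 r C' g) : HB R q0 r (C + C') (fun q => f q + g q) := fun q hq => by
  refine ⟨(norm_add_le _ _).trans (add_le_add (h q hq).1 (h' q hq).1), fun q' hq' hR => ?_⟩
  have e : f q + g q - (f q' + g q') = (f q - f q') + (g q - g q') := by ring
  rw [e, add_mul]
  exact (norm_add_le _ _).trans (add_le_add ((h q hq).2 q' hq' hR) ((h' q hq).2 q' hq' hR))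

theorem HB.mul {q0 : ℝ × E} {r C C' : ℝ} {f g : ℝ × E → ℂ} (h : HB R q0 r C f)
    (h' : HB R q0 r C' g) (hC : 0 ≤ C) (hC' : 0 ≤ C') :
    HB R q0 r (2 * C * C') (fun q => f q * g q) := fun q hq => by
  have b1 := mul_le_mul (h q hq).1 (h' q hq).1 (norm_nonneg _) hC
  refine ⟨by rw [norm_mul]; nlinarith [mul_nonneg hC hC'], fun q' hq' hR => ?_⟩
  have e : f q * g q - f q' * g q' = f q * (g q - g q') + (f q - f q') * g q' := by ring
  rw [e]
  refine (norm_add_le _ _).trans ?_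
  rw [norm_mul, norm_mul]
  have a1 := mul_le_mul (h q hq).1 ((h' q hq).2 q' hq' hR) (norm_nonneg _) hC
  have a2 := mul_le_mul ((h q hq).2 q' hq' hR) (h' q' hq').1 (norm_nonneg _) (by positivity)
  nlinarith

theorem YB.ev {F : ι → ℝ × E → ℂ} (h : YB R l O F) {q0 : ℝ × E} (hq : q0 ∈ O) :
    ∀ᶠ rc : ℝ × ℝ in (𝓝[>] (0 : ℝ)) ×ˢ atTop, ∀ᶠ j in l, HB R q0 rc.1 rc.2 (F j) := by
  obtain ⟨r, C, hr, hC, hj⟩ := h q0 hq
  filter_upwards [(tendsto_fst.eventually (Ioo_mem_nhdsGT hr)),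
    tendsto_snd.eventually (eventually_ge_atTop C)] with rc h1 h2
  exact hj.mono fun j hj => hj.mono h1.2.le h2

theorem ev_pos : ∀ᶠ rc : ℝ × ℝ in (𝓝[>] (0 : ℝ)) ×ˢ atTop, 0 < rc.1 ∧ 0 ≤ rc.2 :=
  (tendsto_fst.eventually self_mem_nhdsWithin).and (tendsto_snd.eventually (eventually_ge_atTop 0))

theorem YB.add {F G : ι → ℝ × E → ℂ} (h : YB R l O F) (h' : YB R l O G) :
    YB R l O (fun j q => F j q + G j q) := fun q0 hq => by
  obtain ⟨rc, ⟨h1, h2⟩, h3, h4⟩ := (((h.ev hq).and (h'.ev hq)).and ev_pos).exists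
  exact ⟨rc.1, rc.2 + rc.2, h3, by positivity, (h1.and h2).mono fun j hj => hj.1.add hj.2⟩

theorem YB.mul {F G : ι → ℝ × E → ℂ} (h : YB R l O F) (h' : YB R l O G) :
    YB R l O (fun j q => F j q * G j q) := fun q0 hq => by
  obtain ⟨rc, ⟨h1, h2⟩, h3, h4⟩ := (((h.ev hq).and (h'.ev hq)).and ev_pos).exists
  exact ⟨rc.1, 2 * rc.2 * rc.2, h3, by positivity,
    (h1.and h2).mono fun j hj => hj.1.mul hj.2 h4 h4⟩

theorem YB.const (c : ℂ) : YB R l O (fun _ _ => c) := fun q0 _ =>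
  ⟨1, ‖c‖, one_pos, norm_nonneg _, Eventually.of_forall fun _ q _ =>
    ⟨le_rfl, fun q' _ _ => by simp; positivity⟩⟩

theorem YB.congr (hO : IsOpen O) {F G : ι → ℝ × E → ℂ} (h : YB R l O F)
    (e : ∀ᶠ j in l, ∀ q ∈ O, G j q = F j q) : YB R l O G := fun q0 hq => by
  obtain ⟨r, C, hr, hC, hj⟩ := h q0 hq
  obtain ⟨ρ, hρ, hb⟩ := Metric.isOpen_iff.1 hO q0 hq
  refine ⟨min r ρ, C, by positivity, hC, ?_⟩
  filter_upwards [hj, e] with j h1 h2 q hq1
  have h3 := h1.mono (min_le_left r ρ) le_rfl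
  have hs : ball q0 (min r ρ) ⊆ O := (ball_subset_ball (min_le_right _ _)).trans hb
  rw [h2 q (hs hq1)]
  exact ⟨(h3 q hq1).1, fun q' hq' hR => by rw [h2 q' (hs hq')]; exact (h3 q hq1).2 q' hq' hR⟩

theorem YB.sum {κ : Type*} (s : Finset κ) {F : κ → ι → ℝ × E → ℂ} (h : ∀ i ∈ s, YB R l O (F i)) :
    YB R l O (fun j q => ∑ i ∈ s, F i j q) := by
  classical
  induction s using Finset.induction_on with
  | empty => simpa using YB.const 0
  | insert i s hi ih =>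
    simp only [Finset.sum_insert hi]
    exact (h i (Finset.mem_insert_self _ _)).add (ih fun j hj => h j (Finset.mem_insert_of_mem hj))

theorem YB.weaken {R' : ℝ × E → ℝ × E → Prop} (hR : ∀ q q', R' q q' → R q q')
    {F : ι → ℝ × E → ℂ} (h : YB R l O F) : YB R' l O F := fun q0 hq => by
  obtain ⟨r, C, hr, hC, hj⟩ := h q0 hq
  exact ⟨r, C, hr, hC, hj.mono fun j hj q hq => ⟨(hj q hq).1, fun q' hq' h => (hj q hq).2 q' hq'
    (hR _ _ h)⟩⟩

/-! ### cut-off -/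

theorem Dv_zero_off {θ : ℝ × E → ℂ} {S : Set E} (hS : IsClosed S) (h : ∀ q, q.2 ∉ S → θ q = 0)
    (ξ : ℝ × E) (q : ℝ × E) (hq : q.2 ∉ S) : Dv ξ θ q = 0 := by
  have : θ =ᶠ[𝓝 q] fun _ => 0 := by
    filter_upwards [continuous_snd.continuousAt.eventually (hS.isOpen_compl.mem_nhds hq)] with r hr
    exact h r hr
  rw [Dv_congr this, Dv_const]

theorem yx_fin [ProperSpace E] {h : ℝ × E → ℂ} {s τ ρ : ℝ} {x0 : E}
    (hs : ∀ σ ∈ Icc 0 τ, ∀ x, ContDiffAt ℝ ∞ h (s + σ, x))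
    (h0 : ∀ q, q.2 ∉ closedBall x0 ρ → h q = 0) : ∃ M : ℝ, 0 ≤ M ∧ Yx s τ M M h := by
  have hK : IsCompact (Icc s (s + τ) ×ˢ closedBall x0 ρ) :=
    isCompact_Icc.prod (isCompact_closedBall _ _)
  have hs' : ∀ q ∈ Icc s (s + τ) ×ˢ closedBall x0 ρ, ContDiffAt ℝ ∞ h q := fun q hq => by
    have := hs (q.1 - s) ⟨by linarith [hq.1.1], by linarith [hq.1.2]⟩ q.2
    simpa using this
  obtain ⟨M0, hM0⟩ := hK.exists_bound_of_continuousOn (f := h)
    fun q hq => (hs' q hq).continuousAt.continuousWithinAt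
  obtain ⟨L, hL⟩ := hK.exists_bound_of_continuousOn (f := fderiv ℝ h)
    fun q hq => ((hs' q hq).fderiv_right (m := 0) (by simp)).continuousAt.continuousWithinAt
  have b0 : ∀ σ ∈ Icc 0 τ, ∀ x, ‖h (s + σ, x)‖ ≤ |M0| := fun σ hσ x => by
    by_cases hx : x ∈ closedBall x0 ρ
    · exact (hM0 (s + σ, x) ⟨⟨by linarith [hσ.1], by linarith [hσ.2]⟩, hx⟩).trans (le_abs_self _)
    · rw [h0 (s + σ, x) hx]; simp
  have b1 : ∀ σ ∈ Icc 0 τ, ∀ x y, ‖h (s + σ, x) - h (s + σ, y)‖ ≤ |L| * dist x y := by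
    intro σ hσ x y
    have d := fun z => hasFDerivAt_slice ((hs σ hσ z).differentiableAt (by simp))
    have := convex_univ.norm_image_sub_le_of_norm_fderiv_le (𝕜 := ℝ)
      (f := fun y => h (s + σ, y)) (C := |L|) (fun z _ => (d z).differentiableAt)
      (fun z _ => ?_) (mem_univ y) (mem_univ x)
    · rwa [dist_eq_norm]
    · by_cases hz : z ∈ closedBall x0 ρ
      · rw [(d z).fderiv]
        refine ContinuousLinearMap.opNorm_le_bound _ (abs_nonneg _) fun v => ?_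
        have h1 := (fderiv ℝ h (s + σ, z)).le_opNorm ((0 : ℝ), v)
        have h2 := (hL (s + σ, z) ⟨⟨by linarith [hσ.1], by linarith [hσ.2]⟩, hz⟩).trans
          (le_abs_self _)
        have h3 : ‖((0 : ℝ), v)‖ = ‖v‖ := by simp
        rw [h3] at h1
        exact h1.trans (mul_le_mul_of_nonneg_right h2 (norm_nonneg _))
      · have : (fun y => h (s + σ, y)) =ᶠ[𝓝 z] fun _ => 0 := by
          filter_upwards [isClosed_closedBall.isOpen_compl.mem_nhds hz] with w hw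
          exact h0 _ hw
        rw [this.fderiv_eq]; simp
  refine ⟨2 * |M0| + |L|, by positivity, ?_, fun σ hσ x => ?_, fun σ hσ x y => ?_⟩
  · exact fun r hr => (ContinuousAt.comp (f := fun r : ℝ × E => (s + r.1, r.2))
      (hs r.1 hr.1 _).continuousAt (by fun_prop)).continuousWithinAt
  · have := b0 σ hσ x
    have h2 := abs_nonneg M0
    have h3 := abs_nonneg L
    change ‖h (s + σ, x)‖ ≤ _
    linarith
  · exact le_sqrt_of_min (abs_nonneg _) (abs_nonneg _) dist_nonneg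
      ((norm_sub_le _ _).trans (by linarith [b0 σ hσ x, b0 σ hσ y])) (b1 σ hσ x y)

theorem mem_ball_pr {t0 t r : ℝ} {x0 x : E} (ht : |t - t0| < r) (hx : x ∈ ball x0 r) :
    (t, x) ∈ ball (t0, x0) r := by
  rw [mem_ball, Prod.dist_eq, max_lt_iff]
  exact ⟨ht, hx⟩

theorem dist_st (t : ℝ) (x y : E) : dist (t, x) (t, y) = dist x y := by
  simp [Prod.dist_eq]

theorem yx_cut {κ F : ℝ × E → ℂ} {s τ ρ r K0 K1 A c t0 : ℝ} {x0 : E} (hκ : Yx s τ K0 K1 κ)
    (hK0 : 0 ≤ K0) (hK1 : 0 ≤ K1) (hA : 0 ≤ A) (hc : 0 ≤ c)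
    (h0 : ∀ q, q.2 ∉ closedBall x0 ρ → κ q = 0) (hρ : ρ < r)
    (ht : ∀ σ ∈ Icc 0 τ, |s + σ - t0| < r) (hF : ∀ q ∈ ball (t0, x0) r, ContinuousAt F q)
    (h1 : ∀ q ∈ ball (t0, x0) r, ‖F q‖ ≤ A)
    (h2 : ∀ q ∈ ball (t0, x0) r, ∀ q' ∈ ball (t0, x0) r, ST q q' → ‖F q - F q'‖ ≤ c * √(dist q q')) :
    Yx s τ (K0 * A) (K0 * c + K1 * A) (fun q => κ q * F q) := by
  have hz : ∀ σ x, x ∉ ball x0 r → κ (s + σ, x) = 0 := fun σ x hx =>
    h0 _ fun h => hx (closedBall_subset_ball hρ h)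
  have one : ∀ σ ∈ Icc 0 τ, ∀ x y, y ∉ ball x0 r →
      ‖κ (s + σ, x) * F (s + σ, x)‖ ≤ (K0 * c + K1 * A) * √(dist x y) := fun σ hσ x y hy => by
    by_cases hx : x ∈ ball x0 r
    · have a1 := hκ.hol σ hσ x y
      simp only [hz σ y hy, sub_zero] at a1
      rw [norm_mul]
      have a2 := mul_le_mul a1 (h1 _ (mem_ball_pr (ht σ hσ) hx)) (norm_nonneg _) (by positivity)
      have : 0 ≤ K0 * c * √(dist x y) := by positivity
      nlinarith
    · rw [hz σ x hx]; simp; positivity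
  refine ⟨fun q hq => ?_, fun σ hσ x => ?_, fun σ hσ x y => ?_⟩
  · by_cases hx : q.2 ∈ ball x0 r
    · exact (hκ.cont q hq).mul (ContinuousAt.comp (f := fun r : ℝ × E => (s + r.1, r.2))
        (hF _ (mem_ball_pr (ht _ hq.1) hx)) (by fun_prop)).continuousWithinAt
    · have hx' : q.2 ∉ closedBall x0 ρ := fun h => hx (closedBall_subset_ball hρ h)
      refine (continuousAt_const (y := (0 : ℂ))).congr ?_ |>.continuousWithinAt
      filter_upwards [continuous_snd.continuousAt.eventually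
        (isClosed_closedBall.isOpen_compl.mem_nhds hx')] with w hw
      simp [h0 (s + w.1, w.2) hw]
  · by_cases hx : x ∈ ball x0 r
    · change ‖κ (s + σ, x) * F (s + σ, x)‖ ≤ _
      rw [norm_mul]
      exact mul_le_mul (hκ.sup σ hσ x) (h1 _ (mem_ball_pr (ht σ hσ) hx)) (norm_nonneg _) hK0
    · change ‖κ (s + σ, x) * F (s + σ, x)‖ ≤ _
      rw [hz σ x hx]; simp; positivity
  · change ‖κ (s + σ, x) * F (s + σ, x) - κ (s + σ, y) * F (s + σ, y)‖ ≤ _
    by_cases hy : y ∈ ball x0 r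
    · by_cases hx : x ∈ ball x0 r
      · have e : κ (s + σ, x) * F (s + σ, x) - κ (s + σ, y) * F (s + σ, y) =
            κ (s + σ, x) * (F (s + σ, x) - F (s + σ, y)) +
              (κ (s + σ, x) - κ (s + σ, y)) * F (s + σ, y) := by ring
        rw [e]
        refine (norm_add_le _ _).trans ?_
        rw [norm_mul, norm_mul]
        have a0 := h2 _ (mem_ball_pr (ht σ hσ) hx) _ (mem_ball_pr (ht σ hσ) hy) rfl
        rw [dist_st] at a0
        have a1 := mul_le_mul (hκ.sup σ hσ x) a0 (norm_nonneg _) hK0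
        have a2 := mul_le_mul (hκ.hol σ hσ x y) (h1 _ (mem_ball_pr (ht σ hσ) hy)) (norm_nonneg _)
          (by positivity)
        nlinarith
      · rw [hz σ x hx, zero_mul, zero_sub, norm_neg, dist_comm]
        exact one σ hσ y x hx
    · rw [hz σ y hy, zero_mul, sub_zero]
      exact one σ hσ x y hy

/-- uniform bounds on a slab -/
def UY (l : Filter ι) (s τ : ℝ) (F : ι → ℝ × E → ℂ) : Prop :=
  ∃ A : ℝ, 0 ≤ A ∧ ∀ᶠ j in l, Yx s τ A A (F j)

theorem UY.add {s τ : ℝ} {F G : ι → ℝ × E → ℂ} (h : UY l s τ F) (h' : UY l s τ G) :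
    UY l s τ (fun j q => F j q + G j q) := by
  obtain ⟨A, hA, h1⟩ := h
  obtain ⟨B, hB, h2⟩ := h'
  exact ⟨A + B, by positivity, (h1.and h2).mono fun j hj => yb_add hj.1 hj.2⟩

theorem UY.sum {κ : Type*} {s τ : ℝ} (S : Finset κ) {F : κ → ι → ℝ × E → ℂ}
    (h : ∀ i ∈ S, UY l s τ (F i)) : UY l s τ (fun j q => ∑ i ∈ S, F i j q) := by
  classical
  induction S using Finset.induction_on with
  | empty => exact ⟨0, le_rfl, Eventually.of_forall fun j => by simpa [Yx] using yb_zero⟩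
  | insert i S hi ih =>
    simp only [Finset.sum_insert hi]
    exact (h i (Finset.mem_insert_self _ _)).add (ih fun j hj => h j (Finset.mem_insert_of_mem hj))

theorem UY.cut [ProperSpace E] {κ : ℝ × E → ℂ} {F : ι → ℝ × E → ℂ} {s τ ρ r C t0 : ℝ} {x0 : E}
    (hκ : ContDiff ℝ ∞ κ) (h0 : ∀ q, q.2 ∉ closedBall x0 ρ → κ q = 0) (hρ : ρ < r)
    (ht : ∀ σ ∈ Icc 0 τ, |s + σ - t0| < r) (hC : 0 ≤ C)
    (hF : ∀ᶠ j in l, (∀ q ∈ ball (t0, x0) r, ContinuousAt (F j) q) ∧ HB ST (t0, x0) r C (F j)) :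
    UY l s τ (fun j q => κ q * F j q) := by
  obtain ⟨M, hM, hY⟩ := yx_fin (s := s) (τ := τ) (fun σ _ x => hκ.contDiffAt) h0
  refine ⟨M * C + M * C, by positivity, hF.mono fun j hj => yb_mono
    (yx_cut hY hM hM hC hC h0 hρ ht hj.1 (fun q hq => (hj.2 q hq).1) fun q hq => (hj.2 q hq).2)
    (by nlinarith [mul_nonneg hM hC]) le_rfl⟩

theorem Dp2_mul (e : E ≃ₗᵢ[ℝ] En m) {θ u : ℝ × E → ℂ} {q : ℝ × E} (hθ : ContDiffAt ℝ ∞ θ q)
    (hu : ContDiffAt ℝ ∞ u q) (p p' : Fin m) :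
    Dp e p (Dp e p' fun r => θ r * u r) q = Dp e p (Dp e p' θ) q * u q + Dp e p' θ q * Dp e p u q
      + (Dp e p θ q * Dp e p' u q + θ q * Dp e p (Dp e p' u) q) := by
  have h1 : (Dp e p' fun r => θ r * u r) =ᶠ[𝓝 q] fun r => Dp e p' θ r * u r + θ r * Dp e p' u r := by
    filter_upwards [ev_diff hθ, ev_diff hu] with r a b
    exact Dv_mul a b _
  have d := fun {f : ℝ × E → ℂ} (h : ContDiffAt ℝ ∞ f q) => h.differentiableAt (by simp)
  have d1 : ContDiffAt ℝ ∞ (Dp e p' θ) q := contDiffAt_Dv hθ _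
  have d2 : ContDiffAt ℝ ∞ (Dp e p' u) q := contDiffAt_Dv hu _
  unfold Dp at *
  rw [Dv_congr h1, Dv_add (d (d1.mul hu)) (d (hθ.mul d2)), Dv_mul (d d1) (d hu),
    Dv_mul (d hθ) (d d2)]

/-- **interior Schauder estimate for families** -/
theorem linq [FiniteDimensional ℝ E] (e : E ≃ₗᵢ[ℝ] En m) (hO : IsOpen O) {u f : ι → ℝ × E → ℂ}
    {c : Fin m → Fin m → ι → ℝ × E → ℂ} (su : Sm l O u) (sf : Sm l O f)
    (sc : ∀ p q, Sm l O (c p q)) (hu : YB ST l O u) (hu1 : ∀ p, YB ST l O fun j => Dp e p (u j))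
    (hf : YB ST l O f) (hc : ∀ p q, YB ST l O (c p q))
    (ell : ∀ q0 ∈ O, ∃ (a0 : Matrix (Fin m) (Fin m) ℝ) (c0 : Fin m → Fin m → ℂ), a0.PosDef ∧
      (∀ S : Fin m → Fin m → ℂ, (∀ p q, S p q = S q p) →
        ∑ p, ∑ q, c0 p q * S p q = ∑ p, ∑ q, (a0 p q : ℂ) * S p q) ∧
      ∀ δ : ℝ, 0 < δ → ∃ r : ℝ, 0 < r ∧ ∀ᶠ j in l, ∀ q ∈ ball q0 r, ∀ p p',
        ‖c p p' j q - c0 p p'‖ ≤ δ)
    (he : ∀ᶠ j in l, ∀ q ∈ O,
      Dt (u j) q = ∑ p, ∑ p', c p p' j q * Dp e p (Dp e p' (u j)) q + f j q) (p1 p2 : Fin m) :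
    YB ST l O fun j => Dp e p1 (Dp e p2 (u j)) := by
  have : ProperSpace E := FiniteDimensional.proper_real E
  rintro ⟨t0, x0⟩ hq0
  obtain ⟨a0, c0, ha, hsym, hclose⟩ := ell _ hq0
  obtain ⟨ε, K, hε, hK, hcore⟩ := core e ha
  obtain ⟨r1, hr1, hcl⟩ := hclose ε hε
  obtain ⟨r2, hr2, hb⟩ := Metric.isOpen_iff.1 hO _ hq0
  have hev : ∀ᶠ rc : ℝ × ℝ in (𝓝[>] (0 : ℝ)) ×ˢ atTop, rc.1 ≤ r1 ∧ rc.1 ≤ r2 := by
    filter_upwards [tendsto_fst.eventually (Ioo_mem_nhdsGT hr1),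
      tendsto_fst.eventually (Ioo_mem_nhdsGT hr2)] with rc h1 h2
    exact ⟨h1.2.le, h2.2.le⟩
  obtain ⟨⟨r, C⟩, ⟨⟨⟨⟨y1, y2⟩, y3⟩, y4⟩, hr, hC⟩, hrr1, hrr2⟩ := ((((((hu.ev hq0).and
    (eventually_all.2 fun p => (hu1 p).ev hq0)).and (hf.ev hq0)).and
    (eventually_all.2 fun p => eventually_all.2 fun q => (hc p q).ev hq0)).and ev_pos).and
    hev).exists
  simp only at y1 y2 y3 y4 hr hC hrr1 hrr2
  have hbO : ball (t0, x0) r ⊆ O := (ball_subset_ball hrr2).trans hb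
  let η : ContDiffBump x0 := ⟨r / 2, 3 * r / 4, by positivity, by linarith⟩
  let χ : ContDiffBump x0 := ⟨r / 4, r / 2, by positivity, by linarith⟩
  set ηc : ℝ × E → ℂ := fun q => (η q.2 : ℂ) with hηc
  have hηs : ContDiff ℝ ∞ ηc :=
    Complex.ofRealCLM.contDiff.comp (η.contDiff.comp contDiff_snd)
  have hη0 : ∀ q : ℝ × E, q.2 ∉ closedBall x0 (3 * r / 4) → ηc q = 0 := fun q hq => by
    simp only [hηc]
    rw [η.zero_of_le_dist (le_of_lt (by simpa using hq))]; simp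
  obtain ⟨Kη, hKη, hYη⟩ := yx_fin (s := 0) (τ := 1) (fun σ _ x => hηs.contDiffAt) hη0
  have hYη' : ∀ s τ, Yx s τ 1 Kη ηc := fun s τ =>
    ⟨(hηs.continuous.comp (f := fun r : ℝ × E => (s + r.1, r.2)) (by fun_prop)).continuousOn,
      fun σ _ x => by
        simp only [hηc, Complex.norm_real, Real.norm_eq_abs, abs_of_nonneg η.nonneg]
        exact η.le_one,
      fun σ _ x y => hYη.hol 0 ⟨le_rfl, zero_le_one⟩ x y⟩
  obtain ⟨τ0, hτ0, hcore⟩ := hcore (1 * C + Kη * ε) (by positivity)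
  set τ : ℝ := min τ0 r with hτ
  have hτ1 : 0 < τ := by positivity
  have hτ2 : τ ≤ r := min_le_right _ _
  set s : ℝ := t0 - τ / 2 with hs
  have ht : ∀ σ ∈ Icc 0 τ, |s + σ - t0| < r := fun σ hσ =>
    abs_lt.2 ⟨by linarith [hσ.1], by linarith [hσ.2]⟩
  set θ : ℝ × E → ℂ := fun q => ((q.1 - s : ℝ) : ℂ) * (χ q.2 : ℂ) with hθ
  have hθs : ContDiff ℝ ∞ θ :=
    (Complex.ofRealCLM.contDiff.comp (contDiff_fst.sub contDiff_const)).mul
      (Complex.ofRealCLM.contDiff.comp (χ.contDiff.comp contDiff_snd))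
  have hθ0 : ∀ q : ℝ × E, q.2 ∉ closedBall x0 (r / 2) → θ q = 0 := fun q hq => by
    simp only [hθ]
    rw [χ.zero_of_le_dist (le_of_lt (by simpa using hq))]; simp
  have sD : ∀ {κ : ℝ × E → ℂ}, ContDiff ℝ ∞ κ → ∀ ξ, ContDiff ℝ ∞ (Dv ξ κ) := fun h ξ =>
    contDiff_iff_contDiffAt.2 fun q => contDiffAt_Dv h.contDiffAt ξ
  have zD := fun {κ : ℝ × E → ℂ} (h : ∀ q, q.2 ∉ closedBall x0 (r / 2) → κ q = 0) ξ =>
    Dv_zero_off isClosed_closedBall h ξ
  have hr2' : r / 2 < r := by linarith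
  have cs : ∀ {F : ι → ℝ × E → ℂ}, Sm l O F → ∀ᶠ j in l, ∀ q ∈ ball (t0, x0) r,
      ContinuousAt (F j) q := fun h => h.mono fun j hj q hq => (hj q (hbO hq)).continuousAt
  have su1 : ∀ p, Sm l O fun j => Dp e p (u j) := fun p =>
    su.mono fun j hj q hq => contDiffAt_Dv (hj q hq) _
  set F : ι → ℝ × E → ℂ := fun j q => Dt θ q * u j q + θ q * f j q + ∑ p, ∑ p',
    ((-Dp e p (Dp e p' θ) q) * (c p p' j q * u j q) + (-Dp e p' θ q) * (c p p' j q * Dp e p (u j) q)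
      + (-Dp e p θ q) * (c p p' j q * Dp e p' (u j) q)) with hF
  have hUF : UY l s τ F := by
    refine ((UY.cut (sD hθs _) (zD hθ0 _) hr2' ht hC ((cs su).and y1)).add
      (UY.cut hθs hθ0 hr2' ht hC ((cs sf).and y3))).add
      (UY.sum _ fun p _ => UY.sum _ fun p' _ => UY.add (UY.add ?_ ?_) ?_)
    · refine UY.cut (sD (sD hθs _) _).neg (fun q hq => by rw [neg_eq_zero]; exact zD (zD hθ0 _) _ q hq)
        hr2' ht (C := 2 * C * C) (by positivity) ?_
      filter_upwards [cs su, cs (sc p p'), y1, y4 p p'] with j a1 a2 a3 a4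
      exact ⟨fun q hq => (a2 q hq).mul (a1 q hq), a4.mul a3 hC hC⟩
    · refine UY.cut (sD hθs _).neg (fun q hq => by rw [neg_eq_zero]; exact zD hθ0 _ q hq)
        hr2' ht (C := 2 * C * C) (by positivity) ?_
      filter_upwards [cs (su1 p), cs (sc p p'), y2 p, y4 p p'] with j a1 a2 a3 a4
      exact ⟨fun q hq => (a2 q hq).mul (a1 q hq), a4.mul a3 hC hC⟩
    · refine UY.cut (sD hθs _).neg (fun q hq => by rw [neg_eq_zero]; exact zD hθ0 _ q hq)
        hr2' ht (C := 2 * C * C) (by positivity) ?_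
      filter_upwards [cs (su1 p'), cs (sc p p'), y2 p', y4 p p'] with j a1 a2 a3 a4
      exact ⟨fun q hq => (a2 q hq).mul (a1 q hq), a4.mul a3 hC hC⟩
  obtain ⟨A, hA, hFA⟩ := hUF
  refine ⟨min (r / 4) (τ / 4), 4 / τ * (K * A), by positivity, by positivity, ?_⟩
  filter_upwards [hFA, su, he, hcl, eventually_all.2 fun p => eventually_all.2 fun p' => y4 p p',
    eventually_all.2 fun p => eventually_all.2 fun p' => cs (sc p p')] with j b1 b2 b3 b4 b5 b6
  set W : ℝ × E → ℂ := fun q => θ q * u j q with hW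
  have hW0 : ∀ q : ℝ × E, q.2 ∉ closedBall x0 (r / 2) → W q = 0 := fun q hq => by
    simp [hW, hθ0 q hq]
  have hin : ∀ σ ∈ Icc 0 τ, ∀ x ∈ closedBall x0 (r / 2), (s + σ, x) ∈ ball (t0, x0) r :=
    fun σ hσ x hx => mem_ball_pr (ht σ hσ) (closedBall_subset_ball hr2' hx)
  have hWs : ∀ σ ∈ Icc 0 τ, ∀ x, ContDiffAt ℝ ∞ W (s + σ, x) := fun σ hσ x => by
    by_cases hx : x ∈ closedBall x0 (r / 2)
    · exact hθs.contDiffAt.mul (b2 _ (hbO (hin σ hσ x hx)))
    · refine (contDiffAt_const (c := (0 : ℂ))).congr_of_eventuallyEq ?_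
      filter_upwards [continuous_snd.continuousAt.eventually
        (isClosed_closedBall.isOpen_compl.mem_nhds (x := ((s + σ, x) : ℝ × E).2) hx)] with w hw
      exact hW0 w hw
  obtain ⟨B, -, hB⟩ := yx_fin hWs hW0
  choose M hM0 hM using fun pp : Fin m × Fin m => yx_fin (h := Dp e pp.1 (Dp e pp.2 W))
    (fun σ hσ x => contDiffAt_Dv (contDiffAt_Dv (hWs σ hσ x) _) _) (zD (zD hW0 _) _)
  have hMs : ∀ pp, M pp ≤ ∑ pp, M pp := fun pp =>
    Finset.single_le_sum (fun i _ => hM0 i) (Finset.mem_univ pp)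
  have key := hcore τ ⟨hτ1, min_le_left _ _⟩ s A B (∑ pp, M pp)
    (fun p p' q => ηc q * (c p p' j q - c0 p p')) (F j) W hA
    (Finset.sum_nonneg fun i _ => hM0 i) (fun p p' => ?_) b1 hWs (fun x => by simp [hW, hθ])
    hB.sup (fun p p' => yb_mono (hM (p, p')) (hMs _) (hMs _)) (fun σ hσ x => ?_) p1 p2
  rotate_left
  · have := yx_cut (F := fun q => c p p' j q - c0 p p') (hYη' s τ) zero_le_one hKη hε.le hC hη0
      (by linarith : 3 * r / 4 < r) ht (fun q hq => (b6 p p' q hq).sub continuousAt_const)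
      (fun q hq => b4 q (ball_subset_ball hrr1 hq) p p')
      (fun q hq q' hq' hR => by simpa using (b5 p p' q hq).2 q' hq' hR)
    simpa only [one_mul] using this
  · by_cases hx : x ∈ closedBall x0 (r / 2)
    · have hq := hbO (hin σ hσ x hx)
      have e1 : ηc (s + σ, x) = 1 := by
        simp only [hηc]; rw [η.one_of_mem_closedBall hx]; simp
      have e2 := hsym (fun p p' => Dp e p (Dp e p' W) (s + σ, x)) fun p p' =>
        Dv_comm (hWs σ hσ x) _ _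
      have e3 : Dt W (s + σ, x) = Dt θ (s + σ, x) * u j (s + σ, x) +
          θ (s + σ, x) * Dt (u j) (s + σ, x) :=
        Dv_mul (hθs.contDiffAt.differentiableAt (by simp)) ((b2 _ hq).differentiableAt (by simp)) _
      have e4 := fun p p' => Dp2_mul e (hθs.contDiffAt (x := (s + σ, x))) (b2 _ hq) p p'
      rw [← e2, e3, b3 _ hq, ← add_assoc, ← Finset.sum_add_distrib]
      simp only [← Finset.sum_add_distrib, e1, hF]
      have e5 : ∀ p p', c0 p p' * Dp e p (Dp e p' W) (s + σ, x) +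
          1 * (c p p' j (s + σ, x) - c0 p p') * Dp e p (Dp e p' W) (s + σ, x) =
          θ (s + σ, x) * (c p p' j (s + σ, x) * Dp e p (Dp e p' (u j)) (s + σ, x)) -
          ((-Dp e p (Dp e p' θ) (s + σ, x)) * (c p p' j (s + σ, x) * u j (s + σ, x)) +
            (-Dp e p' θ (s + σ, x)) * (c p p' j (s + σ, x) * Dp e p (u j) (s + σ, x)) +
            (-Dp e p θ (s + σ, x)) * (c p p' j (s + σ, x) * Dp e p' (u j) (s + σ, x))) := by
        intro p p'
        rw [hW, e4]; ring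
      simp only [e5, Finset.sum_sub_distrib, ← Finset.mul_sum]
      ring
    · have z1 := fun ξ => zD hW0 ξ (s + σ, x) hx
      have z2 := fun ξ ξ' => zD (zD hW0 ξ) ξ' (s + σ, x) hx
      have z3 := fun ξ => zD hθ0 ξ (s + σ, x) hx
      have z4 := fun ξ ξ' => zD (zD hθ0 ξ) ξ' (s + σ, x) hx
      simp only [hF, Dt, Dp, z1, z2, z3, z4, hθ0 (s + σ, x) hx]
      simp
  · have e5 : ∀ q ∈ ball (t0, x0) (min (r / 4) (τ / 4)), τ / 4 ≤ q.1 - s ∧ q.1 - s ∈ Icc 0 τ ∧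
        Dp e p1 (Dp e p2 (u j)) q = (((q.1 - s)⁻¹ : ℝ) : ℂ) * Dp e p1 (Dp e p2 W) q := by
      intro q hq
      rw [mem_ball, Prod.dist_eq, max_lt_iff, lt_min_iff, lt_min_iff, Real.dist_eq, abs_lt,
        abs_lt] at hq
      obtain ⟨⟨⟨q1, q2⟩, q3, q4⟩, q5, q6⟩ := hq
      simp only at q1 q2 q3 q4 q5 q6
      have q7 : τ / 4 ≤ q.1 - s := by linarith
      refine ⟨q7, ⟨by linarith, by linarith⟩, ?_⟩
      have hqO : q ∈ O := hbO (mem_ball_pr (x := q.2) (t := q.1) (abs_lt.2 ⟨by linarith, by linarith⟩)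
        (mem_ball.2 (by linarith)))
      have hθ1 : θ =ᶠ[𝓝 q] fun w => ((w.1 - s : ℝ) : ℂ) := by
        filter_upwards [continuous_snd.continuousAt.eventually
          (isOpen_ball.mem_nhds (x := q.2) (mem_ball.2 q5))] with w hw
        simp only [hθ]
        rw [χ.one_of_mem_closedBall (ball_subset_closedBall hw)]; simp
      have hD : ∀ p, Dp e p (fun w : ℝ × E => ((w.1 - s : ℝ) : ℂ)) = fun _ => 0 := fun p => by
        funext w
        have h1 : HasFDerivAt (fun w : ℝ × E => ((w.1 - s : ℝ) : ℂ)) _ w :=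
          Complex.ofRealCLM.hasFDerivAt.comp w ((hasFDerivAt_fst (𝕜 := ℝ)).sub_const s)
        simp only [Dp, Dv, h1.fderiv]
        simp
      have hD1 : ∀ p, Dp e p θ =ᶠ[𝓝 q] fun _ => 0 := fun p => by
        rw [← hD p]; exact Dv_congr_ev hθ1 _
      have hD2 : Dp e p1 (Dp e p2 θ) q = 0 := by
        unfold Dp at *
        rw [Dv_congr (hD1 p2), Dv_const]
      rw [hW, Dp2_mul e hθs.contDiffAt (b2 _ hqO), hD2, (hD1 p1).eq_of_nhds, (hD1 p2).eq_of_nhds,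
        hθ1.eq_of_nhds]
      have : ((q.1 - s : ℝ) : ℂ) ≠ 0 := Complex.ofReal_ne_zero.2 (by linarith)
      rw [Complex.ofReal_inv]
      field_simp
      simp
    have n1 : ∀ x : ℝ, τ / 4 ≤ x → ‖((x⁻¹ : ℝ) : ℂ)‖ ≤ 4 / τ := fun x hx => by
      have : 0 < x := by linarith
      rw [Complex.norm_real, Real.norm_eq_abs, abs_of_pos (by positivity), inv_eq_one_div,
        div_le_div_iff₀ this hτ1]
      linarith
    intro q hq
    obtain ⟨f1, f2, f3⟩ := e5 q hq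
    refine ⟨?_, fun q' hq' hR => ?_⟩
    · rw [f3, norm_mul]
      have := key.sup _ f2 q.2
      simp only [add_sub_cancel] at this
      exact mul_le_mul (n1 _ f1) this (norm_nonneg _) (by positivity)
    · obtain ⟨-, -, f4⟩ := e5 q' hq'
      have hR' : q'.1 = q.1 := hR
      rw [f3, f4, hR', ← mul_sub, norm_mul, mul_assoc]
      have := key.hol _ f2 q.2 q'.2
      simp only [add_sub_cancel] at this
      have e6 : q' = (q.1, q'.2) := by rw [← hR']
      have e7 : dist q q' = dist q.2 q'.2 := by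
        conv_lhs => rw [e6]
        exact dist_st q.1 q.2 q'.2
      rw [e7]
      conv_lhs => rw [e6]
      exact mul_le_mul (n1 _ f1) this (norm_nonneg _) (by positivity)

end Crest.Agent.T223.Lm
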