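import Crest.Agent.T223.LmB_19

/-!
# Row 223, module LIMIT (helper19), part C: towers of function classes and the bootstrap
-/

set_option autoImplicit false
set_option linter.unusedSectionVars false
set_option linter.unusedVariables false

open Set Filter Topology Metric
open scoped ContDiff

noncomputable section

namespace Crest.Agent.T223.Lm

open Crest.Agent.N207.P

variable {E : Type} [NormedAddCommGroup E] [NormedSpace ℝ E] {m : ℕ} {ι : Type}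
  {l : Filter ι} {O : Set (ℝ × E)}

/-- an algebra of families of smooth functions on `O` -/
structure Good (l : Filter ι) (O : Set (ℝ × E)) (𝒞 : (ι → ℝ × E → ℂ) → Prop) : Prop where
  sm : ∀ {F}, 𝒞 F → Sm l O F
  add : ∀ {F G}, 𝒞 F → 𝒞 G → 𝒞 fun j q => F j q + G j q
  mul : ∀ {F G}, 𝒞 F → 𝒞 G → 𝒞 fun j q => F j q * G j q
  const : ∀ c : ℂ, 𝒞 fun _ _ => c
  congr : ∀ {F G}, 𝒞 F → (∀ᶠ j in l, ∀ q ∈ O, G j q = F j q) → 𝒞 G

variable {𝒞 : (ι → ℝ × E → ℂ) → Prop} {D : Set (ℝ × E)}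

theorem Good.sum (h : Good l O 𝒞) {κ : Type*} (s : Finset κ) {F : κ → ι → ℝ × E → ℂ}
    (hF : ∀ i ∈ s, 𝒞 (F i)) : 𝒞 fun j q => ∑ i ∈ s, F i j q := by
  classical
  induction s using Finset.induction_on with
  | empty => simpa using h.const 0
  | insert i s hi ih =>
    simp only [Finset.sum_insert hi]
    exact h.add (hF i (Finset.mem_insert_self _ _)) (ih fun j hj => hF j (Finset.mem_insert_of_mem hj))

theorem Good.neg (h : Good l O 𝒞) {F : ι → ℝ × E → ℂ} (hF : 𝒞 F) : 𝒞 fun j q => -F j q :=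
  h.congr (h.mul (h.const (-1)) hF) (Eventually.of_forall fun _ _ _ => by ring)

theorem good_all {κ : Type*} [Nonempty κ] {𝒟 : κ → (ι → ℝ × E → ℂ) → Prop}
    (h : ∀ k, Good l O (𝒟 k)) : Good l O fun F => ∀ k, 𝒟 k F :=
  ⟨fun hF => (h (Classical.arbitrary κ)).sm (hF _), fun hF hG k => (h k).add (hF k) (hG k),
    fun hF hG k => (h k).mul (hF k) (hG k), fun c k => (h k).const c,
    fun hF e k => (h k).congr (hF k) e⟩

theorem ev_O (hO : IsOpen O) {F G : ℝ × E → ℂ} (e : ∀ q ∈ O, G q = F q) {q : ℝ × E} (hq : q ∈ O) :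
    G =ᶠ[𝓝 q] F := Filter.mem_of_superset (hO.mem_nhds hq) e

/-- smooth and locally uniformly Hoelder -/
def C0 (R : ℝ × E → ℝ × E → Prop) (l : Filter ι) (O : Set (ℝ × E)) (F : ι → ℝ × E → ℂ) : Prop :=
  Sm l O F ∧ YB R l O F

theorem good_C0 (hO : IsOpen O) (R : ℝ × E → ℝ × E → Prop) : Good l O (C0 R l O) :=
  ⟨fun h => h.1, fun h h' => ⟨(h.1.and h'.1).mono fun j hj q hq => (hj.1 q hq).add (hj.2 q hq),
      h.2.add h'.2⟩,
    fun h h' => ⟨(h.1.and h'.1).mono fun j hj q hq => (hj.1 q hq).mul (hj.2 q hq), h.2.mul h'.2⟩,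
    fun c => ⟨Eventually.of_forall fun _ _ _ => contDiffAt_const, YB.const c⟩,
    fun h e => ⟨(h.1.and e).mono fun j hj q hq =>
      (hj.1 q hq).congr_of_eventuallyEq (ev_O hO hj.2 hq), h.2.congr hO e⟩⟩

theorem Sm.dv {F : ι → ℝ × E → ℂ} (h : Sm l O F) (ξ : ℝ × E) : Sm l O fun j => Dv ξ (F j) :=
  h.mono fun j hj q hq => contDiffAt_Dv (hj q hq) ξ

/-- all derivatives of order `≤ k` in the directions of `D` are in the class -/
def Tw (𝒞 : (ι → ℝ × E → ℂ) → Prop) (D : Set (ℝ × E)) : ℕ → (ι → ℝ × E → ℂ) → Prop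
  | 0, F => 𝒞 F
  | k + 1, F => 𝒞 F ∧ ∀ ξ ∈ D, Tw 𝒞 D k fun j => Dv ξ (F j)

theorem Tw.base {k : ℕ} {F : ι → ℝ × E → ℂ} (h : Tw 𝒞 D k F) : 𝒞 F := by
  cases k
  · exact h
  · exact h.1

theorem Tw.mono : ∀ {k : ℕ} {F : ι → ℝ × E → ℂ}, Tw 𝒞 D (k + 1) F → Tw 𝒞 D k F
  | 0, _, h => h.1
  | _ + 1, _, h => ⟨h.1, fun ξ hξ => Tw.mono (h.2 ξ hξ)⟩

theorem good_tw (hO : IsOpen O) (h : Good l O 𝒞) (D : Set (ℝ × E)) (k : ℕ) :
    Good l O (Tw 𝒞 D k) := by
  have d := fun {f : ℝ × E → ℂ} {q : ℝ × E} (h : ContDiffAt ℝ ∞ f q) => h.differentiableAt (by simp)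
  induction k with
  | zero => exact h
  | succ k ih =>
    refine ⟨fun hF => h.sm hF.1, fun hF hG => ⟨h.add hF.1 hG.1, fun ξ hξ =>
        ih.congr (ih.add (hF.2 ξ hξ) (hG.2 ξ hξ)) ?_⟩, fun hF hG => ⟨h.mul hF.1 hG.1, fun ξ hξ =>
        ih.congr (ih.add (ih.mul (hF.2 ξ hξ) hG.mono) (ih.mul hF.mono (hG.2 ξ hξ))) ?_⟩,
      fun c => ⟨h.const c, fun ξ hξ => ih.congr (ih.const 0) ?_⟩,
      fun hF e => ⟨h.congr hF.1 e, fun ξ hξ => ih.congr (hF.2 ξ hξ) ?_⟩⟩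
    · filter_upwards [h.sm hF.1, h.sm hG.1] with j h1 h2 q hq
      exact Dv_add (d (h1 q hq)) (d (h2 q hq)) ξ
    · filter_upwards [h.sm hF.1, h.sm hG.1] with j h1 h2 q hq
      exact Dv_mul (d (h1 q hq)) (d (h2 q hq)) ξ
    · exact Eventually.of_forall fun j q _ => Dv_const c q ξ
    · exact e.mono fun j hj q hq => Dv_congr (ev_O hO hj hq) ξ

theorem tw_Dv (hO : IsOpen O) (h : Good l O 𝒞) {η : ℝ × E}
    (hcl : ∀ F, 𝒞 F → 𝒞 fun j => Dv η (F j)) (k : ℕ) :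
    ∀ F, Tw 𝒞 D k F → Tw 𝒞 D k fun j => Dv η (F j) := by
  induction k with
  | zero => exact hcl
  | succ k ih =>
    exact fun F hF => ⟨hcl F hF.1, fun ξ hξ => (good_tw hO h D k).congr (ih _ (hF.2 ξ hξ))
      ((h.sm hF.1).mono fun j hj q hq => Dv_comm (hj q hq) ξ η)⟩

variable {σ : Type} [Fintype σ] [DecidableEq σ]

theorem Dv_inv {G H : ℝ × E → Matrix σ σ ℂ} {q : ℝ × E}
    (hG : ∀ a b, DifferentiableAt ℝ (fun r => G r a b) q)
    (hH : ∀ a b, DifferentiableAt ℝ (fun r => H r a b) q) (e : ∀ᶠ r in 𝓝 q, H r * G r = 1)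
    (ξ : ℝ × E) (a b : σ) : Dv ξ (fun r => H r a b) q =
      -∑ k, (∑ i, H q a i * Dv ξ (fun r => G r i k) q) * H q k b := by
  set X : Matrix σ σ ℂ := Matrix.of fun a b => Dv ξ (fun r => H r a b) q with hX
  set Y : Matrix σ σ ℂ := Matrix.of fun a b => Dv ξ (fun r => G r a b) q with hY
  have h1 : X * G q + H q * Y = 0 := by
    ext a b
    have h2 : (fun r => ∑ k, H r a k * G r k b) =ᶠ[𝓝 q] fun _ => (1 : Matrix σ σ ℂ) a b :=
      e.mono fun r hr => by rw [← hr]; rfl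
    have h3 := Dv_congr h2 ξ
    rw [Dv_const, Dv_sum _ fun k _ => (hH a k).fun_mul (hG k b)] at h3
    simp only [Dv_mul (hH a _) (hG _ b), Finset.sum_add_distrib] at h3
    exact h3
  have h4 : G q * H q = 1 := mul_eq_one_comm.1 e.self_of_nhds
  have h5 : X = -(H q * Y * H q) := by
    calc X = X * G q * H q := by rw [Matrix.mul_assoc, h4, Matrix.mul_one]
      _ = _ := by rw [eq_neg_of_add_eq_zero_left h1, Matrix.neg_mul]
  exact congrFun (congrFun h5 a) b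

theorem tw_inv (hO : IsOpen O) (h : Good l O 𝒞) {g gi : ι → ℝ × E → Matrix σ σ ℂ}
    (e : ∀ᶠ j in l, ∀ q ∈ O, gi j q * g j q = 1) (hi : ∀ a b, 𝒞 fun j q => gi j q a b) (k : ℕ)
    (hg : ∀ a b, Tw 𝒞 D k fun j q => g j q a b) (a b : σ) : Tw 𝒞 D k fun j q => gi j q a b := by
  induction k generalizing a b with
  | zero => exact hi a b
  | succ k ih =>
    have G := good_tw hO h D k
    have ih' := ih fun a b => (hg a b).mono
    refine ⟨hi a b, fun ξ hξ => G.congr (G.neg (G.sum Finset.univ fun c _ => G.mul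
      (G.sum Finset.univ fun i _ => G.mul (ih' a i) ((hg i c).2 ξ hξ)) (ih' c b))) ?_⟩
    filter_upwards [e, eventually_all.2 fun a => eventually_all.2 fun b => h.sm (hi a b),
      eventually_all.2 fun a => eventually_all.2 fun b => h.sm (hg a b).1] with j h1 h2 h3 q hq
    exact Dv_inv (fun a b => (h3 a b q hq).differentiableAt (by simp))
      (fun a b => (h2 a b q hq).differentiableAt (by simp))
      (Filter.mem_of_superset (hO.mem_nhds hq) h1) ξ a b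

/-- the spatial directions -/
def DS (e : E ≃ₗᵢ[ℝ] En m) : Set (ℝ × E) := range fun p => ((0 : ℝ), bv e p)

/-- `C^{k, 1/2}` in space, locally uniformly -/
def PK (e : E ≃ₗᵢ[ℝ] En m) (l : Filter ι) (O : Set (ℝ × E)) (k : ℕ) : (ι → ℝ × E → ℂ) → Prop :=
  Tw (C0 ST l O) (DS e) k

theorem pk_succ (e : E ≃ₗᵢ[ℝ] En m) {k : ℕ} {F : ι → ℝ × E → ℂ} :
    PK e l O (k + 1) F ↔ C0 ST l O F ∧ ∀ p, PK e l O k fun j => Dp e p (F j) :=
  and_congr_right' forall_mem_range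

/-- ellipticity -/
def Ell (l : Filter ι) (O : Set (ℝ × E)) (c : Fin m → Fin m → ι → ℝ × E → ℂ) : Prop :=
  ∀ q0 ∈ O, ∃ (a0 : Matrix (Fin m) (Fin m) ℝ) (c0 : Fin m → Fin m → ℂ), a0.PosDef ∧
    (∀ S : Fin m → Fin m → ℂ, (∀ p q, S p q = S q p) →
      ∑ p, ∑ q, c0 p q * S p q = ∑ p, ∑ q, (a0 p q : ℂ) * S p q) ∧
    ∀ δ : ℝ, 0 < δ → ∃ r : ℝ, 0 < r ∧ ∀ᶠ j in l, ∀ q ∈ ball q0 r, ∀ p p',
      ‖c p p' j q - c0 p p'‖ ≤ δ

/-- interior Schauder estimates of all orders -/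
theorem linqk [FiniteDimensional ℝ E] (e : E ≃ₗᵢ[ℝ] En m) (hO : IsOpen O)
    {c : Fin m → Fin m → ι → ℝ × E → ℂ} (ell : Ell l O c) (k : ℕ)
    (hc : ∀ p q, PK e l O k (c p q)) : ∀ u f : ι → ℝ × E → ℂ, PK e l O k f → PK e l O (k + 1) u →
    (∀ᶠ j in l, ∀ q ∈ O,
      Dt (u j) q = ∑ p, ∑ p', c p p' j q * Dp e p (Dp e p' (u j)) q + f j q) →
    PK e l O (k + 2) u := by
  induction k with
  | zero =>
    intro u f hf hu he
    obtain ⟨h0, h1⟩ := (pk_succ e).1 hu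
    refine (pk_succ e).2 ⟨h0, fun p => (pk_succ e).2 ⟨h1 p, fun p' => ⟨(h0.1.dv _).dv _, ?_⟩⟩⟩
    exact linq e hO h0.1 hf.1 (fun p q => (hc p q).1) h0.2 (fun p => (h1 p).2) hf.2
      (fun p q => (hc p q).2) ell he p' p
  | succ k ih =>
    intro u f hf hu he
    obtain ⟨h0, h1⟩ := (pk_succ e).1 hu
    have G : Good l O (PK e l O k) := good_tw hO (good_C0 hO ST) _ k
    refine (pk_succ e).2 ⟨h0, fun r => ih (fun p q => (hc p q).mono) _
      (fun j q => ∑ p, ∑ p', Dp e r (c p p' j) q * Dp e p (Dp e p' (u j)) q + Dp e r (f j) q)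
      (G.add (G.sum _ fun p _ => G.sum _ fun p' _ => G.mul (((pk_succ e).1 (hc p p')).2 r)
        (((pk_succ e).1 (h1 p')).2 p)) (((pk_succ e).1 hf).2 r)) (h1 r) ?_⟩
    filter_upwards [he, h0.1, hf.1.1,
      eventually_all.2 fun p => eventually_all.2 fun p' => (hc p p').1.1] with j a1 a2 a3 a4 q hq
    have d := fun {f : ℝ × E → ℂ} (h : ContDiffAt ℝ ∞ f q) => h.differentiableAt (by simp)
    have s2 : ∀ p p', ContDiffAt ℝ ∞ (Dp e p (Dp e p' (u j))) q := fun p p' =>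
      contDiffAt_Dv (contDiffAt_Dv (a2 q hq) _) _
    have e1 : ∀ p p', Dp e r (Dp e p (Dp e p' (u j))) q = Dp e p (Dp e p' (Dp e r (u j))) q := by
      intro p p'
      unfold Dp
      rw [Dv_comm (contDiffAt_Dv (a2 q hq) _)]
      exact Dv_congr (ev_O hO (fun w hw => Dv_comm (a2 w hw) _ _) hq) _
    have e2 : Dt (Dp e r (u j)) q = Dp e r (Dt (u j)) q := Dv_comm (a2 q hq) _ _
    rw [e2]
    unfold Dp at *
    rw [Dv_congr (ev_O hO a1 hq), Dv_add (d (ContDiffAt.sum fun p _ => ContDiffAt.sum fun p' _ =>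
      (a4 p p' q hq).mul (s2 p p'))) (d (a3 q hq)), Dv_sum _ fun p _ => d (ContDiffAt.sum fun p' _ =>
      (a4 p p' q hq).mul (s2 p p')), ← add_assoc, ← Finset.sum_add_distrib]
    congr 1
    refine Finset.sum_congr rfl fun p _ => ?_
    rw [Dv_sum _ fun p' _ => d ((a4 p p' q hq).mul (s2 p p')), ← Finset.sum_add_distrib]
    refine Finset.sum_congr rfl fun p' _ => ?_
    rw [Dv_mul (d (a4 p p' q hq)) (d (s2 p p')), e1, add_comm]

theorem sum_bv (e : E ≃ₗᵢ[ℝ] En m) (x : E) : x = ∑ p, e x p • bv e p := by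
  apply e.injective
  simp only [map_sum, map_smul, bv, e.apply_symm_apply]
  ext i
  simp [Finset.sum_apply, Pi.single_apply]

theorem norm_le_dir (e : E ≃ₗᵢ[ℝ] En m) (L : ℝ × E →L[ℝ] ℂ) :
    ‖L‖ ≤ ‖L (1, 0)‖ + ∑ p, ‖L (0, bv e p)‖ := by
  refine L.opNorm_le_bound (by positivity) fun ξ => ?_
  have h1 : ξ = ξ.1 • ((1 : ℝ), (0 : E)) + ∑ p, e ξ.2 p • ((0 : ℝ), bv e p) := by
    ext
    · simp [Prod.fst_sum]
    · simpa [Prod.snd_sum] using sum_bv e ξ.2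
  have h2 : ∀ p, ‖e ξ.2 p‖ ≤ ‖ξ‖ := fun p =>
    (PiLp.norm_apply_le _ p).trans ((e.norm_map _).le.trans (norm_snd_le ξ))
  conv_lhs => rw [h1]
  rw [map_add, map_sum, add_mul, Finset.sum_mul]
  refine (norm_add_le _ _).trans (add_le_add ?_ ((norm_sum_le _ _).trans
    (Finset.sum_le_sum fun p _ => ?_)))
  · rw [map_smul, norm_smul, mul_comm]
    exact mul_le_mul_of_nonneg_left (norm_fst_le ξ) (norm_nonneg _)
  · rw [map_smul, norm_smul, mul_comm]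
    exact mul_le_mul_of_nonneg_left (h2 p) (norm_nonneg _)

/-- no Hoelder condition -/
def NR (q q' : ℝ × E) : Prop := False

/-- all pairs -/
def AR (q q' : ℝ × E) : Prop := True

theorem yb_of_deriv (e : E ≃ₗᵢ[ℝ] En m) (hO : IsOpen O) {F : ι → ℝ × E → ℂ} (h : C0 NR l O F)
    (ht : YB NR l O fun j => Dt (F j)) (hp : ∀ p, YB NR l O fun j => Dp e p (F j)) :
    YB AR l O F := fun q0 hq0 => by
  obtain ⟨ρ, hρ, hb⟩ := Metric.isOpen_iff.1 hO q0 hq0
  obtain ⟨⟨r, C⟩, ⟨⟨⟨y1, y2⟩, y3⟩, hr, hC⟩, hrρ⟩ := (((((h.2.ev hq0).and (ht.ev hq0)).and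
    (eventually_all.2 fun p => (hp p).ev hq0)).and ev_pos).and
    (tendsto_fst.eventually (Ioo_mem_nhdsGT hρ))).exists
  simp only at y1 y2 y3 hr hC hrρ
  have hs : ball q0 r ⊆ O := (ball_subset_ball hrρ.2.le).trans hb
  have hm : 0 ≤ (m : ℝ) * C := by positivity
  refine ⟨r, 2 * C + (C + m * C), hr, by positivity, ?_⟩
  filter_upwards [h.1, y1, y2, eventually_all.2 y3] with j a0 a1 a2 a3 q hq
  refine ⟨by linarith [(a1 q hq).1], fun q' hq' _ => ?_⟩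
  have := (convex_ball q0 r).norm_image_sub_le_of_norm_fderiv_le (𝕜 := ℝ) (f := F j)
    (C := C + m * C) (fun z hz => (a0 z (hs hz)).differentiableAt (by simp)) (fun z hz => ?_) hq' hq
  · exact le_sqrt_of_min hC (by positivity) dist_nonneg
      ((norm_sub_le _ _).trans (by linarith [(a1 q hq).1, (a1 q' hq').1])) (by rwa [dist_eq_norm])
  · refine (norm_le_dir e _).trans (add_le_add (a2 z hz).1 ?_)
    calc _ ≤ ∑ _p : Fin m, C := Finset.sum_le_sum fun p _ => (a3 p z hz).1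
      _ = _ := by simp

theorem jets (e : E ≃ₗᵢ[ℝ] En m) (hO : IsOpen O) (h0 : ∀ F, 𝒞 F → C0 NR l O F)
    (ht : ∀ F, 𝒞 F → 𝒞 fun j => Dt (F j)) (hp : ∀ p F, 𝒞 F → 𝒞 fun j => Dp e p (F j)) (N : ℕ) :
    ∀ F, 𝒞 F → ∀ q0 ∈ O, ∃ C : ℝ, ∀ᶠ rj : ℝ × ι in (𝓝[>] (0 : ℝ)) ×ˢ l, ∀ q ∈ ball q0 rj.1,
      ‖iteratedFDeriv ℝ N (F rj.2) q‖ ≤ C := by
  induction N with
  | zero =>
    intro F hF q0 hq0
    obtain ⟨r, C, hr, hC, hj⟩ := (h0 F hF).2 q0 hq0
    refine ⟨C, ?_⟩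
    filter_upwards [tendsto_fst.eventually (Ioo_mem_nhdsGT hr), tendsto_snd.eventually hj]
      with rj h1 h2 q hq
    rw [norm_iteratedFDeriv_zero]
    exact (h2 q (ball_subset_ball h1.2.le hq)).1
  | succ N ih =>
    intro F hF q0 hq0
    obtain ⟨ρ, hρ, hb⟩ := Metric.isOpen_iff.1 hO q0 hq0
    obtain ⟨C, hC⟩ := ih _ (ht F hF) q0 hq0
    choose C' hC' using fun p => ih _ (hp p F hF) q0 hq0
    refine ⟨C + ∑ p, C' p, ?_⟩
    filter_upwards [tendsto_fst.eventually (Ioo_mem_nhdsGT hρ), tendsto_snd.eventually (h0 F hF).1,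
      hC, eventually_all.2 hC'] with rj h1 h2 h3 h4 q hq
    have h5 : ContDiffAt ℝ ∞ (fderiv ℝ (F rj.2)) q :=
      (h2 q (hb (ball_subset_ball h1.2.le hq))).fderiv_right (by simp)
    have h6 : ∀ ξ (v : Fin N → ℝ × E), iteratedFDeriv ℝ N (fderiv ℝ (F rj.2)) q v ξ =
        iteratedFDeriv ℝ N (Dv ξ (F rj.2)) q v := fun ξ v => by
      have := (ContinuousLinearMap.apply ℝ ℂ ξ).iteratedFDeriv_comp_left h5 (i := N)
        (by exact_mod_cast le_top)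
      exact (congrArg (fun M => M v) this).symm
    have h7 : 0 ≤ C := (norm_nonneg _).trans (h3 q hq)
    have h8 : ∀ p, 0 ≤ C' p := fun p => (norm_nonneg _).trans (h4 p q hq)
    rw [← norm_iteratedFDeriv_fderiv]
    refine ContinuousMultilinearMap.opNorm_le_bound
      (add_nonneg h7 (Finset.sum_nonneg fun p _ => h8 p)) fun v => ?_
    refine (norm_le_dir e _).trans ?_
    rw [add_mul, Finset.sum_mul]
    simp only [h6]
    exact add_le_add (ContinuousMultilinearMap.le_of_opNorm_le (h3 q hq) v)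
      (Finset.sum_le_sum fun p _ => ContinuousMultilinearMap.le_of_opNorm_le (h4 p q hq) v)

/-- **the bootstrap** for a quasilinear parabolic system whose coefficients are polynomials in
`g⁻¹` and `D g` -/
theorem boot [FiniteDimensional ℝ E] (e : E ≃ₗᵢ[ℝ] En m) (hO : IsOpen O)
    {g gi : ι → ℝ × E → Matrix σ σ ℂ} {c : Fin m → Fin m → ι → ℝ × E → ℂ}
    {f : σ → σ → ι → ℝ × E → ℂ} (hinv : ∀ᶠ j in l, ∀ q ∈ O, gi j q * g j q = 1)
    (bg : ∀ a b, C0 NR l O fun j q => g j q a b) (bi : ∀ a b, C0 NR l O fun j q => gi j q a b)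
    (bt : ∀ a b, YB NR l O fun j => Dt fun q => g j q a b)
    (b1 : ∀ a b p, YB ST l O fun j => Dp e p fun q => g j q a b)
    (hc : ∀ 𝒞, Good l O 𝒞 → (∀ a b, 𝒞 fun j q => gi j q a b) → ∀ p q, 𝒞 (c p q))
    (hf : ∀ 𝒞, Good l O 𝒞 → (∀ a b, 𝒞 fun j q => gi j q a b) →
      (∀ a b p, 𝒞 fun j => Dp e p fun q => g j q a b) → ∀ a b, 𝒞 (f a b))
    (ell : ∀ q0 ∈ O, ∃ (a0 : Matrix (Fin m) (Fin m) ℝ) (c0 : Fin m → Fin m → ℂ), a0.PosDef ∧
      (∀ S : Fin m → Fin m → ℂ, (∀ p q, S p q = S q p) →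
        ∑ p, ∑ q, c0 p q * S p q = ∑ p, ∑ q, (a0 p q : ℂ) * S p q) ∧
      ∀ p p', Tendsto (fun j => c p p' j q0) l (𝓝 (c0 p p')))
    (he : ∀ a b, ∀ᶠ j in l, ∀ q ∈ O, Dt (fun q => g j q a b) q =
      ∑ p, ∑ p', c p p' j q * Dp e p (Dp e p' fun q => g j q a b) q + f a b j q)
    {Q : Set (ℝ × E)} (hQ : IsCompact Q) (hQO : Q ⊆ O) (a b : σ) (N : ℕ) :
    ∃ C : ℝ, ∀ᶠ j in l, ∀ q ∈ Q, ‖iteratedFDeriv ℝ N (fun q => g j q a b) q‖ ≤ C := by
  have w1 : ∀ {F : ι → ℝ × E → ℂ} {R}, YB R l O F → YB NR l O F := fun h =>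
    h.weaken fun _ _ h => h.elim
  have w2 : ∀ {F : ι → ℝ × E → ℂ}, YB AR l O F → YB ST l O F := fun h =>
    h.weaken fun _ _ _ => trivial
  have t1 : ∀ a b, Tw (C0 NR l O) (insert (1, 0) (DS e)) 1 fun j q => g j q a b := fun a b =>
    ⟨bg a b, forall_mem_insert.2 ⟨⟨(bg a b).1.dv _, bt a b⟩,
      forall_mem_range.2 fun p => ⟨(bg a b).1.dv _, w1 (b1 a b p)⟩⟩⟩
  have lip : ∀ {F : ι → ℝ × E → ℂ}, Tw (C0 NR l O) (insert (1, 0) (DS e)) 1 F → C0 AR l O F :=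
    fun h => ⟨h.1.1, yb_of_deriv e hO h.1 (h.2 _ (mem_insert _ _)).2
      fun p => (h.2 _ (mem_insert_of_mem _ (mem_range_self p))).2⟩
  have lg := fun a b => lip (t1 a b)
  have li := fun a b => lip (tw_inv hO (good_C0 hO NR) hinv bi 1 t1 a b)
  have lc := hc _ (good_C0 hO AR) li
  have ell' : Ell l O c := fun q0 hq0 => by
    obtain ⟨a0, c0, h1, h2, h3⟩ := ell q0 hq0
    refine ⟨a0, c0, h1, h2, fun δ hδ => ?_⟩
    obtain ⟨⟨r, C⟩, y, hr, hC⟩ := ((eventually_all.2 fun p => eventually_all.2 fun p' =>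
      (lc p p').2.ev hq0).and ev_pos).exists
    simp only at y hr hC
    refine ⟨min r ((δ / 2 / (C + 1)) ^ 2), by positivity, ?_⟩
    filter_upwards [eventually_all.2 fun p => eventually_all.2 fun p' => y p p',
      eventually_all.2 fun p => eventually_all.2 fun p' =>
        Metric.tendsto_nhds.1 (h3 p p') (δ / 2) (by positivity)] with j a1 a2 q hq p p'
    have a3 := (a1 p p' q (ball_subset_ball (min_le_left _ _) hq)).2 q0 (mem_ball_self hr) trivial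
    have a4 : √(dist q q0) ≤ δ / 2 / (C + 1) :=
      Real.sqrt_le_iff.2 ⟨by positivity, ((mem_ball.1 hq).trans_le (min_le_right _ _)).le⟩
    have a5 : C * √(dist q q0) ≤ δ / 2 := by
      rw [le_div_iff₀ (by positivity)] at a4
      nlinarith [Real.sqrt_nonneg (dist q q0)]
    have a6 := a2 p p'
    rw [dist_eq_norm] at a6
    linarith [norm_sub_le_norm_sub_add_norm_sub (c p p' j q) (c p p' j q0) (c0 p p')]
  have i0 : ∀ a b, C0 ST l O fun j q => gi j q a b := fun a b => ⟨(li a b).1, w2 (li a b).2⟩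
  have GP : ∀ k, Good l O (PK e l O k) := good_tw hO (good_C0 hO ST) _
  have s1 : ∀ k a b, PK e l O (k + 1) fun j q => g j q a b := by
    intro k
    induction k with
    | zero => exact fun a b => (pk_succ e).2 ⟨⟨(lg a b).1, w2 (lg a b).2⟩,
        fun p => ⟨(bg a b).1.dv _, b1 a b p⟩⟩
    | succ k ih =>
      have hi := tw_inv hO (good_C0 hO ST) hinv i0 k fun a b => (ih a b).mono
      exact fun a b => linqk e hO ell' k (hc _ (GP k) hi) _ _
        (hf _ (GP k) hi (fun a b => ((pk_succ e).1 (ih a b)).2) a b) (ih a b) (he a b)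
  have G2 := good_all GP
  have c2 : ∀ p F, (∀ k, PK e l O k F) → ∀ k, PK e l O k fun j => Dp e p (F j) :=
    fun p F h k => ((pk_succ e).1 (h (k + 1))).2 p
  have i2 : ∀ a b k, PK e l O k fun j q => gi j q a b := fun a b k =>
    tw_inv hO (good_C0 hO ST) hinv i0 k (fun a b => (s1 k a b).mono) a b
  have s2 : ∀ k a b, Tw (fun F => ∀ k, PK e l O k F) {(1, 0)} k fun j q => g j q a b := by
    intro k
    induction k with
    | zero => exact fun a b k => (s1 k a b).mono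
    | succ k ih =>
      have G := good_tw hO G2 {(1, 0)} k
      have hi := tw_inv hO G2 hinv i2 k ih
      have hd := fun p => tw_Dv (D := {(1, 0)}) hO G2 (c2 p) k
      refine fun a b => ⟨(ih a b).base, fun ξ hξ => ?_⟩
      rw [mem_singleton_iff.1 hξ]
      exact G.congr (G.add (G.sum _ fun p _ => G.sum _ fun p' _ => G.mul (hc _ G hi p p')
        (hd p _ (hd p' _ (ih a b)))) (hf _ G hi (fun a b p => hd p _ (ih a b)) a b)) (he a b)
  have key := jets (𝒞 := fun F => ∀ k, Tw (fun F => ∀ k, PK e l O k F) {(1, 0)} k F) e hO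
    (fun F h => ⟨(h 0 0).1, w1 (h 0 0).2⟩) (fun F h k => (h (k + 1)).2 _ rfl)
    (fun p F h k => tw_Dv hO G2 (c2 p) k F (h k)) N _ fun k => s2 k a b
  refine hQ.induction_on (p := fun S => ∃ C : ℝ, ∀ᶠ j in l, ∀ q ∈ S,
    ‖iteratedFDeriv ℝ N (fun q => g j q a b) q‖ ≤ C) ⟨0, by simp⟩ ?_ ?_ ?_
  · rintro S T hST ⟨C, hC⟩
    exact ⟨C, hC.mono fun j hj q hq => hj q (hST hq)⟩
  · rintro S T ⟨C, hC⟩ ⟨C', hC'⟩
    exact ⟨max C C', (hC.and hC').mono fun j hj q hq => hq.elim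
      (fun h => (hj.1 q h).trans (le_max_left _ _)) fun h => (hj.2 q h).trans (le_max_right _ _)⟩
  · intro q0 hq0
    obtain ⟨C, hC⟩ := key q0 (hQO hq0)
    obtain ⟨r, h1, h2⟩ := (hC.curry.and self_mem_nhdsWithin).exists
    exact ⟨ball q0 r, mem_nhdsWithin_of_mem_nhds (ball_mem_nhds _ h2), C, h1⟩

end Crest.Agent.T223.Lm
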