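import Crest.Agent.T223.LmC_19
import Crest.Agent.T223.Gr5_44
import Crest.Agent.T223.TrRic_90
import Crest.Agent.T223.LmAsA_23
import Crest.Agent.T223.FrB_38

/-!
# Row 223, module LIMIT (helper19), part D: `regStmt`
-/

set_option autoImplicit false
set_option linter.unusedSectionVars false
set_option linter.unusedVariables false

open Set Filter Topology Metric
open scoped ContDiff ComplexConjugate Matrix ComplexOrder

noncomputable section

namespace Crest.Agent.T223.Lm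

open Crest.Agent.N207.P Crest.Agent.N207.Jt
open Crest.Agent.R275.Geo Crest.Agent.R275.EDR890 Crest.Agent.R273.Hess_333
open Crest.Agent.T223.Br Crest.Agent.T223.Tr

variable {n m : ℕ} (e : Cn n ≃ₗᵢ[ℝ] En m)

/-- Wirtinger components of the real coordinates -/
def al (s : WI n) (p : Fin m) : ℂ :=
  1 / 2 * ((e (EuclideanSpace.single s.2 1) p : ℝ) + cI s.1 * (e (EuclideanSpace.single s.2 Complex.I) p : ℝ))

theorem wdL_eq (s : WI n) (L : Cn n →L[ℝ] ℂ) : wdL s L = ∑ p, al e s p * L (bv e p) := by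
  have h : ∀ v, L v = ∑ p, ((e v p : ℝ) : ℂ) * L (bv e p) := fun v => by
    conv_lhs => rw [sum_bv e v]
    simp only [map_sum, map_smul, Complex.real_smul]
  rw [wdL, h, h (EuclideanSpace.single s.2 Complex.I)]
  simp only [smul_eq_mul, Finset.mul_sum, ← Finset.sum_add_distrib, al]
  exact Finset.sum_congr rfl fun p _ => by ring

theorem al_conj (k : Fin n) (p : Fin m) : al e (true, k) p = conj (al e (false, k) p) := by
  simp [al, map_ofNat (starRingEnd ℂ) 2]

theorem fderiv_slice {F : ℝ × Cn n → ℂ} {t : ℝ} {z : Cn n} (h : DifferentiableAt ℝ F (t, z))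
    (p : Fin m) : fderiv ℝ (fun y => F (t, y)) z (bv e p) = Dp e p F (t, z) := by
  rw [(hasFDerivAt_slice h).fderiv]; rfl

theorem wd_slice {F : ℝ × Cn n → ℂ} {t : ℝ} {z : Cn n} (h : DifferentiableAt ℝ F (t, z))
    (s : WI n) : wd s (fun y => F (t, y)) z = ∑ p, al e s p * Dp e p F (t, z) := by
  simp only [wd, wdL_eq e, fderiv_slice e h]

theorem wd2_slice {F : ℝ × Cn n → ℂ} {t : ℝ} {z : Cn n} (h : ContDiffAt ℝ ∞ F (t, z))
    (r s : WI n) : wd r (wd s fun y => F (t, y)) z =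
      ∑ p, ∑ p', al e r p * al e s p' * Dp e p (Dp e p' F) (t, z) := by
  have h1 : (wd s fun y => F (t, y)) =ᶠ[𝓝 z] fun y => ∑ p, al e s p * Dp e p F (t, y) := by
    filter_upwards [(Continuous.prodMk_right t).continuousAt.eventually (ev_diff h)] with y hy
    exact wd_slice e hy s
  have h2 : ∀ p, DifferentiableAt ℝ (Dp e p F) (t, z) := fun p =>
    (contDiffAt_Dv h _).differentiableAt (by simp)
  have h3 : ∀ p, DifferentiableAt ℝ (fun y => Dp e p F (t, y)) z := fun p =>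
    (hasFDerivAt_slice (h2 p)).differentiableAt
  rw [wd_congr h1, wd_sum _ fun p _ => (h3 p).const_mul _, Finset.sum_comm]
  refine Finset.sum_congr rfl fun p' _ => ?_
  have := wd_const_smul (al e s p') (h3 p') r
  simp only [smul_eq_mul] at this
  rw [this, wd_slice e (h2 p'), Finset.mul_sum]
  exact Finset.sum_congr rfl fun p _ => by ring

/-- the real coefficient matrix of `g^{k l̄} ∂_k ∂_{l̄}` -/
def co (H : Mat n) (p p' : Fin m) : ℂ := ∑ k, ∑ i, al e (false, k) p * al e (true, i) p' * H i k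

theorem co_sum (H : Mat n) (S : Fin m → Fin m → ℂ) : ∑ p, ∑ p', co e H p p' * S p p' =
    ∑ i, ∑ k, H i k * ∑ p, ∑ p', al e (false, k) p * al e (true, i) p' * S p p' := by
  simp only [co, Finset.mul_sum, Finset.sum_mul, ← Fintype.sum_prod_type']
  exact Fintype.sum_equiv ⟨fun x => (x.2.2.2, x.2.2.1, x.1, x.2.1),
    fun x => (x.2.2.1, x.2.2.2, x.2.1, x.1), fun _ => rfl, fun _ => rfl⟩ _ _ fun x => by
      simp only [Equiv.coe_fn_mk]; ring

theorem co_conj {H : Mat n} (h : H.IsHermitian) (p p' : Fin m) : co e H p' p = conj (co e H p p') := by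
  simp only [co, map_sum, map_mul, al_conj, Complex.conj_conj]
  rw [Finset.sum_comm]
  refine Finset.sum_congr rfl fun k _ => Finset.sum_congr rfl fun i _ => ?_
  rw [← h.apply k i]
  simp only [Complex.star_def]
  ring

theorem co_sym {H : Mat n} (h : H.IsHermitian) (S : Fin m → Fin m → ℂ) (hS : ∀ p q, S p q = S q p) :
    ∑ p, ∑ q, co e H p q * S p q = ∑ p, ∑ q, ((co e H p q).re : ℂ) * S p q := by
  have h1 : ∑ p, ∑ q, co e H p q * S p q = ∑ p, ∑ q, conj (co e H p q) * S p q := by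
    rw [Finset.sum_comm]
    exact Finset.sum_congr rfl fun p _ => Finset.sum_congr rfl fun q _ => by
      rw [co_conj e h p q, hS]
  have h2 : ∑ p, ∑ q, ((co e H p q).re : ℂ) * S p q =
      (∑ p, ∑ q, co e H p q * S p q + ∑ p, ∑ q, conj (co e H p q) * S p q) / 2 := by
    simp only [← Finset.sum_add_distrib, Finset.sum_div]
    exact Finset.sum_congr rfl fun p _ => Finset.sum_congr rfl fun q _ => by
      rw [Complex.re_eq_add_conj]; ring
  rw [h2, ← h1]; ring

theorem co_pos {H : Mat n} (h : H.PosDef) : (Matrix.of fun p q => (co e H p q).re).PosDef := by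
  refine Matrix.PosDef.of_dotProduct_mulVec_pos ?_ fun x hx => ?_
  · ext p q
    simp [co_conj e h.1 p q]
  · set y : Fin n → ℂ := fun k => ∑ p, al e (false, k) p * x p with hy
    have h1 : y ≠ 0 := by
      intro h0
      apply hx
      set L : Cn n →L[ℝ] ℂ := Complex.ofRealCLM.comp ((innerSL ℝ (WithLp.toLp 2 x : En m)).comp
        (e.toContinuousLinearEquiv : Cn n →L[ℝ] En m)) with hL
      have h2 : ∀ p, L (bv e p) = x p := fun p => by simp [hL, bv, EuclideanSpace.inner_single_right]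
      have h3 : ∀ s, wdL s L = 0 := by
        rintro ⟨b, k⟩
        have h4 := congrFun h0 k
        simp only [wdL_eq e, h2]
        cases b
        · exact h4
        · simpa [hy, al_conj] using congrArg conj h4
      funext p
      have h5 := h2 p
      rw [R275.EDR890.apply_eq_sum] at h5
      simpa [h3] using h5.symm
    have h6 := (Complex.lt_def.1 (h.dotProduct_mulVec_pos h1)).1
    refine h6.trans_eq ?_
    have h7 : star y ⬝ᵥ H *ᵥ y = ∑ p, ∑ q, co e H p q * ((x p * x q : ℝ) : ℂ) := by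
      rw [co_sum]
      simp only [dotProduct, Matrix.mulVec, Pi.star_apply]
      refine Finset.sum_congr rfl fun i _ => ?_
      rw [Finset.mul_sum]
      refine Finset.sum_congr rfl fun k _ => ?_
      rw [mul_left_comm, mul_comm (star _)]
      simp [hy, Finset.sum_mul_sum, al_conj, mul_mul_mul_comm]
    rw [h7]
    simp only [Complex.re_sum, Complex.re_mul_ofReal, dotProduct, Matrix.mulVec, Matrix.of_apply,
      star_trivial, Finset.mul_sum]
    exact Finset.sum_congr rfl fun p _ => Finset.sum_congr rfl fun q _ => by ring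

/-- the flow as a parabolic system -/
theorem krf_eq {g : ℝ → Cn n → Mat n} {t : ℝ} {z : Cn n} (h : KRFat g t z) (a b : Fin n) :
    Dt (fun q : ℝ × Cn n => g q.1 q.2 a b) (t, z) =
      ∑ p, ∑ p', co e (g t z)⁻¹ p p' * Dp e p (Dp e p' fun q : ℝ × Cn n => g q.1 q.2 a b) (t, z) +
        -∑ i, ∑ k, (g t z)⁻¹ i k * ∑ u, (∑ v,
          (∑ p, al e (false, a) p * Dp e p (fun q : ℝ × Cn n => g q.1 q.2 k v) (t, z)) *
            (g t z)⁻¹ v u) *
          ∑ p, al e (true, b) p * Dp e p (fun q : ℝ × Cn n => g q.1 q.2 u i) (t, z) := by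
  have K := h.kahAt
  have d := fun a b => (h.sm a b).differentiableAt (by simp)
  have h1 := (hasDerivAt_time (d a b)).unique (h.flow.self_of_nhds a b)
  have h2 : hess (ldet (g t)) z a b = -ric (g t) z a b := by simp [ric]
  have h3 : ∀ k i, wd (false, a) (wd (true, b) fun y => g t y k i) z =
      wd (false, k) (wd (true, i) fun y => g t y a b) z := fun k i => by
    rw [wd_congr (K.closed'.mono fun w hw => hw k i b), wd_comm (K.sm k b),
      wd_congr (K.closed.mono fun w hw => hw k b a), wd_comm (K.sm a b)]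
  have h4 : ∀ k i, wdM (false, a) (wdM (true, b) (g t)) z k i = ∑ p, ∑ p', al e (false, k) p *
      al e (true, i) p' * Dp e p (Dp e p' fun q : ℝ × Cn n => g q.1 q.2 a b) (t, z) := fun k i =>
    (h3 k i).trans (wd2_slice e (h.sm a b) _ _)
  have h5 : ∀ s k i, wdM s (g t) z k i =
      ∑ p, al e s p * Dp e p (fun q : ℝ × Cn n => g q.1 q.2 k i) (t, z) := fun s k i =>
    wd_slice e (d k i) s
  rw [h1, h2, ric_eq_trace K.smE K.pos, Rm, Matrix.mul_add, Matrix.trace_add, neg_add,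
    Matrix.mul_neg, Matrix.trace_neg, neg_neg]
  simp only [Matrix.trace, Matrix.diag_apply, Matrix.mul_apply, h4, h5, co_sum]

theorem hb_of {g : Cn n → Mat n} {z0 : Cn n} {c C r : ℝ} (hc : 0 < c)
    (h1 : ∀ z ∈ ball z0 r, ∀ a b, ContDiffAt ℝ ∞ (fun w => g w a b) z)
    (h2 : ∀ z ∈ ball z0 r, (g z).IsHermitian)
    (h3 : ∀ z ∈ ball z0 r, ∀ v, c * ‖v‖ ^ 2 ≤ nq (g z) v ∧ nq (g z) v ≤ C * ‖v‖ ^ 2)
    (h4 : ∀ z ∈ ball z0 r, ∀ v w, |bis g z v w| ≤ C * ‖v‖ ^ 2 * ‖w‖ ^ 2) :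
    Gr.HB g z0 r (1 / c + |C|) (|C| / c ^ 2) where
  sm := fun a b z hz => (h1 z hz a b).contDiffWithinAt
  herm := h2
  lo := fun z hz v => by
    have h5 := (h3 z hz v).1
    have h6 : 0 ≤ nq (g z) v := le_trans (by positivity) h5
    have h7 : ‖v‖ ^ 2 ≤ 1 / c * nq (g z) v := by
      rw [one_div, ← div_eq_inv_mul, le_div_iff₀ hc]; linarith
    nlinarith [abs_nonneg C]
  hi := fun z hz v => by
    have h5 := (h3 z hz v).2
    have h6 : C ≤ 1 / c + |C| := by linarith [le_abs_self C, one_div_pos.2 hc]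
    nlinarith [sq_nonneg ‖v‖]
  cur := fun z hz v w => by
    have h5 := (h3 z hz v).1
    have h6 := (h3 z hz w).1
    have h7 : 0 ≤ nq (g z) v := le_trans (by positivity) h5
    refine (h4 z hz v w).trans ?_
    calc C * ‖v‖ ^ 2 * ‖w‖ ^ 2 ≤ |C| * ‖v‖ ^ 2 * ‖w‖ ^ 2 := by gcongr; exact le_abs_self C
      _ = |C| / c ^ 2 * (c * ‖v‖ ^ 2) * (c * ‖w‖ ^ 2) := by field_simp
      _ ≤ _ := by gcongr
  Λ_pos := by positivity
  K_nonneg := by positivity

theorem yb_nr {E ι : Type} [NormedAddCommGroup E] [NormedSpace ℝ E] {l : Filter ι}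
    {O : Set (ℝ × E)} (hO : IsOpen O) {F : ι → ℝ × E → ℂ} {C : ℝ}
    (h : ∀ᶠ j in l, ∀ q ∈ O, ‖F j q‖ ≤ C) : YB NR l O F := fun q0 hq0 => by
  obtain ⟨r, hr, hb⟩ := Metric.isOpen_iff.1 hO q0 hq0
  exact ⟨r, |C|, hr, abs_nonneg C, h.mono fun j hj q hq =>
    ⟨(hj q (hb hq)).trans (le_abs_self C), fun _ _ h => h.elim⟩⟩

theorem regStmt (n : ℕ) : RegStmt n := by
  intro ι 𝒰 g O c C hO hc H Q hQ hQO a b
  set e : Cn n ≃ₗᵢ[ℝ] En (Module.finrank ℝ (Cn n)) := (stdOrthonormalBasis ℝ (Cn n)).repr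
  set Λ := 1 / c + |C|
  set K := |C| / c ^ 2
  have sg : ∀ a b, Sm (𝒰 : Filter ι) O fun j q => g j q.1 q.2 a b := fun a b =>
    H.mono fun j hj q hq => (hj q hq).1.sm a b
  have sl : ∀ {t z0 r}, ball (t, z0) r ⊆ O → ∀ {s}, |s - t| < r → ∀ z ∈ ball z0 r, (s, z) ∈ O :=
    fun h s hs z hz => h (mem_ball_pr hs hz)
  have hb : ∀ᶠ j in (𝒰 : Filter ι), ∀ q ∈ O, ∃ r, 0 < r ∧ Gr.HB (g j q.1) q.2 r Λ K := by
    filter_upwards [H] with j hj q hq
    obtain ⟨r, hr, hb⟩ := Metric.isOpen_iff.1 hO q hq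
    have h1 := fun z hz => hj _ (sl hb (s := q.1) (by simpa using hr) z hz)
    exact ⟨r, hr, hb_of hc (fun z hz => (h1 z hz).1.kahAt.sm)
      (fun z hz => (h1 z hz).1.pos.self_of_nhds.1) (fun z hz => (h1 z hz).2.1)
      fun z hz => (h1 z hz).2.2⟩
  have b1 : ∀ᶠ j in (𝒰 : Filter ι), ∀ q ∈ O, ∀ a b, ‖g j q.1 q.2 a b‖ ≤ 4 * Λ ∧
      ‖(g j q.1 q.2)⁻¹ a b‖ ≤ Λ ∧ ‖ric (g j q.1) q.2 a b‖ ≤ n * (n * Λ * (16 * K * Λ ^ 2)) := by
    filter_upwards [hb, H] with j h1 h2 q hq a b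
    obtain ⟨r, hr, h3⟩ := h1 q hq
    have hz := mem_ball_self (x := q.2) hr
    refine ⟨h3.G_le hz a b, h3.inv_le hz a b, ?_⟩
    rw [ric_eq_trace (h2 q hq).1.kahAt.smE (h2 q hq).1.kahAt.pos]
    refine (norm_sum_le _ _).trans ?_
    calc _ ≤ ∑ _i : Fin n, n * Λ * (16 * K * Λ ^ 2) := Finset.sum_le_sum fun i _ =>
          Gr.mul_entry_le (h3.inv_le hz) (h3.Rm_le hz a b) i i
      _ = _ := by simp
  have hu : ∀ᶠ j in (𝒰 : Filter ι), ∀ q ∈ O, (g j q.1 q.2)⁻¹ * g j q.1 q.2 = 1 :=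
    H.mono fun j hj q hq => Matrix.nonsing_inv_mul _
      (isUnit_iff_ne_zero.2 (hj q hq).1.pos.self_of_nhds.det_pos.ne')
  refine ub_iff.2 ⟨(sg a b).mono fun j hj q hq => hj q (hQO hq), fun N =>
    boot e hO (g := fun j q => g j q.1 q.2) (gi := fun j q => (g j q.1 q.2)⁻¹)
      (c := fun p p' j q => co e (g j q.1 q.2)⁻¹ p p') hu
      (fun a b => ⟨sg a b, yb_nr hO (b1.mono fun j hj q hq => (hj q hq a b).1)⟩)
      (fun a b => ⟨?_, yb_nr hO (b1.mono fun j hj q hq => (hj q hq a b).2.1)⟩)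
      (fun a b => yb_nr hO (C := n * (n * Λ * (16 * K * Λ ^ 2))) ?_) ?_ ?_ ?_ ?_
      (fun a b => H.mono fun j hj q hq => krf_eq e (hj q hq).1 a b) hQ hQO a b N⟩
  · exact H.mono fun j hj q hq => (hj q hq).1.cd_inv a b
  · filter_upwards [b1, H] with j h1 h2 q hq
    rw [(hasDerivAt_time (((h2 q hq).1.sm a b).differentiableAt (by simp))).unique
      ((h2 q hq).1.flow.self_of_nhds a b)]
    simpa [ric] using (h1 q hq a b).2.2
  · rintro a b p ⟨t0, z0⟩ hq0
    obtain ⟨r, hr, hb⟩ := Metric.isOpen_iff.1 hO _ hq0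
    obtain ⟨K, hK⟩ := Gr.gradStmt n c C r hc hr
    refine ⟨r / 4, |K|, by positivity, abs_nonneg K, ?_⟩
    filter_upwards [H] with j hj
    rintro ⟨t, z⟩ hq
    rw [mem_ball, Prod.dist_eq, max_lt_iff] at hq
    have ht : |t - t0| < r := hq.1.trans (by linarith)
    have h1 := fun z hz => hj _ (sl hb ht z hz)
    have h2 := hK (g j t) z0 (fun z hz => (h1 z hz).1.kahAt.sm)
      (fun z hz => (h1 z hz).1.pos.self_of_nhds.1) (fun z hz => (h1 z hz).2.1)
      (fun z hz => (h1 z hz).2.2) a b z hq.2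
    have h3 : ∀ z ∈ ball z0 (r / 4), Dp e p (fun q : ℝ × Cn n => g j q.1 q.2 a b) (t, z) =
        fderiv ℝ (fun y => g j t y a b) z (bv e p) := fun z hz => (fderiv_slice e
      (((h1 z (ball_subset_ball (by linarith) hz)).1.sm a b).differentiableAt (by simp)) p).symm
    have h4 : ∀ L : Cn n →L[ℝ] ℂ, ‖L (bv e p)‖ ≤ ‖L‖ := fun L => by
      simpa [bv] using L.le_opNorm (bv e p)
    refine ⟨?_, ?_⟩
    · rw [h3 z hq.2]
      exact (h4 _).trans (h2.1.trans (le_abs_self K))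
    · rintro ⟨t', z'⟩ hq' (rfl : t' = t)
      rw [mem_ball, Prod.dist_eq, max_lt_iff] at hq'
      rw [h3 z hq.2, h3 z' hq'.2, dist_st]
      exact (h4 (_ - _)).trans ((h2.2 z' hq'.2).trans
        (mul_le_mul_of_nonneg_right (le_abs_self K) (Real.sqrt_nonneg _)))
  · exact fun 𝒞 G hi p p' => G.sum _ fun k _ => G.sum _ fun i _ => G.mul (G.const _) (hi i k)
  · exact fun 𝒞 G hi hd a b => G.neg (G.sum _ fun i _ => G.sum _ fun k _ => G.mul (hi i k)
      (G.sum _ fun u _ => G.mul (G.sum _ fun v _ => G.mul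
        (G.sum _ fun p _ => G.mul (G.const _) (hd k v p)) (hi v u))
        (G.sum _ fun p _ => G.mul (G.const _) (hd u i p))))
  · intro q0 hq0
    have lim : ∀ (F : ι → ℂ) (B : ℝ), (∀ᶠ j in (𝒰 : Filter ι), ‖F j‖ ≤ B) →
        ∃ y, Tendsto F 𝒰 (𝓝 y) := fun F B h => by
      obtain ⟨y, -, hy⟩ := (isCompact_closedBall (0 : ℂ) B).ultrafilter_le_nhds (𝒰.map F)
        (le_principal_iff.2 (h.mono fun j => mem_closedBall_zero_iff.2))
      exact ⟨y, hy⟩
    choose g0 hg0 using fun a b => lim _ _ (b1.mono fun j hj => (hj q0 hq0 a b).1)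
    choose i0 hi0 using fun a b => lim _ _ (b1.mono fun j hj => (hj q0 hq0 a b).2.1)
    have t1 := Lm23.tendsto_mat (g' := Matrix.of g0) hg0
    have t2 := Lm23.tendsto_mat (g' := Matrix.of i0) hi0
    have p1 : (Matrix.of g0 : Mat n).PosDef := Lm23.posDef_of_nq
      (tendsto_nhds_unique_of_eventuallyEq ((continuous_id.matrix_conjTranspose.tendsto _).comp t1) t1
        (H.mono fun j hj => (hj q0 hq0).1.pos.self_of_nhds.1)) hc fun v =>
      ge_of_tendsto (Lm23.tendsto_nq hg0 v) (H.mono fun j hj => ((hj q0 hq0).2.1 v).1)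
    have p2 : (Matrix.of i0 : Mat n) * Matrix.of g0 = 1 :=
      tendsto_nhds_unique_of_eventuallyEq (t2.mul t1) tendsto_const_nhds
        (hu.mono fun j hj => hj q0 hq0)
    have p3 : (Matrix.of i0 : Mat n).PosDef := Matrix.inv_eq_left_inv p2 ▸ p1.inv
    exact ⟨_, co e (Matrix.of i0), co_pos e p3, co_sym e p3.1, fun p p' =>
      tendsto_finsetSum _ fun k _ => tendsto_finsetSum _ fun i _ => (hi0 i k).const_mul _⟩

end Crest.Agent.T223.Lm
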