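import Crest.Agent.T223.LxUB_60

/-!
# Row 223 (helper60): `UB` against bounds on iterated derivatives; interpolation
-/

set_option autoImplicit false

open Set Filter Topology Metric
open scoped ContDiff

noncomputable section

namespace Crest.Agent.T223.Lx

open Crest.Agent.N207 Crest.Agent.N207.P

section

variable {E V : Type*} [NormedAddCommGroup E] [NormedSpace ℝ E] [NormedAddCommGroup V]
  [NormedSpace ℝ V] {r K : ℝ} {m : ℕ} {h : E → V}

theorem cb_zero : CB r 0 K h ↔ ∀ y ∈ ball (0 : E) r, ‖h y‖ ≤ K := by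
  simp [CB]

theorem cb_succ : CB r (m + 1) K h ↔ (∀ y ∈ ball (0 : E) r, ‖h y‖ ≤ K) ∧ CB r m K (fderiv ℝ h) := by
  simp only [CB, norm_iteratedFDeriv_fderiv]
  refine ⟨fun H => ⟨fun y hy => by simpa using H 0 (by omega) y hy,
    fun j hj => H (j + 1) (by omega)⟩, fun H j hj => ?_⟩
  cases j with
  | zero => simpa using H.1
  | succ j => exact H.2 j (by omega)

theorem CB.mono {r' K' : ℝ} {m' : ℕ} (H : CB r m K h) (hr : r' ≤ r) (hm : m' ≤ m) (hK : K ≤ K') :
    CB r' m' K' h := fun j hj y hy => (H j (hj.trans hm) y (ball_subset_ball hr hy)).trans hK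

theorem CB.bdd (H : CB r m K h) : ∀ y ∈ ball (0 : E) r, ‖h y‖ ≤ K :=
  cb_zero.1 (H.mono le_rfl (Nat.zero_le _) le_rfl)

/-- one step of the interpolation -/
theorem fderiv_interp {R ε s : ℝ} (hd : ContDiffOn ℝ ∞ h (ball 0 R)) (hs : 0 < s) (hsr : r + s ≤ R)
    (h0 : ∀ y ∈ ball (0 : E) R, ‖h y‖ ≤ ε)
    (h2 : ∀ y ∈ ball (0 : E) R, ‖fderiv ℝ (fderiv ℝ h) y‖ ≤ K) {y : E} (hy : y ∈ ball (0 : E) r) :
    ‖fderiv ℝ h y‖ ≤ 2 * ε / s + K * s := by
  have hb : closedBall y s ⊆ ball 0 R := closedBall_subset_ball' (by linarith [mem_ball.1 hy])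
  have hy0 : y ∈ closedBall y s := mem_closedBall_self hs.le
  have hε : 0 ≤ ε := (norm_nonneg _).trans (h0 y (hb hy0))
  have hK : 0 ≤ K := (ContinuousLinearMap.opNorm_nonneg _).trans (h2 y (hb hy0))
  have d1 : ∀ z ∈ closedBall y s, DifferentiableAt ℝ h z := fun z hz =>
    (hd.contDiffAt (isOpen_ball.mem_nhds (hb hz))).differentiableAt (by simp)
  have d2 : ∀ z ∈ closedBall y s, DifferentiableAt ℝ (fderiv ℝ h) z := fun z hz =>
    ((hd.fderiv_of_isOpen (m := ∞) isOpen_ball (by simp)).contDiffAt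
      (isOpen_ball.mem_nhds (hb hz))).differentiableAt (by simp)
  refine ContinuousLinearMap.opNorm_le_of_unit_norm (by positivity) fun v hv => ?_
  have hn : ‖s • v‖ = s := by rw [norm_smul, hv, mul_one, Real.norm_of_nonneg hs.le]
  have hz : y + s • v ∈ closedBall y s := by simpa using hn.le
  have h3 := (convex_closedBall y s).norm_image_sub_le_of_norm_fderiv_le' (C := K * s)
    (φ := fderiv ℝ h y) d1 (fun z hz' =>
      ((convex_closedBall y s).norm_image_sub_le_of_norm_fderiv_le d2 (fun w hw => h2 w (hb hw))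
        hy0 hz').trans (mul_le_mul_of_nonneg_left (mem_closedBall_iff_norm.1 hz') hK)) hy0 hz
  rw [add_sub_cancel_left, hn, map_smul] at h3
  have h4 := norm_sub_le (h (y + s • v)) (h y)
  have h5 := norm_sub_norm_le (s • fderiv ℝ h y v) (h (y + s • v) - h y)
  rw [norm_sub_rev (s • _), norm_smul, Real.norm_of_nonneg hs.le] at h5
  have h6 := h0 _ (hb hz)
  have h7 := h0 _ (hb hy0)
  rw [div_add' _ _ _ hs.ne', le_div_iff₀' hs]
  linarith

end

theorem ubCb (n : ℕ) (V : Type) [NormedAddCommGroup V] [NormedSpace ℝ V] : UbCb n V := by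
  intro ι r m
  induction m generalizing V with
  | zero =>
    intro h hs
    refine ⟨fun H => H.bdd.imp fun K hK i => cb_zero.2 (hK i), fun ⟨K, hK⟩ =>
      ub_zero_of_fderiv (fun i => (hK i).bdd) (fun i y hy => ?_) fun i => (cb_succ.1 (hK i)).2.bdd⟩
    exact ((hs i).contDiffAt (isOpen_ball.mem_nhds hy)).differentiableAt (by simp)
  | succ m ih =>
    intro h hs
    obtain ⟨h1, h2⟩ := ih (En n →L[ℝ] V) (fun i => fderiv ℝ (h i))
      fun i => (hs i).fderiv_of_isOpen isOpen_ball (by simp)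
    refine ⟨fun H => ?_, fun ⟨K, hK⟩ => ub_of_fderiv ⟨K, fun i => (hK i).bdd⟩ (fun i y hy => ?_)
      (h2 ⟨K, fun i => (cb_succ.1 (hK i)).2⟩)⟩
    · obtain ⟨A, hA⟩ := H.bdd
      obtain ⟨K, hK⟩ := h1 H.fderiv
      exact ⟨max A K, fun i => cb_succ.2 ⟨fun y hy => (hA i y hy).trans (le_max_left _ _),
        (hK i).mono le_rfl le_rfl (le_max_right _ _)⟩⟩
    · exact ((hs i).contDiffAt (isOpen_ball.mem_nhds hy)).differentiableAt (by simp)

theorem cbInt (E V : Type) [NormedAddCommGroup E] [NormedSpace ℝ E] [NormedAddCommGroup V]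
    [NormedSpace ℝ V] : CbInt E V := by
  intro R r K η m
  induction m generalizing V R with
  | zero => exact fun hr hη => ⟨η, hη, fun h _ _ H => H.mono hr.le le_rfl le_rfl⟩
  | succ m ih =>
    intro hr hη
    obtain ⟨ε, hε, H⟩ := ih (E →L[ℝ] V) ((R + r) / 2) (by linarith) hη
    have hK : 0 < |K| + 1 := by positivity
    set s := min ((R - r) / 2) (ε / (2 * (|K| + 1))) with hs
    have hs0 : 0 < s := lt_min (by linarith) (by positivity)
    have hs1 : s ≤ (R - r) / 2 := min_le_left _ _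
    have hs2 : s * (2 * (|K| + 1)) ≤ ε := (le_div_iff₀ (by positivity)).1 (min_le_right _ _)
    refine ⟨min η (ε * s / 4), lt_min hη (by positivity), fun h hd h1 h0 => cb_succ.2
      ⟨(h0.mono hr.le le_rfl (min_le_left _ _)).bdd, H _
        ((hd.fderiv_of_isOpen isOpen_ball (by simp)).mono (ball_subset_ball (by linarith)))
        ((cb_succ.1 h1).2.mono (by linarith) le_rfl le_rfl) (cb_zero.2 fun y hy => ?_)⟩⟩
    refine (fderiv_interp hd hs0 (by linarith) (h0.mono le_rfl le_rfl (min_le_right _ _)).bdd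
      (cb_succ.1 (cb_succ.1 h1).2).2.bdd hy).trans ?_
    have e : 2 * (ε * s / 4) / s = ε / 2 := by field_simp; ring
    rw [e]
    nlinarith [le_abs_self K]

end Crest.Agent.T223.Lx
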