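import Crest.Agent.N207.P.All

/-!
# Row 223 (helper83): interior Schauder estimates, Picard iteration, regularity — the statements

Everything lives on `En n = ℝⁿ`, vocabulary of `N207/P` (`pd`, `Lop`, `Yl`, `X.Ev`).

* `Dp S s y`, `WS`, `WH` : depth in a set, weighted sup and Hoelder bounds;
* `ISStep`, `ISStmt`     : weighted interior Schauder estimate (one step form, absorbed form);
* `UB`, `UBt`, `CB`      : uniform `C^{m,1/2}` bounds of a family of functions on `ball 0 r`;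
* `LinHB`, `LinHBi`, `QlHB`, `QlHB2`, `FnHB` : higher order bounds for families of solutions;
* `FnReg`                : a `C^{2,1/2}` solution of a fully nonlinear equation is smooth;
* `PicStmt`              : the abstract Picard iteration in quasi-charts.
-/

set_option autoImplicit false

open Set Metric
open scoped ContDiff

noncomputable section

namespace Crest.Agent.T223.Lx

open Crest.Agent.N207 Crest.Agent.N207.P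

section defs

variable {n : ℕ} {V : Type*} [NormedAddCommGroup V] [NormedSpace ℝ V]

/-- the second partial derivatives -/
def d2 (u : En n → V) (y : En n) : Fin n → Fin n → V := fun k l => pd k (pd l u) y

/-- `y` has depth at least `s` in `S` -/
def Dp (S : Set (En n)) (s : ℝ) (y : En n) : Prop := 0 < s ∧ s ≤ 1 ∧ ball y s ⊆ S

/-- weighted sup bound (weight `depth ^ (5/2)`) -/
def WS (S : Set (En n)) (A : ℝ) (g : En n → V) : Prop :=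
  ∀ s y, Dp S s y → s ^ 2 * √s * ‖g y‖ ≤ A

/-- weighted Hoelder bound (weight `depth ^ 3`) -/
def WH (S : Set (En n)) (c : ℝ) (g : En n → V) : Prop :=
  ∀ s y y', Dp S s y → Dp S s y' → s ^ 3 * ‖g y - g y'‖ ≤ c * √(dist y y')

/-- the data of a linear equation `∂ₜ w = Lop a w + f` on `[α, β] × S`, `w α = 0`, with
coefficients `δ`-close to `a0` and `K`-Hoelder, `‖w‖ ≤ B`, and weighted bounds `A`, `c` on `f` -/
structure LinD (a0 : Matrix (Fin n) (Fin n) ℝ) (δ K α β : ℝ) (S : Set (En n))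
    (a : ℝ → En n → Matrix (Fin n) (Fin n) ℝ) (f w : ℝ → En n → V) (A c B : ℝ) : Prop where
  lt : α < β
  len : β - α ≤ 1
  opn : IsOpen S
  w2 : Yl (Icc α β) S 2 w
  ac : ∀ k l, ContinuousOn (fun q : ℝ × En n => a q.1 q.2 k l) (Icc α β ×ˢ S)
  fc : ContinuousOn (fun q : ℝ × En n => f q.1 q.2) (Icc α β ×ˢ S)
  init : ∀ y ∈ S, w α y = 0
  ev : X.Ev (Icc α β) S w (fun t y => Lop (a t y) (w t) y + f t y)
  cl : ∀ t ∈ Icc α β, ∀ y ∈ S, ∀ k l, |a t y k l - a0 k l| ≤ δ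
  ah : ∀ t ∈ Icc α β, ∀ y ∈ S, ∀ y' ∈ S, ∀ k l, |a t y k l - a t y' k l| ≤ K * √(dist y y')
  A0 : 0 ≤ A
  c0 : 0 ≤ c
  B0 : 0 ≤ B
  wB : ∀ t ∈ Icc α β, ∀ y ∈ S, ‖w t y‖ ≤ B
  fA : ∀ t ∈ Icc α β, WS S A (f t)
  fH : ∀ t ∈ Icc α β, WH S c (f t)

/-- uniform `C^{m,1/2}` bounds on `ball 0 r` for a family of functions -/
def UB {ι : Type*} (r : ℝ) : ℕ → (ι → En n → V) → Prop
  | 0, h => ∃ K : ℝ, ∀ i, (∀ y ∈ ball (0 : En n) r, ‖h i y‖ ≤ K) ∧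
      ∀ y ∈ ball (0 : En n) r, ∀ y' ∈ ball (0 : En n) r, ‖h i y - h i y'‖ ≤ K * √(dist y y')
  | m + 1, h => (∃ K : ℝ, ∀ i, ∀ y ∈ ball (0 : En n) r, ‖h i y‖ ≤ K) ∧
      (∀ i, ∀ y ∈ ball (0 : En n) r, DifferentiableAt ℝ (h i) y) ∧
      ∀ k, UB r m (fun i => pd k (h i))

/-- the same for time dependent families, uniformly in `t ∈ I i` -/
def UBt {ι : Type*} (I : ι → Set ℝ) (r : ℝ) (m : ℕ) (u : ι → ℝ → En n → V) : Prop :=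
  UB r m (fun p : {p : ι × ℝ // p.2 ∈ I p.1} => u p.1.1 p.1.2)

end defs

/-- `C^m` bound on `ball 0 r` by iterated derivatives (any normed space) -/
def CB {E V : Type*} [NormedAddCommGroup E] [NormedSpace ℝ E] [NormedAddCommGroup V]
    [NormedSpace ℝ V] (r : ℝ) (m : ℕ) (K : ℝ) (h : E → V) : Prop :=
  ∀ j ≤ m, ∀ y ∈ ball (0 : E) r, ‖iteratedFDeriv ℝ j h y‖ ≤ K

/-- (IS, one step form): an a priori bound `N` improves to `N / 4 + C (A + c + B)` -/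
def ISStep (n : ℕ) (V : Type) [NormedAddCommGroup V] [NormedSpace ℝ V] : Prop :=
  ∀ a0 : Matrix (Fin n) (Fin n) ℝ, a0.PosDef → ∃ δ : ℝ, 0 < δ ∧ ∀ K : ℝ, ∃ C : ℝ, 1 ≤ C ∧
    ∀ (α β : ℝ) (S : Set (En n)) (a : ℝ → En n → Matrix (Fin n) (Fin n) ℝ) (f w : ℝ → En n → V)
      (A c B N : ℝ), LinD a0 δ K α β S a f w A c B → 0 ≤ N →
      (∀ t ∈ Icc α β, WH S N (d2 (w t))) → ∀ t ∈ Icc α β, WH S (N / 4 + C * (A + c + B)) (d2 (w t))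

/-- (IS): weighted interior Schauder estimate -/
def ISStmt (n : ℕ) (V : Type) [NormedAddCommGroup V] [NormedSpace ℝ V] : Prop :=
  ∀ a0 : Matrix (Fin n) (Fin n) ℝ, a0.PosDef → ∃ δ : ℝ, 0 < δ ∧ ∀ K : ℝ, ∃ C : ℝ, 1 ≤ C ∧
    ∀ (α β : ℝ) (S : Set (En n)) (a : ℝ → En n → Matrix (Fin n) (Fin n) ℝ) (f w : ℝ → En n → V)
      (A c B : ℝ), LinD a0 δ K α β S a f w A c B →
      (∃ N, ∀ t ∈ Icc α β, WH S N (d2 (w t))) → ∀ t ∈ Icc α β,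
      WH S (C * (A + c + B)) (d2 (w t)) ∧ WS S (C * (A + c + B)) (d2 (w t)) ∧
      WS S (C * (A + c + B)) (d1 (w t))

/-- (INT): weighted interpolation -/
def IntStmt (n : ℕ) (V : Type) [NormedAddCommGroup V] [NormedSpace ℝ V] : Prop :=
  ∃ C : ℝ, 1 ≤ C ∧ ∀ (S : Set (En n)) (w : En n → V) (B N η : ℝ), IsOpen S → ContDiffOn ℝ 2 w S →
    0 ≤ B → 0 ≤ N → 0 < η → η ≤ 1 → (∀ y ∈ S, ‖w y‖ ≤ B) → WH S N (d2 w) →
    WS S (η * N + C * B / η ^ 4) (d2 w) ∧ WS S (η * N + C * B / η ^ 4) (d1 w) ∧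
    WH S (η * N + C * B / η ^ 4) (d1 w) ∧ WH S (η * N + C * B / η ^ 4) w

/-- a family of linear equations on `[α i, β i] × ball 0 R` with data of class `m` -/
structure LinF {n : ℕ} {V : Type} [NormedAddCommGroup V] [NormedSpace ℝ V] {ι : Type}
    (a0 : Matrix (Fin n) (Fin n) ℝ) (δ R : ℝ) (m : ℕ) (α β : ι → ℝ)
    (a : ι → ℝ → En n → Matrix (Fin n) (Fin n) ℝ) (f u : ι → ℝ → En n → V) : Prop where
  lt : ∀ i, α i < β i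
  len : ∀ i, β i - α i ≤ 1
  uy : ∀ i, Yl (Icc (α i) (β i)) (ball 0 R) (m + 2) (u i)
  ay : ∀ i k l, Yl (Icc (α i) (β i)) (ball 0 R) m (fun t y => a i t y k l)
  fy : ∀ i, Yl (Icc (α i) (β i)) (ball 0 R) m (f i)
  ev : ∀ i, X.Ev (Icc (α i) (β i)) (ball 0 R) (u i) (fun t y => Lop (a i t y) (u i t) y + f i t y)
  cl : ∀ i, ∀ t ∈ Icc (α i) (β i), ∀ y ∈ ball (0 : En n) R, ∀ k l, |a i t y k l - a0 k l| ≤ δ
  ab : ∀ k l, UBt (fun i => Icc (α i) (β i)) R m (fun i t y => a i t y k l)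
  fb : UBt (fun i => Icc (α i) (β i)) R m f

/-- (LIN, up to the initial time): bounded solutions with bounded initial data -/
def LinHB (n : ℕ) (V : Type) [NormedAddCommGroup V] [NormedSpace ℝ V] : Prop :=
  ∀ a0 : Matrix (Fin n) (Fin n) ℝ, a0.PosDef → ∃ δ : ℝ, 0 < δ ∧
    ∀ (ι : Type) (R r : ℝ) (m : ℕ) (α β : ι → ℝ) (a : ι → ℝ → En n → Matrix (Fin n) (Fin n) ℝ)
      (f u : ι → ℝ → En n → V), 0 < r → r < R → LinF a0 δ R m α β a f u →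
      UB R (m + 2) (fun i => u i (α i)) →
      (∃ K : ℝ, ∀ i, ∀ t ∈ Icc (α i) (β i), ∀ y ∈ ball (0 : En n) R, ‖u i t y‖ ≤ K) →
      UBt (fun i => Icc (α i) (β i)) r (m + 2) u

/-- (LIN, interior in time): only the spatial Lipschitz constant of `u` is assumed bounded; the
conclusion is for the gradient -/
def LinHBi (n : ℕ) (V : Type) [NormedAddCommGroup V] [NormedSpace ℝ V] : Prop :=
  ∀ a0 : Matrix (Fin n) (Fin n) ℝ, a0.PosDef → ∃ δ : ℝ, 0 < δ ∧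
    ∀ (ι : Type) (R r θ : ℝ) (m : ℕ) (α β : ι → ℝ) (a : ι → ℝ → En n → Matrix (Fin n) (Fin n) ℝ)
      (f u : ι → ℝ → En n → V), 0 < r → r < R → 0 < θ → LinF a0 δ R m α β a f u →
      (∃ K : ℝ, ∀ i, ∀ t ∈ Icc (α i) (β i), ∀ y ∈ ball (0 : En n) R, ‖d1 (u i t) y‖ ≤ K) →
      UBt (fun i => Icc (α i + θ) (β i)) r (m + 1) (fun i t => d1 (u i t))

/-- a family of smooth solutions of the quasilinear system `∂ₜ u = Lop (A u) u + B (u, ∇u)` with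
values in the compact set `K0` and bounded gradient -/
structure QlF {n : ℕ} {V : Type} [NormedAddCommGroup V] [NormedSpace ℝ V] {ι : Type}
    (O K0 : Set V) (A : V → Matrix (Fin n) (Fin n) ℝ) (B : V × (Fin n → V) → V) (R : ℝ)
    (α β : ι → ℝ) (u : ι → ℝ → En n → V) : Prop where
  opn : IsOpen O
  cpt : IsCompact K0
  sub : K0 ⊆ O
  sa : ∀ k l, ContDiffOn ℝ ∞ (fun q => A q k l) O
  sb : ContDiffOn ℝ ∞ B (O ×ˢ univ)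
  lt : ∀ i, α i < β i
  len : ∀ i, β i - α i ≤ 1
  uy : ∀ i m, Yl (Icc (α i) (β i)) (ball 0 R) m (u i)
  ev : ∀ i, X.Ev (Icc (α i) (β i)) (ball 0 R) (u i)
    (fun t y => Lop (A (u i t y)) (u i t) y + B (u i t y, d1 (u i t) y))
  mem : ∀ i, ∀ t ∈ Icc (α i) (β i), ∀ y ∈ ball (0 : En n) R, u i t y ∈ K0
  grad : ∃ K : ℝ, ∀ i, ∀ t ∈ Icc (α i) (β i), ∀ y ∈ ball (0 : En n) R, ‖d1 (u i t) y‖ ≤ K

/-- (QL, interior in time), coefficients close to a constant matrix -/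
def QlHB (n : ℕ) (V : Type) [NormedAddCommGroup V] [NormedSpace ℝ V] : Prop :=
  ∀ a0 : Matrix (Fin n) (Fin n) ℝ, a0.PosDef → ∃ δ : ℝ, 0 < δ ∧
    ∀ (ι : Type) (O K0 : Set V) (A : V → Matrix (Fin n) (Fin n) ℝ) (B : V × (Fin n → V) → V)
      (R r θ : ℝ) (m : ℕ) (α β : ι → ℝ) (u : ι → ℝ → En n → V), 0 < r → r < R → 0 < θ →
      QlF O K0 A B R α β u → (∀ q ∈ K0, ∀ k l, |A q k l - a0 k l| ≤ δ) →
      UBt (fun i => Icc (α i + θ) (β i)) r m u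

/-- (QL, interior in time), positive definite coefficients, `u` Lipschitz in time -/
def QlHB2 (n : ℕ) (V : Type) [NormedAddCommGroup V] [NormedSpace ℝ V] : Prop :=
  ∀ (ι : Type) (O K0 : Set V) (A : V → Matrix (Fin n) (Fin n) ℝ) (B : V × (Fin n → V) → V)
    (R r θ : ℝ) (m : ℕ) (α β : ι → ℝ) (u : ι → ℝ → En n → V), 0 < r → r < R → 0 < θ →
    QlF O K0 A B R α β u → (∀ q ∈ K0, (A q).PosDef) →
    (∃ K : ℝ, ∀ i, ∀ t ∈ Icc (α i) (β i), ∀ t' ∈ Icc (α i) (β i), ∀ y ∈ ball (0 : En n) R,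
      ‖u i t y - u i t' y‖ ≤ K * |t - t'|) →
    UBt (fun i => Icc (α i + θ) (β i)) r m u

/-- the matrix unit, a direction in the space of Hessians -/
def eH {n : ℕ} (k l : Fin n) : Fin n → Fin n → ℝ := Pi.single k (Pi.single l 1)

/-- (FN, up to the initial time): `∂ₜ v = F (Z, D² v)`, `v α = 0` -/
def FnHB (n : ℕ) : Prop :=
  ∀ a0 : Matrix (Fin n) (Fin n) ℝ, a0.PosDef → ∃ δ : ℝ, 0 < δ ∧
    ∀ (P : Type) [NormedAddCommGroup P] [NormedSpace ℝ P] (ι : Type)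
      (O K0 : Set (P × (Fin n → Fin n → ℝ))) (F : P × (Fin n → Fin n → ℝ) → ℝ)
      (R r : ℝ) (m : ℕ) (α β : ι → ℝ) (Z : ι → ℝ → En n → P) (v : ι → ℝ → En n → ℝ),
      0 < r → r < R → IsOpen O → IsCompact K0 → K0 ⊆ O → ContDiffOn ℝ ∞ F O →
      (∀ q ∈ K0, ∀ k l, |fderiv ℝ F q (0, eH k l) - a0 k l| ≤ δ) →
      (∀ i, α i < β i) → (∀ i, β i - α i ≤ 1) →
      (∀ i j, Yl (Icc (α i) (β i)) (ball 0 R) j (v i)) →
      (∀ i j, Yl (Icc (α i) (β i)) (ball 0 R) j (Z i)) →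
      (∀ i, ∀ y ∈ ball (0 : En n) R, v i (α i) y = 0) →
      (∀ i, X.Ev (Icc (α i) (β i)) (ball 0 R) (v i) (fun t y => F (Z i t y, d2 (v i t) y))) →
      (∀ i, ∀ t ∈ Icc (α i) (β i), ∀ y ∈ ball (0 : En n) R, (Z i t y, d2 (v i t) y) ∈ K0) →
      UBt (fun i => Icc (α i) (β i)) R m Z → UBt (fun i => Icc (α i) (β i)) R 2 v →
      UBt (fun i => Icc (α i) (β i)) r (m + 2) v

/-- (FNREG): regularity for `∂ₜ v = F (t, y, D² v)` -/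
def FnReg (n : ℕ) : Prop :=
  ∀ (α β : ℝ) (U : Set (En n)) (O : Set (En n × (Fin n → Fin n → ℝ)))
    (F : ℝ × En n × (Fin n → Fin n → ℝ) → ℝ) (v : ℝ → En n → ℝ), α < β → IsOpen U → IsOpen O →
    ContDiffOn ℝ ∞ F (Icc α β ×ˢ O) → (∀ t ∈ Icc α β, ∀ y ∈ U, (y, d2 (v t) y) ∈ O) →
    (∀ t ∈ Icc α β, ∀ y ∈ U, (Matrix.of fun k l =>
      fderiv ℝ (fun H => F (t, y, H)) (d2 (v t) y) (eH k l)).PosDef) →
    Yl (Icc α β) U 2 v → ContDiffOn ℝ ∞ (v α) U →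
    X.Ev (Icc α β) U v (fun t y => F (t, y, d2 (v t) y)) →
    ContDiffOn ℝ ∞ (fun q : ℝ × En n => v q.1 q.2) (Icc α β ×ˢ U)

/-- the data of the Picard iteration.  `X` is any type, `W` the support of the nonlinearity,
`ψ x : ball 0 2 → X` the chart at `x ∈ W`, `Sm` the class of smooth functions, `Ad` the admissible
right hand sides, `S` the linear solution operator, `Nl` the nonlinearity, which in the chart at `x`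
reads `ζ x y * Φ x t y (P (D² v))`. -/
structure PicD {n : ℕ} {X Z : Type} [NormedAddCommGroup Z] [NormedSpace ℝ Z]
    (a0 : Matrix (Fin n) (Fin n) ℝ) (δ K ε ρ α β : ℝ) (W : Set X) (ψ : X → En n → X)
    (P : (Fin n → Fin n → ℝ) →L[ℝ] Z) (Sm Ad : (ℝ → X → ℝ) → Prop)
    (S Nl : (ℝ → X → ℝ) → ℝ → X → ℝ) (a : X → ℝ → En n → Matrix (Fin n) (Fin n) ℝ)
    (ζ : X → En n → ℝ) (Φ : X → ℝ → En n → Z → ℝ) : Prop where
  ctr : ∀ x ∈ W, ψ x 0 = x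
  nP : ‖P‖ ≤ K
  sm0 : Sm 0
  smS : ∀ f, Ad f → Sm (S f)
  smY : ∀ u, Sm u → ∀ x ∈ W, Yl (Icc α β) (ball 0 2) 2 (fun t y => u t (ψ x y))
  adC : ∀ f, Ad f → ∀ x ∈ W,
    ContinuousOn (fun q : ℝ × En n => f q.1 (ψ x q.2)) (Icc α β ×ˢ ball 0 1)
  init : ∀ f, Ad f → ∀ x ∈ W, ∀ y ∈ ball (0 : En n) 1, S f α (ψ x y) = 0
  ev : ∀ f, Ad f → ∀ x ∈ W, N207.X.Ev (Icc α β) (ball 0 1) (fun t y => S f t (ψ x y))
    (fun t y => Lop (a x t y) (fun z => S f t (ψ x z)) y + f t (ψ x y))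
  mx : ∀ f, Ad f → ∀ C, 0 ≤ C → (∀ t ∈ Icc α β, ∀ x ∈ W, |f t x| ≤ C) →
    ∀ t ∈ Icc α β, ∀ x ∈ W, ∀ y ∈ ball (0 : En n) 1, |S f t (ψ x y)| ≤ (β - α) * C
  mx2 : ∀ f f', Ad f → Ad f' → ∀ C, 0 ≤ C → (∀ t ∈ Icc α β, ∀ x ∈ W, |f t x - f' t x| ≤ C) →
    ∀ t ∈ Icc α β, ∀ x ∈ W, ∀ y ∈ ball (0 : En n) 1,
      |S f t (ψ x y) - S f' t (ψ x y)| ≤ (β - α) * C
  ac : ∀ x ∈ W, ∀ k l, ContinuousOn (fun q : ℝ × En n => a x q.1 q.2 k l) (Icc α β ×ˢ ball 0 1)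
  cl : ∀ x ∈ W, ∀ t ∈ Icc α β, ∀ y ∈ ball (0 : En n) 1, ∀ k l, |a x t y k l - a0 k l| ≤ δ
  ah : ∀ x ∈ W, ∀ t ∈ Icc α β, ∀ y ∈ ball (0 : En n) 1, ∀ y' ∈ ball (0 : En n) 1, ∀ k l,
    |a x t y k l - a x t y' k l| ≤ K * √(dist y y')
  cmp : ∀ u u', Sm u → Sm u' → ∀ t ∈ Icc α β, ∀ x ∈ W, ∀ y ∈ ball (0 : En n) 1, ψ x y ∈ W →
    ‖P (d2 (fun z => u t (ψ x z) - u' t (ψ x z)) y)‖ ≤
      K * ‖d2 (fun z => u t (ψ (ψ x y) z) - u' t (ψ (ψ x y) z)) 0‖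
  nlA : ∀ u, Sm u → (∀ t ∈ Icc α β, ∀ x ∈ W, ‖d2 (fun z => u t (ψ x z)) 0‖ ≤ ρ / K) → Ad (Nl u)
  nlE : ∀ u, Sm u → ∀ t ∈ Icc α β, ∀ x ∈ W, ∀ y ∈ ball (0 : En n) 1,
    Nl u t (ψ x y) = ζ x y * Φ x t y (P (d2 (fun z => u t (ψ x z)) y))
  z0 : ∀ x ∈ W, ∀ y ∈ ball (0 : En n) 1, ψ x y ∉ W → ζ x y = 0
  z1 : ∀ x ∈ W, ∀ y ∈ ball (0 : En n) 1, |ζ x y| ≤ 1
  zL : ∀ x ∈ W, ∀ y ∈ ball (0 : En n) 1, ∀ y' ∈ ball (0 : En n) 1,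
    |ζ x y - ζ x y'| ≤ K * √(dist y y')
  p0 : ∀ x ∈ W, ∀ t ∈ Icc α β, ∀ y ∈ ball (0 : En n) 1, |Φ x t y 0| ≤ K
  p0h : ∀ x ∈ W, ∀ t ∈ Icc α β, ∀ y ∈ ball (0 : En n) 1, ∀ y' ∈ ball (0 : En n) 1,
    |Φ x t y 0 - Φ x t y' 0| ≤ K * √(dist y y')
  lip : ∀ x ∈ W, ∀ t ∈ Icc α β, ∀ y ∈ ball (0 : En n) 1, ∀ z z' : Z, ‖z‖ ≤ ρ → ‖z'‖ ≤ ρ →
    |Φ x t y z - Φ x t y z'| ≤ K * ‖z - z'‖
  sec : ∀ x ∈ W, ∀ t ∈ Icc α β, ∀ y ∈ ball (0 : En n) 1, ∀ y' ∈ ball (0 : En n) 1,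
    ∀ z z' e e' : Z, ‖z‖ ≤ ρ → ‖z'‖ ≤ ρ → ‖e‖ ≤ ρ → ‖e'‖ ≤ ρ →
    |(Φ x t y z - Φ x t y z') - (Φ x t y' e - Φ x t y' e')| ≤ ε * ‖(z - z') - (e - e')‖ +
      K * (√(dist y y') + ‖z - e‖ + ‖z' - e'‖) * ‖e - e'‖

/-- the output of the Picard iteration -/
structure PicO {n : ℕ} {X Z : Type} [NormedAddCommGroup Z] [NormedSpace ℝ Z]
    (N ρ α β : ℝ) (W : Set X) (ψ : X → En n → X) (P : (Fin n → Fin n → ℝ) →L[ℝ] Z)
    (a : X → ℝ → En n → Matrix (Fin n) (Fin n) ℝ) (ζ : X → En n → ℝ) (Φ : X → ℝ → En n → Z → ℝ)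
    (v : ℝ → X → ℝ) : Prop where
  yl : ∀ x ∈ W, Yl (Icc α β) (ball 0 1) 2 (fun t y => v t (ψ x y))
  init : ∀ x ∈ W, ∀ y ∈ ball (0 : En n) 1, v α (ψ x y) = 0
  ev : ∀ x ∈ W, N207.X.Ev (Icc α β) (ball 0 1) (fun t y => v t (ψ x y))
    (fun t y => Lop (a x t y) (fun z => v t (ψ x z)) y +
      ζ x y * Φ x t y (P (d2 (fun z => v t (ψ x z)) y)))
  sup : ∀ x ∈ W, ∀ t ∈ Icc α β, ∀ y ∈ ball (0 : En n) 1, |v t (ψ x y)| ≤ (β - α) * N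
  wh : ∀ x ∈ W, ∀ t ∈ Icc α β, WH (ball 0 1) N (d2 fun z => v t (ψ x z))
  s2 : ∀ x ∈ W, ∀ t ∈ Icc α β, WS (ball 0 1) ρ (d2 fun z => v t (ψ x z))
  s1 : ∀ x ∈ W, ∀ t ∈ Icc α β, WS (ball 0 1) ρ (d1 fun z => v t (ψ x z))
  sP : ∀ x ∈ W, ∀ t ∈ Icc α β, ∀ y ∈ ball (0 : En n) 1, ψ x y ∈ W →
    ‖P (d2 (fun z => v t (ψ x z)) y)‖ ≤ ρ

/-- (PICARD): order of the constants `a0 → δ`, `K → ε, N`, `ρ → τ0` -/
def PicStmt (n : ℕ) : Prop :=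
  ∀ a0 : Matrix (Fin n) (Fin n) ℝ, a0.PosDef → ∃ δ : ℝ, 0 < δ ∧ ∀ K : ℝ, 1 ≤ K →
    ∃ ε : ℝ, 0 < ε ∧ ∃ N : ℝ, 0 < N ∧ ∀ ρ : ℝ, 0 < ρ → ρ ≤ 1 → ∃ τ0 : ℝ, 0 < τ0 ∧
      ∀ (X Z : Type) [NormedAddCommGroup Z] [NormedSpace ℝ Z] (α β : ℝ) (W : Set X)
        (ψ : X → En n → X) (P : (Fin n → Fin n → ℝ) →L[ℝ] Z) (Sm Ad : (ℝ → X → ℝ) → Prop)
        (S Nl : (ℝ → X → ℝ) → ℝ → X → ℝ) (a : X → ℝ → En n → Matrix (Fin n) (Fin n) ℝ)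
        (ζ : X → En n → ℝ) (Φ : X → ℝ → En n → Z → ℝ), α < β → β - α ≤ τ0 →
        PicD a0 δ K ε ρ α β W ψ P Sm Ad S Nl a ζ Φ →
        ∃ v : ℝ → X → ℝ, PicO N ρ α β W ψ P a ζ Φ v

/-- `UB` gives bounds for the iterated derivatives -/
def UbCb (n : ℕ) (V : Type) [NormedAddCommGroup V] [NormedSpace ℝ V] : Prop :=
  ∀ (ι : Type) (r : ℝ) (m : ℕ) (h : ι → En n → V), (∀ i, ContDiffOn ℝ ∞ (h i) (ball 0 r)) →
    (UB r m h → ∃ K, ∀ i, CB r m K (h i)) ∧ ((∃ K, ∀ i, CB r (m + 1) K (h i)) → UB r m h)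

/-- interpolation: bounded in `C^(m+1)` and small in `C^0` is small in `C^m` on a smaller ball -/
def CbInt (E V : Type) [NormedAddCommGroup E] [NormedSpace ℝ E] [NormedAddCommGroup V]
    [NormedSpace ℝ V] : Prop :=
  ∀ (R r K η : ℝ) (m : ℕ), r < R → 0 < η → ∃ ε : ℝ, 0 < ε ∧ ∀ h : E → V,
    ContDiffOn ℝ ∞ h (ball 0 R) → CB R (m + 1) K h → CB R 0 ε h → CB r m η h

end Crest.Agent.T223.Lx
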