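import Crest.Agent.T223.LxUB_60
import Crest.Agent.T223.LxInt_83

/-!
# Row 223 (helper25): higher order bounds, the linear case (`LinHB`, `LinHBi`)
-/

set_option autoImplicit false
set_option linter.unusedSectionVars false

open Set Metric
open scoped ContDiff

noncomputable section

namespace Crest.Agent.T223.Lx

open Crest.Agent.N207 Crest.Agent.N207.P

variable {n : ℕ} {V : Type} [NormedAddCommGroup V] [NormedSpace ℝ V]

/-- lower order weighted bounds -/
def Low (S : Set (En n)) (X : ℝ) (w : En n → V) : Prop :=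
  WS S X (d2 w) ∧ WS S X (d1 w) ∧ WH S X (d1 w) ∧ WH S X w

/-- the semilinear base estimate for families -/
def Semi (V : Type) [NormedAddCommGroup V] [NormedSpace ℝ V] (a0 : Matrix (Fin n) (Fin n) ℝ)
    (δ : ℝ) : Prop :=
  ∀ (ι : Type) (R R' r : ℝ) (α β : ι → ℝ) (a : ι → ℝ → En n → Matrix (Fin n) (Fin n) ℝ)
    (f w : ι → ℝ → En n → V), r < R' → R' < R → (∀ i, α i < β i) → (∀ i, β i - α i ≤ 1) →
    (∀ i, Yl (Icc (α i) (β i)) (ball 0 R) 2 (w i)) →
    (∀ i k l, Yl (Icc (α i) (β i)) (ball 0 R) 0 (fun t y => a i t y k l)) →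
    (∀ i, Yl (Icc (α i) (β i)) (ball 0 R) 0 (f i)) →
    (∀ i, ∀ y ∈ ball (0 : En n) R, w i (α i) y = 0) →
    (∀ i, X.Ev (Icc (α i) (β i)) (ball 0 R) (w i) (fun t y => Lop (a i t y) (w i t) y + f i t y)) →
    (∀ i, ∀ t ∈ Icc (α i) (β i), ∀ y ∈ ball (0 : En n) R, ∀ k l, |a i t y k l - a0 k l| ≤ δ) →
    (∀ k l, UBt (fun i => Icc (α i) (β i)) R 0 (fun i t y => a i t y k l)) →
    (∃ B : ℝ, ∀ i, ∀ t ∈ Icc (α i) (β i), ∀ y ∈ ball (0 : En n) R, ‖w i t y‖ ≤ B) →
    (∃ L : ℝ, 0 ≤ L ∧ ∀ i, ∀ t ∈ Icc (α i) (β i), ∀ X, 0 ≤ X → Low (ball 0 R') X (w i t) →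
      WS (ball 0 R') (L * (1 + X)) (f i t) ∧ WH (ball 0 R') (L * (1 + X)) (f i t)) →
    UBt (fun i => Icc (α i) (β i)) r 2 w

theorem semi (h : ISStep n V) (hI : IntStmt n V) {a0 : Matrix (Fin n) (Fin n) ℝ}
    (ha0 : a0.PosDef) : ∃ δ : ℝ, 0 < δ ∧ Semi V a0 δ := by
  obtain ⟨δ, hδ, hS⟩ := h a0 ha0
  refine ⟨δ, hδ, ?_⟩
  intro ι R R' r α β a f w hr hR lt len wy ay fy init ev cl ab ⟨B0, hB0⟩ ⟨L, hL0, hL⟩
  choose K hK0 hK using fun k l => (ab k l).hol
  have hKs : ∀ k l, K k l ≤ ∑ k, ∑ l, K k l := fun k l =>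
    (Finset.single_le_sum (fun l _ => hK0 k l) (Finset.mem_univ l)).trans
      (Finset.single_le_sum (f := fun k => ∑ l, K k l)
        (fun k _ => Finset.sum_nonneg fun l _ => hK0 k l) (Finset.mem_univ k))
  obtain ⟨C, hC1, hC⟩ := hS (∑ k, ∑ l, K k l)
  obtain ⟨CI, hCI1, hCI⟩ := hI
  set B := max B0 0 with hB
  have hBn : 0 ≤ B := le_max_right _ _
  have hwB : ∀ i, ∀ t ∈ Icc (α i) (β i), ∀ y ∈ ball (0 : En n) R, ‖w i t y‖ ≤ B :=
    fun i t ht y hy => (hB0 i t ht y hy).trans (le_max_left _ _)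
  have hsub : ball (0 : En n) R' ⊆ ball 0 R := ball_subset_ball hR.le
  set η := 1 / (8 * C * L + 1) with hη
  have hCL : 0 ≤ C * L := by positivity
  have hη0 : 0 < η := by positivity
  have hη1 : η ≤ 1 := by rw [hη, div_le_one (by positivity)]; linarith
  have hη2 : 2 * C * L * η ≤ 1 / 4 := by
    rw [hη, mul_one_div, div_le_iff₀ (by positivity)]; linarith
  set E := CI * B / η ^ 4 with hE
  have hE0 : 0 ≤ E := by positivity
  set D := C * (2 * (L * (1 + E)) + B) with hD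
  have hD0 : 0 ≤ D := by positivity
  have low : ∀ i, ∀ t ∈ Icc (α i) (β i), ∀ N, 0 ≤ N → WH (ball 0 R') N (d2 (w i t)) →
      Low (ball 0 R') (η * N + E) (w i t) := fun i t ht N hN hw =>
    hCI _ _ B N η isOpen_ball (((wy i).contDiffOn isOpen_ball t ht).mono hsub) hBn hN hη0 hη1
      (fun y hy => hwB i t ht y (hsub hy)) hw
  have main : ∀ i, ∀ t ∈ Icc (α i) (β i), WH (ball 0 R') (2 * D) (d2 (w i t)) := by
    intro i
    refine absorb_wh hD0 (wh_finite isCompact_Icc isOpen_ball (wy i) (isCompact_closedBall 0 R')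
      (closedBall_subset_ball hR) ball_subset_closedBall) fun N hN hw t ht => ?_
    have hX : 0 ≤ η * N + E := by positivity
    have hf := fun t ht => hL i t ht _ hX (low i t ht N hN (hw t ht))
    have hd : LinD a0 δ (∑ k, ∑ l, K k l) (α i) (β i) (ball 0 R') (a i) (f i) (w i)
        (L * (1 + (η * N + E))) (L * (1 + (η * N + E))) B :=
      { lt := lt i
        len := len i
        opn := isOpen_ball
        w2 := (wy i).mono subset_rfl hsub
        ac := fun k l => (ay i k l).cont.mono (prod_mono subset_rfl hsub)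
        fc := (fy i).cont.mono (prod_mono subset_rfl hsub)
        init := fun y hy => init i y (hsub hy)
        ev := fun t ht y hy => ev i t ht y (hsub hy)
        cl := fun t ht y hy => cl i t ht y (hsub hy)
        ah := fun t ht y hy y' hy' k l =>
          (hK k l ⟨(i, t), ht⟩ y (hsub hy) y' (hsub hy')).trans
            (mul_le_mul_of_nonneg_right (hKs k l) (Real.sqrt_nonneg _))
        A0 := by positivity
        c0 := by positivity
        B0 := hBn
        wB := fun t ht y hy => hwB i t ht y (hsub hy)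
        fA := fun t ht => (hf t ht).1
        fH := fun t ht => (hf t ht).2 }
    refine (hC _ _ _ _ _ _ _ _ _ N hd hN hw t ht).mono ?_
    have h1 : 2 * C * L * η * N ≤ 1 / 4 * N := mul_le_mul_of_nonneg_right hη2 hN
    rw [hD]
    nlinarith
  have low2 := fun i t ht => low i t ht (2 * D) (by positivity) (main i t ht)
  have hrR : ball (0 : En n) r ⊆ ball 0 R := ball_subset_ball (hr.trans hR).le
  refine ub_of_d2 ⟨B, fun p y hy => hwB _ _ p.2 y (hrR hy)⟩
    ⟨_, fun p y hy => (low2 _ _ p.2).2.1.bdd hr hy⟩ (fun p y hy => (wy _).diff p.2 (hrR hy))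
    (fun l p y hy => ((wy _).pd l).diff p.2 (hrR hy))
    (ub_of_wh hr (fun p => (low2 _ _ p.2).1) fun p => main _ _ p.2)

section fam

variable {ι : Type} {a0 : Matrix (Fin n) (Fin n) ℝ} {δ R : ℝ} {m : ℕ} {α β : ι → ℝ}
  {a : ι → ℝ → En n → Matrix (Fin n) (Fin n) ℝ} {f u : ι → ℝ → En n → V}

theorem LinF.pred (h : LinF a0 δ R (m + 1) α β a f u) : LinF a0 δ R m α β a f u where
  lt := h.lt
  len := h.len
  uy := fun i => (h.uy i).pred isCompact_Icc isOpen_ball
  ay := fun i k l => (h.ay i k l).pred isCompact_Icc isOpen_ball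
  fy := fun i => (h.fy i).pred isCompact_Icc isOpen_ball
  ev := h.ev
  cl := h.cl
  ab := fun k l => UB.pred (h.ab k l)
  fb := UB.pred h.fb

/-- change of the index type -/
theorem UBt.sub {W : Type*} [NormedAddCommGroup W] [NormedSpace ℝ W] {κ : Type} {I : ι → Set ℝ}
    {J : κ → Set ℝ} {r : ℝ} {v : ι → ℝ → En n → W} {v' : κ → ℝ → En n → W} (h : UBt I r m v)
    (hs : ∀ j, ∀ t ∈ J j, ∃ i, t ∈ I i ∧ v' j t = v i t) : UBt J r m v' := by
  choose σ h1 h2 using hs
  exact (UB.reindex (fun p : {p : κ × ℝ // p.2 ∈ J p.1} =>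
    (⟨(σ p.1.1 p.1.2 p.2, p.1.2), h1 _ _ p.2⟩ : {p : ι × ℝ // p.2 ∈ I p.1})) h).congr
    fun p y _ => by rw [h2 _ _ p.2]

/-- restriction to later times -/
theorem LinF.late (h : LinF a0 δ R m α β a f u) {θ : ℝ} (hθ : 0 ≤ θ) :
    LinF (ι := {i // α i + θ < β i}) a0 δ R m (fun i => α i.1 + θ) (fun i => β i.1)
      (fun i => a i.1) (fun i => f i.1) (fun i => u i.1) := by
  have hs : ∀ i, Icc (α i + θ) (β i) ⊆ Icc (α i) (β i) := fun i =>
    Icc_subset_Icc_left (by linarith)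
  exact
    { lt := fun i => i.2
      len := fun i => by linarith [h.len i.1]
      uy := fun i => (h.uy i.1).mono (hs _) subset_rfl
      ay := fun i k l => (h.ay i.1 k l).mono (hs _) subset_rfl
      fy := fun i => (h.fy i.1).mono (hs _) subset_rfl
      ev := fun i t ht y hy => (h.ev i.1 t (hs _ ht) y hy).mono (hs _)
      cl := fun i t ht => h.cl i.1 t (hs _ ht)
      ab := fun k l => (h.ab k l).sub fun i t ht => ⟨i.1, hs _ ht, rfl⟩
      fb := h.fb.sub fun i t ht => ⟨i.1, hs _ ht, rfl⟩ }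

variable [CompleteSpace V]

/-- the differentiated equation -/
theorem LinF.pd (h : LinF a0 δ R (m + 1) α β a f u) {R1 : ℝ} (hR : R1 ≤ R)
    (hu : ∀ k l, UBt (fun i => Icc (α i) (β i)) R1 m (fun i t => pd k (pd l (u i t)))) (j : Fin n) :
    LinF a0 δ R1 m α β a (fun i t y => ∑ k, ∑ l, pd j (fun z => a i t z k l) y •
      pd k (pd l (u i t)) y + pd j (f i t) y) (fun i t => pd j (u i t)) := by
  have hs : ball (0 : En n) R1 ⊆ ball 0 R := ball_subset_ball hR
  have hU : IsOpen (ball (0 : En n) R) := isOpen_ball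
  refine
    { lt := h.lt
      len := h.len
      uy := fun i => ((h.uy i).pd j).mono subset_rfl hs
      ay := fun i k l => ((h.ay i k l).pred isCompact_Icc hU).mono subset_rfl hs
      fy := fun i => Yl.mono subset_rfl hs (((Yl.sum hU _ fun k _ => Yl.sum hU _ fun l _ =>
        ((h.ay i k l).pd j).smul isCompact_Icc hU
          ((((h.uy i).pd l).pd k).pred isCompact_Icc hU))).add hU ((h.fy i).pd j))
      ev := fun i => ?_
      cl := fun i t ht y hy => h.cl i t ht y (hs hy)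
      ab := fun k l => UB.mono hR (UB.pred (h.ab k l))
      fb := (UB.sum _ fun k _ => UB.sum _ fun l _ =>
        (UB.mono hR (UB.pd (h.ab k l) j)).smul (hu k l)).add (UB.mono hR (UB.pd h.fb j)) }
  have hI : IsCompact (Icc (α i) (β i)) := isCompact_Icc
  have h3' : Yl (Icc (α i) (β i)) (ball 0 R) 3 (u i) := (h.uy i).of_le hI hU (by omega)
  have t1 : ∀ k l, Yl (Icc (α i) (β i)) (ball 0 R) 1
      (fun t y => a i t y k l • P.pd k (P.pd l (u i t)) y) := fun k l =>
    ((h.ay i k l).of_le hI hU (by omega)).smul hI hU ((h3'.pd l).pd k)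
  have t2 : ∀ k, Yl (Icc (α i) (β i)) (ball 0 R) 1
      (fun t y => ∑ l, a i t y k l • P.pd k (P.pd l (u i t)) y) := fun k =>
    Yl.sum hU _ fun l _ => t1 k l
  have t3 : Yl (Icc (α i) (β i)) (ball 0 R) 1 (fun t y => Lop (a i t y) (u i t) y) :=
    Yl.sum hU _ fun k _ => t2 k
  have := ev_pd hU (h.ev i) h3'.2.1 (t3.add hU ((h.fy i).of_le hI hU (by omega))) j
  intro t ht y hy'
  have hy := hs hy'
  refine (this t ht y hy).congr_deriv ?_
  beta_reduce
  rw [pd_add' (t3.diff ht hy) ((h.fy i).diff ht hy), ← add_assoc]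
  congr 1
  simp only [Lop]
  rw [pd_sum' _ fun k _ => (t2 k).diff ht hy, ← Finset.sum_add_distrib]
  refine Finset.sum_congr rfl fun k _ => ?_
  rw [pd_sum' _ fun l _ => (t1 k l).diff ht hy, ← Finset.sum_add_distrib]
  refine Finset.sum_congr rfl fun l _ => ?_
  rw [pd_smul' ((h.ay i k l).diff ht hy) (((h3'.pd l).pd k).diff ht hy),
    pd3_comm hU h3' ht hy (h3'.pred hI hU)]

end fam

variable [CompleteSpace V] {a0 : Matrix (Fin n) (Fin n) ℝ} {δ : ℝ}

/-- zero initial data -/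
theorem Semi.core0 (hS : Semi V a0 δ) : ∀ (m : ℕ) {ι : Type} {R r : ℝ} {α β : ι → ℝ}
    {a : ι → ℝ → En n → Matrix (Fin n) (Fin n) ℝ} {f u : ι → ℝ → En n → V}, r < R →
    LinF a0 δ R m α β a f u → (∀ i, ∀ y ∈ ball (0 : En n) R, u i (α i) y = 0) →
    (∃ K : ℝ, ∀ i, ∀ t ∈ Icc (α i) (β i), ∀ y ∈ ball (0 : En n) R, ‖u i t y‖ ≤ K) →
    UBt (fun i => Icc (α i) (β i)) r (m + 2) u := by
  intro m
  induction m with
  | zero =>
    intro ι R r α β a f u hr h h0 hK
    refine hS ι R ((r + R) / 2) r α β a f u (by linarith) (by linarith) h.lt h.len h.uy h.ay h.fy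
      h0 h.ev h.cl h.ab hK ?_
    obtain ⟨L, hL0, hL⟩ := wh_of_ub (UB.mono (r' := (r + R) / 2) (by linarith) h.fb)
    refine ⟨L, hL0, fun i t ht X hX _ => ?_⟩
    have : L ≤ L * (1 + X) := by nlinarith
    exact ⟨(hL ⟨(i, t), ht⟩).1.mono this, (hL ⟨(i, t), ht⟩).2.mono this⟩
  | succ m ih =>
    intro ι R r α β a f u hr h h0 hK
    have h1 := ih (r := (r + R) / 2) (by linarith) h.pred h0 hK
    have hs : ball (0 : En n) ((r + R) / 2) ⊆ ball 0 R := ball_subset_ball (by linarith)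
    have hs' : ball (0 : En n) r ⊆ ball 0 R := ball_subset_ball hr.le
    obtain ⟨K, hK'⟩ := hK
    refine ub_succ (fun p y hy => hK' _ _ p.2 y (hs' hy))
      (fun p y hy => (h.uy _).diff p.2 (hs' hy)) fun j => ?_
    refine ih (by linarith) (h.pd (R1 := (r + R) / 2) (by linarith)
      (fun k l => UB.pd (UB.pd h1 l) k) j) (fun i y hy => ?_) ?_
    · rw [pd_congr (ev_of_ball (f := fun _ => 0) (h0 i) (hs hy)), pd_const']
    · obtain ⟨K1, hK1⟩ := (UB.pd h1 j).bdd
      exact ⟨K1, fun i t ht => hK1 ⟨(i, t), ht⟩⟩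

theorem lop_sub {I : Set ℝ} {U : Set (En n)} (hU : IsOpen U) {p q : ℝ → En n → V}
    (hp : Yl I U 2 p) (hq : Yl I U 2 q) {t : ℝ} (ht : t ∈ I) {y : En n} (hy : y ∈ U)
    (A : Matrix (Fin n) (Fin n) ℝ) :
    Lop A (fun z => p t z - q t z) y = Lop A (p t) y - Lop A (q t) y := by
  simp only [Lop, pd_pd_sub hU hp hq ht hy, smul_sub, Finset.sum_sub_distrib]

theorem Semi.linHB (hS : Semi V a0 δ) {m : ℕ} {ι : Type} {R r : ℝ} {α β : ι → ℝ}
    {a : ι → ℝ → En n → Matrix (Fin n) (Fin n) ℝ} {f u : ι → ℝ → En n → V} (hr : r < R)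
    (h : LinF a0 δ R m α β a f u) (h0 : UB R (m + 2) (fun i => u i (α i)))
    (hK : ∃ K : ℝ, ∀ i, ∀ t ∈ Icc (α i) (β i), ∀ y ∈ ball (0 : En n) R, ‖u i t y‖ ≤ K) :
    UBt (fun i => Icc (α i) (β i)) r (m + 2) u := by
  have hU : IsOpen (ball (0 : En n) R) := isOpen_ball
  have y0 : ∀ i, Yl (Icc (α i) (β i)) (ball 0 R) (m + 2) (fun _ => u i (α i)) := fun i =>
    (h.uy i).comp_time (σ := fun _ => α i) continuousOn_const
      fun _ _ => left_mem_Icc.2 (h.lt i).le
  have h0' : UBt (fun i => Icc (α i) (β i)) R (m + 2) (fun i _ => u i (α i)) :=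
    UB.reindex (fun p : {p : ι × ℝ // p.2 ∈ Icc (α p.1) (β p.1)} => p.1.1) h0
  have hw : LinF a0 δ R m α β a (fun i t y => Lop (a i t y) (u i (α i)) y + f i t y)
      (fun i t y => u i t y - u i (α i) y) :=
    { lt := h.lt
      len := h.len
      uy := fun i => (h.uy i).sub hU (y0 i)
      ay := h.ay
      fy := fun i => (Yl.sum hU _ fun k _ => Yl.sum hU _ fun l _ =>
        (h.ay i k l).smul isCompact_Icc hU (((y0 i).pd l).pd k)).add hU (h.fy i)
      ev := fun i t ht y hy => by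
        refine ((h.ev i t ht y hy).sub_const _).congr_deriv ?_
        beta_reduce
        rw [lop_sub hU ((h.uy i).of_le isCompact_Icc hU (by omega))
          ((y0 i).of_le isCompact_Icc hU (by omega)) ht hy]
        abel
      cl := h.cl
      ab := h.ab
      fb := (UB.lop h.ab h0').add h.fb }
  obtain ⟨K, hK⟩ := hK
  have h1 := hS.core0 m hr hw (fun i y _ => sub_self _) ⟨K + K, fun i t ht y hy =>
    (norm_sub_le _ _).trans (add_le_add (hK i t ht y hy)
      (hK i _ (left_mem_Icc.2 (h.lt i).le) y hy))⟩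
  exact (UB.add h1 (UB.mono hr.le h0')).congr fun p y _ => by simp

theorem linHB (h : ISStep n V) (hI : IntStmt n V) : LinHB n V := by
  intro a0 ha0
  obtain ⟨δ, hδ, hS⟩ := semi h hI ha0
  exact ⟨δ, hδ, fun ι R r m α β a f u _ hr hF h0 hK => hS.linHB hr hF h0 hK⟩

end Crest.Agent.T223.Lx
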