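import Crest.Agent.T223.LxHB1_25

/-!
# Row 223 (helper25): higher order bounds, interior in time (`LinHBi`)
-/

set_option autoImplicit false
set_option linter.unusedSectionVars false

open Set Metric Filter Topology
open scoped ContDiff

noncomputable section

namespace Crest.Agent.T223.Lx

open Crest.Agent.N207 Crest.Agent.N207.P

variable {n : ℕ} {V : Type} [NormedAddCommGroup V] [NormedSpace ℝ V]

theorem pd_pd_aff {u : En n → V} {y : En n} (hu : ContDiffAt ℝ 2 u y) (c : ℝ) (v : V)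
    (k l : Fin n) : pd k (pd l fun z => c • (u z - v)) y = c • pd k (pd l u) y := by
  rw [pd_pd_smul_c c (hu.sub contDiffAt_const)]
  congr 1
  refine pd_congr ?_ k
  filter_upwards [hu.eventually (by simp)] with z hz
  rw [pd_sub' (hz.differentiableAt (by simp)) (differentiableAt_const _), pd_const', sub_zero]

theorem lop_aff {u : En n → V} {y : En n} (hu : ContDiffAt ℝ 2 u y) (c : ℝ) (v : V)
    (A : Matrix (Fin n) (Fin n) ℝ) : Lop A (fun z => c • (u z - v)) y = c • Lop A u y := by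
  simp only [Lop, pd_pd_aff hu, Finset.smul_sum, smul_comm c]

theorem norm_lop_le {A : Matrix (Fin n) (Fin n) ℝ} {K : ℝ} (hA : ∀ k l, |A k l| ≤ K)
    (w : En n → V) (y : En n) : ‖Lop A w y‖ ≤ n * (n * (K * ‖d2 w y‖)) := by
  refine (norm_sum_le _ _).trans ((Finset.sum_le_card_nsmul _ _ (n * (K * ‖d2 w y‖))
    fun k _ => (norm_sum_le _ _).trans ((Finset.sum_le_card_nsmul _ _ (K * ‖d2 w y‖)
      fun l _ => ?_).trans (by simp))).trans (by simp))
  rw [norm_smul, Real.norm_eq_abs]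
  exact mul_le_mul (hA k l) (pd_le_d2 w y k l) (norm_nonneg _) ((abs_nonneg _).trans (hA k l))

theorem exists_bd2 {ι : Type} {r : ℝ} {m : ℕ} {a : ι → En n → Matrix (Fin n) (Fin n) ℝ}
    (h : ∀ k l, UB r m fun i y => a i y k l) :
    ∃ K, 0 ≤ K ∧ ∀ i, ∀ y ∈ ball (0 : En n) r, ∀ k l, |a i y k l| ≤ K := by
  obtain ⟨K, hK0, hK⟩ := (UB.pi fun k => UB.pi fun l => h k l).bdd'
  exact ⟨K, hK0, fun i y hy k l => (app2_le (fun k l => a i y k l) k l).trans (hK i y hy)⟩

theorem abs_sub_le_one {α β t : ℝ} (h : β - α ≤ 1) (ht : t ∈ Icc α β) : |t - α| ≤ 1 := by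
  rw [abs_of_nonneg (by linarith [ht.1])]; linarith [ht.2]

/-- removing the factor `t - α` -/
theorem UBt.unscale {W : Type*} [NormedAddCommGroup W] [NormedSpace ℝ W] {ι : Type} {r θ : ℝ}
    {m : ℕ} {α β : ι → ℝ} {w u : ι → ℝ → En n → W} (hθ : 0 < θ)
    (h : UBt (fun i => Icc (α i) (β i)) r m w)
    (e : ∀ i, ∀ t ∈ Icc (α i) (β i), ∀ y ∈ ball (0 : En n) r, w i t y = (t - α i) • u i t y) :
    UBt (fun i => Icc (α i + θ) (β i)) r m u := by
  have hs : ∀ i, Icc (α i + θ) (β i) ⊆ Icc (α i) (β i) := fun i =>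
    Icc_subset_Icc_left (by linarith)
  have h1 : UBt (fun i => Icc (α i + θ) (β i)) r m w := h.sub fun i t ht => ⟨i, hs _ ht, rfl⟩
  refine (UB.const_smul (c := fun p => (p.1.2 - α p.1.1)⁻¹) ⟨θ⁻¹, fun p => ?_⟩ h1).congr
    fun p y hy => ?_
  · have := p.2.1
    rw [abs_of_pos (inv_pos.2 (by linarith))]
    exact inv_anti₀ hθ (by linarith)
  · have := p.2.1
    rw [e _ _ (hs _ p.2) y hy, inv_smul_smul₀ (by linarith : p.1.2 - α p.1.1 ≠ 0)]

variable [CompleteSpace V] {a0 : Matrix (Fin n) (Fin n) ℝ} {δ : ℝ}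

theorem Semi.linHBi0 (hS : Semi V a0 δ) {ι : Type} {R r θ : ℝ} {α β : ι → ℝ}
    {a : ι → ℝ → En n → Matrix (Fin n) (Fin n) ℝ} {f u : ι → ℝ → En n → V} (hr0 : 0 < r)
    (hr : r < R) (hθ : 0 < θ) (h : LinF a0 δ R 0 α β a f u)
    (hK : ∃ K : ℝ, ∀ i, ∀ t ∈ Icc (α i) (β i), ∀ y ∈ ball (0 : En n) R, ‖d1 (u i t) y‖ ≤ K)
    (j : Fin n) : UBt (fun i => Icc (α i + θ) (β i)) r 1 (fun i t => pd j (u i t)) := by
  have hU : IsOpen (ball (0 : En n) R) := isOpen_ball
  have hR0 : 0 < R := hr0.trans hr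
  have z0 : (0 : En n) ∈ ball (0 : En n) R := mem_ball_self hR0
  obtain ⟨K0, hK0⟩ := hK
  set K := max K0 0 with hKd
  have hKn : 0 ≤ K := le_max_right _ _
  have lip : ∀ i, ∀ t ∈ Icc (α i) (β i), ∀ y ∈ ball (0 : En n) R, ∀ y' ∈ ball (0 : En n) R,
      ‖u i t y - u i t y'‖ ≤ n * K * dist y y' := fun i t ht y hy y' hy' =>
    lip_of_d1 (convex_ball 0 R) (fun z hz => (h.uy i).diff ht hz)
      (fun z hz => (hK0 i t ht z hz).trans (le_max_left _ _)) hy hy'
  have bd : ∀ i, ∀ t ∈ Icc (α i) (β i), ∀ y ∈ ball (0 : En n) R,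
      ‖u i t y - u i t 0‖ ≤ n * K * R := fun i t ht y hy =>
    (lip i t ht y hy 0 z0).trans (mul_le_mul_of_nonneg_left (mem_ball.1 hy).le (by positivity))
  have c2 : ∀ i, ∀ t ∈ Icc (α i) (β i), ∀ y ∈ ball (0 : En n) R, ContDiffAt ℝ 2 (u i t) y :=
    fun i t ht y hy => ((h.uy i).contDiffOn hU t ht).contDiffAt (hU.mem_nhds hy)
  have yt : ∀ i m, Yl (Icc (α i) (β i)) (ball (0 : En n) R) m (fun t _ => t - α i) :=
    fun i m => yl_time (by fun_prop)
  have yu : ∀ i, Yl (Icc (α i) (β i)) (ball (0 : En n) R) 2 (fun t y => u i t y - u i t 0) :=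
    fun i => (h.uy i).sub hU (yl_time (X.cont_slice (h.uy i).cont z0))
  obtain ⟨Ka, hKa0, hKa⟩ := exists_bd2 h.ab
  obtain ⟨Kf, hKf⟩ := UB.bdd h.fb
  have g1 : UBt (fun i => Icc (α i) (β i)) R 0
      (fun i t y => (u i t y - u i t 0) + (t - α i) • (f i t y - f i t 0)) := by
    refine UB.add (ub_zero_of_lip (c := n * K) (fun p y hy => bd _ _ p.2 y hy) (by positivity)
      fun p y hy y' hy' => ?_) (UB.const_smul ⟨1, fun p => abs_sub_le_one (h.len _) p.2⟩
        (UB.sub h.fb (ub_const ⟨Kf, fun p => hKf p 0 z0⟩)))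
    rw [sub_sub_sub_cancel_right]
    exact lip _ _ p.2 y hy y' hy'
  have key := hS ι R ((r + R) / 2) r α β a
    (fun i t y => ((u i t y - u i t 0) + (t - α i) • (f i t y - f i t 0)) +
      -((t - α i) • Lop (a i t 0) (u i t) 0))
    (fun i t y => (t - α i) • (u i t y - u i t 0)) (by linarith) (by linarith) h.lt h.len
    (fun i => (yt i 2).smul isCompact_Icc hU (yu i)) h.ay (fun i => ?_) (fun i y _ => by simp)
    (fun i t ht y hy => ?_) h.cl h.ab ⟨n * K * R, fun i t ht y hy => ?_⟩ ?_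
  · refine UBt.unscale (w := fun i t => pd j fun y => (t - α i) • (u i t y - u i t 0)) hθ
      (UB.pd key j) fun i t ht y hy => ?_
    have hd := (h.uy i).diff ht (ball_subset_ball hr.le hy)
    rw [pd_smul_c _ (hd.sub_const _), pd_sub' hd (differentiableAt_const _), pd_const', sub_zero]
  · refine (((yu i).of_le isCompact_Icc hU (by omega)).add hU ((yt i 0).smul isCompact_Icc hU
      ((h.fy i).sub hU (yl_time (X.cont_slice (h.fy i).cont z0))))).add hU (yl_time ?_)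
    refine ((by fun_prop : ContinuousOn (fun t => t - α i) _).smul
      (continuousOn_finsetSum _ fun k _ => continuousOn_finsetSum _ fun l _ => ?_)).neg
    exact (X.cont_slice (w := fun t y => a i t y k l) (h.ay i k l).cont z0).smul
      (X.cont_slice (w := fun t => pd k (pd l (u i t))) (((h.uy i).pd l).pd k).cont z0)
  · have h1 := ((hasDerivWithinAt_id t _).sub_const (α i)).smul
      ((h.ev i t ht y hy).sub (h.ev i t ht 0 z0))
    refine h1.congr_deriv ?_
    beta_reduce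
    rw [lop_aff (c2 i t ht y hy)]
    simp only [id, Pi.sub_apply]
    module
  · rw [norm_smul, Real.norm_eq_abs]
    have := mul_le_mul (abs_sub_le_one (h.len i) ht) (bd i t ht y hy) (norm_nonneg _) zero_le_one
    rwa [one_mul] at this
  · obtain ⟨L, hL0, hL⟩ := wh_of_ub (UB.mono (r' := (r + R) / 2) (by linarith) g1)
    have hrr : r < (r + R) / 2 := by linarith
    set σ := min ((r + R) / 2 - r) 1 ^ 2 * √(min ((r + R) / 2 - r) 1) with hσ
    have hσ0 : 0 < σ := by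
      have : 0 < min ((r + R) / 2 - r) 1 := lt_min (by linarith) one_pos
      positivity
    refine ⟨L + n * (n * (Ka / σ)), by positivity, fun i t ht X hX hw => ?_⟩
    have h1 := hw.1.bdd hrr (mem_ball_self hr0)
    have h2 : ‖-((t - α i) • Lop (a i t 0) (u i t) 0)‖ ≤ n * (n * (Ka * (X / σ))) := by
      rw [norm_neg, ← lop_aff (c2 i t ht 0 z0) _ (u i t 0)]
      refine (norm_lop_le (hKa ⟨(i, t), ht⟩ 0 z0) _ _).trans ?_
      gcongr
    have h3 : 0 ≤ n * (n * (Ka / σ)) := by positivity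
    have h4 : n * (n * (Ka * (X / σ))) = n * (n * (Ka / σ)) * X := by ring
    refine ⟨((hL ⟨(i, t), ht⟩).1.add (ws_of_le fun _ _ => h2)).mono (by nlinarith),
      ((hL ⟨(i, t), ht⟩).2.add (wh_of_le (c := 0) fun _ _ _ _ => by simp)).mono (by nlinarith)⟩

theorem UBt.late {W : Type*} [NormedAddCommGroup W] [NormedSpace ℝ W] {ι : Type} {r θ : ℝ}
    {m : ℕ} {α β : ι → ℝ} {u : ι → ℝ → En n → W} (hθ : 0 < θ)
    (h : UBt (ι := {i // α i + θ / 2 < β i}) (fun i => Icc (α i.1 + θ / 2 + θ / 2) (β i.1)) r m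
      (fun i => u i.1)) : UBt (fun i => Icc (α i + θ) (β i)) r m u :=
  h.sub fun i t ht => ⟨⟨i, by linarith [ht.1, ht.2]⟩, ⟨by linarith [ht.1], ht.2⟩, rfl⟩

theorem Semi.linHBi (hS : Semi V a0 δ) : ∀ (m : ℕ) {ι : Type} {R r θ : ℝ} {α β : ι → ℝ}
    {a : ι → ℝ → En n → Matrix (Fin n) (Fin n) ℝ} {f u : ι → ℝ → En n → V}, 0 < r →
    r < R → 0 < θ → LinF a0 δ R m α β a f u →
    (∃ K : ℝ, ∀ i, ∀ t ∈ Icc (α i) (β i), ∀ y ∈ ball (0 : En n) R, ‖d1 (u i t) y‖ ≤ K) →
    ∀ j, UBt (fun i => Icc (α i + θ) (β i)) r (m + 1) (fun i t => pd j (u i t)) := by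
  intro m
  induction m with
  | zero => exact fun hr0 hr hθ h hK j => hS.linHBi0 hr0 hr hθ h hK j
  | succ m ih =>
    intro ι R r θ α β a f u hr0 hr hθ h hK j
    have h1 := ih (r := (r + R) / 2) (θ := θ / 2) (by linarith) (by linarith) (by linarith)
      h.pred hK
    have h2 : ∀ l, UBt (ι := {i // α i + θ / 2 < β i}) (fun i => Icc (α i.1 + θ / 2) (β i.1))
        ((r + R) / 2) (m + 1) (fun i t => pd l (u i.1 t)) := fun l =>
      (h1 l).sub fun i t ht => ⟨i.1, ht, rfl⟩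
    have h3 := (h.late (θ := θ / 2) (by linarith)).pd (R1 := (r + R) / 2) (by linarith)
      (fun k l => UB.pd (h2 l) k) j
    have hs : ∀ i, Icc (α i + θ) (β i) ⊆ Icc (α i) (β i) := fun i =>
      Icc_subset_Icc_left (by linarith)
    have hs' : ball (0 : En n) r ⊆ ball 0 R := ball_subset_ball hr.le
    obtain ⟨K1, hK1⟩ := (UB.d1 (h2 j)).bdd
    have h4 := ih (r := r) (θ := θ / 2) hr0 (by linarith) (by linarith) h3
      ⟨K1, fun i t ht => hK1 ⟨(i, t), ht⟩⟩
    obtain ⟨K, hK'⟩ := hK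
    exact ub_succ (fun p y hy => (pd_le_d1 _ _ _).trans (hK' _ _ (hs _ p.2) y (hs' hy)))
      (fun p y hy => ((h.uy _).pd j).diff (hs _ p.2) (hs' hy))
      fun k => UBt.late (u := fun i t => pd k (pd j (u i t))) hθ (h4 k)

theorem linHBi (h : ISStep n V) (hI : IntStmt n V) : LinHBi n V := by
  intro a0 ha0
  obtain ⟨δ, hδ, hS⟩ := semi h hI ha0
  exact ⟨δ, hδ, fun ι R r θ m α β a f u hr0 hr hθ hF hK =>
    UB.pi fun j => hS.linHBi m hr0 hr hθ hF hK j⟩

end Crest.Agent.T223.Lx
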