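import Crest.Agent.T223.LxDef_83

/-!
# Row 223 (helper54): local Hoelder bounds, the local difference quotient lemma, mean values
-/

set_option autoImplicit false
set_option linter.unusedSectionVars false

open Set Metric Filter Topology MeasureTheory
open scoped ContDiff Interval

noncomputable section

namespace Crest.Agent.T223.Lx.R54

open Crest.Agent.N207 Crest.Agent.N207.P

variable {n : ℕ} {V W X : Type*} [NormedAddCommGroup V] [NormedSpace ℝ V]
  [NormedAddCommGroup W] [NormedSpace ℝ W] [NormedAddCommGroup X] [NormedSpace ℝ X]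
  {I I' : Set ℝ} {S S' U : Set (En n)} {L L' : ℝ} {f g : ℝ → En n → V}

/-- sup and Hoelder bound `L` on `I × S` -/
def Hb (I : Set ℝ) (S : Set (En n)) (L : ℝ) (f : ℝ → En n → V) : Prop :=
  ∀ t ∈ I, (∀ y ∈ S, ‖f t y‖ ≤ L) ∧ ∀ y ∈ S, ∀ y' ∈ S, ‖f t y - f t y'‖ ≤ L * √(dist y y')

theorem Hb.mono (h : Hb I S L f) (hI : I' ⊆ I) (hS : S' ⊆ S) (hL : L ≤ L') : Hb I' S' L' f :=
  fun t ht => ⟨fun y hy => ((h t (hI ht)).1 y (hS hy)).trans hL, fun y hy y' hy' =>
    ((h t (hI ht)).2 y (hS hy) y' (hS hy')).trans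
      (mul_le_mul_of_nonneg_right hL (Real.sqrt_nonneg _))⟩

theorem Hb.congr (h : Hb I S L f) (e : ∀ t ∈ I, ∀ y ∈ S, g t y = f t y) : Hb I S L g :=
  fun t ht => ⟨fun y hy => e t ht y hy ▸ (h t ht).1 y hy, fun y hy y' hy' => by
    rw [e t ht y hy, e t ht y' hy']; exact (h t ht).2 y hy y' hy'⟩

theorem Hb.add (h : Hb I S L f) (h' : Hb I S L' g) : Hb I S (L + L') fun t y => f t y + g t y :=
  fun t ht => ⟨fun y hy => (norm_add_le _ _).trans (add_le_add ((h t ht).1 y hy) ((h' t ht).1 y hy)),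
    fun y hy y' hy' => by
      rw [add_sub_add_comm, add_mul]
      exact (norm_add_le _ _).trans (add_le_add ((h t ht).2 y hy y' hy') ((h' t ht).2 y hy y' hy'))⟩

theorem Hb.tsmul (h : Hb I S L f) {θ : ℝ → ℝ} {c : ℝ} (hc : 0 ≤ c) (hθ : ∀ t ∈ I, |θ t| ≤ c) :
    Hb I S (c * L) fun t y => θ t • f t y :=
  fun t ht => ⟨fun y hy => by
      rw [norm_smul]
      exact mul_le_mul (hθ t ht) ((h t ht).1 y hy) (norm_nonneg _) hc,
    fun y hy y' hy' => by
      rw [← smul_sub, norm_smul, mul_assoc]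
      exact mul_le_mul (hθ t ht) ((h t ht).2 y hy y' hy') (norm_nonneg _) hc⟩

theorem Hb.bilin (B : V →L[ℝ] W →L[ℝ] X) (hB : ‖B‖ ≤ 1) {g : ℝ → En n → W} (h : Hb I S L f)
    (h' : Hb I S L' g) : Hb I S (2 * L * L') fun t y => B (f t y) (g t y) := by
  have hb : ∀ a b, ‖B a b‖ ≤ ‖a‖ * ‖b‖ := fun a b => (B.le_opNorm₂ a b).trans (by
    rw [mul_assoc]; exact mul_le_of_le_one_left (by positivity) hB)
  refine fun t ht => ⟨fun y hy => ?_, fun y hy y' hy' => ?_⟩
  · have a1 := (h t ht).1 y hy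
    have a2 := (h' t ht).1 y hy
    have h0 := (norm_nonneg _).trans a1
    have h1 := mul_le_mul a1 a2 (norm_nonneg _) h0
    have h2 := mul_nonneg h0 ((norm_nonneg _).trans a2)
    linarith [hb (f t y) (g t y)]
  · have e : B (f t y) (g t y) - B (f t y') (g t y') =
        B (f t y) (g t y - g t y') + B (f t y - f t y') (g t y') := by
      simp only [map_sub, sub_apply]; abel
    have h0 := (norm_nonneg _).trans ((h t ht).1 y hy)
    have a1 := mul_le_mul ((h t ht).1 y hy) ((h' t ht).2 y hy y' hy') (norm_nonneg _) h0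
    have a2 := mul_le_mul ((h t ht).2 y hy y' hy') ((h' t ht).1 y' hy') (norm_nonneg _)
      (by positivity)
    rw [e]
    refine (norm_add_le _ _).trans ((add_le_add (hb _ _) (hb _ _)).trans ?_)
    linarith

theorem Hb.shift (h : Hb I S' L f) {v : En n} (hS : ∀ y ∈ S, y + v ∈ S') :
    Hb I S L fun t y => f t (y + v) :=
  fun t ht => ⟨fun y hy => (h t ht).1 _ (hS y hy), fun y hy y' hy' => by
    simpa using (h t ht).2 _ (hS y hy) _ (hS y' hy')⟩

theorem exists_hb (hI : IsCompact I) (hU : IsOpen U) (h : Yl I U 0 f) {y0 : En n} (hy : y0 ∈ U) :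
    ∃ L : ℝ, 0 ≤ L ∧ ∀ᶠ r in 𝓝[>] (0 : ℝ), Hb I (ball y0 r) L f := by
  obtain ⟨K, hK0, hK⟩ := h.hol hy
  obtain ⟨A, hA0, hA⟩ := loc_bdd hI hU h.1 hy
  refine ⟨K + A, by positivity, ?_⟩
  filter_upwards [hK, hA] with r h1 h2 t ht
  exact ⟨fun y hy => (h2 t ht y hy).trans (by linarith), fun y hy y' hy' =>
    (h1 t ht y hy y' hy').trans (mul_le_mul_of_nonneg_right (by linarith) (Real.sqrt_nonneg _))⟩

theorem exists_hb_pd (hI : IsCompact I) (hU : IsOpen U) (h : Yl I U 1 f) {y0 : En n}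
    (hy : y0 ∈ U) :
    ∃ L : ℝ, 0 ≤ L ∧ ∀ᶠ r in 𝓝[>] (0 : ℝ), ∀ k, Hb I (ball y0 r) L fun t => pd k (f t) := by
  choose L h0 hL using fun k => exists_hb hI hU (h.pd k) hy
  refine ⟨∑ k, L k, Finset.sum_nonneg fun k _ => h0 k, eventually_all.2 fun k => ?_⟩
  exact (hL k).mono fun r hr => hr.mono Subset.rfl Subset.rfl
    (Finset.single_le_sum (fun j _ => h0 j) (Finset.mem_univ k))

/-- increments are `O(‖v‖)` -/
theorem hb_dv {v : En n} (hS : ∀ y ∈ S, ∀ z, ‖z‖ ≤ ‖v‖ → y + z ∈ S')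
    (hd : ∀ t ∈ I, ∀ y ∈ S', DifferentiableAt ℝ (f t) y)
    (hL : ∀ k, Hb I S' L fun t => pd k (f t)) : Hb I S (n * L * ‖v‖) (dv v f) := by
  intro t ht
  have hd' : ∀ x ∈ S, ∀ z ∈ closedBall (0 : En n) ‖v‖,
      HasFDerivAt (fun z => f t (x + z)) (fderiv ℝ (f t) (x + z)) z := fun x hx z hz =>
    (hasFDerivAt_comp_add_left x).2 (hd t ht _ (hS x hx z (by simpa using hz))).hasFDerivAt
  have m0 : (0 : En n) ∈ closedBall (0 : En n) ‖v‖ := by simp
  have m1 : v ∈ closedBall (0 : En n) ‖v‖ := by simp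
  refine ⟨fun y hy => ?_, fun y hy y' hy' => ?_⟩
  · have := (convex_closedBall (0 : En n) ‖v‖).norm_image_sub_le_of_norm_hasFDerivWithin_le
      (𝕜 := ℝ) (f := fun z => f t (y + z)) (C := n * L)
      (fun z hz => (hd' y hy z hz).hasFDerivWithinAt)
      (fun z hz => (norm_clm_le_sum _).trans (by
        simpa [pd] using Finset.sum_le_card_nsmul Finset.univ _ L fun k _ =>
          (hL k t ht).1 _ (hS y hy z (by simpa using hz)))) m0 m1
    simpa [dv] using this
  · have := (convex_closedBall (0 : En n) ‖v‖).norm_image_sub_le_of_norm_hasFDerivWithin_le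
      (𝕜 := ℝ) (f := fun z => f t (y + z) - f t (y' + z)) (C := n * (L * √(dist y y')))
      (fun z hz => ((hd' y hy z hz).sub (hd' y' hy' z hz)).hasFDerivWithinAt)
      (fun z hz => (norm_clm_le_sum _).trans (by
        have := Finset.sum_le_card_nsmul Finset.univ _ (L * √(dist y y')) fun k _ =>
          ((hL k t ht).2 _ (hS y hy z (by simpa using hz)) _
            (hS y' hy' z (by simpa using hz))).trans (le_of_eq (by rw [dist_add_right]))
        simpa [pd] using this)) m0 m1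
    simp only [add_zero, sub_zero] at this
    calc ‖dv v f t y - dv v f t y'‖ = ‖f t (y + v) - f t (y' + v) - (f t y - f t y')‖ := by
          simp only [dv]; congr 1; abel
      _ ≤ _ := this
      _ = _ := by ring

theorem hb_static {χ : En n → V} (hχ : ContDiff ℝ ∞ χ) {K : Set (En n)} (hK : IsCompact K)
    (h0 : ∀ y, y ∉ K → χ y = 0) : ∃ L : ℝ, 0 ≤ L ∧ Hb I univ L fun _ => χ := by
  obtain ⟨L, hL, h⟩ := (yl_static (I := Icc (0 : ℝ) 0) (m := 0) isCompact_Icc isOpen_univ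
    hχ.contDiffOn).yb hK fun _ _ => h0
  exact ⟨L, hL, fun _ _ => ⟨fun y _ => h.sup 0 (by simp) y, fun y _ y' _ => h.hol 0 (by simp) y y'⟩⟩

/-- a global Hoelder bound from a local one -/
theorem hol_glob {y0 : En n} {R : ℝ} (hR : 0 < R) (hL : 0 ≤ L) (h : Hb I (ball y0 R) L f) {t : ℝ}
    (ht : t ∈ I) (h0 : ∀ y, y ∉ closedBall y0 (3 * R / 4) → f t y = 0) (y y' : En n) :
    ‖f t y - f t y'‖ ≤ L * (1 + 1 / √(R / 4)) * √(dist y y') := by
  have hq : 0 < √(R / 4) := Real.sqrt_pos.2 (by linarith)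
  have hz : ∀ z, z ∉ ball y0 R → f t z = 0 := fun z hz => h0 z fun h1 =>
    hz (closedBall_subset_ball (by linarith) h1)
  have far : ∀ z z', z ∈ ball y0 R → z' ∉ ball y0 R →
      ‖f t z‖ ≤ L * (1 + 1 / √(R / 4)) * √(dist z z') := fun z z' h1 h2 => by
    by_cases h3 : z ∈ closedBall y0 (3 * R / 4)
    · have h4 : R / 4 ≤ dist z z' := by
        have := dist_triangle z' z y0
        rw [mem_closedBall] at h3
        rw [mem_ball, not_lt] at h2
        rw [dist_comm]
        linarith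
      calc ‖f t z‖ ≤ L * (1 / √(R / 4)) * √(R / 4) := by
            rw [mul_assoc, one_div, inv_mul_cancel₀ hq.ne', mul_one]; exact (h t ht).1 z h1
        _ ≤ _ := by gcongr; linarith
    · rw [h0 z h3, norm_zero]; positivity
  by_cases h1 : y ∈ ball y0 R <;> by_cases h2 : y' ∈ ball y0 R
  · refine ((h t ht).2 y h1 y' h2).trans (mul_le_mul_of_nonneg_right ?_ (Real.sqrt_nonneg _))
    exact le_mul_of_one_le_right hL (le_add_of_nonneg_right (by positivity))
  · rw [hz y' h2, sub_zero]; exact far y y' h1 h2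
  · rw [hz y h1, zero_sub, norm_neg, dist_comm]; exact far y' y h2 h1
  · rw [hz y h1, hz y' h2, sub_zero, norm_zero]; positivity

/-- the local difference quotient lemma -/
theorem dq_loc [CompleteSpace V] (hI : IsCompact I) {y0 : En n} {R ρ K : ℝ} (hR : 0 < R)
    (hρ : 0 < ρ) (hK : 0 ≤ K) (hL : 0 ≤ L) (hg : Yl I (ball y0 R) 0 g) (h : Hb I (ball y0 R) L g)
    (H : ∀ v, ‖v‖ ≤ ρ → Hb I (ball y0 R) (K * ‖v‖) (dv v g)) : Yl I (ball y0 (R / 4)) 1 g := by
  let χ : ContDiffBump y0 := ⟨R / 4, R / 2, by positivity, by linarith⟩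
  have hχ0 : ∀ y, y ∉ closedBall y0 (R / 2) → χ y = 0 := fun y hy =>
    χ.zero_of_le_dist (le_of_lt (by simpa using hy))
  have hχs : ContDiff ℝ ∞ χ := χ.contDiff
  obtain ⟨A, hA0, hA⟩ := hb_static (I := I) hχs (isCompact_closedBall _ _) hχ0
  choose B hB0 hB using fun k => hb_static (I := I) (contDiff_pd_top hχs k)
    (isCompact_closedBall _ _) (pd_zero_off isClosed_closedBall hχ0 k)
  have hB1 : 0 ≤ ∑ k, B k := Finset.sum_nonneg fun k _ => hB0 k
  have hB' : ∀ k, Hb I univ (∑ k, B k) fun _ => pd k χ := fun k => (hB k).mono Subset.rfl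
    Subset.rfl (Finset.single_le_sum (fun j _ => hB0 j) (Finset.mem_univ k))
  set φ : ℝ → En n → V := fun t y => χ y • g t y with hφ
  have hφ0 : ∀ t y, y ∉ closedBall y0 (R / 2) → φ t y = 0 := fun t y hy => by
    simp [hφ, hχ0 y hy]
  have hy : Yl I univ 0 φ := ((yl_static hI isOpen_ball hχs.contDiffOn).smul hI isOpen_ball
    hg).ext_zero isOpen_ball isClosed_closedBall (closedBall_subset_ball (by linarith))
      fun t _ => hφ0 t
  have hs : ‖ContinuousLinearMap.lsmul ℝ ℝ (E := V)‖ ≤ 1 := ContinuousLinearMap.opNorm_lsmul_le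
  set c : ℝ := 1 + 1 / √(R / 4) with hc
  have hc0 : 0 ≤ c := by positivity
  set ρ' := min ρ (R / 4) with hρ'
  have hρ0 : 0 < ρ' := by positivity
  set K1 := (2 * A * K + 2 * (n * ∑ k, B k) * L) * c with hK1
  set K2 := 2 * (2 * A * L * c) / ρ' with hK2
  have hK10 : 0 ≤ K1 := by positivity
  have hK20 : 0 ≤ K2 := by positivity
  refine ((dq (φ := φ) (K := K1 + K2) (by positivity) hy.1 fun v t ht y y' => ?_).mono Subset.rfl
    (subset_univ _)).congr isOpen_ball fun t _ y hy => ?_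
  · have hv := norm_nonneg v
    have hq := Real.sqrt_nonneg (dist y y')
    rcases le_total ‖v‖ ρ' with h1 | h1
    · have h2 := (((hA.shift (S := ball y0 R) (v := v) fun _ _ => mem_univ _).bilin _ hs
        (H v (h1.trans (min_le_left _ _)))).add
        (((hb_dv (f := fun _ => χ) (S := ball y0 R) (v := v) (fun _ _ _ _ => mem_univ _)
          (fun _ _ y _ => hχs.differentiable (by simp) y) hB').bilin _ hs h))).congr
        (g := dv v φ) fun t _ y _ => by
          simp only [dv, hφ, ContinuousLinearMap.lsmul_apply, smul_sub, sub_smul]; abel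
      refine (hol_glob hR (by positivity) h2 ht (fun z hz => ?_) y y').trans ?_
      · have h3 : ‖v‖ ≤ R / 4 := h1.trans (min_le_right _ _)
        rw [mem_closedBall, not_le] at hz
        have h4 := dist_triangle z (z + v) y0
        rw [dist_self_add_right] at h4
        rw [dv, hφ0 t z (by rw [mem_closedBall, not_le]; linarith),
          hφ0 t (z + v) (by rw [mem_closedBall, not_le]; linarith), sub_zero]
      · refine mul_le_mul_of_nonneg_right ?_ hq
        rw [← hc]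
        nlinarith [mul_nonneg hK20 hv]
    · have h2 := hol_glob hR (by positivity) (((hA.mono Subset.rfl (subset_univ _)
        le_rfl).bilin _ hs h).congr (g := φ) fun _ _ _ _ => rfl) ht fun z hz => hφ0 t z fun h3 =>
          hz (closedBall_subset_closedBall (by linarith) h3)
      rw [← hc] at h2
      have h3 := h2 (y + v) (y' + v)
      rw [dist_add_right] at h3
      have h4 : 2 * (2 * A * L * c) ≤ K2 * ‖v‖ := by
        rw [hK2, div_mul_eq_mul_div, le_div_iff₀ hρ0]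
        exact mul_le_mul_of_nonneg_left h1 (by positivity)
      calc _ = ‖φ t (y + v) - φ t (y' + v) - (φ t y - φ t y')‖ := by
            simp only [dv]; congr 1; abel
        _ ≤ 2 * (2 * A * L * c) * √(dist y y') := by
            linarith [norm_sub_le (φ t (y + v) - φ t (y' + v)) (φ t y - φ t y'), h2 y y']
        _ ≤ _ := mul_le_mul_of_nonneg_right (by nlinarith [mul_nonneg hK10 hv]) hq
  · simp [hφ, χ.one_of_mem_closedBall (ball_subset_closedBall hy)]

theorem pd_shift (k : Fin n) (u : En n → V) (v : En n) :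
    pd k (fun y => u (y + v)) = fun y => pd k u (y + v) := by
  funext y
  simp only [pd, fderiv_comp_add_right]

theorem pd_csmul (k : Fin n) (c : ℝ) (u : En n → V) :
    pd k (fun y => c • u y) = fun y => c • pd k u y := by
  funext y
  have := fderiv_const_smul_field (𝕜 := ℝ) (f := u) c
  exact congrArg (fun D : En n → En n →L[ℝ] V => D y (EuclideanSpace.single k 1)) this

theorem yl_shift {v : En n} (hS : ∀ y ∈ S, y + v ∈ U) :
    ∀ {m : ℕ} {f : ℝ → En n → V}, Yl I U m f → Yl I S m fun t y => f t (y + v) := by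
  have hc : ∀ {f : ℝ → En n → V}, ContinuousOn (fun q : ℝ × En n => f q.1 q.2) (I ×ˢ U) →
      ContinuousOn (fun q : ℝ × En n => f q.1 (q.2 + v)) (I ×ˢ S) := fun h =>
    h.comp (f := fun q : ℝ × En n => (q.1, q.2 + v)) (by fun_prop) fun q hq => ⟨hq.1, hS _ hq.2⟩
  intro m
  induction m with
  | zero =>
    intro f h
    refine ⟨hc h.1, fun y0 hy => ?_⟩
    obtain ⟨r, hr, K, hK⟩ := h.2 _ (hS y0 hy)
    exact ⟨r, hr, K, fun t ht y h1 y' h2 => by
      simpa using hK t ht (y + v) (by simpa using h1) (y' + v) (by simpa using h2)⟩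
  | succ m ih =>
    intro f h
    refine ⟨hc h.1, fun t ht y hy => ?_, fun k => ?_⟩
    · exact ((hasFDerivAt_comp_add_right v).2 (h.diff ht (hS y hy)).hasFDerivAt).differentiableAt
    · simp only [pd_shift]
      exact ih (h.pd k)

/-! ### mean values along segments -/

section mv

variable {B : Set W} {D : ℝ × W → X} {t : ℝ} {z z' e e' : W}

/-- the mean of `D (t, ·)` along the segment from `z` to `z'` -/
def mv (D : ℝ × W → X) (t : ℝ) (z z' : W) : X := ∫ σ in (0 : ℝ)..1, D (t, z + σ • (z' - z))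

theorem seg_mem (hB : Convex ℝ B) (hz : z ∈ B) (hz' : z' ∈ B) {σ : ℝ} (hσ : σ ∈ Icc (0 : ℝ) 1) :
    z + σ • (z' - z) ∈ B := hB.add_smul_sub_mem hz hz' hσ

theorem uIoc_sub : Ι (0 : ℝ) 1 ⊆ Icc 0 1 := by
  rw [uIoc_of_le zero_le_one]; exact Ioc_subset_Icc_self

theorem mv_int (hB : Convex ℝ B) (hD : ContinuousOn (fun x => D (t, x)) B) (hz : z ∈ B)
    (hz' : z' ∈ B) : IntervalIntegrable (fun σ : ℝ => D (t, z + σ • (z' - z))) volume 0 1 :=
  (hD.comp (f := fun σ : ℝ => z + σ • (z' - z)) (by fun_prop)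
    fun _ hσ => seg_mem hB hz hz' hσ).intervalIntegrable_of_Icc zero_le_one

theorem mv_cl [CompleteSpace X] (hB : Convex ℝ B) (hD : ContinuousOn (fun x => D (t, x)) B)
    (hz : z ∈ B) (hz' : z' ∈ B) {c : X} {δ : ℝ} (h : ∀ x ∈ B, ‖D (t, x) - c‖ ≤ δ) :
    ‖mv D t z z' - c‖ ≤ δ := by
  have e : c = ∫ _σ in (0 : ℝ)..1, c := by simp
  rw [mv, e, ← intervalIntegral.integral_sub (mv_int hB hD hz hz') intervalIntegrable_const]
  simpa using intervalIntegral.norm_integral_le_of_norm_le_const (a := 0) (b := 1) (C := δ)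
    fun σ hσ => h _ (seg_mem hB hz hz' (uIoc_sub hσ))

theorem mv_lip (hB : Convex ℝ B) (hD : ContinuousOn (fun x => D (t, x)) B) (hz : z ∈ B)
    (hz' : z' ∈ B) (he : e ∈ B) (he' : e' ∈ B) {Λ : ℝ} (hΛ : 0 ≤ Λ)
    (h : ∀ x ∈ B, ∀ x' ∈ B, ‖D (t, x) - D (t, x')‖ ≤ Λ * ‖x - x'‖) :
    ‖mv D t z z' - mv D t e e'‖ ≤ Λ * (‖z - e‖ + ‖z' - e'‖) := by
  rw [mv, mv, ← intervalIntegral.integral_sub (mv_int hB hD hz hz') (mv_int hB hD he he')]
  have := intervalIntegral.norm_integral_le_of_norm_le_const (a := 0) (b := 1)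
    (C := Λ * (‖z - e‖ + ‖z' - e'‖))
    (f := fun σ : ℝ => D (t, z + σ • (z' - z)) - D (t, e + σ • (e' - e))) fun σ hσ => by
      have h1 := uIoc_sub hσ
      refine (h _ (seg_mem hB hz hz' h1) _ (seg_mem hB he he' h1)).trans
        (mul_le_mul_of_nonneg_left ?_ hΛ)
      have e1 : z + σ • (z' - z) - (e + σ • (e' - e)) = (1 - σ) • (z - e) + σ • (z' - e') := by
        module
      rw [e1]
      refine (norm_add_le _ _).trans (add_le_add ?_ ?_) <;> rw [norm_smul] <;>
        refine mul_le_of_le_one_left (norm_nonneg _) (abs_le.2 ⟨?_, ?_⟩) <;> linarith [h1.1, h1.2]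
  simpa using this

theorem mv_eq [CompleteSpace X] {F : ℝ × W → X} {D : ℝ × W → W →L[ℝ] X} (hB : Convex ℝ B)
    (hD : ContinuousOn (fun x => D (t, x)) B) (hz : z ∈ B) (hz' : z' ∈ B)
    (h : ∀ x ∈ B, HasFDerivAt (fun w => F (t, w)) (D (t, x)) x) :
    F (t, z') - F (t, z) = mv D t z z' (z' - z) := by
  have hi := mv_int hB hD hz hz'
  rw [mv, ContinuousLinearMap.intervalIntegral_apply hi]
  have := intervalIntegral.integral_eq_sub_of_hasDerivAt (a := 0) (b := 1)
    (f := fun σ : ℝ => F (t, z + σ • (z' - z))) (f' := fun σ => D (t, z + σ • (z' - z)) (z' - z))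
    (fun σ hσ => by
      rw [uIcc_of_le zero_le_one] at hσ
      have h1 : HasDerivAt (fun σ : ℝ => z + σ • (z' - z)) (z' - z) σ := by
        simpa using ((hasDerivAt_id σ).smul_const (z' - z)).const_add z
      exact (h _ (seg_mem hB hz hz' hσ)).comp_hasDerivAt σ h1)
    (((hD.comp (f := fun σ : ℝ => z + σ • (z' - z)) (by fun_prop)
      fun _ hσ => seg_mem hB hz hz' hσ).clm_apply continuousOn_const).intervalIntegrable_of_Icc
        zero_le_one)
  simpa using this.symm

theorem mv_cont {J : Set ℝ} (hB : Convex ℝ B) (hD : ContinuousOn D (J ×ˢ B)) {C : ℝ}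
    (hC : ∀ t ∈ J, ∀ x ∈ B, ‖D (t, x)‖ ≤ C) {s : Set (ℝ × En n)} {z z' : ℝ × En n → W}
    (hz : ContinuousOn z s) (hz' : ContinuousOn z' s)
    (hm : ∀ q ∈ s, q.1 ∈ J ∧ z q ∈ B ∧ z' q ∈ B) :
    ContinuousOn (fun q => mv D q.1 (z q) (z' q)) s := by
  intro q0 hq0
  refine intervalIntegral.continuousWithinAt_of_dominated_interval (bound := fun _ => C) ?_ ?_
    intervalIntegrable_const (Eventually.of_forall fun σ hσ => ?_)
  · filter_upwards [self_mem_nhdsWithin] with q hq
    obtain ⟨h1, h2, h3⟩ := hm q hq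
    exact (mv_int hB (hD.comp (f := fun x => (q.1, x)) (by fun_prop) fun x hx => ⟨h1, hx⟩) h2
      h3).aestronglyMeasurable_restrict_uIoc
  · filter_upwards [self_mem_nhdsWithin] with q hq
    obtain ⟨h1, h2, h3⟩ := hm q hq
    exact Eventually.of_forall fun σ hσ => hC _ h1 _ (seg_mem hB h2 h3 (uIoc_sub hσ))
  · exact (hD.comp (f := fun q : ℝ × En n => (q.1, z q + σ • (z' q - z q)))
      (continuousOn_fst.prodMk (hz.add ((hz'.sub hz).const_smul σ))) fun q hq =>
        ⟨(hm q hq).1, seg_mem hB (hm q hq).2.1 (hm q hq).2.2 (uIoc_sub hσ)⟩) q0 hq0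

end mv

end Crest.Agent.T223.Lx.R54
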