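import Crest.Agent.T223.LxUB_60
import Crest.Agent.T223.LxRegA_54

/-!
# Row 223 (helper60): `LinHB → FnHB`, `QlHB → QlHB2`
-/

set_option autoImplicit false

open Set Filter Topology Metric
open scoped ContDiff

noncomputable section

namespace Crest.Agent.T223.Lx

open Crest.Agent.N207 Crest.Agent.N207.P

namespace HF60

variable {n : ℕ} {P : Type} [NormedAddCommGroup P] [NormedSpace ℝ P]

theorem clm_eH (L : P × (Fin n → Fin n → ℝ) →L[ℝ] ℝ) (M : Fin n → Fin n → ℝ) :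
    L (0, M) = ∑ k, ∑ l, L (0, eH k l) • M k l := by
  have e : ((0 : P), M) = ∑ k, ∑ l, M k l • ((0 : P), eH k l) := by
    refine Prod.ext (by simp [Prod.fst_sum]) ?_
    funext k l
    simp [Prod.snd_sum, Finset.sum_apply, eH, Pi.single_apply, ite_apply]
  conv_lhs => rw [e]
  simp only [map_sum, map_smul, smul_eq_mul, mul_comm]

theorem yl_comp {W V : Type} [NormedAddCommGroup W] [NormedSpace ℝ W] [NormedAddCommGroup V]
    [NormedSpace ℝ V] {a b : ℝ} (hab : a < b) {U : Set (En n)} (hU : IsOpen U) {m : ℕ} {O : Set W}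
    {F : W → V} {w : ℝ → En n → W} (hO : IsOpen O) (hF : ContDiffOn ℝ ∞ F O)
    (h : Yl (Icc a b) U m w) (hw : ∀ t ∈ Icc a b, ∀ y ∈ U, w t y ∈ O) :
    Yl (Icc a b) U m fun t y => F (w t y) :=
  Yl.comp isCompact_Icc (uniqueDiffOn_Icc hab) hU (Φ := fun q => F q.2) hO
    (hF.comp contDiffOn_snd fun _ hq => hq.2) h hw

/-- the differentiated equation -/
theorem ev_fn {a b : ℝ} (hab : a < b) {U : Set (En n)} (hU : IsOpen U)
    {O : Set (P × (Fin n → Fin n → ℝ))} {F : P × (Fin n → Fin n → ℝ) → ℝ} (hO : IsOpen O)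
    (hF : ContDiffOn ℝ ∞ F O) {Z : ℝ → En n → P} {v : ℝ → En n → ℝ}
    (h3 : Yl (Icc a b) U 3 v) (hZ : Yl (Icc a b) U 1 Z)
    (he : X.Ev (Icc a b) U v fun t y => F (Z t y, d2 (v t) y))
    (hm : ∀ t ∈ Icc a b, ∀ y ∈ U, (Z t y, d2 (v t) y) ∈ O) (i : Fin n) :
    X.Ev (Icc a b) U (fun t => pd i (v t)) fun t y =>
      Lop (Matrix.of fun k l => fderiv ℝ F (Z t y, d2 (v t) y) (0, eH k l)) (pd i (v t)) y +
        fderiv ℝ F (Z t y, d2 (v t) y) (pd i (Z t) y, 0) := by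
  intro t ht y hy
  have hq : Yl (Icc a b) U 1 fun t y => (Z t y, d2 (v t) y) :=
    hZ.prod hU (Yl.pi hU fun k => Yl.pi hU fun l => (h3.pd l).pd k)
  refine (ev_pd hU he h3.2.1 (yl_comp hab hU hO hF hq hm) i t ht y hy).congr_deriv ?_
  have h4 : HasFDerivAt (d2 (v t))
      (ContinuousLinearMap.pi fun k => ContinuousLinearMap.pi fun l =>
        fderiv ℝ (pd k (pd l (v t))) y) y :=
    hasFDerivAt_pi.2 fun k => hasFDerivAt_pi.2 fun l =>
      (((h3.pd l).pd k).diff ht hy).hasFDerivAt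
  have hd : HasFDerivAt F (fderiv ℝ F (Z t y, d2 (v t) y)) (Z t y, d2 (v t) y) :=
    ((hF.contDiffAt (hO.mem_nhds (hm t ht y hy))).differentiableAt (by simp)).hasFDerivAt
  have h5 := (hd.comp y ((hZ.diff ht hy).hasFDerivAt.prodMk h4)).fderiv
  have h6 : pd i (fun y => F (Z t y, d2 (v t) y)) y = fderiv ℝ F (Z t y, d2 (v t) y)
      ((0, d2 (pd i (v t)) y) + (pd i (Z t) y, 0)) := by
    refine (congrArg (fun D : En n →L[ℝ] ℝ => D (EuclideanSpace.single i 1)) h5).trans ?_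
    refine congrArg (fderiv ℝ F (Z t y, d2 (v t) y)) (Prod.ext (zero_add _).symm ?_)
    funext k l
    exact (pd3_comm hU h3 ht hy (h3.pred isCompact_Icc hU) i k l).trans (add_zero _).symm
  beta_reduce
  rw [h6, map_add, clm_eH]
  rfl

end HF60

open HF60 in
/-- (FN) from (LIN) -/
theorem fnHB_of_lin {n : ℕ} (h : LinHB n ℝ) : FnHB n := by
  intro a0 ha0
  obtain ⟨δ, hδ, H⟩ := h a0 ha0
  refine ⟨δ, hδ, fun P _ _ ι O K0 F R r m α β Z v hr hrR hO hK hKO hF hcl hlt hlen hv hZ h0 he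
    hm bZ bv => ?_⟩
  have hD : ContDiffOn ℝ ∞ (fderiv ℝ F) O := hF.fderiv_of_isOpen hO (by simp)
  induction m generalizing r with
  | zero => exact bv.mono hrR.le
  | succ m ih =>
    have h1 : r < (r + R) / 2 := by linarith
    have h2 : (r + R) / 2 < R := by linarith
    set R' := (r + R) / 2
    have hs : ball (0 : En n) R' ⊆ ball 0 R := ball_subset_ball h2.le
    have hU : IsOpen (ball (0 : En n) R') := isOpen_ball
    have IH := ih R' (hr.trans h1) h2 bZ.pred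
    have bq := ((bZ.pred.mono h2.le).prod (UB.d2 IH))
    have bL := UB.comp hO hK hKO (fun p y hy => hm p.1.1 p.1.2 p.2 y (hs hy)) hD bq
    have hm' : ∀ i, ∀ t ∈ Icc (α i) (β i), ∀ y ∈ ball (0 : En n) R', (Z i t y, d2 (v i t) y) ∈ O :=
      fun i t ht y hy => hKO (hm i t ht y (hs hy))
    have hv' := fun i j => (hv i j).mono Subset.rfl hs
    have hZ' := fun i j => (hZ i j).mono Subset.rfl hs
    have yL := fun i => yl_comp (hlt i) hU hO hD ((hZ' i m).prod hU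
      (Yl.pi hU fun k => Yl.pi hU fun l => ((hv' i (m + 2)).pd l).pd k)) (hm' i)
    obtain ⟨A, hA⟩ := UB.bdd bv
    refine ub_succ (fun p y hy => hA p y (ball_subset_ball hrR.le hy))
      (fun p y hy => (hv p.1.1 1).diff p.2 (ball_subset_ball hrR.le hy)) fun k => ?_
    refine H ι R' r m α β
      (fun i t y => Matrix.of fun k l => fderiv ℝ F (Z i t y, d2 (v i t) y) (0, eH k l))
      (fun i t y => fderiv ℝ F (Z i t y, d2 (v i t) y) (pd k (Z i t) y, 0))
      (fun i t => pd k (v i t)) hr h1 ⟨hlt, hlen, fun i => (hv' i (m + 3)).pd k,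
        fun i k l => (yL i).clm hU (ContinuousLinearMap.apply ℝ ℝ _), fun i => ?_,
        fun i => ev_fn (hlt i) hU hO hF (hv' i 3) (hZ' i 1)
          (fun t ht y hy => he i t ht y (hs hy)) (hm' i) k,
        fun i t ht y hy k l => hcl _ (hm i t ht y (hs hy)) k l,
        fun k l => bL.clm_apply (ub_const' (0, eH k l)), ?_⟩ ?_ ?_
    · exact Yl.bilin isCompact_Icc hU (ContinuousLinearMap.id ℝ _) (yL i)
        (((hZ' i (m + 1)).pd k).clm hU (ContinuousLinearMap.inl ℝ _ _))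
    · exact bL.clm_apply (((UB.pd bZ k).mono h2.le).prod (ub_const' 0))
    · refine (ub_const' (0 : ℝ)).congr fun i y hy => ?_
      rw [pd_congr (ev_of_ball (f := fun _ => (0 : ℝ)) (h0 i) (hs hy)), pd_const']
    · obtain ⟨K, hK⟩ := (UB.pd bv k).bdd
      exact ⟨K, fun i t ht y hy => hK ⟨(i, t), ht⟩ y (hs hy)⟩

/-- (QL, positive definite coefficients) from (QL, almost constant coefficients) -/
theorem qlHB2_of_ql {n : ℕ} {V : Type} [NormedAddCommGroup V] [NormedSpace ℝ V] (h : QlHB n V) :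
    QlHB2 n V := by
  intro ι O K0 A B R r θ m α β u hr hrR hθ hQ hpos ⟨Kt, hKt⟩
  obtain ⟨Kg, hKg⟩ := hQ.grad
  -- spatial Lipschitz bound
  have hlip : ∀ i, ∀ t ∈ Icc (α i) (β i), ∀ y ∈ ball (0 : En n) R, ∀ y' ∈ ball (0 : En n) R,
      ‖u i t y - u i t y'‖ ≤ (n * Kg) * ‖y - y'‖ := fun i t ht y hy y' hy' =>
    (convex_ball (0 : En n) R).norm_image_sub_le_of_norm_fderiv_le (𝕜 := ℝ)
      (fun z hz => (hQ.uy i 1).diff ht hz)
      (fun z hz => (norm_clm_le_sum _).trans ((Finset.sum_le_sum fun k _ =>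
        (norm_le_pi_norm (d1 (u i t) z) k).trans (hKg i t ht z hz)).trans (by simp))) hy' hy
  let J := {p : ι × ℝ // p.2 ∈ Icc (α p.1 + θ) (β p.1)} × ball (0 : En n) r
  have loc : ∀ q0 : K0, ∃ ε : ℝ, 0 < ε ∧ ∃ ρ : ℝ, 0 < ρ ∧ UB ρ m
      fun (j : {j : J // u j.1.1.1 j.1.1.2 j.2.1 ∈ ball q0.1 ε}) y =>
        u j.1.1.1.1 j.1.1.1.2 (j.1.2.1 + y) := by
    intro q0
    obtain ⟨δ, hδ, H⟩ := h _ (hpos _ q0.2)
    have e1 : ∀ᶠ q in 𝓝 q0.1, ∀ k l, |A q k l - A q0.1 k l| ≤ δ :=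
      eventually_all.2 fun k => eventually_all.2 fun l =>
        (((hQ.sa k l).continuousOn.continuousAt (hQ.opn.mem_nhds (hQ.sub q0.2))).eventually
          (closedBall_mem_nhds _ hδ)).mono fun q hq => by simpa [Real.dist_eq] using hq
    obtain ⟨ε, hε, h1⟩ := nhds_basis_closedBall.eventually_iff.1 e1
    set τ := min θ (ε / 4 / (|Kt| + 1)) with hτ
    set ρ := min (R - r) (ε / 4 / (|n * Kg| + 1)) with hρ
    have hτ0 : 0 < τ := lt_min hθ (by positivity)
    have hρ0 : 0 < ρ := lt_min (by linarith) (by positivity)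
    have hτ1 : τ ≤ θ := min_le_left _ _
    have hτ2 : (|Kt| + 1) * τ ≤ ε / 4 := by
      rw [← le_div_iff₀' (by positivity)]; exact min_le_right _ _
    have hρ1 : ρ ≤ R - r := min_le_left _ _
    have hρ2 : (|n * Kg| + 1) * ρ ≤ ε / 4 := by
      rw [← le_div_iff₀' (by positivity)]; exact min_le_right _ _
    refine ⟨ε / 2, by positivity, ρ / 2, by positivity, ?_⟩
    let J' := {j : J // u j.1.1.1 j.1.1.2 j.2.1 ∈ ball q0.1 (ε / 2)}
    have hI : ∀ j : J', Icc (j.1.1.1.2 - τ) j.1.1.1.2 ⊆ Icc (α j.1.1.1.1) (β j.1.1.1.1) :=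
      fun j => Icc_subset_Icc (by linarith [j.1.1.2.1]) j.1.1.2.2
    have hB : ∀ j : J', ∀ y ∈ ball (0 : En n) ρ, y + j.1.2.1 ∈ ball (0 : En n) R := fun j y hy => by
      rw [add_comm]
      exact add_mem_ball (by linarith [mem_ball_zero_iff.1 j.1.2.2]) hy
    have key := H J' O (K0 ∩ closedBall q0.1 ε) A B ρ (ρ / 2) τ m (fun j => j.1.1.1.2 - τ)
      (fun j => j.1.1.1.2) (fun j t y => u j.1.1.1.1 t (y + j.1.2.1)) (by positivity)
      (by linarith) hτ0 ⟨hQ.opn, hQ.cpt.inter_right isClosed_closedBall,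
        inter_subset_left.trans hQ.sub, hQ.sa, hQ.sb, fun j => by linarith,
        fun j => by linarith [hQ.len j.1.1.1.1, j.1.1.2.1, j.1.1.2.2],
        fun j m => R54.yl_shift (hB j) ((hQ.uy _ m).mono (hI j) Subset.rfl),
        fun j t ht y hy => ?_, fun j t ht y hy => ⟨hQ.mem _ t (hI j ht) _ (hB j y hy), ?_⟩,
        ⟨Kg, fun j t ht y hy => ?_⟩⟩ fun q hq => h1 hq.2
    · have := UB.reindex (fun j : J' => ⟨(j, j.1.1.1.2), by simp⟩) key
      exact this.congr fun j y _ => by simp only [add_comm]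
    · refine ((hQ.ev _ t (hI j ht) _ (hB j y hy)).mono (hI j)).congr_deriv ?_
      simp only [Lop, R54.pd_shift]
      congr 3
      funext k
      simp only [d1, R54.pd_shift]
    · have ht0 : j.1.1.1.2 ∈ Icc (α j.1.1.1.1) (β j.1.1.1.1) := hI j ⟨by linarith, le_rfl⟩
      have hc : j.1.2.1 ∈ ball (0 : En n) R := ball_subset_ball hrR.le j.1.2.2
      have a1 := hlip _ t (hI j ht) _ (hB j y hy) _ hc
      have a2 := hKt _ t (hI j ht) _ ht0 _ hc
      have a3 := mem_ball.1 j.2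
      have a4 : |t - j.1.1.1.2| ≤ τ := abs_le.2 ⟨by linarith [ht.1], by linarith [ht.2]⟩
      have a5 := (mem_ball_zero_iff.1 hy).le
      rw [add_sub_cancel_right, ← dist_eq_norm] at a1
      rw [← dist_eq_norm] at a2
      have a6 : n * Kg * ‖y‖ ≤ (|n * Kg| + 1) * ρ :=
        mul_le_mul (by linarith [le_abs_self (n * Kg)]) a5 (norm_nonneg _) (by positivity)
      have a7 : Kt * |t - j.1.1.1.2| ≤ (|Kt| + 1) * τ :=
        mul_le_mul (by linarith [le_abs_self Kt]) a4 (abs_nonneg _) (by positivity)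
      rw [mem_closedBall]
      linarith [dist_triangle4 (u j.1.1.1.1 t (y + j.1.2.1)) (u j.1.1.1.1 t j.1.2.1)
        (u j.1.1.1.1 j.1.1.1.2 j.1.2.1) q0.1]
    · refine le_trans (le_of_eq ?_) (hKg _ t (hI j ht) _ (hB j y hy))
      congr 1
      funext k
      simp only [d1, R54.pd_shift]
  choose ε hε ρ hρ H using loc
  obtain ⟨s, hs⟩ := hQ.cpt.elim_finite_subcover (fun q : K0 => ball q.1 (ε q))
    (fun _ => isOpen_ball) fun q hq => mem_iUnion.2 ⟨⟨q, hq⟩, mem_ball_self (hε _)⟩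
  obtain ⟨ρ0, h1, h2⟩ := ((eventually_all.2 fun a : s => Ioo_mem_nhdsGT (hρ a.1)).and
    (self_mem_nhdsWithin (a := (0 : ℝ)) (s := Ioi 0))).exists
  refine ub_glue' h2 (ub_of_cover (fun (a : s) (j : J) => u j.1.1.1 j.1.1.2 j.2.1 ∈ ball a.1.1 (ε a.1))
    (fun j => ?_) fun a => (H a.1).mono (h1 a).2.le)
  have := hs (hQ.mem j.1.1.1 j.1.1.2 ⟨by linarith [j.1.2.1], j.1.2.2⟩ j.2.1
    (ball_subset_ball hrR.le j.2.2))
  simp only [mem_iUnion] at this
  obtain ⟨a, ha, h3⟩ := this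
  exact ⟨⟨a, ha⟩, h3⟩

end Crest.Agent.T223.Lx
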