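import Crest.Agent.T223.LxDef_83

/-!
# Row 223 (helper60): calculus of the uniform families `UB`
-/

set_option autoImplicit false

open Set Filter Topology Metric
open scoped ContDiff

noncomputable section

namespace Crest.Agent.T223.Lx

open Crest.Agent.N207 Crest.Agent.N207.P

universe u

variable {n : ℕ} {V W X : Type*} [NormedAddCommGroup V] [NormedSpace ℝ V]
  [NormedAddCommGroup W] [NormedSpace ℝ W] [NormedAddCommGroup X] [NormedSpace ℝ X]
  {ι : Type*} {r : ℝ}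

theorem UB.bdd : ∀ {m : ℕ} {h : ι → En n → V}, UB r m h →
    ∃ K : ℝ, ∀ i, ∀ y ∈ ball (0 : En n) r, ‖h i y‖ ≤ K
  | 0, _, ⟨K, hK⟩ => ⟨K, fun i => (hK i).1⟩
  | _ + 1, _, h => h.1

theorem UB.bdd' {m : ℕ} {h : ι → En n → V} (H : UB r m h) :
    ∃ K : ℝ, 0 ≤ K ∧ ∀ i, ∀ y ∈ ball (0 : En n) r, ‖h i y‖ ≤ K :=
  let ⟨K, hK⟩ := H.bdd; ⟨max K 0, le_max_right _ _, fun i y hy => (hK i y hy).trans (le_max_left _ _)⟩

theorem UB.diff {m : ℕ} {h : ι → En n → V} (H : UB r (m + 1) h) (i : ι) {y : En n}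
    (hy : y ∈ ball (0 : En n) r) : DifferentiableAt ℝ (h i) y := H.2.1 i y hy

theorem UB.pd {m : ℕ} {h : ι → En n → V} (H : UB r (m + 1) h) (k : Fin n) :
    UB r m (fun i => pd k (h i)) := H.2.2 k

theorem UB.hol {h : ι → En n → V} (H : UB r 0 h) : ∃ K : ℝ, 0 ≤ K ∧ ∀ i,
    ∀ y ∈ ball (0 : En n) r, ∀ y' ∈ ball (0 : En n) r, ‖h i y - h i y'‖ ≤ K * √(dist y y') :=
  let ⟨K, hK⟩ := H
  ⟨max K 0, le_max_right _ _, fun i y hy y' hy' => ((hK i).2 y hy y' hy').trans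
    (mul_le_mul_of_nonneg_right (le_max_left _ _) (Real.sqrt_nonneg _))⟩

theorem ub_zero {h : ι → En n → V} {A c : ℝ} (hA : ∀ i, ∀ y ∈ ball (0 : En n) r, ‖h i y‖ ≤ A)
    (hc : ∀ i, ∀ y ∈ ball (0 : En n) r, ∀ y' ∈ ball (0 : En n) r,
      ‖h i y - h i y'‖ ≤ c * √(dist y y')) : UB r 0 h :=
  ⟨max A c, fun i => ⟨fun y hy => (hA i y hy).trans (le_max_left _ _), fun y hy y' hy' =>
    (hc i y hy y' hy').trans (mul_le_mul_of_nonneg_right (le_max_right _ _) (Real.sqrt_nonneg _))⟩⟩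

theorem ub_succ {m : ℕ} {h : ι → En n → V} {A : ℝ} (hA : ∀ i, ∀ y ∈ ball (0 : En n) r, ‖h i y‖ ≤ A)
    (hd : ∀ i, ∀ y ∈ ball (0 : En n) r, DifferentiableAt ℝ (h i) y)
    (hp : ∀ k, UB r m (fun i => pd k (h i))) : UB r (m + 1) h := ⟨⟨A, hA⟩, hd, hp⟩

theorem UB.mono {r' : ℝ} (hr : r' ≤ r) : ∀ {m : ℕ} {h : ι → En n → V}, UB r m h → UB r' m h
  | 0, _, ⟨K, hK⟩ => ⟨K, fun i => ⟨fun y hy => (hK i).1 y (ball_subset_ball hr hy),
      fun y hy y' hy' => (hK i).2 y (ball_subset_ball hr hy) y' (ball_subset_ball hr hy')⟩⟩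
  | _ + 1, _, ⟨⟨K, hK⟩, h2, h3⟩ => ⟨⟨K, fun i y hy => hK i y (ball_subset_ball hr hy)⟩,
      fun i y hy => h2 i y (ball_subset_ball hr hy), fun k => UB.mono hr (h3 k)⟩

theorem UB.reindex {ι' : Type*} (σ : ι' → ι) : ∀ {m : ℕ} {h : ι → En n → V}, UB r m h →
    UB r m (fun i => h (σ i))
  | 0, _, ⟨K, hK⟩ => ⟨K, fun i => hK (σ i)⟩
  | _ + 1, _, ⟨⟨K, hK⟩, h2, h3⟩ => ⟨⟨K, fun i => hK (σ i)⟩, fun i => h2 (σ i),
      fun k => UB.reindex σ (h3 k)⟩

omit [NormedAddCommGroup V] [NormedSpace ℝ V] in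
theorem ev_of_ball {f g : En n → V} (e : ∀ y ∈ ball (0 : En n) r, g y = f y) {y : En n}
    (hy : y ∈ ball (0 : En n) r) : g =ᶠ[𝓝 y] f := by
  filter_upwards [isOpen_ball.mem_nhds hy] with z hz using e z hz

theorem UB.congr : ∀ {m : ℕ} {h g : ι → En n → V}, UB r m h →
    (∀ i, ∀ y ∈ ball (0 : En n) r, g i y = h i y) → UB r m g
  | 0, _, _, ⟨K, hK⟩, e => ⟨K, fun i => ⟨fun y hy => e i y hy ▸ (hK i).1 y hy,
      fun y hy y' hy' => by rw [e i y hy, e i y' hy']; exact (hK i).2 y hy y' hy'⟩⟩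
  | _ + 1, _, _, ⟨⟨K, hK⟩, h2, h3⟩, e => ⟨⟨K, fun i y hy => e i y hy ▸ hK i y hy⟩,
      fun i y hy => (h2 i y hy).congr_of_eventuallyEq (ev_of_ball (e i) hy),
      fun k => UB.congr (h3 k) fun i _ hy => pd_congr (ev_of_ball (e i) hy) k⟩

/-- a family covered by finitely many bounded sub-families is bounded -/
theorem ub_of_cover {α : Type*} [Finite α] (p : α → ι → Prop) (hp : ∀ i, ∃ a, p a i) :
    ∀ {m : ℕ} {h : ι → En n → V}, (∀ a, UB r m fun i : {i // p a i} => h i.1) → UB r m h := by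
  have key : ∀ {m : ℕ} {h : ι → En n → V}, (∀ a, UB r m fun i : {i // p a i} => h i.1) →
      ∃ K : ℝ, ∀ i, ∀ y ∈ ball (0 : En n) r, ‖h i y‖ ≤ K := fun H => by
    choose K hK using fun a => (H a).bdd
    obtain ⟨M, hM⟩ := (finite_range K).bddAbove
    exact ⟨M, fun i y hy => let ⟨a, ha⟩ := hp i; (hK a ⟨i, ha⟩ y hy).trans (hM ⟨a, rfl⟩)⟩
  intro m
  induction m with
  | zero =>
    intro h H
    obtain ⟨A, hA⟩ := key H
    choose K _ hK using fun a => (H a).hol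
    obtain ⟨M, hM⟩ := (finite_range K).bddAbove
    exact ub_zero hA (c := M) fun i y hy y' hy' => let ⟨a, ha⟩ := hp i
      (hK a ⟨i, ha⟩ y hy y' hy').trans
        (mul_le_mul_of_nonneg_right (hM ⟨a, rfl⟩) (Real.sqrt_nonneg _))
  | succ m ih =>
    intro h H
    exact ⟨key H, fun i y hy => let ⟨a, ha⟩ := hp i; (H a).diff ⟨i, ha⟩ hy,
      fun k => ih fun a => (H a).pd k⟩

theorem dist_le_sqrt {y y' : En n} (hy : y ∈ ball (0 : En n) r) (hy' : y' ∈ ball (0 : En n) r) :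
    dist y y' ≤ √(2 * r) * √(dist y y') := by
  have h1 : dist y y' ≤ 2 * r := by
    linarith [dist_triangle_right y y' 0, mem_ball.1 hy, mem_ball.1 hy']
  conv_lhs => rw [← Real.mul_self_sqrt (dist_nonneg (x := y) (y := y'))]
  exact mul_le_mul_of_nonneg_right (Real.sqrt_le_sqrt h1) (Real.sqrt_nonneg _)

/-- bounded and Lipschitz -/
theorem ub_zero_of_lip {h : ι → En n → V} {A c : ℝ}
    (hA : ∀ i, ∀ y ∈ ball (0 : En n) r, ‖h i y‖ ≤ A) (hc0 : 0 ≤ c)
    (hc : ∀ i, ∀ y ∈ ball (0 : En n) r, ∀ y' ∈ ball (0 : En n) r, ‖h i y - h i y'‖ ≤ c * dist y y') :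
    UB r 0 h :=
  ub_zero hA (c := c * √(2 * r)) fun i y hy y' hy' => (hc i y hy y' hy').trans (by
    rw [mul_assoc]; exact mul_le_mul_of_nonneg_left (dist_le_sqrt hy hy') hc0)

theorem ub_zero_of_fderiv {h : ι → En n → V} {A c : ℝ}
    (hA : ∀ i, ∀ y ∈ ball (0 : En n) r, ‖h i y‖ ≤ A)
    (hd : ∀ i, ∀ y ∈ ball (0 : En n) r, DifferentiableAt ℝ (h i) y)
    (hc : ∀ i, ∀ y ∈ ball (0 : En n) r, ‖fderiv ℝ (h i) y‖ ≤ c) : UB r 0 h :=
  ub_zero_of_lip hA (le_max_right c 0) fun i y hy y' hy' => by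
    rw [dist_eq_norm]
    exact (convex_ball (0 : En n) r).norm_image_sub_le_of_norm_fderiv_le (hd i)
      (fun z hz => (hc i z hz).trans (le_max_left _ _)) hy' hy

theorem ub_zero_of_pd {h : ι → En n → V} {A : ℝ} (hA : ∀ i, ∀ y ∈ ball (0 : En n) r, ‖h i y‖ ≤ A)
    (hd : ∀ i, ∀ y ∈ ball (0 : En n) r, DifferentiableAt ℝ (h i) y)
    (hp : ∀ k, ∃ K : ℝ, ∀ i, ∀ y ∈ ball (0 : En n) r, ‖pd k (h i) y‖ ≤ K) : UB r 0 h := by
  choose K hK using hp
  exact ub_zero_of_fderiv hA hd (c := ∑ k, K k) fun i y hy =>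
    (norm_clm_le_sum _).trans (Finset.sum_le_sum fun k _ => hK k i y hy)

/-- uniform Lipschitz bound -/
theorem UB.lip {m : ℕ} {h : ι → En n → V} (H : UB r (m + 1) h) : ∃ K : ℝ, 0 ≤ K ∧ ∀ i,
    ∀ y ∈ ball (0 : En n) r, ∀ y' ∈ ball (0 : En n) r, ‖h i y - h i y'‖ ≤ K * dist y y' := by
  choose K hK0 hK using fun k => (H.pd k).bdd'
  refine ⟨∑ k, K k, Finset.sum_nonneg fun k _ => hK0 k, fun i y hy y' hy' => ?_⟩
  rw [dist_eq_norm]
  exact (convex_ball (0 : En n) r).norm_image_sub_le_of_norm_fderiv_le (fun z hz => H.diff i hz)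
    (fun z hz => (norm_clm_le_sum _).trans (Finset.sum_le_sum fun k _ => hK k i z hz)) hy' hy

theorem UB.pred : ∀ {m : ℕ} {h : ι → En n → V}, UB r (m + 1) h → UB r m h
  | 0, _, ⟨⟨_, hK⟩, h2, h3⟩ => ub_zero_of_pd hK h2 fun k => (h3 k).bdd
  | _ + 1, _, ⟨h1, h2, h3⟩ => ⟨h1, h2, fun k => UB.pred (h3 k)⟩

theorem UB.of_le {m m' : ℕ} (hm : m ≤ m') {h : ι → En n → V} (H : UB r m' h) : UB r m h := by
  induction hm with
  | refl => exact H
  | step _ ih => exact ih H.pred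

theorem UB.add : ∀ {m : ℕ} {f g : ι → En n → V}, UB r m f → UB r m g →
    UB r m (fun i y => f i y + g i y) := by
  have key : ∀ {m : ℕ} {f g : ι → En n → V}, UB r m f → UB r m g →
      ∃ K : ℝ, ∀ i, ∀ y ∈ ball (0 : En n) r, ‖f i y + g i y‖ ≤ K := fun h h' =>
    let ⟨A, hA⟩ := h.bdd; let ⟨A', hA'⟩ := h'.bdd
    ⟨A + A', fun i y hy => (norm_add_le _ _).trans (add_le_add (hA i y hy) (hA' i y hy))⟩
  intro m
  induction m with
  | zero =>
    intro f g h h'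
    obtain ⟨A, hA⟩ := key h h'
    obtain ⟨K, -, hK⟩ := h.hol
    obtain ⟨K', -, hK'⟩ := h'.hol
    refine ub_zero hA (c := K + K') fun i y hy y' hy' => ?_
    rw [add_sub_add_comm, add_mul]
    exact (norm_add_le _ _).trans (add_le_add (hK i y hy y' hy') (hK' i y hy y' hy'))
  | succ m ih =>
    intro f g h h'
    exact ⟨key h h', fun i y hy => (h.diff i hy).add (h'.diff i hy), fun k =>
      (ih (h.pd k) (h'.pd k)).congr fun i y hy => pd_add' (h.diff i hy) (h'.diff i hy) k⟩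

theorem pd_clm (L : V →L[ℝ] W) {f : En n → V} {y : En n} (hf : DifferentiableAt ℝ f y) (k : Fin n) :
    pd k (fun z => L (f z)) y = L (pd k f y) :=
  congrArg (fun D : En n →L[ℝ] W => D (EuclideanSpace.single k 1))
    (L.hasFDerivAt.comp y hf.hasFDerivAt).fderiv

/-- a bounded family of linear maps -/
theorem UB.clm' (L : ι → V →L[ℝ] W) {C : ℝ} (hL : ∀ i, ‖L i‖ ≤ C) :
    ∀ {m : ℕ} {f : ι → En n → V}, UB r m f → UB r m (fun i y => L i (f i y)) := by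
  have key : ∀ {m : ℕ} {f : ι → En n → V}, UB r m f →
      ∃ K : ℝ, ∀ i, ∀ y ∈ ball (0 : En n) r, ‖L i (f i y)‖ ≤ K := fun h =>
    let ⟨A, hA⟩ := h.bdd
    ⟨C * A, fun i y hy => (L i).le_of_opNorm_le_of_le (hL i) (hA i y hy)⟩
  intro m
  induction m with
  | zero =>
    intro f h
    obtain ⟨A, hA⟩ := key h
    obtain ⟨K, -, hK⟩ := h.hol
    refine ub_zero hA (c := C * K) fun i y hy y' hy' => ?_
    rw [← map_sub, mul_assoc]
    exact (L i).le_of_opNorm_le_of_le (hL i) (hK i y hy y' hy')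
  | succ m ih =>
    intro f h
    exact ⟨key h, fun i y hy => (L i).differentiableAt.comp y (h.diff i hy), fun k =>
      (ih (h.pd k)).congr fun i y hy => pd_clm _ (h.diff i hy) k⟩

theorem UB.clm (L : V →L[ℝ] W) {m : ℕ} {f : ι → En n → V} (h : UB r m f) :
    UB r m (fun i y => L (f i y)) := h.clm' (fun _ => L) fun _ => le_rfl

theorem UB.neg {m : ℕ} {f : ι → En n → V} (h : UB r m f) : UB r m (fun i y => -f i y) :=
  h.clm (-ContinuousLinearMap.id ℝ V)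

theorem UB.sub {m : ℕ} {f g : ι → En n → V} (h : UB r m f) (h' : UB r m g) :
    UB r m (fun i y => f i y - g i y) := by
  simpa only [sub_eq_add_neg] using h.add h'.neg

theorem ub_const : ∀ {m : ℕ} {c : ι → V}, (∃ K : ℝ, ∀ i, ‖c i‖ ≤ K) →
    UB r m (fun i (_ : En n) => c i)
  | 0, _, ⟨_, hK⟩ => ub_zero (fun i _ _ => hK i) (c := 0) fun _ _ _ _ _ => by simp
  | _ + 1, _, ⟨_, hK⟩ => ub_succ (fun i _ _ => hK i) (fun _ _ _ => differentiableAt_const _)
      fun k => (ub_const (c := fun _ => (0 : V)) ⟨0, fun _ => norm_zero.le⟩).congr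
        fun _ y _ => pd_const' _ y k

theorem ub_const' {m : ℕ} (c : V) : UB r m (fun (_ : ι) (_ : En n) => c) :=
  ub_const ⟨_, fun _ => le_rfl⟩

theorem UB.sum {κ : Type*} {m : ℕ} (s : Finset κ) {f : κ → ι → En n → V}
    (h : ∀ j ∈ s, UB r m (f j)) : UB r m (fun i y => ∑ j ∈ s, f j i y) := by
  classical
  induction s using Finset.induction_on with
  | empty => simpa using ub_const' (n := n) (ι := ι) (r := r) (m := m) (0 : V)
  | insert j s hj ih =>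
    simp only [Finset.sum_insert hj]
    exact (h j (Finset.mem_insert_self _ _)).add
      (ih fun j hj => h j (Finset.mem_insert_of_mem hj))

theorem UB.bilin (B : V →L[ℝ] W →L[ℝ] X) : ∀ {m : ℕ} {f : ι → En n → V} {g : ι → En n → W},
    UB r m f → UB r m g → UB r m (fun i y => B (f i y) (g i y)) := by
  have key : ∀ {m : ℕ} {f : ι → En n → V} {g : ι → En n → W}, UB r m f → UB r m g →
      ∃ K : ℝ, ∀ i, ∀ y ∈ ball (0 : En n) r, ‖B (f i y) (g i y)‖ ≤ K := fun h h' => by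
    obtain ⟨A, hA0, hA⟩ := h.bdd'
    obtain ⟨A', hA'⟩ := h'.bdd
    refine ⟨‖B‖ * A * A', fun i y hy => (B.le_opNorm₂ _ _).trans ?_⟩
    have := hA i y hy
    have := hA' i y hy
    gcongr
  intro m
  induction m with
  | zero =>
    intro f g h h'
    obtain ⟨A₀, hA₀⟩ := key h h'
    obtain ⟨K, hK0, hK⟩ := h.hol
    obtain ⟨K', hK0', hK'⟩ := h'.hol
    obtain ⟨A, hA0, hA⟩ := h.bdd'
    obtain ⟨A', hA0', hA'⟩ := h'.bdd'
    refine ub_zero hA₀ (c := ‖B‖ * A * K' + ‖B‖ * K * A') fun i y hy y' hy' => ?_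
    have e : B (f i y) (g i y) - B (f i y') (g i y') =
        B (f i y) (g i y - g i y') + B (f i y - f i y') (g i y') := by
      simp only [map_sub, sub_apply]; abel
    rw [e]
    have a1 := hK i y hy y' hy'
    have a2 := hK' i y hy y' hy'
    have a3 := hA i y hy
    have a4 := hA' i y' hy'
    calc _ ≤ ‖B‖ * ‖f i y‖ * ‖g i y - g i y'‖ + ‖B‖ * ‖f i y - f i y'‖ * ‖g i y'‖ :=
          (norm_add_le _ _).trans (add_le_add (B.le_opNorm₂ _ _) (B.le_opNorm₂ _ _))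
      _ ≤ ‖B‖ * A * (K' * √(dist y y')) + ‖B‖ * (K * √(dist y y')) * A' := by gcongr
      _ = _ := by ring
  | succ m ih =>
    intro f g h h'
    have hd : ∀ i, ∀ y ∈ ball (0 : En n) r, HasFDerivAt (fun y => B (f i y) (g i y))
        (B.precompR (En n) (f i y) (fderiv ℝ (g i) y) +
          B.precompL (En n) (fderiv ℝ (f i) y) (g i y)) y := fun i y hy =>
      B.hasFDerivAt_of_bilinear (h.diff i hy).hasFDerivAt (h'.diff i hy).hasFDerivAt
    refine ⟨key h h', fun i y hy => (hd i y hy).differentiableAt, fun k =>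
      ((ih h.pred (h'.pd k)).add (ih (h.pd k) h'.pred)).congr fun i y hy => ?_⟩
    simp only [P.pd]
    rw [(hd i y hy).fderiv]
    rfl

theorem UB.smul {m : ℕ} {c : ι → En n → ℝ} {g : ι → En n → V} (h : UB r m c) (h' : UB r m g) :
    UB r m (fun i y => c i y • g i y) :=
  UB.bilin (ContinuousLinearMap.lsmul ℝ ℝ) h h'

theorem UB.mul {m : ℕ} {c g : ι → En n → ℝ} (h : UB r m c) (h' : UB r m g) :
    UB r m (fun i y => c i y * g i y) := h.smul h'

theorem UB.const_smul {m : ℕ} {c : ι → ℝ} {g : ι → En n → V} (hc : ∃ K : ℝ, ∀ i, |c i| ≤ K)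
    (h : UB r m g) : UB r m (fun i y => c i • g i y) := (ub_const hc).smul h

theorem UB.clm_apply {m : ℕ} {L : ι → En n → V →L[ℝ] W} {g : ι → En n → V} (h : UB r m L)
    (h' : UB r m g) : UB r m (fun i y => L i y (g i y)) :=
  UB.bilin (ContinuousLinearMap.id ℝ (V →L[ℝ] W)) h h'

theorem UB.prod {m : ℕ} {f : ι → En n → V} {g : ι → En n → W} (h : UB r m f) (h' : UB r m g) :
    UB r m (fun i y => (f i y, g i y)) :=
  ((h.clm (ContinuousLinearMap.inl ℝ V W)).add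
    (h'.clm (ContinuousLinearMap.inr ℝ V W))).congr fun _ _ _ => by simp

theorem UB.fst {m : ℕ} {f : ι → En n → V × W} (h : UB r m f) : UB r m (fun i y => (f i y).1) :=
  h.clm (ContinuousLinearMap.fst ℝ V W)

theorem UB.snd {m : ℕ} {f : ι → En n → V × W} (h : UB r m f) : UB r m (fun i y => (f i y).2) :=
  h.clm (ContinuousLinearMap.snd ℝ V W)

theorem UB.pi {κ : Type*} [Fintype κ] {m : ℕ} {f : κ → ι → En n → V} (h : ∀ j, UB r m (f j)) :
    UB r m (fun i y j => f j i y) := by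
  classical
  refine (UB.sum Finset.univ fun j _ =>
    (h j).clm (ContinuousLinearMap.single ℝ (fun _ : κ => V) j)).congr fun i y _ => ?_
  ext j
  simp [Finset.sum_apply, Pi.single_apply]

theorem UB.apply {κ : Type*} [Fintype κ] {m : ℕ} {f : ι → En n → κ → V} (h : UB r m f) (j : κ) :
    UB r m (fun i y => f i y j) := h.clm (ContinuousLinearMap.proj j)

theorem UB.of_pi {κ : Type*} [Fintype κ] {m : ℕ} {f : ι → En n → κ → V}
    (h : ∀ j, UB r m fun i y => f i y j) : UB r m f := UB.pi (f := fun j i y => f i y j) h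

theorem ub_static {U : Set (En n)} (hU : IsOpen U) (hr : closedBall 0 r ⊆ U) :
    ∀ {m : ℕ} {g : En n → V}, ContDiffOn ℝ ∞ g U → UB r m (fun _ : ι => g) := by
  have hb : ∀ {g : En n → V}, ContDiffOn ℝ ∞ g U →
      ∃ K : ℝ, ∀ _ : ι, ∀ y ∈ ball (0 : En n) r, ‖g y‖ ≤ K := fun h =>
    let ⟨K, hK⟩ := (isCompact_closedBall 0 r).exists_bound_of_continuousOn (h.continuousOn.mono hr)
    ⟨K, fun _ y hy => hK y (ball_subset_closedBall hy)⟩
  have hd : ∀ {g : En n → V}, ContDiffOn ℝ ∞ g U → ∀ _ : ι, ∀ y ∈ ball (0 : En n) r,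
      DifferentiableAt ℝ g y := fun h _ y hy =>
    (h.contDiffAt (hU.mem_nhds (hr (ball_subset_closedBall hy)))).differentiableAt (by simp)
  intro m
  induction m with
  | zero =>
    intro g h
    exact ub_zero_of_pd (hb h).choose_spec (hd h) fun k => hb (contDiffOn_pd_top hU h k)
  | succ m ih => exact fun h => ⟨hb h, hd h, fun k => ih (contDiffOn_pd_top hU h k)⟩

theorem ub_id {m : ℕ} : UB r m (fun (_ : ι) (y : En n) => y) :=
  ub_static isOpen_univ (subset_univ _) contDiffOn_id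

theorem UB.d1 {m : ℕ} {h : ι → En n → V} (H : UB r (m + 1) h) : UB r m (fun i => d1 (h i)) :=
  UB.pi fun k => H.pd k

theorem UB.d2 {m : ℕ} {h : ι → En n → V} (H : UB r (m + 2) h) : UB r m (fun i => d2 (h i)) :=
  UB.of_pi fun k => UB.pi fun l => (H.pd l).pd k

theorem ub_of_d1 {m : ℕ} {h : ι → En n → V}
    (hA : ∃ A : ℝ, ∀ i, ∀ y ∈ ball (0 : En n) r, ‖h i y‖ ≤ A)
    (hd : ∀ i, ∀ y ∈ ball (0 : En n) r, DifferentiableAt ℝ (h i) y)
    (H : UB r m fun i => d1 (h i)) : UB r (m + 1) h := ⟨hA, hd, fun k => H.apply k⟩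

theorem ub_of_d2 {m : ℕ} {h : ι → En n → V}
    (hA : ∃ A : ℝ, ∀ i, ∀ y ∈ ball (0 : En n) r, ‖h i y‖ ≤ A)
    (hA' : ∃ A : ℝ, ∀ i, ∀ y ∈ ball (0 : En n) r, ‖d1 (h i) y‖ ≤ A)
    (hd : ∀ i, ∀ y ∈ ball (0 : En n) r, DifferentiableAt ℝ (h i) y)
    (hd' : ∀ l i, ∀ y ∈ ball (0 : En n) r, DifferentiableAt ℝ (pd l (h i)) y)
    (H : UB r m fun i => d2 (h i)) : UB r (m + 2) h :=
  ⟨hA, hd, fun l => ⟨hA'.imp fun _ hA' i y hy => (norm_le_pi_norm _ l).trans (hA' i y hy), hd' l,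
    fun k => (H.apply k).apply l⟩⟩

theorem UB.lop {m : ℕ} {a : ι → En n → Matrix (Fin n) (Fin n) ℝ} {h : ι → En n → V}
    (ha : ∀ k l, UB r m fun i y => a i y k l) (H : UB r (m + 2) h) :
    UB r m (fun i y => Lop (a i y) (h i) y) :=
  UB.sum _ fun k _ => UB.sum _ fun l _ => (ha k l).smul ((H.pd l).pd k)

theorem UB.fderiv {m : ℕ} {h : ι → En n → V} (H : UB r (m + 1) h) :
    UB r m (fun i => fderiv ℝ (h i)) :=
  (UB.sum Finset.univ fun k _ => (H.pd k).clm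
    (ContinuousLinearMap.smulRightL ℝ (En n) V (EuclideanSpace.proj k))).congr fun i y _ => by
      ext v; simp [fderiv_eq_sum_pd]

theorem ub_of_fderiv {m : ℕ} {h : ι → En n → V}
    (hA : ∃ A : ℝ, ∀ i, ∀ y ∈ ball (0 : En n) r, ‖h i y‖ ≤ A)
    (hd : ∀ i, ∀ y ∈ ball (0 : En n) r, DifferentiableAt ℝ (h i) y)
    (H : UB r m fun i => fderiv ℝ (h i)) : UB r (m + 1) h :=
  ⟨hA, hd, fun k => H.clm (ContinuousLinearMap.apply ℝ V (EuclideanSpace.single k 1))⟩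

/-- composition with a smooth map on a neighbourhood of a compact set -/
theorem UB.comp {W : Type u} [NormedAddCommGroup W] [NormedSpace ℝ W] {O K0 : Set W}
    (hO : IsOpen O) (hK : IsCompact K0) (hKO : K0 ⊆ O) {h : ι → En n → W}
    (hm : ∀ i, ∀ y ∈ ball (0 : En n) r, h i y ∈ K0) : ∀ {m : ℕ} {V : Type u} [NormedAddCommGroup V]
    [NormedSpace ℝ V] {F : W → V}, ContDiffOn ℝ ∞ F O → UB r m h →
    UB r m (fun i y => F (h i y)) := by
  have key : ∀ {V : Type u} [NormedAddCommGroup V] [NormedSpace ℝ V] {F : W → V},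
      ContDiffOn ℝ ∞ F O → ∃ K : ℝ, ∀ i, ∀ y ∈ ball (0 : En n) r, ‖F (h i y)‖ ≤ K := fun hF =>
    let ⟨K, hK⟩ := hK.exists_bound_of_continuousOn (hF.continuousOn.mono hKO)
    ⟨K, fun i y hy => hK _ (hm i y hy)⟩
  intro m
  induction m with
  | zero =>
    intro V _ _ F hF H
    obtain ⟨A, hA⟩ := key hF
    obtain ⟨K, -, hK'⟩ := H.hol
    obtain ⟨L, hL⟩ := LocallyLipschitzOn.exists_lipschitzOnWith_of_compact (f := F) hK fun x hx => by
      obtain ⟨L, t, ht, hL⟩ :=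
        ((hF.contDiffAt (hO.mem_nhds (hKO hx))).of_le (by simp)).exists_lipschitzOnWith
      exact ⟨L, t, mem_nhdsWithin_of_mem_nhds ht, hL⟩
    refine ub_zero hA (c := L * K) fun i y hy y' hy' => ?_
    rw [mul_assoc]
    exact (hL.norm_sub_le (hm i y hy) (hm i y' hy')).trans
      (mul_le_mul_of_nonneg_left (hK' i y hy y' hy') L.2)
  | succ m ih =>
    intro V _ _ F hF H
    have hf : ∀ i, ∀ y ∈ ball (0 : En n) r, HasFDerivAt (fun y => F (h i y))
        ((_root_.fderiv ℝ F (h i y)).comp (_root_.fderiv ℝ (h i) y)) y := fun i y hy =>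
      ((hF.contDiffAt (hO.mem_nhds (hKO (hm i y hy)))).differentiableAt
        (by simp)).hasFDerivAt.comp y (H.diff i hy).hasFDerivAt
    refine ⟨key hF, fun i y hy => (hf i y hy).differentiableAt, fun k =>
      ((ih (hF.fderiv_of_isOpen hO (by simp)) H.pred).clm_apply (H.pd k)).congr fun i y hy => ?_⟩
    simp only [P.pd]
    rw [(hf i y hy).fderiv]
    rfl

theorem pd_shift (f : En n → V) (c y : En n) (k : Fin n) :
    pd k (fun z => f (c + z)) y = pd k f (c + y) := by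
  unfold pd; rw [fderiv_comp_add_left]

theorem add_mem_ball {R : ℝ} {c y : En n} (hc : ‖c‖ + r ≤ R) (hy : y ∈ ball (0 : En n) r) :
    c + y ∈ ball (0 : En n) R := by
  rw [mem_ball_zero_iff] at hy ⊢
  linarith [norm_add_le c y]

theorem UB.shift {R : ℝ} {c : ι → En n} (hc : ∀ i, ‖c i‖ + r ≤ R) :
    ∀ {m : ℕ} {h : ι → En n → V}, UB R m h → UB r m (fun i y => h i (c i + y))
  | 0, _, ⟨K, hK⟩ => ⟨K, fun i => ⟨fun _ hy => (hK i).1 _ (add_mem_ball (hc i) hy),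
      fun y hy y' hy' => by
        simpa using (hK i).2 _ (add_mem_ball (hc i) hy) _ (add_mem_ball (hc i) hy')⟩⟩
  | _ + 1, _, ⟨⟨K, hK⟩, h2, h3⟩ => ⟨⟨K, fun i _ hy => hK i _ (add_mem_ball (hc i) hy)⟩,
      fun i _ hy => (differentiableAt_comp_add_left _).2 (h2 i _ (add_mem_ball (hc i) hy)),
      fun k => (UB.shift hc (h3 k)).congr fun _ _ _ => pd_shift _ _ _ k⟩

/-- gluing: bounds on all small balls centred in `ball 0 r` -/
theorem ub_glue {κ : Type*} {ρ : ℝ} (hρ : 0 < ρ) (σ : κ → ι) (c : κ → En n)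
    (hs : ∀ i, ∀ y ∈ ball (0 : En n) r, ∃ j, σ j = i ∧ c j = y) :
    ∀ {m : ℕ} {h : ι → En n → V}, UB ρ m (fun j y => h (σ j) (c j + y)) → UB r m h := by
  have h0 : (0 : En n) ∈ ball (0 : En n) ρ := mem_ball_self hρ
  have key : ∀ {m : ℕ} {h : ι → En n → V}, UB ρ m (fun j y => h (σ j) (c j + y)) →
      ∃ K : ℝ, ∀ i, ∀ y ∈ ball (0 : En n) r, ‖h i y‖ ≤ K := fun H =>
    H.bdd.imp fun K hK i y hy => by
      obtain ⟨j, rfl, rfl⟩ := hs i y hy
      simpa using hK j 0 h0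
  intro m
  induction m with
  | zero =>
    intro h H
    obtain ⟨A, hA⟩ := key H
    obtain ⟨K, hK0, hK⟩ := H.hol
    have hq := Real.sqrt_pos.2 hρ
    refine ub_zero hA (c := max K (2 * A / √ρ)) fun i y hy y' hy' => ?_
    by_cases hd : dist y y' < ρ
    · obtain ⟨j, rfl, rfl⟩ := hs i y' hy'
      have := hK j (y - c j) (by rwa [mem_ball_zero_iff, ← dist_eq_norm]) 0 h0
      simp only [add_sub_cancel, add_zero, dist_zero_right, ← dist_eq_norm y] at this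
      exact this.trans (mul_le_mul_of_nonneg_right (le_max_left _ _) (Real.sqrt_nonneg _))
    · have h1 := hA i y hy
      have h2 := hA i y' hy'
      have h3 : 0 ≤ A := (norm_nonneg _).trans h1
      calc _ ≤ 2 * A / √ρ * √ρ := by
            rw [div_mul_cancel₀ _ hq.ne']; linarith [norm_sub_le (h i y) (h i y')]
        _ ≤ _ := by
            gcongr
            · exact le_max_right _ _
            · exact not_lt.1 hd
  | succ m ih =>
    intro h H
    refine ⟨key H, fun i y hy => ?_, fun k => ih ((H.pd k).congr fun _ _ _ =>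
      (pd_shift _ _ _ k).symm)⟩
    obtain ⟨j, rfl, rfl⟩ := hs i y hy
    simpa using (differentiableAt_comp_add_left _).1 (H.diff j h0)

theorem ub_glue' {ρ : ℝ} (hρ : 0 < ρ) {m : ℕ} {h : ι → En n → V}
    (H : UB ρ m fun (p : ι × ball (0 : En n) r) y => h p.1 (p.2.1 + y)) : UB r m h :=
  ub_glue hρ Prod.fst (fun p : ι × ball (0 : En n) r => p.2.1)
    (fun i y hy => ⟨(i, ⟨y, hy⟩), rfl, rfl⟩) H

theorem dp_ball_ub {R : ℝ} (hr : r < R) {y : En n} (hy : y ∈ ball (0 : En n) r) :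
    Dp (ball 0 R) (min (R - r) 1) y :=
  ⟨lt_min (by linarith) one_pos, min_le_right _ _, ball_subset_ball' (by
    linarith [min_le_left (R - r) 1, mem_ball.1 hy])⟩

omit [NormedSpace ℝ V] in
theorem WS.bdd {R A : ℝ} (hr : r < R) {g : En n → V} (h : WS (ball 0 R) A g) {y : En n}
    (hy : y ∈ ball (0 : En n) r) : ‖g y‖ ≤ A / (min (R - r) 1 ^ 2 * √(min (R - r) 1)) := by
  have h0 := (dp_ball_ub hr hy).1
  rw [le_div_iff₀' (by positivity)]
  exact h _ _ (dp_ball_ub hr hy)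

theorem ub_of_wh {R A c : ℝ} (hr : r < R) {h : ι → En n → V} (hA : ∀ i, WS (ball 0 R) A (h i))
    (hc : ∀ i, WH (ball 0 R) c (h i)) : UB r 0 h :=
  ub_zero (fun i _ hy => (hA i).bdd hr hy) (c := c / min (R - r) 1 ^ 3) fun i y hy y' hy' => by
    have h0 := (dp_ball_ub hr hy).1
    rw [div_mul_eq_mul_div, le_div_iff₀' (by positivity)]
    exact hc i _ _ _ (dp_ball_ub hr hy) (dp_ball_ub hr hy')

theorem Dp.mem_ub {S : Set (En n)} {s : ℝ} {y : En n} (h : Dp S s y) : y ∈ S :=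
  h.2.2 (mem_ball_self h.1)

omit [NormedSpace ℝ V] in
theorem ws_of_bdd {S : Set (En n)} {A : ℝ} {g : En n → V} (h : ∀ y ∈ S, ‖g y‖ ≤ A) : WS S A g :=
  fun _ y hy => le_trans (mul_le_of_le_one_left (norm_nonneg _) (mul_le_one₀
    (pow_le_one₀ hy.1.le hy.2.1) (Real.sqrt_nonneg _) (Real.sqrt_le_one.2 hy.2.1))) (h y hy.mem_ub)

omit [NormedSpace ℝ V] in
theorem wh_of_hol {S : Set (En n)} {c : ℝ} {g : En n → V}
    (h : ∀ y ∈ S, ∀ y' ∈ S, ‖g y - g y'‖ ≤ c * √(dist y y')) : WH S c g :=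
  fun _ y y' hy hy' => le_trans (mul_le_of_le_one_left (norm_nonneg _)
    (pow_le_one₀ hy.1.le hy.2.1)) (h y hy.mem_ub y' hy'.mem_ub)

theorem wh_of_ub {h : ι → En n → V} (H : UB r 0 h) :
    ∃ K : ℝ, 0 ≤ K ∧ ∀ i, WS (ball 0 r) K (h i) ∧ WH (ball 0 r) K (h i) :=
  let ⟨K, hK⟩ := H
  ⟨max K 0, le_max_right _ _, fun i => ⟨ws_of_bdd fun y hy => ((hK i).1 y hy).trans (le_max_left _ _),
    wh_of_hol fun y hy y' hy' => ((hK i).2 y hy y' hy').trans
      (mul_le_mul_of_nonneg_right (le_max_left _ _) (Real.sqrt_nonneg _))⟩⟩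

end Crest.Agent.T223.Lx
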