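import Mathlib

/-!
# Row 223, module NA, leaf END (helper6): tools of several complex variables

* `three_circ` : three circles theorem on balls, vector valued
* `diffOn_of_unif` : uniform limits of holomorphic maps are holomorphic
* `near_id` : a holomorphic map close to the identity is injective with a large image
-/

set_option autoImplicit false
set_option linter.unusedSectionVars false

open Set Filter Topology Metric

namespace Crest.Agent.T223.NaE

variable {E F : Type*} [NormedAddCommGroup E] [NormedSpace ℂ E] [NormedAddCommGroup F]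
  [NormedSpace ℂ F]

/-- three circles theorem -/
theorem three_circ {f : E → F} {x1 x3 R a b θ : ℝ} (h13 : x1 < x3) (h3R : Real.exp x3 < R)
    (hf : DifferentiableOn ℂ f (ball 0 R)) (hab : a ≤ b) (hθ0 : 0 ≤ θ) (hθ1 : θ ≤ 1)
    (ha : ∀ z, ‖z‖ ≤ Real.exp x1 → ‖f z‖ ≤ Real.exp a)
    (hb : ∀ z, ‖z‖ ≤ Real.exp x3 → ‖f z‖ ≤ Real.exp b) {z : E}
    (hz : ‖z‖ ≤ Real.exp (θ * x1 + (1 - θ) * x3)) :
    ‖f z‖ ≤ Real.exp (θ * a + (1 - θ) * b) := by
  by_cases h1 : ‖z‖ ≤ Real.exp x1
  · exact (ha z h1).trans (Real.exp_le_exp.2 (by nlinarith))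
  push Not at h1
  have hz0 : 0 < ‖z‖ := (Real.exp_pos _).trans h1
  set s : ℝ := Real.log ‖z‖ with hs
  have hs1 : x1 < s := by
    rw [hs, Real.lt_log_iff_exp_lt hz0]; exact h1
  have hs2 : s ≤ θ * x1 + (1 - θ) * x3 := by
    rw [hs, Real.log_le_iff_le_exp hz0]; exact hz
  have hs3 : s ≤ x3 := by nlinarith
  set v : E := ((‖z‖ : ℂ)⁻¹) • z with hv
  have hvn : ‖v‖ = 1 := by
    rw [hv, norm_smul, norm_inv, Complex.norm_real, norm_norm, inv_mul_cancel₀ hz0.ne']
  set g : ℂ → F := fun w => f (Complex.exp w • v) with hg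
  have hn : ∀ w : ℂ, ‖Complex.exp w • v‖ = Real.exp w.re := fun w => by
    rw [norm_smul, hvn, mul_one, Complex.norm_exp]
  have hd : DifferentiableOn ℂ g (Complex.HadamardThreeLines.verticalClosedStrip x1 x3) := by
    intro w hw
    have hw' : ‖Complex.exp w • v‖ < R := by
      rw [hn]; exact (Real.exp_le_exp.2 hw.2).trans_lt h3R
    have h1 : DifferentiableAt ℂ f (Complex.exp w • v) :=
      hf.differentiableAt (isOpen_ball.mem_nhds (mem_ball_zero_iff.2 hw'))
    have h2 : DifferentiableAt ℂ (fun w : ℂ => Complex.exp w • v) w :=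
      Complex.differentiableAt_exp.smul_const v
    exact (h1.comp w h2).differentiableWithinAt
  have hcl : closure (Complex.HadamardThreeLines.verticalStrip x1 x3) ⊆
      Complex.HadamardThreeLines.verticalClosedStrip x1 x3 := by
    refine closure_minimal (fun w hw => ⟨hw.1.le, hw.2.le⟩) ?_
    exact isClosed_Icc.preimage Complex.continuous_re
  have hdc : DiffContOnCl ℂ g (Complex.HadamardThreeLines.verticalStrip x1 x3) :=
    (hd.mono hcl).diffContOnCl
  have hB : BddAbove ((norm ∘ g) '' Complex.HadamardThreeLines.verticalClosedStrip x1 x3) := by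
    refine ⟨Real.exp b, ?_⟩
    rintro _ ⟨w, hw, rfl⟩
    exact hb _ (by rw [hn]; exact Real.exp_le_exp.2 hw.2)
  have hmem : (s : ℂ) ∈ Complex.HadamardThreeLines.verticalClosedStrip x1 x3 := by
    simp only [Complex.HadamardThreeLines.verticalClosedStrip, mem_preimage, Complex.ofReal_re]
    exact ⟨hs1.le, hs3⟩
  have key := Complex.HadamardThreeLines.norm_le_interp_of_mem_verticalClosedStrip'
    (a := Real.exp a) (b := Real.exp b) h13 hmem hdc hB
    (fun w hw => ha _ (by rw [hn]; exact le_of_eq (by rw [show w.re = x1 from hw])))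
    (fun w hw => hb _ (by rw [hn]; exact le_of_eq (by rw [show w.re = x3 from hw])))
  have hgs : g s = f z := by
    simp only [hg]
    congr 1
    rw [hv, smul_smul, ← Complex.ofReal_exp, hs, Real.exp_log hz0, mul_inv_cancel₀, one_smul]
    exact_mod_cast hz0.ne'
  rw [hgs, ← Real.exp_mul, ← Real.exp_mul, ← Real.exp_add, Complex.ofReal_re] at key
  refine key.trans (Real.exp_le_exp.2 ?_)
  have ht : (s - x1) / (x3 - x1) ≤ 1 - θ := by
    rw [div_le_iff₀ (by linarith)]; nlinarith
  nlinarith

/-- Cauchy estimate for the derivative -/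
theorem norm_fderiv_le {g : E → F} {c : E} {s η : ℝ} (hs : 0 < s)
    (hg : DifferentiableOn ℂ g (ball c s)) (hη : ∀ z ∈ ball c s, ‖g z‖ ≤ η) :
    ‖fderiv ℂ g c‖ ≤ 2 * η / s := by
  refine Complex.norm_fderiv_le_div_of_mapsTo_ball hg (fun z hz => ?_) hs
  rw [mem_closedBall, dist_eq_norm]
  have h1 := hη z hz
  have h2 := hη c (mem_ball_self hs)
  have := norm_sub_le (g z) (g c)
  linarith

/-- uniform limits of holomorphic maps are holomorphic -/
theorem diffOn_of_unif [CompleteSpace F] {G : ℕ → E → F} {f : E → F} {U : Set E} (hU : IsOpen U)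
    (hG : ∀ k, DifferentiableOn ℂ (G k) U) (hf : TendstoUniformlyOn G f atTop U) :
    DifferentiableOn ℂ f U := by
  intro x hx
  obtain ⟨s, hs, hsU⟩ := Metric.isOpen_iff.1 hU x hx
  have hsub : ∀ y ∈ ball x (s / 2), ball y (s / 2) ⊆ U := fun y hy =>
    (ball_subset_ball' (by rw [mem_ball] at hy; linarith)).trans hsU
  have hc : UniformCauchySeqOn (fun k y => fderiv ℂ (G k) y) atTop (ball x (s / 2)) := by
    rw [Metric.uniformCauchySeqOn_iff]
    intro e he
    have h1 := (Metric.uniformCauchySeqOn_iff.1 hf.uniformCauchySeqOn) (e * s / 8) (by positivity)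
    obtain ⟨N, hN⟩ := h1
    refine ⟨N, fun k hk l hl y hy => ?_⟩
    have hyU : U ∈ 𝓝 y := hU.mem_nhds (hsub y hy (mem_ball_self (by positivity)))
    have hk' : DifferentiableAt ℂ (G k) y := (hG k).differentiableAt hyU
    have hl' : DifferentiableAt ℂ (G l) y := (hG l).differentiableAt hyU
    rw [dist_eq_norm, ← fderiv_fun_sub hk' hl']
    have := norm_fderiv_le (g := fun z => G k z - G l z) (c := y) (s := s / 2) (η := e * s / 8)
      (by positivity) (((hG k).sub (hG l)).mono (hsub y hy))
      (fun z hz => by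
        have := hN k hk l hl z (hsub y hy hz)
        rw [dist_eq_norm] at this; exact this.le)
    refine this.trans_lt ?_
    rw [div_lt_iff₀ (by positivity)]; nlinarith [mul_pos he hs]
  have hp : ∀ y ∈ ball x (s / 2), ∃ L, Tendsto (fun k => fderiv ℂ (G k) y) atTop (𝓝 L) :=
    fun y hy => cauchySeq_tendsto_of_complete (hc.cauchySeq hy)
  choose! L hL using hp
  have hu := hc.tendstoUniformlyOn_of_tendsto hL
  have := hasFDerivAt_of_tendstoUniformlyOn (𝕜 := ℂ) (f := G) (g := f) isOpen_ball hu
    (fun k y hy => ((hG k).differentiableAt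
      (hU.mem_nhds (hsub y hy (mem_ball_self (by positivity))))).hasFDerivAt)
    (fun y hy => hf.tendsto_at (hsub y hy (mem_ball_self (by positivity))))
    (mem_ball_self (by positivity))
  exact this.differentiableAt.differentiableWithinAt

/-- a holomorphic map whose derivative is close to the identity -/
theorem near_id' [CompleteSpace E] {h : E → E} {s : ℝ}
    (hh : DifferentiableOn ℂ h (ball 0 s))
    (hd : ∀ z ∈ ball (0 : E) s, ‖fderiv ℂ h z - ContinuousLinearMap.id ℂ E‖ ≤ 1 / 2) :
    InjOn h (ball 0 s) ∧ (∀ z ∈ ball (0 : E) s, Function.Injective (fderiv ℂ h z)) ∧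
      ∀ t, 0 ≤ t → t < s → closedBall (h 0) (t / 2) ⊆ h '' closedBall 0 t := by
  have hA : ApproximatesLinearOn h
      ((ContinuousLinearEquiv.refl ℂ E : E ≃L[ℂ] E) : E →L[ℂ] E) (ball 0 s) (1 / 2) := by
    intro x hx y hy
    have := (convex_ball (0 : E) s).norm_image_sub_le_of_norm_fderiv_le' (𝕜 := ℂ) (f := h)
      (φ := ContinuousLinearMap.id ℂ E) (C := 1 / 2)
      (fun z hz => hh.differentiableAt (isOpen_ball.mem_nhds hz)) hd hy hx
    simpa using this
  refine ⟨fun x hx y hy hxy => ?_, fun z hz => ?_, fun t ht hts => ?_⟩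
  · have := hA x hx y hy
    rw [hxy, sub_self, zero_sub, norm_neg] at this
    simp only [ContinuousLinearEquiv.coe_refl, ContinuousLinearMap.id_apply] at this
    have h2 : ‖x - y‖ ≤ 0 := by
      have : ‖x - y‖ ≤ 1 / 2 * ‖x - y‖ := by simpa using this
      linarith
    exact sub_eq_zero.1 (norm_le_zero_iff.1 h2)
  · rw [injective_iff_map_eq_zero]
    intro v hv
    have h1 := (fderiv ℂ h z - ContinuousLinearMap.id ℂ E).le_of_opNorm_le (hd z hz) v
    rw [sub_apply, hv, zero_sub, norm_neg, ContinuousLinearMap.id_apply] at h1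
    exact norm_le_zero_iff.1 (by linarith)
  · by_cases hE : Subsingleton E
    · intro y _
      exact ⟨0, by simpa using ht, Subsingleton.elim _ _⟩
    have : Nontrivial E := not_subsingleton_iff_nontrivial.1 hE
    have h1 := hA.surjOn_closedBall_of_nonlinearRightInverse
      (ContinuousLinearEquiv.refl ℂ E).toNonlinearRightInverse (b := 0) ht
      (closedBall_subset_ball hts)
    have h2 : ((ContinuousLinearEquiv.refl ℂ E).toNonlinearRightInverse.nnnorm : ℝ) = 1 := by
      simp [ContinuousLinearEquiv.toNonlinearRightInverse]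
    rw [h2] at h1
    have h3 : ((1 : ℝ)⁻¹ - ((1 / 2 : NNReal) : ℝ)) * t = t / 2 := by push_cast; ring
    rw [h3] at h1
    exact h1

/-- a holomorphic map close to the identity -/
theorem near_id [CompleteSpace E] {h : E → E} {s : ℝ} (hs : 0 < s)
    (hh : DifferentiableOn ℂ h (ball 0 s)) (hn : ∀ z ∈ ball (0 : E) s, ‖h z - z‖ ≤ s / 8) :
    InjOn h (ball 0 (s / 2)) ∧ (∀ z ∈ ball (0 : E) (s / 2), Function.Injective (fderiv ℂ h z)) ∧
      ∀ t, 0 ≤ t → t < s / 2 → closedBall (h 0) (t / 2) ⊆ h '' closedBall 0 t := by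
  refine near_id' (hh.mono (ball_subset_ball (by linarith))) fun z hz => ?_
  have hsub : ball z (s / 2) ⊆ ball (0 : E) s :=
    ball_subset_ball' (by rw [mem_ball] at hz; linarith)
  have hz' : DifferentiableAt ℂ h z :=
    hh.differentiableAt (isOpen_ball.mem_nhds (hsub (mem_ball_self (by positivity))))
  have h1 := norm_fderiv_le (g := fun w => h w - w) (c := z) (s := s / 2) (η := s / 8)
    (by positivity) ((hh.mono hsub).sub differentiableOn_id) (fun w hw => hn w (hsub hw))
  rw [fderiv_fun_sub hz' differentiableAt_fun_id, fderiv_fun_id] at h1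
  refine h1.trans (le_of_eq ?_)
  field_simp; norm_num

end Crest.Agent.T223.NaE
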