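import Crest.Agent.T223.NaE1_6
import Crest.Agent.T223.NaDef_80

/-!
# Row 223, module NA, leaf END (helper6): shadowing, maps tangent to the identity
-/

set_option autoImplicit false
set_option linter.unusedSectionVars false

open Set Filter Topology Metric

namespace Crest.Agent.T223.NaE

open Crest.Agent.T223.Tr Crest.Agent.T223.Dyn Crest.Agent.T223.Na

section Shadow

variable {E : Type*} [NormedAddCommGroup E]

/-- the composition of the first `i` automorphisms -/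
def OO (P : ℕ → E ≃ E) : ℕ → E ≃ E
  | 0 => Equiv.refl E
  | i + 1 => (OO P i).trans (P i)

theorem OO_symm_succ (P : ℕ → E ≃ E) (i : ℕ) (p : E) :
    (OO P (i + 1)).symm p = (OO P i).symm ((P i).symm p) := rfl

theorem shadow {P : ℕ → E ≃ E} {a : ℕ → E} {d w : ℕ → ℝ} {l : ℕ}
    (S1 : ∀ k, l ≤ k → ∀ p, ‖p - a (k + 1)‖ ≤ d (k + 1) → ‖(P k).symm p - a k‖ ≤ d k)
    (S2 : ∀ k, l ≤ k → ∀ p q, ‖p - a (k + 1)‖ ≤ d (k + 1) → ‖q - a (k + 1)‖ ≤ d (k + 1) →
      ‖(P k).symm p - (P k).symm q‖ ≤ Real.exp (w (k + 1) - w k) * ‖p - q‖)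
    {i k : ℕ} (hi : l ≤ i) (hk : i ≤ k) :
    (∀ p, ‖p - a k‖ ≤ d k → ‖OO P i ((OO P k).symm p) - a i‖ ≤ d i) ∧
    ∀ p q, ‖p - a k‖ ≤ d k → ‖q - a k‖ ≤ d k →
      ‖OO P i ((OO P k).symm p) - OO P i ((OO P k).symm q)‖ ≤ Real.exp (w k - w i) * ‖p - q‖ := by
  induction k, hk using Nat.le_induction with
  | base => exact ⟨fun p hp => by simpa using hp, fun p q _ _ => by simp⟩
  | succ k hk ih =>
    refine ⟨fun p hp => ?_, fun p q hp hq => ?_⟩
    · rw [OO_symm_succ]; exact ih.1 _ (S1 k (hi.trans hk) p hp)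
    · rw [OO_symm_succ, OO_symm_succ]
      refine (ih.2 _ _ (S1 k (hi.trans hk) p hp) (S1 k (hi.trans hk) q hq)).trans ?_
      refine (mul_le_mul_of_nonneg_left (S2 k (hi.trans hk) p q hp hq)
        (Real.exp_pos _).le).trans (le_of_eq ?_)
      rw [← mul_assoc, ← Real.exp_add]; congr 2; ring

theorem shadow_lim [CompleteSpace E] {P : ℕ → E ≃ E} {a : ℕ → E} {d w : ℕ → ℝ} {l : ℕ}
    (hd : ∀ k, 0 ≤ d k)
    (S1 : ∀ k, l ≤ k → ∀ p, ‖p - a (k + 1)‖ ≤ d (k + 1) → ‖(P k).symm p - a k‖ ≤ d k)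
    (S2 : ∀ k, l ≤ k → ∀ p q, ‖p - a (k + 1)‖ ≤ d (k + 1) → ‖q - a (k + 1)‖ ≤ d (k + 1) →
      ‖(P k).symm p - (P k).symm q‖ ≤ Real.exp (w (k + 1) - w k) * ‖p - q‖)
    (hc' : Continuous (OO P l).symm)
    (h0 : Tendsto (fun k => Real.exp (w k - w l) * d k) atTop (𝓝 0)) {k : ℕ} (hk : l ≤ k) :
    ‖OO P l (limUnder atTop fun k => (OO P k).symm (a k)) - OO P l ((OO P k).symm (a k))‖ ≤
      Real.exp (w k - w l) * d k := by
  set b : ℕ → E := fun k => OO P l ((OO P k).symm (a k)) with hb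
  have key : ∀ k k', l ≤ k → k ≤ k' → ‖b k' - b k‖ ≤ Real.exp (w k - w l) * d k := by
    intro k k' hk hk'
    have h1 := (shadow S1 S2 hk hk').1 (a k') (by simpa using hd k')
    have h2 := (shadow S1 S2 le_rfl hk).2 _ (a k) h1 (by simpa using hd k)
    rw [Equiv.symm_apply_apply] at h2
    exact h2.trans (mul_le_mul_of_nonneg_left h1 (Real.exp_pos _).le)
  have hcau : CauchySeq b := by
    rw [Metric.cauchySeq_iff']
    intro e he
    obtain ⟨K, hK⟩ := eventually_atTop.1 ((h0.eventually (gt_mem_nhds he)).and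
      (eventually_ge_atTop l))
    refine ⟨K, fun k' hk' => ?_⟩
    rw [dist_eq_norm]
    exact (key K k' (hK K le_rfl).2 hk').trans_lt (hK K le_rfl).1
  obtain ⟨β, hβ⟩ := cauchySeq_tendsto_of_complete hcau
  have hx : Tendsto (fun k => (OO P k).symm (a k)) atTop (𝓝 ((OO P l).symm β)) := by
    have := (hc'.tendsto β).comp hβ
    refine this.congr fun k => ?_
    simp [hb]
  rw [hx.limUnder_eq, Equiv.apply_symm_apply]
  refine le_of_tendsto ((hβ.sub_const (b k)).norm) ?_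
  filter_upwards [eventually_ge_atTop k] with k' hk' using key k k' hk hk'

end Shadow

variable {n : ℕ}

theorem OO_eq_orb (P : ℕ → EE n ≃ EE n) (i : ℕ) (x : EE n) :
    OO P i x = orb (fun j => (P j : EE n → EE n)) i x := by
  induction i with
  | zero => rfl
  | succ i ih => simp [OO, orb, ih]

theorem OO_diff {P : ℕ → EE n ≃ EE n} (h : ∀ i, Differentiable ℂ (P i)) (i : ℕ) :
    Differentiable ℂ (OO P i) := by
  induction i with
  | zero => exact differentiable_id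
  | succ i ih => exact (h i).comp ih

theorem OO_diff' {P : ℕ → EE n ≃ EE n} (h : ∀ i, Differentiable ℂ (P i).symm) (i : ℕ) :
    Differentiable ℂ (OO P i).symm := by
  induction i with
  | zero => exact differentiable_id
  | succ i ih => exact ih.comp (h i)

theorem OO_zero {P : ℕ → EE n ≃ EE n} (h : ∀ i, P i 0 = 0) (i : ℕ) : OO P i 0 = 0 := by
  induction i with
  | zero => rfl
  | succ i ih => simp [OO, ih, h]

theorem inj_fderiv_symm {O : EE n ≃ EE n} (h : Differentiable ℂ O) (h' : Differentiable ℂ O.symm)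
    (x : EE n) : Function.Injective (fderiv ℂ O.symm x) := by
  have h1 : fderiv ℂ (O ∘ O.symm) x = (fderiv ℂ O (O.symm x)).comp (fderiv ℂ O.symm x) :=
    fderiv_comp x (h _) (h' _)
  rw [O.self_comp_symm, fderiv_id] at h1
  intro v v' hv
  have h2 := congrArg (fun T : EE n →L[ℂ] EE n => T v) h1
  have h3 := congrArg (fun T : EE n →L[ℂ] EE n => T v') h1
  simp only [ContinuousLinearMap.id_apply, ContinuousLinearMap.comp_apply] at h2 h3
  rw [h2, h3, hv]

theorem det_ne_of_inj {T : EE n →L[ℂ] EE n} (h : Function.Injective T) : T.det ≠ 0 := by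
  have := (LinearEquiv.ofInjectiveEndo (T : EE n →ₗ[ℂ] EE n) h).isUnit_det'
  exact this.ne_zero

/-- an injective endomorphism as an equivalence -/
noncomputable def Le (T : EE n →L[ℂ] EE n) : EE n ≃L[ℂ] EE n := by
  classical
  exact if h : Function.Injective T then
    (LinearEquiv.ofInjectiveEndo (T : EE n →ₗ[ℂ] EE n) h).toContinuousLinearEquiv
  else ContinuousLinearEquiv.refl ℂ _

theorem Le_apply {T : EE n →L[ℂ] EE n} (h : Function.Injective T) (x : EE n) : Le T x = T x := by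
  simp [Le, h]

theorem inj_of_lower {T : EE n →L[ℂ] EE n} {C : ℝ} (h : ∀ v, ‖v‖ ≤ C * ‖T v‖) :
    Function.Injective T := by
  rw [injective_iff_map_eq_zero]
  intro v hv
  have := h v
  rw [hv, norm_zero, mul_zero] at this
  exact norm_le_zero_iff.1 this

theorem Le_symm_le {T : EE n →L[ℂ] EE n} {C : ℝ} (h : ∀ v, ‖v‖ ≤ C * ‖T v‖) (x : EE n) :
    ‖(Le T).symm x‖ ≤ C * ‖x‖ := by
  have := h ((Le T).symm x)
  rwa [← Le_apply (inj_of_lower h), ContinuousLinearEquiv.apply_symm_apply] at this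

section Tan

variable {X : ℝ} {g : EE n → EE n}

theorem tan_zero (hX : 0 < X) (h : Tan X g) : g 0 = 0 := by
  have := h.2 0 (mem_ball_self (inv_pos.2 hX))
  simpa using this

theorem tan_norm (hX : 0 < X) (h : Tan X g) {z : EE n} (hz : ‖z‖ < X⁻¹) : ‖g z‖ ≤ 2 * ‖z‖ := by
  have h1 := h.2 z (mem_ball_zero_iff.2 hz)
  have h2 : X * ‖z‖ ≤ 1 := by
    have := mul_le_mul_of_nonneg_left hz.le hX.le
    rwa [mul_inv_cancel₀ hX.ne'] at this
  have h3 : ‖g z‖ ≤ ‖g z - z‖ + ‖z‖ := by simpa using norm_add_le (g z - z) z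
  nlinarith [norm_nonneg z]

theorem tan_near (hX : 0 < X) (h : Tan X g) {z : EE n} (hz : z ∈ ball (0 : EE n) (X⁻¹ / 8)) :
    ‖g z - z‖ ≤ X⁻¹ / 8 / 8 := by
  have hXi := inv_pos.2 hX
  rw [mem_ball_zero_iff] at hz
  refine (h.2 z (mem_ball_zero_iff.2 (by linarith))).trans ?_
  have : ‖z‖ ^ 2 ≤ (X⁻¹ / 8) ^ 2 := by gcongr
  refine (mul_le_mul_of_nonneg_left this hX.le).trans (le_of_eq ?_)
  field_simp

theorem tan_emb (hX : 0 < X) (h : Tan X g) :
    InjOn g (ball 0 (X⁻¹ / 16)) ∧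
      ∀ t, 0 ≤ t → t < X⁻¹ / 16 → closedBall (0 : EE n) (t / 2) ⊆ g '' closedBall 0 t := by
  have hXi := inv_pos.2 hX
  have := near_id (h := g) (s := X⁻¹ / 8) (by positivity)
    (h.1.mono (ball_subset_ball (by linarith))) (fun z hz => tan_near hX h hz)
  rw [tan_zero hX h, show X⁻¹ / 8 / 2 = X⁻¹ / 16 by ring] at this
  exact ⟨this.1, this.2.2⟩

theorem tan_lip (hX : 0 < X) (h : Tan X g) {p q : EE n} (hp : ‖p‖ < X⁻¹ / 16)
    (hq : ‖q‖ < X⁻¹ / 16) : ‖g p - g q‖ ≤ 2 * ‖p - q‖ := by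
  have hXi := inv_pos.2 hX
  refine (convex_ball (0 : EE n) (X⁻¹ / 16)).norm_image_sub_le_of_norm_fderiv_le (𝕜 := ℂ)
    (fun z hz => h.1.differentiableAt (isOpen_ball.mem_nhds
      (ball_subset_ball (by linarith) hz))) (fun z hz => ?_) (mem_ball_zero_iff.2 hq)
    (mem_ball_zero_iff.2 hp)
  have hsub : ball z (X⁻¹ / 16) ⊆ ball (0 : EE n) (X⁻¹ / 8) :=
    ball_subset_ball' (by rw [mem_ball] at hz; linarith)
  have hz' : DifferentiableAt ℂ g z :=
    h.1.differentiableAt (isOpen_ball.mem_nhds (ball_subset_ball (by linarith) hz))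
  have h1 := norm_fderiv_le (g := fun w => g w - w) (c := z) (s := X⁻¹ / 16) (η := X⁻¹ / 8 / 8)
    (by positivity)
    ((h.1.mono (hsub.trans (ball_subset_ball (by linarith)))).sub differentiableOn_id)
    (fun w hw => tan_near hX h (hsub hw))
  rw [fderiv_fun_sub hz' differentiableAt_fun_id, fderiv_fun_id] at h1
  have h2 : 2 * (X⁻¹ / 8 / 8) / (X⁻¹ / 16) = 1 / 2 := by field_simp; norm_num
  have h3 : ‖fderiv ℂ g z‖ ≤ ‖fderiv ℂ g z - ContinuousLinearMap.id ℂ (EE n)‖ +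
      ‖ContinuousLinearMap.id ℂ (EE n)‖ := by
    simpa using norm_add_le (fderiv ℂ g z - ContinuousLinearMap.id ℂ (EE n))
      (ContinuousLinearMap.id ℂ (EE n))
  have h4 := ContinuousLinearMap.norm_id_le (𝕜 := ℂ) (E := EE n)
  linarith

end Tan

section Phi

variable {Φ : ℕ → ℕ → EE n → EE n} {r κ : ℝ} {σ : ℕ → ℝ}

theorem tan_phi (hc : Coc Φ r κ) (hh : NAHyp Φ r σ) {j k : ℕ} (hjk : j ≤ k) :
    Tan ((κ + 1) / r * Real.exp ((k : ℝ) - j)) (fun z => (Le (Lm Φ j k)).symm (Φ j k z)) := by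
  have hr := hc.r_pos
  have hκ := hc.one_le
  have he : 1 ≤ Real.exp ((k : ℝ) - j) :=
    Real.one_le_exp (sub_nonneg.2 (by exact_mod_cast hjk))
  have hsub : ball (0 : EE n) ((κ + 1) / r * Real.exp ((k : ℝ) - j))⁻¹ ⊆ ball 0 r := by
    refine ball_subset_ball ?_
    rw [inv_le_comm₀ (by positivity) hr, inv_eq_one_div]
    calc 1 / r ≤ (κ + 1) / r * 1 := by rw [mul_one]; gcongr; linarith
      _ ≤ _ := by gcongr
  refine ⟨(Le (Lm Φ j k)).symm.differentiable.comp_differentiableOn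
    ((hc.hol j k hjk).mono hsub), fun z hz => ?_⟩
  have hinj := inj_of_lower (hh.inv j k hjk)
  have h1 : (Le (Lm Φ j k)).symm (Φ j k z) - z =
      (Le (Lm Φ j k)).symm (Φ j k z - Lm Φ j k z) := by
    rw [map_sub, ← Le_apply hinj, ContinuousLinearEquiv.symm_apply_apply]
  rw [h1]
  refine (Le_symm_le (hh.inv j k hjk) _).trans ?_
  have hd : HasFDerivAt (Φ j k) (Lm Φ j k) 0 :=
    ((hc.hol j k hjk).differentiableAt (ball_mem_nhds _ hr)).hasFDerivAt
  have h2 := Complex.dist_le_mul_div_pow_of_mapsTo_ball_of_isLittleO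
    (f := fun w => Φ j k w - Lm Φ j k w) (c := 0) (z := z) (R₁ := r) (R₂ := (κ + 1) * r) (n := 1)
    ((hc.hol j k hjk).sub (Lm Φ j k).differentiable.differentiableOn)
    (fun w hw => by
      simp only [hc.zero j k hjk, map_zero, sub_zero, mem_closedBall_zero_iff]
      have h3 := hc.bd j k hjk w hw
      have h4 := hh.nrm j k hjk w
      have h5 := norm_sub_le (Φ j k w) (Lm Φ j k w)
      rw [mem_ball_zero_iff] at hw
      nlinarith)
    (by
      have := hd.isLittleO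
      simp only [hc.zero j k hjk, map_zero, sub_zero, pow_one] at this ⊢
      exact this.norm_right) (hsub hz)
  simp only [hc.zero j k hjk, map_zero, sub_zero, dist_zero_right] at h2
  refine (mul_le_mul_of_nonneg_left h2 (Real.exp_pos _).le).trans (le_of_eq ?_)
  rw [show 1 + 1 = 2 from rfl]
  field_simp

/-- the transition maps are injective on a uniform ball -/
theorem phi_inj (hc : Coc Φ r κ) (hh : NAHyp Φ r σ) :
    ∃ ρ, 0 < ρ ∧ ∀ j k, j ≤ k → InjOn (Φ j k) (ball 0 ρ) := by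
  have hr := hc.r_pos
  have hκ := hc.one_le
  set X := (κ + 1) / r * Real.exp 1 with hX
  have hX0 : 0 < X := by positivity
  refine ⟨min (r / κ) (X⁻¹ / 16 / κ), by positivity, fun j k hjk => ?_⟩
  have hs1 : ball (0 : EE n) (min (r / κ) (X⁻¹ / 16 / κ)) ⊆ ball 0 (r / κ) :=
    ball_subset_ball (min_le_left _ _)
  have hs2 : ball (0 : EE n) (r / κ) ⊆ ball 0 r := ball_subset_ball (div_le_self hr.le hκ)
  induction k, hjk using Nat.le_induction with
  | base =>
    intro x hx y hy hxy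
    rwa [hc.self j x (hs2 (hs1 hx)), hc.self j y (hs2 (hs1 hy))] at hxy
  | succ k hk ih =>
    have ht := tan_phi hc hh (Nat.le_succ k)
    rw [show ((k.succ : ℕ) : ℝ) - k = 1 by push_cast; ring] at ht
    have hm : ∀ x ∈ ball (0 : EE n) (min (r / κ) (X⁻¹ / 16 / κ)),
        Φ j k x ∈ ball (0 : EE n) (X⁻¹ / 16) := fun x hx => by
      have h1 := hc.bd j k hk x (hs2 (hs1 hx))
      have h2 : ‖x‖ < X⁻¹ / 16 / κ := (mem_ball_zero_iff.1 hx).trans_le (min_le_right _ _)
      rw [lt_div_iff₀ (by linarith)] at h2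
      rw [mem_ball_zero_iff]; linarith
    intro x hx y hy hxy
    rw [← hc.coc j k (k + 1) hk (Nat.le_succ k) x (hs1 hx),
      ← hc.coc j k (k + 1) hk (Nat.le_succ k) y (hs1 hy)] at hxy
    exact ih hx hy ((tan_emb hX0 ht).1 (hm x hx) (hm y hy) (by simp only [hxy]))

/-- the transition maps are open at the origin -/
theorem phi_nhds (hc : Coc Φ r κ) (hh : NAHyp Φ r σ) {j k : ℕ} (hjk : j ≤ k) {t : ℝ}
    (ht : 0 < t) : Φ j k '' ball 0 t ∈ 𝓝 (0 : EE n) := by
  have hr := hc.r_pos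
  have hκ := hc.one_le
  set X := (κ + 1) / r * Real.exp ((k : ℝ) - j) with hX
  have hX0 : 0 < X := by positivity
  have hXi := inv_pos.2 hX0
  set t' := min (t / 2) (X⁻¹ / 32) with ht'
  have ht0 : 0 < t' := by positivity
  have h1 := (tan_emb hX0 (tan_phi hc hh hjk)).2 t' ht0.le
    ((min_le_right _ _).trans_lt (by linarith))
  have h2 : (Le (Lm Φ j k)).symm ⁻¹' closedBall (0 : EE n) (t' / 2) ∈ 𝓝 (0 : EE n) := by
    refine (Le (Lm Φ j k)).symm.continuous.continuousAt.preimage_mem_nhds ?_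
    rw [map_zero]; exact closedBall_mem_nhds _ (by positivity)
  refine mem_of_superset h2 fun y hy => ?_
  obtain ⟨z, hz, hzy⟩ := h1 hy
  exact ⟨z, closedBall_subset_ball ((min_le_left _ _).trans_lt (by linarith)) hz,
    (Le (Lm Φ j k)).symm.injective hzy⟩

end Phi

end Crest.Agent.T223.NaE
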