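import Crest.Agent.T223.NaE2_6

/-!
# Row 223, module NA, leaf END (helper6): the limit maps for one normal form package
-/

set_option autoImplicit false
set_option linter.unusedSectionVars false

open Set Filter Topology Metric

namespace Crest.Agent.T223.NaE

open Crest.Agent.T223.Tr Crest.Agent.T223.Dyn Crest.Agent.T223.Na

variable {n : ℕ} {Φ : ℕ → ℕ → EE n → EE n} {r κ : ℝ} {σ : ℕ → ℝ}

theorem ev_lin {a : ℝ} (ha : 0 < a) (C : ℝ) : ∃ k0 : ℕ, ∀ k : ℕ, k0 ≤ k → C ≤ a * k := by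
  obtain ⟨k0, hk0⟩ := exists_nat_ge (C / a)
  refine ⟨k0, fun k hk => ?_⟩
  have : C / a ≤ k := hk0.trans (by exact_mod_cast hk)
  rwa [div_le_iff₀ ha, mul_comm] at this

theorem ev_exp {a : ℝ} (ha : 0 < a) (C : ℝ) :
    ∃ k0 : ℕ, ∀ k : ℕ, k0 ≤ k → C ≤ Real.exp (a * k) := by
  obtain ⟨k0, hk0⟩ := ev_lin ha C
  exact ⟨k0, fun k hk => by linarith [hk0 k hk, Real.add_one_le_exp (a * k)]⟩

theorem two_le_exp {x : ℝ} (hx : 1 ≤ x) : 2 ≤ Real.exp x := by
  linarith [Real.add_one_le_exp x]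

theorem four_le_exp {x : ℝ} (hx : 2 ≤ x) : 4 ≤ Real.exp x := by
  have h1 := two_le_exp (x := x / 2) (by linarith)
  have h2 : Real.exp x = Real.exp (x / 2) * Real.exp (x / 2) := by
    rw [← Real.exp_add]; congr 1; ring
  nlinarith

theorem big_le_exp {x : ℝ} (hx : 8 ≤ x) : 256 ≤ Real.exp x := by
  have h1 := four_le_exp (x := x / 4) (by linarith)
  have h2 : Real.exp x = Real.exp (x / 4) ^ 4 := by
    rw [← Real.exp_nat_mul]; congr 1; push_cast; ring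
  rw [h2]
  calc (256 : ℝ) = 4 ^ 4 := by norm_num
    _ ≤ _ := by gcongr

/-- `exp a ≤ exp b / C` from `C ≤ exp x` and `a + x ≤ b` -/
theorem exp_le_div {a b x C : ℝ} (hC : 0 < C) (hx : C ≤ Real.exp x) (h : a + x ≤ b) :
    Real.exp a ≤ Real.exp b / C := by
  rw [le_div_iff₀ hC]
  calc Real.exp a * C ≤ Real.exp a * Real.exp x := by gcongr
    _ = Real.exp (a + x) := (Real.exp_add _ _).symm
    _ ≤ _ := Real.exp_le_exp.2 h

/-- cleaned form of the decay -/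
structure Tiny (Φ : ℕ → ℕ → EE n → EE n) (r c : ℝ) : Prop where
  pos : 0 < c
  le : c ≤ 1
  sm : ∀ δ : ℝ, 0 < δ → δ ≤ 1 → ∃ k0 : ℕ, ∀ j : ℕ, k0 ≤ j → ∀ z : EE n,
    ‖z‖ ≤ 4 * Real.exp (-(δ * j)) → ∀ k : ℕ, j ≤ k → ‖Φ j k z‖ ≤ Real.exp (-(c * δ * k))
  ch : ∀ j : ℕ, ∃ k0 : ℕ, j ≤ k0 ∧ ∀ k : ℕ, k0 ≤ k → ∀ z : EE n, ‖z‖ ≤ r * Real.exp (-1) →
    ‖Φ j k z‖ ≤ Real.exp (-(c / (j + 1) * k))

theorem exists_tiny (hr : 0 < r) (hD : Dec Φ r) : ∃ c, Tiny Φ r c := by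
  obtain ⟨c0, C, hc0, hC, h⟩ := hD
  refine ⟨min 1 (c0 / 4), by positivity, min_le_left _ _, fun δ hδ hδ1 => ?_, fun j => ?_⟩
  · obtain ⟨k1, hk1⟩ := ev_exp (a := δ / 2) (by positivity) (4 * Real.exp (δ / 2) / r)
    obtain ⟨k2, hk2⟩ := ev_exp (a := c0 * δ / 4) (by positivity) C
    refine ⟨max k1 k2, fun j hj z hz k hk => ?_⟩
    have hj1 : (0 : ℝ) < j + 1 := by positivity
    have h1 := h j k (δ * (j + 1) / 2) z hk (by positivity) (hz.trans (by
      have h2 := hk1 j ((le_max_left _ _).trans hj)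
      rw [div_le_iff₀ hr] at h2
      have h3 : Real.exp (-(δ * (j + 1) / 2)) * Real.exp (δ / 2) =
          Real.exp (-(δ * j)) * Real.exp (δ / 2 * j) := by
        rw [← Real.exp_add, ← Real.exp_add]; congr 1; ring
      have h4 := Real.exp_pos (δ / 2)
      have h5 := Real.exp_pos (-(δ * j))
      refine le_of_mul_le_mul_right ?_ h4
      rw [mul_assoc r, h3]
      nlinarith))
    have h2 : δ * (j + 1) / 2 / (j + 1) = δ / 2 := by field_simp
    rw [h2, min_eq_right (by linarith)] at h1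
    refine h1.trans ?_
    have h3 := hk2 k (((le_max_right _ _).trans hj).trans hk)
    refine (mul_le_mul_of_nonneg_right h3 (Real.exp_pos _).le).trans ?_
    rw [← Real.exp_add]
    refine Real.exp_le_exp.2 ?_
    have h4 : min 1 (c0 / 4) * δ * k ≤ c0 / 4 * δ * k := by gcongr; exact min_le_right _ _
    nlinarith
  · have hj1 : (0 : ℝ) < j + 1 := by positivity
    obtain ⟨k2, hk2⟩ := ev_exp (a := c0 / 2 / (j + 1)) (by positivity) C
    refine ⟨max j k2, le_max_left _ _, fun k hk z hz => ?_⟩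
    have h1 := h j k 1 z ((le_max_left _ _).trans hk) one_pos hz
    rw [min_eq_right (by rw [div_le_one hj1]; linarith [(Nat.cast_nonneg j : (0 : ℝ) ≤ j)])] at h1
    refine h1.trans ?_
    have h3 := hk2 k ((le_max_right _ _).trans hk)
    refine (mul_le_mul_of_nonneg_right h3 (Real.exp_pos _).le).trans ?_
    rw [← Real.exp_add]
    refine Real.exp_le_exp.2 ?_
    have h4 : min 1 (c0 / 4) / (j + 1) * k ≤ c0 / 2 / (j + 1) * k := by
      gcongr; exact (min_le_right _ _).trans (by linarith)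
    have h5 : c0 * k * (1 / (j + 1)) = 2 * (c0 / 2 / (j + 1) * k) := by field_simp
    linarith

/-- a normal form package adapted to orbits of exponent `e` -/
structure Gd (Φ : ℕ → ℕ → EE n → EE n) (e : ℝ) (c : ℕ → ℕ) (N : ℕ → EE n → EE n)
    (P : ℕ → EE n ≃ EE n) : Prop where
  mono : StrictMono c
  big : ∀ i, 16 ≤ e * c i
  hol : ∀ i, Differentiable ℂ (P i)
  hol' : ∀ i, Differentiable ℂ (P i).symm
  zero : ∀ i, P i 0 = 0
  tan : ∀ i, Tan (Real.exp (e / 2 * c i)) (N i)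
  S1 : ∀ i u p, ‖u‖ ≤ Real.exp (-(e * c i)) →
    ‖p - N (i + 1) (Φ (c i) (c (i + 1)) u)‖ ≤ Real.exp (-(3 * c (i + 1))) →
    ‖(P i).symm p - N i u‖ ≤ Real.exp (-(3 * c i))
  S2 : ∀ i u p q, ‖u‖ ≤ Real.exp (-(e * c i)) →
    ‖p - N (i + 1) (Φ (c i) (c (i + 1)) u)‖ ≤ Real.exp (-(3 * c (i + 1))) →
    ‖q - N (i + 1) (Φ (c i) (c (i + 1)) u)‖ ≤ Real.exp (-(3 * c (i + 1))) →
    ‖(P i).symm p - (P i).symm q‖ ≤ Real.exp (2 * c (i + 1) - 2 * c i) * ‖p - q‖
  hit : ∀ (R : ℝ) (i0 : ℕ), ∃ i, i0 ≤ i ∧ ∀ x : EE n, ‖x‖ ≤ R →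
    ‖OO P i x‖ ≤ Real.exp (e / 2 * c i)

theorem prep (hh : NAHyp Φ r σ)
    (H : ∀ (m : ℕ) (β : ℝ) (J0 : ℕ), 0 < β → NFP Φ m β J0) {e : ℝ} (he : 0 < e) (he1 : e ≤ 1)
    (J0 : ℕ) : ∃ c N P, J0 ≤ c 0 ∧ Gd Φ e c N P := by
  obtain ⟨m, hm⟩ := ev_lin he 6
  obtain ⟨J1, hJ1⟩ := ev_lin he 16
  obtain ⟨c, N, Q, hc, hJ, hdbl, hN, hQ, hQ', hQt, hQt', happ, hhit⟩ :=
    H m (e / 2) (max J0 J1) (by positivity)
  have hbig : ∀ i, 16 ≤ e * c i := fun i =>
    hJ1 _ (((le_max_right _ _).trans hJ).trans (hc.monotone (Nat.zero_le i)))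
  have hle : ∀ i, c i ≤ c (i + 1) := fun i => (hc (Nat.lt_succ_self i)).le
  have hinj : ∀ i, Function.Injective (Lm Φ (c i) (c (i + 1))) := fun i =>
    inj_of_lower (hh.inv _ _ (hle i))
  set P : ℕ → EE n ≃ EE n := fun i => (Q i).trans (Le (Lm Φ (c i) (c (i + 1)))).toEquiv with hP
  have hPa : ∀ i x, P i x = Lm Φ (c i) (c (i + 1)) (Q i x) := fun i x => Le_apply (hinj i) _
  have hPs : ∀ i p, (P i).symm p = (Q i).symm ((Le (Lm Φ (c i) (c (i + 1)))).symm p) :=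
    fun i p => rfl
  have key : ∀ i u, ‖u‖ ≤ Real.exp (-(e * c i)) →
      ‖Q i (N i u)‖ < (Real.exp (e / 2 * c i))⁻¹ / 16 ∧ ∀ p,
      ‖p - N (i + 1) (Φ (c i) (c (i + 1)) u)‖ ≤ Real.exp (-(3 * c (i + 1))) →
      ‖(Le (Lm Φ (c i) (c (i + 1)))).symm p - Q i (N i u)‖ ≤ Real.exp (-(3 * c i)) / 2 ∧
      ‖(Le (Lm Φ (c i) (c (i + 1)))).symm p‖ < (Real.exp (e / 2 * c i))⁻¹ / 16 := by
    intro i u hu
    have hb := hbig i
    have hy : (16 : ℝ) ≤ c i := by nlinarith [(Nat.cast_nonneg (c i) : (0 : ℝ) ≤ c i)]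
    have hy1 : (c i : ℝ) + 1 ≤ c (i + 1) := by exact_mod_cast hc (Nat.lt_succ_self i)
    have hy2 : (c (i + 1) : ℝ) ≤ 2 * c i := by exact_mod_cast hdbl i
    have hX := Real.exp_pos (e / 2 * c i)
    have hXi : (Real.exp (e / 2 * c i))⁻¹ = Real.exp (-(e / 2 * c i)) := (Real.exp_neg _).symm
    have hX' := Real.exp_pos (-(e / 2 * c i))
    have h1 : Real.exp (-(e * c i)) ≤ Real.exp (-(e / 2 * c i)) / 256 :=
      exp_le_div (by norm_num) (big_le_exp (x := e / 2 * c i) (by linarith)) (by linarith)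
    have h2 : Real.exp (-(3 * c i)) ≤ Real.exp (-(e * c i)) :=
      Real.exp_le_exp.2 (by nlinarith)
    have h3 := tan_norm hX (hN i) (z := u) (by rw [hXi]; linarith)
    have h4 := tan_norm hX (hQt i) (z := N i u) (by rw [hXi]; linarith)
    refine ⟨by rw [hXi]; linarith, fun p hp => ?_⟩
    have h5 := happ i u (by linarith)
    have h6 : (Le (Lm Φ (c i) (c (i + 1)))).symm p - Q i (N i u) =
        (Le (Lm Φ (c i) (c (i + 1)))).symm (p - Lm Φ (c i) (c (i + 1)) (Q i (N i u))) := by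
      rw [map_sub, ← Le_apply (hinj i), ContinuousLinearEquiv.symm_apply_apply]
    have h7 := Le_symm_le (hh.inv _ _ (hle i)) (p - Lm Φ (c i) (c (i + 1)) (Q i (N i u)))
    have h8 := norm_sub_le_norm_sub_add_norm_sub p (N (i + 1) (Φ (c i) (c (i + 1)) u))
      (Lm Φ (c i) (c (i + 1)) (Q i (N i u)))
    have h9 : ‖u‖ ^ (m + 1) ≤ Real.exp (-(6 * c i)) := by
      calc ‖u‖ ^ (m + 1) ≤ Real.exp (-(e * c i)) ^ (m + 1) := by gcongr
        _ = Real.exp ((m + 1 : ℕ) * -(e * c i)) := (Real.exp_nat_mul _ _).symm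
        _ ≤ _ := Real.exp_le_exp.2 (by
          have := hm (m + 1) (Nat.le_succ m)
          nlinarith)
    have h10 : Real.exp ((c (i + 1) : ℝ) - c i) * Real.exp (-(3 * c (i + 1))) ≤
        Real.exp (-(3 * c i)) / 4 := by
      rw [← Real.exp_add]
      exact exp_le_div (by norm_num) (four_le_exp le_rfl) (by linarith)
    have h11 : Real.exp ((c (i + 1) : ℝ) - c i) *
        (Real.exp (e / 2 * c i) * Real.exp (-(6 * c i))) ≤ Real.exp (-(3 * c i)) / 4 := by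
      rw [← Real.exp_add, ← Real.exp_add]
      exact exp_le_div (by norm_num) (four_le_exp le_rfl) (by nlinarith)
    have h12 : ‖(Le (Lm Φ (c i) (c (i + 1)))).symm p - Q i (N i u)‖ ≤
        Real.exp (-(3 * c i)) / 2 := by
      rw [h6]
      refine h7.trans ?_
      have h13 : ‖p - Lm Φ (c i) (c (i + 1)) (Q i (N i u))‖ ≤ Real.exp (-(3 * c (i + 1))) +
          Real.exp (e / 2 * c i) * Real.exp (-(6 * c i)) := by
        have := mul_le_mul_of_nonneg_left h9 hX.le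
        linarith
      have := mul_le_mul_of_nonneg_left h13 (Real.exp_pos ((c (i + 1) : ℝ) - c i)).le
      rw [mul_add] at this
      linarith
    refine ⟨h12, ?_⟩
    have h14 := norm_le_insert' ((Le (Lm Φ (c i) (c (i + 1)))).symm p) (Q i (N i u))
    rw [hXi]; linarith
  refine ⟨c, N, P, (le_max_left _ _).trans hJ, hc, hbig, fun i => ?_, fun i => ?_, fun i => ?_, hN,
    fun i u p hu hp => ?_, fun i u p q hu hp hq => ?_, fun R i0 => ?_⟩
  · exact (Le (Lm Φ (c i) (c (i + 1)))).differentiable.comp (hQ i)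
  · exact (hQ' i).comp (Le (Lm Φ (c i) (c (i + 1)))).symm.differentiable
  · rw [hPa, tan_zero (Real.exp_pos _) (hQt i), map_zero]
  · obtain ⟨h1, h2⟩ := key i u hu
    obtain ⟨h3, h4⟩ := h2 p hp
    have h5 := tan_lip (Real.exp_pos _) (hQt' i) h4 h1
    rw [Equiv.symm_apply_apply] at h5
    rw [hPs]; linarith
  · obtain ⟨-, h2⟩ := key i u hu
    have h5 := tan_lip (Real.exp_pos _) (hQt' i) (h2 p hp).2 (h2 q hq).2
    rw [← map_sub (Le (Lm Φ (c i) (c (i + 1)))).symm] at h5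
    have h6 := Le_symm_le (hh.inv _ _ (hle i)) (p - q)
    have hy1 : (c i : ℝ) + 1 ≤ c (i + 1) := by exact_mod_cast hc (Nat.lt_succ_self i)
    have h7 := two_le_exp (x := (c (i + 1) : ℝ) - c i) (by linarith)
    have h8 : Real.exp (2 * (c (i + 1) : ℝ) - 2 * c i) =
        Real.exp ((c (i + 1) : ℝ) - c i) * Real.exp ((c (i + 1) : ℝ) - c i) := by
      rw [← Real.exp_add]; congr 1; ring
    rw [hPs, hPs, h8, mul_assoc]
    refine h5.trans ?_
    exact mul_le_mul h7 h6 (norm_nonneg _) (Real.exp_pos _).le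
  · obtain ⟨i, hi, h⟩ := hhit R i0
    refine ⟨i, hi, fun x hx => ?_⟩
    rw [OO_eq_orb]
    have : (fun j => (P j : EE n → EE n)) = fun j y => Lm Φ (c j) (c (j + 1)) (Q j y) :=
      funext fun j => funext fun y => hPa j y
    rw [this]; exact h x hx

/-- the limit maps -/
noncomputable def chi (Φ : ℕ → ℕ → EE n → EE n) (c : ℕ → ℕ) (N : ℕ → EE n → EE n)
    (P : ℕ → EE n ≃ EE n) (j : ℕ) (z : EE n) : EE n :=
  limUnder atTop fun k => (OO P k).symm (N k (Φ j (c k) z))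

variable {e : ℝ} {c : ℕ → ℕ} {N : ℕ → EE n → EE n} {P : ℕ → EE n ≃ EE n}

theorem chi_coc (hc : Coc Φ r κ) (G : Gd Φ e c N P) {j k : ℕ} (hjk : j ≤ k) {w : EE n}
    (hw : w ∈ ball (0 : EE n) (r / κ)) : chi Φ c N P k (Φ j k w) = chi Φ c N P j w := by
  unfold chi limUnder
  congr 1
  refine Filter.map_congr ?_
  filter_upwards [eventually_ge_atTop k] with i hi
  rw [hc.coc j k (c i) hjk (hi.trans (G.mono.id_le i)) w hw]

theorem chi_zero (hc : Coc Φ r κ) (G : Gd Φ e c N P) (j : ℕ) : chi Φ c N P j 0 = 0 := by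
  refine Tendsto.limUnder_eq (tendsto_const_nhds.congr' ?_)
  filter_upwards [eventually_ge_atTop j] with i hi
  rw [hc.zero j (c i) (hi.trans (G.mono.id_le i)), tan_zero (Real.exp_pos _) (G.tan i),
    eq_comm, Equiv.symm_apply_eq, OO_zero G.zero]

theorem tendsto_eta (G : Gd Φ e c N P) (l : ℕ) :
    Tendsto (fun k => Real.exp (2 * (c k : ℝ) - 2 * c l) * Real.exp (-(3 * c k))) atTop (𝓝 0) := by
  have h1 : Tendsto (fun k => (c k : ℝ)) atTop atTop :=
    tendsto_natCast_atTop_atTop.comp G.mono.tendsto_atTop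
  have h2 := Real.tendsto_exp_neg_atTop_nhds_zero.comp h1
  refine squeeze_zero (fun k => by positivity) (fun k => ?_) h2
  rw [← Real.exp_add]
  exact Real.exp_le_exp.2 (by linarith [(Nat.cast_nonneg (c l) : (0 : ℝ) ≤ c l)])

theorem chi_loc (hc : Coc Φ r κ) (G : Gd Φ e c N P) {j l : ℕ} (hj : j ≤ c l) {z : EE n}
    (hz : z ∈ ball (0 : EE n) (r / κ))
    (hd : ∀ k, l ≤ k → ‖Φ j (c k) z‖ ≤ Real.exp (-(e * c k))) {k : ℕ} (hk : l ≤ k) :
    ‖OO P l (chi Φ c N P j z) - OO P l ((OO P k).symm (N k (Φ j (c k) z)))‖ ≤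
      Real.exp (2 * (c k : ℝ) - 2 * c l) * Real.exp (-(3 * c k)) := by
  have hco : ∀ k, l ≤ k → Φ j (c (k + 1)) z = Φ (c k) (c (k + 1)) (Φ j (c k) z) := fun k hk =>
    (hc.coc j (c k) (c (k + 1)) (hj.trans (G.mono.monotone hk))
      (G.mono (Nat.lt_succ_self k)).le z hz).symm
  refine shadow_lim (a := fun k => N k (Φ j (c k) z)) (d := fun k => Real.exp (-(3 * c k)))
    (w := fun k => 2 * (c k : ℝ)) (fun k => (Real.exp_pos _).le) (fun k hk p hp => ?_)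
    (fun k hk p q hp hq => ?_) (OO_diff' G.hol' l).continuous (tendsto_eta G l) hk
  · rw [hco k hk] at hp
    exact G.S1 k _ p (hd k hk) hp
  · rw [hco k hk] at hp hq
    exact G.S2 k _ p q (hd k hk) hp hq

theorem chi_loc0 (hc : Coc Φ r κ) (G : Gd Φ e c N P) {j l : ℕ} (hj : j ≤ c l) {z : EE n}
    (hz : z ∈ ball (0 : EE n) (r / κ))
    (hd : ∀ k, l ≤ k → ‖Φ j (c k) z‖ ≤ Real.exp (-(e * c k))) :
    ‖OO P l (chi Φ c N P j z) - N l (Φ j (c l) z)‖ ≤ Real.exp (-(3 * c l)) := by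
  simpa using chi_loc hc G hj hz hd le_rfl

theorem chi_diff (hc : Coc Φ r κ) (G : Gd Φ e c N P) {j l : ℕ} (hj : j ≤ c l) {U : Set (EE n)}
    (hU : IsOpen U) (hUr : U ⊆ ball (0 : EE n) (r / κ))
    (hd : ∀ z ∈ U, ∀ k, l ≤ k → ‖Φ j (c k) z‖ ≤ Real.exp (-(e * c k))) :
    DifferentiableOn ℂ (fun z => OO P l (chi Φ c N P j z)) U := by
  refine diffOn_of_unif
    (G := fun k z => OO P l ((OO P (k + l)).symm (N (k + l) (Φ j (c (k + l)) z)))) hU
    (fun k => ?_) ?_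
  · refine ((OO_diff G.hol l).comp (OO_diff' G.hol' (k + l))).comp_differentiableOn ?_
    refine (G.tan (k + l)).1.comp ((hc.hol j _ (hj.trans (G.mono.monotone (Nat.le_add_left _ _)))).mono
      (hUr.trans (ball_subset_ball (div_le_self hc.r_pos.le hc.one_le)))) fun z hz => ?_
    rw [mem_ball_zero_iff, ← Real.exp_neg]
    refine (hd z hz _ (Nat.le_add_left _ _)).trans_lt (Real.exp_lt_exp.2 ?_)
    linarith [G.big (k + l)]
  · rw [Metric.tendstoUniformlyOn_iff]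
    intro ε hε
    have h1 := ((tendsto_eta G l).comp (tendsto_add_atTop_nat l)).eventually (gt_mem_nhds hε)
    filter_upwards [h1] with k hk z hz
    rw [dist_eq_norm]
    exact (chi_loc hc G hj (hUr hz) (hd z hz) (Nat.le_add_left _ _)).trans_lt hk

end Crest.Agent.T223.NaE
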