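import Crest.Agent.T223.DynDef_20

/-!
# Row 223, module NA (helper23): linear algebra for the flag lemma

`dgL` (the diagonal map as a continuous linear map), `pr` (coordinate truncation), `riesz`
(bounded extension of a functional), `unip` (unipotent maps), `svd`.
-/

set_option autoImplicit false

open Set Filter Topology Metric
open scoped InnerProductSpace

namespace Crest.Agent.T223.Na.Fl23

open Crest.Agent.T223.Dyn

noncomputable section

variable {n : ℕ}

/-- the standard basis vectors -/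
abbrev ee (l : Fin n) : EE n := EuclideanSpace.single l (1 : ℂ)

theorem eq_sum (x : EE n) : x = ∑ l, x l • ee l := by
  ext j
  simp [Finset.sum_apply, Pi.single_apply]

theorem map_eq_sum {F : Type*} [NormedAddCommGroup F] [NormedSpace ℂ F] (N : EE n →L[ℂ] F)
    (x : EE n) : N x = ∑ l, x l • N (ee l) := by
  conv_lhs => rw [eq_sum x]
  simp

theorem norm_map_le {F : Type*} [NormedAddCommGroup F] [NormedSpace ℂ F] (N : EE n →L[ℂ] F)
    (x : EE n) : ‖N x‖ ≤ ∑ l, ‖x l‖ * ‖N (ee l)‖ := by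
  rw [map_eq_sum]
  refine (norm_sum_le _ _).trans (Finset.sum_le_sum fun l _ => ?_)
  rw [norm_smul]

theorem norm_le_sum (x : EE n) : ‖x‖ ≤ ∑ l, ‖x l‖ := by
  simpa using norm_map_le (ContinuousLinearMap.id ℂ (EE n)) x

theorem inner_ee (l : Fin n) (x : EE n) : ⟪ee l, x⟫_ℂ = x l := by
  simp [EuclideanSpace.inner_single_left]

/-- a diagonal map -/
def dia (d : Fin n → ℂ) : EE n →L[ℂ] EE n :=
  LinearMap.toContinuousLinearMap
    { toFun := fun x => WithLp.toLp 2 fun l => d l * x l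
      map_add' := fun x y => by ext l; simp [mul_add]
      map_smul' := fun a x => by ext l; simp [mul_left_comm] }

theorem dia_coord (d : Fin n → ℂ) (x : EE n) (l : Fin n) : dia d x l = d l * x l := rfl

theorem dia_ee (d : Fin n → ℂ) (l : Fin n) : dia d (ee l) = d l • ee l := by
  ext j
  rw [dia_coord]
  by_cases h : j = l
  · subst h; simp
  · simp [h]

theorem norm_dia_le (d : Fin n → ℂ) {B : ℝ} (hB : 0 ≤ B) (x : EE n)
    (h : ∀ l, x l ≠ 0 → ‖d l‖ ≤ B) : ‖dia d x‖ ≤ B * ‖x‖ := by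
  have h1 : B * ‖x‖ = ‖(B : ℂ) • x‖ := by rw [norm_smul, Complex.norm_real, Real.norm_of_nonneg hB]
  rw [h1, EuclideanSpace.norm_eq, EuclideanSpace.norm_eq]
  refine Real.sqrt_le_sqrt (Finset.sum_le_sum fun l _ => ?_)
  refine pow_le_pow_left₀ (norm_nonneg _) ?_ 2
  rw [dia_coord, PiLp.smul_apply, norm_mul, norm_smul, Complex.norm_real, Real.norm_of_nonneg hB]
  by_cases hx : x l = 0
  · simp [hx]
  · exact mul_le_mul_of_nonneg_right (h l hx) (norm_nonneg _)

theorem inner_dia (d : Fin n → ℝ) (x y : EE n) :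
    ⟪dia (fun l => (d l : ℂ)) x, y⟫_ℂ = ⟪x, dia (fun l => (d l : ℂ)) y⟫_ℂ := by
  simp only [PiLp.inner_apply, dia_coord, RCLike.inner_apply, map_mul, Complex.conj_ofReal]
  exact Finset.sum_congr rfl fun l _ => by ring

/-- `dg` as a continuous linear map -/
def dgL (ρ : Fin n → ℝ) : EE n →L[ℂ] EE n := dia fun l => ((Real.exp (-ρ l) : ℝ) : ℂ)

theorem dgL_apply (ρ : Fin n → ℝ) (x : EE n) : dgL ρ x = dg ρ x := rfl

theorem dgL_coord (ρ : Fin n → ℝ) (x : EE n) (l : Fin n) :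
    dgL ρ x l = ((Real.exp (-ρ l) : ℝ) : ℂ) * x l := rfl

theorem dgL_cancel (ρ : Fin n → ℝ) (x : EE n) : dgL ρ (dgL (-ρ) x) = x := by
  ext l
  rw [dgL_coord, dgL_coord, ← mul_assoc, ← Complex.ofReal_mul, ← Real.exp_add]
  simp

theorem dgL_mul_neg (ρ : Fin n → ℝ) : dgL ρ * dgL (-ρ) = 1 := by
  ext1 x
  exact dgL_cancel ρ x

theorem norm_dgL_ee (ρ : Fin n → ℝ) (l : Fin n) : ‖dgL ρ (ee l)‖ = Real.exp (-ρ l) := by
  rw [dgL, dia_ee, norm_smul, Complex.norm_real, Real.norm_of_nonneg (Real.exp_pos _).le]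
  simp

theorem adjoint_dgL (ρ : Fin n → ℝ) : ContinuousLinearMap.adjoint (dgL ρ) = dgL ρ := by
  symm
  rw [ContinuousLinearMap.eq_adjoint_iff]
  exact inner_dia _

/-- truncation to the coordinates in `S` -/
def pr (S : Fin n → Prop) [DecidablePred S] : EE n →L[ℂ] EE n :=
  dia fun l => if S l then 1 else 0

theorem pr_coord (S : Fin n → Prop) [DecidablePred S] (x : EE n) (l : Fin n) :
    pr S x l = if S l then x l else 0 := by
  rw [pr, dia_coord]; split_ifs <;> simp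

theorem pr_ee {S : Fin n → Prop} [DecidablePred S] {l : Fin n} (h : S l) : pr S (ee l) = ee l := by
  rw [pr, dia_ee, if_pos h, one_smul]

theorem inner_pr (S : Fin n → Prop) [DecidablePred S] (x : EE n) :
    ⟪x, pr S x⟫_ℂ = ⟪pr S x, pr S x⟫_ℂ := by
  simp only [PiLp.inner_apply, pr_coord]
  refine Finset.sum_congr rfl fun l _ => ?_
  split_ifs <;> simp

/-- bounded extension of the functional `P w ↦ ⟪w, u⟫` -/
theorem riesz (W : Submodule ℂ (EE n)) (P : EE n →L[ℂ] EE n)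
    (hP : ∀ x, ⟪x, P x⟫_ℂ = ⟪P x, P x⟫_ℂ) {c : ℝ} (hc : 0 < c)
    (hW : ∀ w ∈ W, c * ‖w‖ ≤ ‖P w‖) (u : EE n) :
    ∃ z, c * ‖P z‖ ≤ ‖u‖ ∧ ∀ w ∈ W, ⟪w, P z⟫_ℂ = ⟪w, u⟫_ℂ := by
  let Ψ : W →ₗ[ℂ] W :=
    (W.orthogonalProjectionOnto : EE n →ₗ[ℂ] W) ∘ₗ (P : EE n →ₗ[ℂ] EE n) ∘ₗ W.subtype
  have hΨ : ∀ w z : W, ⟪w, Ψ z⟫_ℂ = ⟪(w : EE n), P z⟫_ℂ := fun w z =>
    W.inner_orthogonalProjectionOnto_eq_of_mem_left w (P z)
  have hinj : Function.Injective Ψ := by
    rw [injective_iff_map_eq_zero]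
    intro z hz
    have h0 : ⟪P z, P z⟫_ℂ = 0 := by
      rw [← hP, ← hΨ z z, hz]
      exact inner_zero_right (𝕜 := ℂ) z
    have h1 : P z = 0 := inner_self_eq_zero.1 h0
    have h2 := hW z z.2
    rw [h1, norm_zero] at h2
    have h3 : ‖(z : EE n)‖ ≤ 0 := by
      by_contra h
      linarith [mul_pos hc (not_le.1 h)]
    exact Subtype.ext (norm_le_zero_iff.1 h3)
  obtain ⟨z, hz⟩ := LinearMap.injective_iff_surjective.1 hinj (W.orthogonalProjectionOnto u)
  have h4 : ∀ w ∈ W, ⟪w, P z⟫_ℂ = ⟪w, u⟫_ℂ := fun w hw => by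
    rw [← hΨ ⟨w, hw⟩ z, hz]
    exact W.inner_orthogonalProjectionOnto_eq_of_mem_left ⟨w, hw⟩ u
  refine ⟨z, ?_, h4⟩
  have h5 : ‖P z‖ ^ 2 ≤ ‖(z : EE n)‖ * ‖u‖ := by
    have h6 := norm_inner_le_norm (𝕜 := ℂ) (z : EE n) u
    rw [← h4 z z.2, hP, inner_self_eq_norm_sq_to_K] at h6
    simpa using h6
  have h7 := hW z z.2
  rcases (norm_nonneg (P z)).eq_or_lt with h | h
  · rw [← h, mul_zero]; exact norm_nonneg _
  · refine le_of_mul_le_mul_right ?_ h
    calc c * ‖P z‖ * ‖P z‖ = c * ‖P z‖ ^ 2 := by ring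
      _ ≤ c * (‖(z : EE n)‖ * ‖u‖) := by gcongr
      _ = ‖u‖ * (c * ‖(z : EE n)‖) := by ring
      _ ≤ ‖u‖ * ‖P z‖ := by gcongr

/-- unipotent maps: inverse and bounds -/
theorem unip (lam : Fin n → ℝ) (N : EE n →L[ℂ] EE n) {B : ℝ} (hB : 0 ≤ B)
    (hN : ∀ l j, N (ee l) j ≠ 0 → lam j < lam l) (hb : ∀ l, ‖N (ee l)‖ ≤ B) :
    ∃ G : EE n →L[ℂ] EE n, G * (1 - N) = 1 ∧ (1 - N) * G = 1 ∧
      ‖G‖ ≤ (1 + n * B) ^ (n + 1) ∧ ‖1 - N‖ ≤ (1 + n * B) ^ (n + 1) := by
  classical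
  have hβ : 0 ≤ (n : ℝ) * B := by positivity
  have hNx : ∀ x, ‖N x‖ ≤ n * B * ‖x‖ := fun x => by
    refine (norm_map_le N x).trans ?_
    calc ∑ l, ‖x l‖ * ‖N (ee l)‖ ≤ ∑ _l : Fin n, ‖x‖ * B :=
          Finset.sum_le_sum fun l _ =>
            mul_le_mul (PiLp.norm_apply_le x l) (hb l) (norm_nonneg _) (norm_nonneg _)
      _ = _ := by simp; ring
  let r : Fin n → ℕ := fun l => (Finset.univ.filter fun j => lam j < lam l).card
  have hr : ∀ j l, lam j < lam l → r j < r l := fun j l h => by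
    refine Finset.card_lt_card ⟨fun i hi => ?_, fun hs => ?_⟩
    · simp only [Finset.mem_filter, Finset.mem_univ, true_and] at hi ⊢
      exact hi.trans h
    · have := hs (show j ∈ Finset.univ.filter fun i => lam i < lam l by simpa using h)
      simp at this
  have hrn : ∀ l, r l < n := fun l => by
    have : r l < (Finset.univ : Finset (Fin n)).card :=
      Finset.card_lt_card ⟨Finset.subset_univ _, fun hs => by simpa using hs (Finset.mem_univ l)⟩
    simpa using this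
  have hpow : ∀ m x j, (N ^ m) x j ≠ 0 → r j + m < n := by
    intro m
    induction m with
    | zero => intro x j _; exact hrn j
    | succ m ih =>
      intro x j h
      rw [pow_succ', mul_apply_eq_comp, map_eq_sum N] at h
      have h' : ∑ l, (N ^ m) x l * N (ee l) j ≠ 0 := by
        simpa [Finset.sum_apply] using h
      obtain ⟨l, -, hl⟩ := Finset.exists_ne_zero_of_sum_ne_zero h'
      have h1 := ih x l (left_ne_zero_of_mul hl)
      have h2 := hr j l (hN l j (right_ne_zero_of_mul hl))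
      omega
  have hnil : N ^ n = 0 := by
    ext x j
    by_contra h
    have := hpow n x j h
    omega
  have hG : ∀ m x, ‖(∑ i ∈ Finset.range m, N ^ i) x‖ ≤ (1 + n * B) ^ m * ‖x‖ := by
    intro m
    induction m with
    | zero => intro x; simp
    | succ m ih =>
      intro x
      rw [geom_sum_succ, add_apply, mul_apply_eq_comp,
        one_apply_eq_self]
      have h1 : 1 ≤ (1 + n * B) ^ m := one_le_pow₀ (by linarith)
      calc _ ≤ n * B * ((1 + n * B) ^ m * ‖x‖) + ‖x‖ :=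
            (norm_add_le _ _).trans (add_le_add ((hNx _).trans (by gcongr; exact ih x)) le_rfl)
        _ ≤ n * B * ((1 + n * B) ^ m * ‖x‖) + (1 + n * B) ^ m * ‖x‖ := by
            gcongr; exact le_mul_of_one_le_left (norm_nonneg _) h1
        _ = _ := by ring
  have h1 : 1 ≤ 1 + n * B := by linarith
  refine ⟨∑ i ∈ Finset.range n, N ^ i, ?_, ?_, ?_, ?_⟩
  · rw [geom_sum_mul_neg, hnil, sub_zero]
  · rw [mul_neg_geom_sum, hnil, sub_zero]
  · refine ContinuousLinearMap.opNorm_le_bound _ (by positivity) fun x => (hG n x).trans ?_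
    gcongr
    exact Nat.le_succ n
  · refine ContinuousLinearMap.opNorm_le_bound _ (by positivity) fun x => ?_
    rw [sub_apply, one_apply_eq_self]
    calc _ ≤ ‖x‖ + n * B * ‖x‖ := (norm_sub_le _ _).trans (add_le_add le_rfl (hNx x))
      _ = (1 + n * B) * ‖x‖ := by ring
      _ ≤ _ := by gcongr; exact le_self_pow₀ h1 (Nat.succ_ne_zero n)

/-- singular value decomposition of an injective map -/
theorem svd (M : EE n →L[ℂ] EE n) (hM : Function.Injective M) :
    ∃ (U V : EE n ≃ₗᵢ[ℂ] EE n) (ρ : Fin n → ℝ), ∀ x, U (M x) = dgL ρ (V x) := by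
  let T : EE n →ₗ[ℂ] EE n := (ContinuousLinearMap.adjoint M ∘L M : EE n →L[ℂ] EE n)
  have hT : T.IsSymmetric := fun x y => by
    change ⟪ContinuousLinearMap.adjoint M (M x), y⟫_ℂ = ⟪x, ContinuousLinearMap.adjoint M (M y)⟫_ℂ
    rw [ContinuousLinearMap.adjoint_inner_left, ContinuousLinearMap.adjoint_inner_right]
  have hn : Module.finrank ℂ (EE n) = n := by simp
  let b := hT.eigenvectorBasis hn
  have hs : ∀ l, 0 < ‖M (b l)‖ := fun l => by
    rw [norm_pos_iff]
    intro h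
    exact b.orthonormal.ne_zero l (hM (by rw [h, map_zero]))
  have hs' : ∀ l, ((‖M (b l)‖ : ℝ) : ℂ) ≠ 0 := fun l => Complex.ofReal_ne_zero.2 (hs l).ne'
  let u : Fin n → EE n := fun l => ((‖M (b l)‖ : ℝ) : ℂ)⁻¹ • M (b l)
  have hu : Orthonormal ℂ u := by
    refine ⟨fun l => ?_, fun i j hij => ?_⟩
    · simp only [u, norm_smul, norm_inv, Complex.norm_real, norm_norm]
      exact inv_mul_cancel₀ (hs l).ne'
    · have h1 : ⟪M (b i), M (b j)⟫_ℂ = 0 := by
        rw [← ContinuousLinearMap.adjoint_inner_right]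
        change ⟪b i, T (b j)⟫_ℂ = 0
        rw [hT.apply_eigenvectorBasis hn j, inner_smul_right, b.orthonormal.inner_eq_zero hij,
          mul_zero]
      simp only [u, inner_smul_left, inner_smul_right, h1, mul_zero]
  obtain ⟨ub, hub⟩ := Orthonormal.exists_orthonormalBasis_extension_of_card_eq (𝕜 := ℂ)
    (E := EE n) (ι := Fin n) (by simp) (v := u) (s := univ)
    (hu.comp Subtype.val Subtype.val_injective)
  refine ⟨ub.repr, b.repr, fun l => -Real.log ‖M (b l)‖, fun x => ?_⟩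
  have h2 : ∀ l, ub.repr (M (b l)) = dgL (fun l => -Real.log ‖M (b l)‖) (b.repr (b l)) := fun l => by
    have h3 : M (b l) = ((‖M (b l)‖ : ℝ) : ℂ) • ub l := by
      rw [hub l (mem_univ l)]
      simp only [u]
      rw [smul_inv_smul₀ (hs' l)]
    rw [b.repr_self, dgL, dia_ee, neg_neg, Real.exp_log (hs l)]
    conv_lhs => rw [h3, map_smul, ub.repr_self]
  rw [← b.sum_repr x]
  simp only [map_sum, map_smul, h2]

theorem adjoint_injective (H : EE n →L[ℂ] EE n) (hH : Function.Injective H) {η : EE n}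
    (h : ContinuousLinearMap.adjoint H η = 0) : η = 0 := by
  obtain ⟨x, hx⟩ := (LinearMap.injective_iff_surjective (f := (H : EE n →ₗ[ℂ] EE n))).1 hH η
  have h1 : ⟪η, H x⟫_ℂ = 0 := by
    rw [← ContinuousLinearMap.adjoint_inner_left, h, inner_zero_left]
  change H x = η at hx
  rwa [hx, inner_self_eq_zero] at h1

end

end Crest.Agent.T223.Na.Fl23
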