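import Crest.Agent.T223.NaDef_80

/-!
# Row 223, module NA (helper80): general lemmas for the schedule
-/

set_option autoImplicit false

open Set Filter Topology Metric
open scoped InnerProductSpace

namespace Crest.Agent.T223.Na

open Crest.Agent.T223.Tr Crest.Agent.T223.Dyn

variable {n : ℕ}

/-! ### maps tangent to the identity -/

theorem Tan.mono {X Y : ℝ} {f : EE n → EE n} (h : Tan X f) (hX : 0 < X) (hXY : X ≤ Y) :
    Tan Y f := by
  have hs : ball (0 : EE n) Y⁻¹ ⊆ ball 0 X⁻¹ := ball_subset_ball (inv_anti₀ hX hXY)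
  refine ⟨h.1.mono hs, fun z hz => (h.2 z (hs hz)).trans ?_⟩
  exact mul_le_mul_of_nonneg_right hXY (sq_nonneg _)

theorem Tan.comp {X : ℝ} {f g : EE n → EE n} (hf : Tan X f) (hg : Tan X g) (hX : 0 < X) :
    Tan (3 * X) (fun z => f (g z)) := by
  have hs : ball (0 : EE n) (3 * X)⁻¹ ⊆ ball 0 X⁻¹ :=
    ball_subset_ball (inv_anti₀ hX (by linarith))
  have key : ∀ z ∈ ball (0 : EE n) (3 * X)⁻¹, ‖g z‖ ≤ 4 / 3 * ‖z‖ ∧ g z ∈ ball (0 : EE n) X⁻¹ := by
    intro z hz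
    have h1 := hg.2 z (hs hz)
    rw [mem_ball_zero_iff] at hz
    have h2 : X * ‖z‖ < 1 / 3 := by
      rw [← one_div, lt_div_iff₀ (by positivity)] at hz
      linarith
    have h3 : ‖g z‖ ≤ ‖g z - z‖ + ‖z‖ := by simpa using norm_add_le (g z - z) z
    have h4 : ‖g z‖ ≤ 4 / 3 * ‖z‖ := by nlinarith [norm_nonneg z]
    refine ⟨h4, ?_⟩
    rw [mem_ball_zero_iff, ← one_div, lt_div_iff₀ hX]
    nlinarith
  refine ⟨hf.1.comp (hg.1.mono hs) fun z hz => (key z hz).2, fun z hz => ?_⟩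
  have h1 := hf.2 _ (key z hz).2
  have h2 := hg.2 z (hs hz)
  have h3 : ‖f (g z) - z‖ ≤ ‖f (g z) - g z‖ + ‖g z - z‖ := by
    simpa using norm_add_le (f (g z) - g z) (g z - z)
  have h4 : ‖g z‖ ^ 2 ≤ (4 / 3 * ‖z‖) ^ 2 := pow_le_pow_left₀ (norm_nonneg _) (key z hz).1 2
  nlinarith [sq_nonneg ‖z‖]

theorem Tan.conj {X S : ℝ} {f : EE n → EE n} (hf : Tan X f) (hX : 0 < X) (hS : 1 ≤ S)
    (α : EE n ≃L[ℂ] EE n) (h1 : ∀ x, ‖α x‖ ≤ S * ‖x‖) (h2 : ∀ x, ‖α.symm x‖ ≤ S * ‖x‖) :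
    Tan (X * S ^ 3) (fun z => α (f (α.symm z))) := by
  have hS3 : S ≤ S ^ 3 := by nlinarith [mul_self_nonneg S, sq_nonneg (S - 1), mul_pos (by linarith : (0:ℝ) < S) (by linarith : (0:ℝ) < S)]
  have key : ∀ z ∈ ball (0 : EE n) (X * S ^ 3)⁻¹, α.symm z ∈ ball (0 : EE n) X⁻¹ := by
    intro z hz
    rw [mem_ball_zero_iff] at hz ⊢
    have hp : 0 < X * S ^ 3 := by positivity
    rw [← one_div, lt_div_iff₀ hp] at hz
    rw [← one_div, lt_div_iff₀ hX]
    have := h2 z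
    nlinarith [norm_nonneg z, mul_le_mul_of_nonneg_left hS3 (mul_nonneg (norm_nonneg z) hX.le)]
  refine ⟨α.differentiable.comp_differentiableOn
    (hf.1.comp α.symm.differentiable.differentiableOn key), fun z hz => ?_⟩
  have e : α (f (α.symm z)) - z = α (f (α.symm z) - α.symm z) := by simp
  rw [e]
  have h3 := hf.2 _ (key z hz)
  have h4 : ‖α.symm z‖ ^ 2 ≤ (S * ‖z‖) ^ 2 := pow_le_pow_left₀ (norm_nonneg _) (h2 z) 2
  calc ‖α (f (α.symm z) - α.symm z)‖ ≤ S * ‖f (α.symm z) - α.symm z‖ := h1 _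
    _ ≤ S * (X * (S * ‖z‖) ^ 2) := by
      gcongr
      exact h3.trans (mul_le_mul_of_nonneg_left h4 hX.le)
    _ = X * S ^ 3 * ‖z‖ ^ 2 := by ring

theorem tan_of_aut {D b : ℝ} {s : EE n ≃ EE n} (h : Aut D b s) :
    Tan (Real.exp b) s ∧ Tan (Real.exp b) s.symm := by
  refine ⟨⟨h.hol.differentiableOn, fun z hz => h.near z ?_⟩,
    ⟨h.hol'.differentiableOn, fun z hz => h.near' z ?_⟩⟩ <;>
  · rw [mem_ball_zero_iff, ← Real.exp_neg] at hz
    exact hz.le

/-! ### linear parts -/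

section lin

variable {Φ : ℕ → ℕ → EE n → EE n} {r κ : ℝ} {σ : ℕ → ℝ}

theorem hasFDerivAt_Lm (hc : Coc Φ r κ) {j k : ℕ} (h : j ≤ k) :
    HasFDerivAt (Φ j k) (Lm Φ j k) 0 :=
  ((hc.hol j k h).differentiableAt (ball_mem_nhds _ hc.r_pos)).hasFDerivAt

theorem Lm_comp (hc : Coc Φ r κ) {i j k : ℕ} (hij : i ≤ j) (hjk : j ≤ k) :
    (Lm Φ j k).comp (Lm Φ i j) = Lm Φ i k := by
  have h1 := hasFDerivAt_Lm hc hij
  have h2 := hasFDerivAt_Lm hc hjk
  rw [← hc.zero i j hij] at h2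
  have h3 := h2.comp (0 : EE n) h1
  have hp : 0 < r / κ := div_pos hc.r_pos (by linarith [hc.one_le])
  have h4 : Φ i k =ᶠ[𝓝 0] (Φ j k ∘ Φ i j) := by
    filter_upwards [ball_mem_nhds (0 : EE n) hp] with w hw
    exact (hc.coc i j k hij hjk w hw).symm
  exact ((h3.congr_of_eventuallyEq h4).unique (hasFDerivAt_Lm hc (hij.trans hjk)))

theorem Lm_inj (hc : Coc Φ r κ) {j k : ℕ} (h : j ≤ k) : Function.Injective (Lm Φ j k) :=
  hc.imm j k h 0 (mem_ball_self hc.r_pos)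

theorem Lm_pinch (hc : Coc Φ r κ) (hh : NAHyp Φ r σ) :
    ∃ ε C : ℝ, 0 < ε ∧ 0 ≤ C ∧ ∀ k : ℕ, ‖Lm Φ 0 k‖ ≤ Real.exp (C - ε * k) := by
  obtain ⟨ε, C, hε, h⟩ := hh.dec 0
  have hr := hc.r_pos
  refine ⟨ε, Real.log (1 + |C| / r), hε, Real.log_nonneg (by have := div_nonneg (abs_nonneg C) hr.le; linarith), fun k => ?_⟩
  have h1 : MapsTo (Φ 0 k) (ball 0 r) (closedBall (Φ 0 k 0) (|C| * Real.exp (-(ε * k)))) := by
    intro w hw
    rw [hc.zero 0 k (Nat.zero_le _), mem_closedBall_zero_iff]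
    exact (h k (Nat.zero_le _) w hw).trans
      (mul_le_mul_of_nonneg_right (le_abs_self C) (Real.exp_pos _).le)
  have h2 := Complex.norm_fderiv_le_div_of_mapsTo_ball (hc.hol 0 k (Nat.zero_le _)) h1 hr
  refine h2.trans ?_
  rw [sub_eq_add_neg, Real.exp_add, Real.exp_log (by positivity), mul_div_right_comm]
  gcongr
  linarith

/-- a continuous linear equivalence with the given underlying map -/
theorem exists_cle (L : EE n →L[ℂ] EE n) (h : Function.Injective L) :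
    ∃ e : EE n ≃L[ℂ] EE n, (e : EE n →L[ℂ] EE n) = L :=
  ⟨(LinearEquiv.ofInjectiveEndo (L : EE n →ₗ[ℂ] EE n) h).toContinuousLinearEquiv,
    ContinuousLinearMap.ext fun _ => rfl⟩

theorem adj_lower {L : EE n →L[ℂ] EE n} {c : ℝ} (hc : 0 ≤ c) (h : ∀ v, ‖v‖ ≤ c * ‖L v‖)
    (ζ : EE n) : ‖ζ‖ ≤ c * ‖ContinuousLinearMap.adjoint L ζ‖ := by
  have hinj : Function.Injective L := by
    refine (injective_iff_map_eq_zero L).2 fun v hv => ?_
    have := h v
    rw [hv, norm_zero, mul_zero] at this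
    exact norm_le_zero_iff.1 this
  obtain ⟨e, he⟩ := exists_cle L hinj
  have h1 : L (e.symm ζ) = ζ := by
    rw [← he]
    simp
  have h2 : ‖ζ‖ ^ 2 ≤ ‖ContinuousLinearMap.adjoint L ζ‖ * ‖e.symm ζ‖ := by
    have : ⟪ζ, ζ⟫_ℂ = ⟪ContinuousLinearMap.adjoint L ζ, e.symm ζ⟫_ℂ := by
      rw [ContinuousLinearMap.adjoint_inner_left, h1]
    calc ‖ζ‖ ^ 2 = ‖⟪ζ, ζ⟫_ℂ‖ := by rw [inner_self_eq_norm_sq_to_K]; simp
      _ ≤ _ := by rw [this]; exact norm_inner_le_norm _ _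
  have h3 : ‖e.symm ζ‖ ≤ c * ‖ζ‖ := by simpa [h1] using h (e.symm ζ)
  rcases (norm_nonneg ζ).eq_or_lt with h0 | h0
  · rw [← h0]
    positivity
  · have : ‖ζ‖ * ‖ζ‖ ≤ (c * ‖ContinuousLinearMap.adjoint L ζ‖) * ‖ζ‖ := by
      nlinarith [norm_nonneg (ContinuousLinearMap.adjoint L ζ)]
    exact le_of_mul_le_mul_right this h0

theorem Lm_self (hc : Coc Φ r κ) (j : ℕ) : Lm Φ j j = ContinuousLinearMap.id ℂ (EE n) := by
  have h4 : Φ j j =ᶠ[𝓝 0] id := by
    filter_upwards [ball_mem_nhds (0 : EE n) hc.r_pos] with w hw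
    exact hc.self j w hw
  exact (hasFDerivAt_Lm hc le_rfl).unique ((hasFDerivAt_id (0 : EE n)).congr_of_eventuallyEq h4)

/-- slopes of a convex function on the nodes -/
theorem slope_le {f : ℕ → ℝ} {b : ℕ} (hm : StrictMono σ)
    (hf : ∀ i j k, i < j → j < k → k ≤ b →
      (σ k - σ i) * f j ≤ (σ k - σ j) * f i + (σ j - σ i) * f k)
    {x y z w : ℕ} (hxy : x < y) (hyz : y ≤ z) (hzw : z < w) (hw : w ≤ b) :
    (f y - f x) / (σ y - σ x) ≤ (f w - f z) / (σ w - σ z) := by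
  have three : ∀ i j k, i < j → j < k → k ≤ b →
      (f j - f i) / (σ j - σ i) ≤ (f k - f j) / (σ k - σ j) := by
    intro i j k hij hjk hk
    rw [div_le_div_iff₀ (sub_pos.2 (hm hij)) (sub_pos.2 (hm hjk))]
    have := hf i j k hij hjk hk
    nlinarith
  rcases hyz.eq_or_lt with rfl | hyz
  · exact three x y w hxy hzw hw
  · exact (three x y z hxy hyz (hzw.le.trans hw)).trans (three y z w hyz hzw hw)

/-- lower bound for the rates after a block -/
theorem Lm_contr (hc : Coc Φ r κ) (hh : NAHyp Φ r σ) {ε C : ℝ}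
    (hp : ∀ k : ℕ, ‖Lm Φ 0 k‖ ≤ Real.exp (C - ε * k)) {x y a b : ℕ} (hxy : x < y) (hya : y ≤ a)
    (hab : a < b) {lo : ℝ} (hlo : lo * (σ y - σ x) ≤ ε * y - C - x) (v : EE n) :
    ‖Lm Φ a b v‖ ≤ Real.exp (-(lo * (σ b - σ a))) * ‖v‖ := by
  refine ((Lm Φ a b).le_opNorm v).trans (mul_le_mul_of_nonneg_right ?_ (norm_nonneg _))
  rw [← LinearIsometryEquiv.norm_map ContinuousLinearMap.adjoint]
  refine ContinuousLinearMap.opNorm_le_bound _ (Real.exp_pos _).le fun ζ => ?_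
  rcases eq_or_ne ζ 0 with rfl | hζ
  · simp
  set A : ℕ → EE n := fun s => ContinuousLinearMap.adjoint (Lm Φ s b) ζ with hA
  have hcomp : ∀ i k, i ≤ k → k ≤ b → ContinuousLinearMap.adjoint (Lm Φ i k) (A k) = A i := by
    intro i k hik hkb
    simp only [hA]
    rw [← Lm_comp hc hik hkb, ContinuousLinearMap.adjoint_comp]
    rfl
  have hlow : ∀ i k, i ≤ k → k ≤ b → ‖A k‖ ≤ Real.exp ((k : ℝ) - i) * ‖A i‖ := by
    intro i k hik hkb
    rw [← hcomp i k hik hkb]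
    exact adj_lower (Real.exp_pos _).le (hh.inv i k hik) _
  have hAb : A b = ζ := by simp [hA, Lm_self hc]
  have hpos : ∀ i, i ≤ b → 0 < ‖A i‖ := by
    intro i hi
    have h1 := hlow i b hi le_rfl
    rw [hAb] at h1
    have h2 : 0 < ‖ζ‖ := norm_pos_iff.2 hζ
    by_contra h3
    have h4 : ‖A i‖ = 0 := le_antisymm (not_lt.1 h3) (norm_nonneg _)
    rw [h4, mul_zero] at h1
    linarith
  set f : ℕ → ℝ := fun s => Real.log ‖A s‖ with hf
  have hcv : ∀ i j k, i < j → j < k → k ≤ b →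
      (σ k - σ i) * f j ≤ (σ k - σ j) * f i + (σ j - σ i) * f k := by
    intro i j k hij hjk hk
    have := hh.cvx i j k hij hjk (A k) (norm_pos_iff.1 (hpos k hk))
    rwa [hcomp j k hjk.le hk, hcomp i k (hij.trans hjk).le hk] at this
  have hyb : y ≤ b := hya.trans hab.le
  have h1 := slope_le hh.mono hcv hxy hya hab le_rfl
  have h2 : f x ≤ x + f 0 := by
    have := Real.log_le_log (hpos x (hxy.le.trans hyb)) (hlow 0 x (Nat.zero_le _) (hxy.le.trans hyb))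
    rw [Real.log_mul (Real.exp_pos _).ne' (hpos 0 (Nat.zero_le _)).ne', Real.log_exp] at this
    simpa [hf] using this
  have h3 : f 0 ≤ C - ε * y + f y := by
    have h4 : ‖A 0‖ ≤ Real.exp (C - ε * y) * ‖A y‖ := by
      rw [← hcomp 0 y (Nat.zero_le _) hyb]
      refine (ContinuousLinearMap.le_opNorm _ _).trans
        (mul_le_mul_of_nonneg_right ?_ (norm_nonneg _))
      rw [LinearIsometryEquiv.norm_map]
      exact hp y
    have := Real.log_le_log (hpos 0 (Nat.zero_le _)) h4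
    rwa [Real.log_mul (Real.exp_pos _).ne' (hpos y hyb).ne', Real.log_exp] at this
  have h4 : lo ≤ (f y - f x) / (σ y - σ x) := by
    rw [le_div_iff₀ (sub_pos.2 (hh.mono hxy))]
    linarith
  have h5 := h4.trans h1
  rw [le_div_iff₀ (sub_pos.2 (hh.mono hab))] at h5
  have h6 : f a ≤ -(lo * (σ b - σ a)) + f b := by linarith
  have h7 := Real.exp_le_exp.2 h6
  rw [Real.exp_add] at h7
  simp only [hf] at h7
  rwa [Real.exp_log (hpos a hab.le), Real.exp_log (hpos b le_rfl), hAb] at h7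

/-! ### gaps -/

theorem gap_anti (hh : NAHyp Φ r σ) : Antitone fun j => σ (j + 1) - σ j :=
  antitone_nat_of_succ_le hh.conc

theorem gap_le (hh : NAHyp Φ r σ) {x y : ℕ} (h : x ≤ y) :
    σ y - σ x ≤ ((y : ℝ) - x) * (σ (x + 1) - σ x) := by
  induction y, h using Nat.le_induction with
  | base => simp
  | succ y h ih =>
    have := gap_anti hh h
    simp only at this
    push_cast
    linarith

theorem le_gap (hh : NAHyp Φ r σ) {x y z : ℕ} (h : x ≤ y) (hz : y ≤ z) :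
    ((y : ℝ) - x) * (σ (z + 1) - σ z) ≤ σ y - σ x := by
  induction y, h using Nat.le_induction with
  | base => simp
  | succ y h ih =>
    have := gap_anti hh ((Nat.le_succ y).trans hz)
    have := ih ((Nat.le_succ y).trans hz)
    simp only at *
    push_cast
    linarith

/-- mean slopes increase -/
theorem mean_le (hh : NAHyp Φ r σ) {x y z w : ℕ} (hxy : x ≤ y) (hyz : y ≤ z) (hzw : z ≤ w) :
    ((y : ℝ) - x) * (σ w - σ z) ≤ ((w : ℝ) - z) * (σ y - σ x) := by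
  have h1 := gap_le hh hzw
  have h2 := le_gap hh hxy hyz
  have h3 : (0 : ℝ) ≤ (y : ℝ) - x := sub_nonneg.2 (by exact_mod_cast hxy)
  have h4 : (0 : ℝ) ≤ (w : ℝ) - z := sub_nonneg.2 (by exact_mod_cast hzw)
  calc ((y : ℝ) - x) * (σ w - σ z) ≤ ((y : ℝ) - x) * (((w : ℝ) - z) * (σ (z + 1) - σ z)) :=
        mul_le_mul_of_nonneg_left h1 h3
    _ = ((w : ℝ) - z) * (((y : ℝ) - x) * (σ (z + 1) - σ z)) := by ring
    _ ≤ _ := mul_le_mul_of_nonneg_left h2 h4

end lin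

end Crest.Agent.T223.Na
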