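import Mathlib

/-!
# Row 223, module NA (helper80): the grid of fine and crude pieces
-/

set_option autoImplicit false

namespace Crest.Agent.T223.Na

/-- the grid: block `k` covers `2^(k0+k) ≤ g < 2^(k0+k+1)`, fine blocks in unit steps, crude
blocks in `2^q0` steps -/
theorem exists_grid (k0 q0 : ℕ) (hq : q0 ≤ k0) (fb : ℕ → Prop) :
    ∃ (I bl g : ℕ → ℕ), StrictMono I ∧ I 0 = 0 ∧
      (∀ k i, bl i = k ↔ I k ≤ i ∧ i < I (k + 1)) ∧
      (∀ k, g (I k) = 2 ^ (k0 + k)) ∧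
      (∀ k, ¬ fb k → I (k + 1) = I k + 2 ^ q0) ∧
      (∀ i, fb (bl i) → g (i + 1) = g i + 1) ∧
      (∀ i, ¬ fb (bl i) → g (i + 1) = g i + 2 ^ (k0 + bl i - q0)) ∧
      (∀ i, 2 ^ (k0 + bl i) ≤ g i ∧ g (i + 1) ≤ 2 ^ (k0 + bl i + 1)) ∧
      (∀ i, bl (i + 1) = bl i ∨ (bl (i + 1) = bl i + 1 ∧ g (i + 1) = 2 ^ (k0 + bl i + 1))) := by
  classical
  set cnt : ℕ → ℕ := fun k => if fb k then 2 ^ (k0 + k) else 2 ^ q0 with hcnt
  set stp : ℕ → ℕ := fun k => if fb k then 1 else 2 ^ (k0 + k - q0) with hstp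
  have hcs : ∀ k, cnt k * stp k = 2 ^ (k0 + k) := by
    intro k
    simp only [hcnt, hstp]
    split_ifs
    · simp
    · rw [← pow_add]
      congr 1
      omega
  have hcp : ∀ k, 0 < cnt k := by
    intro k
    simp only [hcnt]
    split_ifs <;> positivity
  set I : ℕ → ℕ := fun k => ∑ j ∈ Finset.range k, cnt j with hI
  have hIs : ∀ k, I (k + 1) = I k + cnt k := fun k => Finset.sum_range_succ _ _
  have hIm : StrictMono I := strictMono_nat_of_lt_succ fun k => by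
    rw [hIs]
    have := hcp k
    omega
  have hex : ∀ i, ∃ k, i < I (k + 1) := fun i =>
    ⟨i, lt_of_lt_of_le (Nat.lt_succ_self i) (hIm.id_le (i + 1))⟩
  set bl : ℕ → ℕ := fun i => Nat.find (hex i) with hbl
  have hb : ∀ k i, bl i = k ↔ I k ≤ i ∧ i < I (k + 1) := by
    intro k i
    simp only [hbl]
    rw [Nat.find_eq_iff]
    constructor
    · rintro ⟨h1, h2⟩
      refine ⟨?_, h1⟩
      rcases k with _ | k
      · simp [hI]
      · exact not_lt.1 (h2 k (Nat.lt_succ_self k))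
    · rintro ⟨h1, h2⟩
      refine ⟨h2, fun j hj => not_lt.2 ((hIm.monotone (Nat.succ_le_of_lt hj)).trans h1)⟩
  set g : ℕ → ℕ := fun i => 2 ^ (k0 + bl i) + (i - I (bl i)) * stp (bl i) with hg
  have hbI : ∀ k, bl (I k) = k := fun k => (hb k _).2 ⟨le_rfl, hIm (Nat.lt_succ_self k)⟩
  have hgI : ∀ k, g (I k) = 2 ^ (k0 + k) := by
    intro k
    simp [hg, hbI]
  have hnext : ∀ i, (bl (i + 1) = bl i) ∨ (i + 1 = I (bl i + 1)) := by
    intro i
    obtain ⟨h1, h2⟩ := (hb (bl i) i).1 rfl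
    rcases (Nat.succ_le_of_lt h2).eq_or_lt with h | h
    · exact Or.inr h
    · exact Or.inl ((hb _ _).2 ⟨h1.trans (Nat.le_succ i), h⟩)
  have hstep : ∀ i, g (i + 1) = g i + stp (bl i) := by
    intro i
    obtain ⟨h1, h2⟩ := (hb (bl i) i).1 rfl
    rcases hnext i with h | h
    · simp only [hg, h]
      rw [show i + 1 - I (bl i) = (i - I (bl i)) + 1 by omega]
      ring
    · rw [h, hgI]
      simp only [hg]
      have h3 : cnt (bl i) = (i - I (bl i)) + 1 := by
        have := hIs (bl i)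
        omega
      have h4 := hcs (bl i)
      rw [h3] at h4
      rw [← add_assoc, pow_succ]
      nlinarith
  refine ⟨I, bl, g, hIm, by simp [hI], hb, hgI, fun k hk => ?_, fun i hi => ?_, fun i hi => ?_,
    fun i => ⟨?_, ?_⟩, fun i => ?_⟩
  · rw [hIs]
    simp [hcnt, hk]
  · rw [hstep]
    simp [hstp, hi]
  · rw [hstep]
    simp [hstp, hi]
  · simp [hg]
  · rw [hstep]
    obtain ⟨h1, h2⟩ := (hb (bl i) i).1 rfl
    have h3 : (i - I (bl i)) + 1 ≤ cnt (bl i) := by
      have := hIs (bl i)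
      omega
    have h4 := hcs (bl i)
    have h5 := Nat.mul_le_mul_right (stp (bl i)) h3
    simp only [hg]
    rw [pow_succ]
    nlinarith
  · rcases hnext i with h | h
    · exact Or.inl h
    · refine Or.inr ⟨by rw [h, hbI], by rw [h, hgI, add_assoc]⟩

end Crest.Agent.T223.Na
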