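import Crest.Agent.T223.NaSchA_80
import Crest.Agent.T223.NaSchB_80

/-!
# Row 223, module NA (helper80): the numbers of the schedule
-/

set_option autoImplicit false
set_option maxHeartbeats 400000

open Set Filter Topology

namespace Crest.Agent.T223.Na

theorem pow_step {g : ℝ} (hg : 1 ≤ g) (e : ℕ) :
    g ^ e ≤ (g + 1) ^ (e + 1) - g ^ (e + 1) ∧
      (g + 1) ^ (e + 1) - g ^ (e + 1) ≤ (e + 1) * 2 ^ e * g ^ e := by
  induction e with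
  | zero => simp
  | succ e ih =>
    have h0 : 0 < g ^ e := by positivity
    have h2 : (1 : ℝ) ≤ 2 ^ e := one_le_pow₀ (by norm_num)
    have e1 : (g + 1) ^ (e + 1 + 1) - g ^ (e + 1 + 1) =
        (g + 1) * ((g + 1) ^ (e + 1) - g ^ (e + 1)) + g ^ e * g := by ring
    rw [e1, pow_succ g e, pow_succ 2 e]
    rw [pow_succ g e] at ih
    push_cast
    constructor
    · nlinarith [ih.1]
    · have h3 : (g + 1) * ((g + 1) ^ (e + 1) - g ^ e * g) ≤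
          (2 * g) * ((e + 1) * 2 ^ e * g ^ e) :=
        mul_le_mul (by linarith) ih.2 (by linarith [ih.1]) (by linarith)
      have h4 : g ^ e * g ≤ 2 ^ e * 2 * (g ^ e * g) := by nlinarith [mul_pos h0 (by linarith : 0 < g)]
      nlinarith

/-- the schedule: all inequalities that do not involve maps -/
structure Sch (σ : ℕ → ℝ) (a β CF ε Cp A0 Λ K : ℝ) (p q mn : ℕ) where
  c : ℕ → ℕ
  t : ℕ → ℕ
  g : ℕ → ℝ
  I : ℕ → ℕ
  fine : ℕ → Prop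
  mm : ℕ → ℝ
  ℓ : ℕ → ℝ
  lo : ℕ → ℝ
  κ : ℕ → ℝ
  E : ℕ → ℝ
  b : ℕ → ℝ
  η : ℕ → ℝ
  c_mono : StrictMono c
  c_eq : ∀ i, (c i : ℝ) = g i ^ p
  c_two : ∀ i, c (i + 1) ≤ 2 * c i
  g_ge : ∀ i, A0 ≤ g i
  g_one : ∀ i, 1 ≤ g i
  g_two : ∀ i, g (i + 1) ≤ 2 * g i
  lo_pos : ∀ i, 0 < lo i
  lo_le : ∀ i, fine i → ∃ x y : ℕ, x < y ∧ y ≤ c i ∧ lo i * (σ y - σ x) ≤ ε * y - Cp - x
  junc : ∀ i, fine i → fine (i + 1) → c i < t i ∧ t i < c (i + 1) ∧ 0 < κ i ∧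
    CF ≤ κ i * (σ (c (i + 1)) - σ (t i)) ∧
    CF * (1 + (σ (c (i + 1)) - σ (t i)) *
      (((c (i + 2) : ℝ) - c (i + 1)) / (σ (c (i + 2)) - σ (c (i + 1))) + κ i)) ≤ g i ^ 3 ∧
    CF * g (i + 1) ^ 3 ≤ κ i * (σ (c (i + 2)) - σ (c (i + 1)))
  b_next : ∀ i, fine (i + 1) → b (i + 1) ≤ 2 * b i
  b_ge : ∀ i, ((c (i + 1) : ℝ) - c i) + 40 * g i ^ 3 ≤ b i
  b_le : ∀ i, a * b i + (mn + 50) * g i ^ 3 ≤ β * c i
  E_ge : ∀ i, 0 ≤ E i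
  E_le : ∀ i, 2 * E i ≤ lo i
  gain : ∀ i, fine i → fine (i + 1) →
    a * (1 + 9 * g i ^ 3 + max (b (i + 1) - b i) 0) ≤ (σ (c (i + 1)) - σ (c i)) * E i
  I_mono : StrictMono I
  mm_pos : ∀ k, 0 < mm k
  mm_mono : Monotone mm
  ℓ_pos : ∀ k, 0 < ℓ k
  ℓ_sum : ¬ Summable ℓ
  mℓ : ∀ k, mm (k + 1) * ℓ (k + 1) ≤ Λ * (mm k * ℓ k)
  b_blk : ∀ k i, I k ≤ i → i < I (k + 1) → b i ≤ 2 * (mm k * ℓ k)
  η_ge : ∀ i, 0 ≤ η i
  η_sum : Summable η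
  not_fine : ¬ fine 0
  crude : ∀ k, ¬ (mm (k + 1) ≤ K * mm k ∧ mm (k + 2) ≤ K * mm (k + 1)) →
    I (k + 2) ≤ I (k + 1) + q ∧ ∀ i, I (k + 1) ≤ i → i < I (k + 2) → ¬ fine i
  fin : ∀ k, mm (k + 1) ≤ K * mm k ∧ mm (k + 2) ≤ K * mm (k + 1) →
    ℓ (k + 1) = σ (c (I (k + 2))) - σ (c (I (k + 1))) ∧
    ∀ i, I (k + 1) ≤ i → i < I (k + 2) → fine i ∧ lo i = mm k / Λ ∧
      ((c (i + 1) : ℝ) - c i) / (σ (c (i + 1)) - σ (c i)) ≤ mm (k + 2)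
  j1 : ∀ i, fine i → fine (i + 1) →
    a * max (b (i + 1) - b i) 0 + a + 9 * g i ^ 3 + mn ≤ (σ (c (i + 1)) - σ (c i)) * lo (i + 1) / 8
  j2 : ∀ i, fine i → fine (i + 1) → E (i + 1) - E i + κ i ≤ η i * (lo (i + 1) / 2)

/-- raw data of the schedule -/
structure Pre (σ : ℕ → ℝ) (a β CF ε Cp A0 Λ K δ B1 C3 : ℝ) (C6 e q mn : ℕ) where
  P : ℕ → ℕ
  I : ℕ → ℕ
  bl : ℕ → ℕ
  g : ℕ → ℕ
  c : ℕ → ℕ
  fb : ℕ → Prop
  mm : ℕ → ℝ
  lo : ℕ → ℝ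
  b : ℕ → ℝ
  hm : StrictMono σ
  ha : 1 ≤ a
  hβ : 0 < β
  hCF : 1 ≤ CF
  hK : 1 ≤ K
  hΛ : Λ = 2 ^ (e + 8)
  hΛ2 : 256 ≤ Λ
  hε : 4 ≤ ε * Λ
  hδ : 0 < δ
  hδ1 : δ ≤ 1
  hδa : 2 * a * δ ≤ β
  hB1 : B1 = (e + 8) * Λ
  hB : 80 ≤ B1
  hC6 : CF * Λ * K ^ 2 ≤ C6
  hC61 : (1 : ℝ) ≤ C6
  hC3 : C3 = Λ * K ^ 2 * (a * (B1 ^ 2 + 10))
  T0 : ∀ i, A0 ≤ g i
  T2 : ∀ i, (C6 : ℝ) + 1 ≤ g i
  T3 : ∀ i, CF * (1 + C6 * (K ^ 3 + 1)) ≤ g i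
  T4 : ∀ i, 8 * CF * Λ * K ^ 3 ≤ g i
  T5 : ∀ i, 2 * C3 ≤ g i
  T8 : ∀ i, 8 * Λ * K ^ 2 * (a * B1 ^ 2 + a + 9 + mn) ≤ g i
  T9 : ∀ k, Cp ≤ P k
  T10 : ∀ i, B1 * Λ ≤ δ * g i
  T11 : ∀ i, 80 ≤ δ * g i
  T14 : ∀ i, a * B1 + (mn + 50) ≤ β * g i
  T15 : ∀ i, 2 * (mn + 50) ≤ β * g i
  hPs : ∀ k, (P (k + 1) : ℝ) = Λ * P k
  hPp : ∀ k, (0 : ℝ) < P k
  hPlt : ∀ k, P k < P (k + 1)
  hml : ∀ k, mm k * (σ (P (k + 1)) - σ (P k)) = (Λ - 1) * P k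
  hmp : ∀ k, 0 < mm k
  S1 : ∀ j x y : ℕ, x ≤ y → y ≤ P j → (y : ℝ) - x ≤ mm j * (σ y - σ x)
  S2 : ∀ j x y : ℕ, P (j + 1) ≤ x → x ≤ y → mm j * (σ y - σ x) ≤ (y : ℝ) - x
  hmono : Monotone mm
  hfb : ∀ k, fb k → ∃ k', k = k' + 1
  hfb' : ∀ k, fb (k + 1) ↔ mm (k + 1) ≤ K * mm k ∧ mm (k + 2) ≤ K * mm (k + 1)
  hIm : StrictMono I
  hI0 : I 0 = 0
  hbl : ∀ k i, bl i = k ↔ I k ≤ i ∧ i < I (k + 1)
  hcI : ∀ k, c (I k) = P k
  hIc : ∀ k, ¬ fb k → I (k + 1) = I k + q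
  hgf : ∀ i, fb (bl i) → g (i + 1) = g i + 1
  hbn : ∀ i, bl (i + 1) = bl i ∨ (bl (i + 1) = bl i + 1 ∧ (2 : ℝ) ^ (bl i + 1) ≤ g (i + 1))
  hcr : ∀ i, (c i : ℝ) = (g i : ℝ) ^ (e + 8)
  hg1 : ∀ i, (1 : ℝ) ≤ g i
  hglt : ∀ i, g i < g (i + 1)
  hg2 : ∀ i, (g (i + 1) : ℝ) ≤ 2 * g i
  hcq : ∀ i, (c (i + 1) : ℝ) ≤ (1 + δ / 2) * c i
  hcm : StrictMono c
  hcP : ∀ i k, bl i = k → P k ≤ c i ∧ c (i + 1) ≤ P (k + 1)
  hlo : ∀ i, lo i = mm (bl i - 1) / Λ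
  hbf : ∀ i, fb (bl i) → b i = B1 * (g i : ℝ) ^ (e + 7)
  hbc : ∀ i, ¬ fb (bl i) → b i = δ * c i

theorem exists_pre {σ : ℕ → ℝ} (hm : StrictMono σ)
    (hmean : ∀ x y z w : ℕ, x ≤ y → y ≤ z → z ≤ w →
      ((y : ℝ) - x) * (σ w - σ z) ≤ ((w : ℝ) - z) * (σ y - σ x))
    {a β CF ε Cp A0 K δ : ℝ} {e q0 mn : ℕ} (ha : 1 ≤ a) (hβ : 0 < β) (hCF : 1 ≤ CF)
    (hK : 1 ≤ K) (hε : 4 ≤ ε * 2 ^ (e + 8)) (hδ : 0 < δ) (hδ1 : δ ≤ 1) (hδa : 2 * a * δ ≤ β)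
    (hq : (1 + ((2 : ℝ) ^ q0)⁻¹) ^ (e + 8) ≤ 1 + δ / 2) :
    ∃ (B1 C3 : ℝ) (C6 : ℕ),
      Nonempty (Pre σ a β CF ε Cp A0 (2 ^ (e + 8)) K δ B1 C3 C6 e (2 ^ q0) mn) := by
  classical
  obtain ⟨Λ, hΛ⟩ : ∃ Λ : ℝ, Λ = 2 ^ (e + 8) := ⟨_, rfl⟩
  rw [← hΛ] at hε ⊢
  have hΛ2 : 256 ≤ Λ := by
    rw [hΛ, pow_add]
    have := one_le_pow₀ (by norm_num : (1 : ℝ) ≤ 2) (n := e)
    linarith
  obtain ⟨B1, hB1⟩ : ∃ B1 : ℝ, B1 = (e + 8) * Λ := ⟨_, rfl⟩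
  have hB : 80 ≤ B1 := by
    have := mul_nonneg (Nat.cast_nonneg (α := ℝ) e) (by linarith : 0 ≤ Λ)
    rw [hB1, add_mul]
    linarith
  obtain ⟨C6, hC6⟩ := exists_nat_ge (CF * Λ * K ^ 2)
  have hK2 : 1 ≤ K ^ 2 := one_le_pow₀ hK
  have hC61 : (1 : ℝ) ≤ C6 := le_trans (by
    have := mul_le_mul (mul_le_mul hCF (by linarith : 1 ≤ Λ) (by norm_num) (by linarith)) hK2
      (by norm_num) (by positivity)
    simpa using this) hC6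
  obtain ⟨C3, hC3⟩ : ∃ C3 : ℝ, C3 = Λ * K ^ 2 * (a * (B1 ^ 2 + 10)) := ⟨_, rfl⟩
  obtain ⟨k0, hq0, T0, T2, T3, T4, T5, T8, T9, T10, T11, T14, T15⟩ : ∃ k0 : ℕ, q0 ≤ k0 ∧
      A0 ≤ 2 ^ k0 ∧ (C6 : ℝ) + 1 ≤ 2 ^ k0 ∧ CF * (1 + C6 * (K ^ 3 + 1)) ≤ 2 ^ k0 ∧
      8 * CF * Λ * K ^ 3 ≤ 2 ^ k0 ∧ 2 * C3 ≤ 2 ^ k0 ∧
      8 * Λ * K ^ 2 * (a * B1 ^ 2 + a + 9 + mn) ≤ 2 ^ k0 ∧ Cp ≤ 2 ^ k0 ∧
      B1 * Λ / δ ≤ 2 ^ k0 ∧ 80 / δ ≤ 2 ^ k0 ∧ (a * B1 + (mn + 50)) / β ≤ 2 ^ k0 ∧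
      2 * (mn + 50) / β ≤ 2 ^ k0 := by
    have h2 : Tendsto (fun k : ℕ => (2 : ℝ) ^ k) atTop atTop :=
      tendsto_pow_atTop_atTop_of_one_lt (by norm_num)
    exact ((eventually_ge_atTop q0).and ((h2.eventually_ge_atTop _).and
      ((h2.eventually_ge_atTop _).and ((h2.eventually_ge_atTop _).and
      ((h2.eventually_ge_atTop _).and ((h2.eventually_ge_atTop _).and
      ((h2.eventually_ge_atTop _).and ((h2.eventually_ge_atTop _).and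
      ((h2.eventually_ge_atTop _).and ((h2.eventually_ge_atTop _).and
      ((h2.eventually_ge_atTop _).and (h2.eventually_ge_atTop _)))))))))))).exists
  obtain ⟨P, hP⟩ : ∃ P : ℕ → ℕ, ∀ k, P k = (2 ^ (k0 + k)) ^ (e + 8) := ⟨_, fun _ => rfl⟩
  have hPs : ∀ k, (P (k + 1) : ℝ) = Λ * P k := by
    intro k
    simp only [hP, hΛ]
    push_cast
    rw [← add_assoc, pow_succ 2 (k0 + k), mul_pow, mul_comm]
  have hP0 : ∀ k, (2 : ℝ) ^ k0 ≤ P k := by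
    intro k
    simp only [hP]
    push_cast
    exact (pow_le_pow_right₀ (by norm_num) (Nat.le_add_right _ _)).trans
      (le_self_pow₀ (one_le_pow₀ (by norm_num)) (by omega))
  have h2k : (1 : ℝ) ≤ 2 ^ k0 := one_le_pow₀ (by norm_num)
  have hPp : ∀ k, (0 : ℝ) < P k := fun k => by linarith [hP0 k]
  have hPd : ∀ k, (0 : ℝ) < (P (k + 1) : ℝ) - P k := by
    intro k
    have := mul_pos (by linarith : 0 < Λ - 1) (hPp k)
    rw [hPs]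
    linarith
  have hPlt : ∀ k, P k < P (k + 1) := by
    intro k
    have : (P k : ℝ) < P (k + 1) := by linarith [hPd k]
    exact_mod_cast this
  have hℓp : ∀ k, 0 < σ (P (k + 1)) - σ (P k) := fun k => sub_pos.2 (hm (hPlt k))
  obtain ⟨mm, hmm⟩ : ∃ mm : ℕ → ℝ, ∀ k,
      mm k = ((P (k + 1) : ℝ) - P k) / (σ (P (k + 1)) - σ (P k)) := ⟨_, fun _ => rfl⟩
  have S1 : ∀ j x y : ℕ, x ≤ y → y ≤ P j → (y : ℝ) - x ≤ mm j * (σ y - σ x) := by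
    intro j x y hxy hy
    have := hmean x y (P j) (P (j + 1)) hxy hy (hPlt j).le
    rw [hmm, div_mul_eq_mul_div, le_div_iff₀ (hℓp j)]
    exact this
  have S2 : ∀ j x y : ℕ, P (j + 1) ≤ x → x ≤ y → mm j * (σ y - σ x) ≤ (y : ℝ) - x := by
    intro j x y hx hxy
    have := hmean (P j) (P (j + 1)) x y (hPlt j).le hx hxy
    rw [hmm, div_mul_eq_mul_div, div_le_iff₀ (hℓp j)]
    exact this
  obtain ⟨fb, hfb⟩ : ∃ fb : ℕ → Prop, ∀ k, fb k ↔ ∃ k', k = k' + 1 ∧ mm (k' + 1) ≤ K * mm k' ∧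
    mm (k' + 2) ≤ K * mm (k' + 1) := ⟨_, fun _ => Iff.rfl⟩
  obtain ⟨I, bl, g, hIm, hI0, hbl, hgI, hIc, hgf, hgc, hgb, hbn⟩ := exists_grid k0 q0 hq0 fb
  obtain ⟨c, hc⟩ : ∃ c : ℕ → ℕ, ∀ i, c i = g i ^ (e + 8) := ⟨_, fun _ => rfl⟩
  have hcr : ∀ i, (c i : ℝ) = (g i : ℝ) ^ (e + 8) := fun i => by simp [hc]
  have hg0 : ∀ i, (2 : ℝ) ^ k0 ≤ g i := by
    intro i
    have h1 : 2 ^ k0 ≤ g i :=
      (Nat.pow_le_pow_right (by norm_num) (Nat.le_add_right _ _)).trans (hgb i).1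
    exact_mod_cast h1
  have hg1 : ∀ i, (1 : ℝ) ≤ g i := fun i => h2k.trans (hg0 i)
  have hglt : ∀ i, g i < g (i + 1) := by
    intro i
    by_cases h : fb (bl i)
    · rw [hgf i h]
      omega
    · rw [hgc i h]
      have : 0 < 2 ^ (k0 + bl i - q0) := by positivity
      omega
  have hgq : ∀ i, (g (i + 1) : ℝ) ≤ (1 + ((2 : ℝ) ^ q0)⁻¹) * g i := by
    intro i
    have h1 : ((2 : ℝ) ^ (k0 + bl i - q0)) ≤ ((2 : ℝ) ^ q0)⁻¹ * g i := by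
      rw [inv_mul_eq_div, le_div_iff₀ (by positivity), ← pow_add,
        show k0 + bl i - q0 + q0 = k0 + bl i by omega]
      exact_mod_cast (hgb i).1
    rw [add_mul]
    by_cases h : fb (bl i)
    · rw [hgf i h]
      push_cast
      have : (1 : ℝ) ≤ 2 ^ (k0 + bl i - q0) := one_le_pow₀ (by norm_num)
      linarith
    · rw [hgc i h]
      push_cast
      linarith
  have hdiv : ∀ {x y : ℝ} (i : ℕ), 0 < y → x / y ≤ 2 ^ k0 → x ≤ y * g i := by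
    intro x y i hy h
    have := h.trans (hg0 i)
    rw [div_le_iff₀ hy] at this
    linarith
  refine ⟨B1, C3, C6, ⟨{
    P := P, I := I, bl := bl, g := g, c := c, fb := fb, mm := mm
    lo := fun i => mm (bl i - 1) / Λ
    b := fun i => if fb (bl i) then B1 * (g i : ℝ) ^ (e + 7) else δ * c i
    hm := hm, ha := ha, hβ := hβ, hCF := hCF, hK := hK, hΛ := hΛ, hΛ2 := hΛ2, hε := hε
    hδ := hδ, hδ1 := hδ1, hδa := hδa, hB1 := hB1, hB := hB, hC6 := hC6, hC61 := hC61, hC3 := hC3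
    T0 := fun i => T0.trans (hg0 i)
    T2 := fun i => T2.trans (hg0 i)
    T3 := fun i => T3.trans (hg0 i)
    T4 := fun i => T4.trans (hg0 i)
    T5 := fun i => T5.trans (hg0 i)
    T8 := fun i => T8.trans (hg0 i)
    T9 := fun k => T9.trans (hP0 k)
    T10 := fun i => hdiv i hδ T10
    T11 := fun i => hdiv i hδ T11
    T14 := fun i => hdiv i hβ T14
    T15 := fun i => hdiv i hβ T15
    hPs := hPs, hPp := hPp, hPlt := hPlt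
    hml := fun k => ?_
    hmp := fun k => by rw [hmm]; exact div_pos (hPd k) (hℓp k)
    S1 := S1, S2 := S2
    hmono := ?_
    hfb := fun k hk => ?_
    hfb' := fun k => ?_
    hIm := hIm, hI0 := hI0, hbl := hbl
    hcI := fun k => by rw [hc, hgI, hP]
    hIc := hIc, hgf := hgf
    hbn := fun i => ?_
    hcr := hcr, hg1 := hg1, hglt := hglt
    hg2 := fun i => ?_
    hcq := fun i => ?_
    hcm := strictMono_nat_of_lt_succ fun i => by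
      rw [hc, hc]; exact Nat.pow_lt_pow_left (hglt i) (by omega)
    hcP := fun i k hk => ?_
    hlo := fun i => rfl
    hbf := fun i h => by simp [h]
    hbc := fun i h => by simp [h] }⟩⟩
  · rw [hmm, div_mul_cancel₀ _ (hℓp k).ne', hPs]
    ring
  · refine monotone_nat_of_le_succ fun j => ?_
    have := S2 j (P (j + 1)) (P (j + 2)) le_rfl (hPlt _).le
    rw [hmm (j + 1), le_div_iff₀ (hℓp (j + 1))]
    exact this
  · obtain ⟨k', h, -⟩ := (hfb k).1 hk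
    exact ⟨k', h⟩
  · rw [hfb]
    constructor
    · rintro ⟨k', h1, h2⟩
      obtain rfl : k = k' := by omega
      exact h2
    · exact fun h => ⟨k, rfl, h⟩
  · rcases hbn i with h | h
    · exact Or.inl h
    · refine Or.inr ⟨h.1, ?_⟩
      rw [h.2]
      push_cast
      exact pow_le_pow_right₀ (by norm_num) (by omega)
  · have h1 : ((2 : ℝ) ^ q0)⁻¹ ≤ 1 := inv_le_one_of_one_le₀ (one_le_pow₀ (by norm_num))
    exact (hgq i).trans (mul_le_mul_of_nonneg_right (by linarith) (Nat.cast_nonneg _))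
  · rw [hcr, hcr]
    calc (g (i + 1) : ℝ) ^ (e + 8) ≤ ((1 + ((2 : ℝ) ^ q0)⁻¹) * g i) ^ (e + 8) :=
          pow_le_pow_left₀ (Nat.cast_nonneg _) (hgq i) _
      _ ≤ _ := by
          rw [mul_pow]
          exact mul_le_mul_of_nonneg_right hq (by positivity)
  · subst hk
    rw [hc, hc, hP, hP]
    exact ⟨Nat.pow_le_pow_left (hgb i).1 _,
      Nat.pow_le_pow_left (by rw [← add_assoc]; exact (hgb i).2) _⟩

namespace Pre

variable {σ : ℕ → ℝ} {a β CF ε Cp A0 Λ K δ B1 C3 : ℝ} {C6 e q mn : ℕ}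
  (X : Pre σ a β CF ε Cp A0 Λ K δ B1 C3 C6 e q mn)

theorem hl (i : ℕ) : 0 < σ (X.c (i + 1)) - σ (X.c i) :=
  sub_pos.2 (X.hm (X.hcm (Nat.lt_succ_self i)))

theorem hpw (i : ℕ) {x y : ℕ} (h : x ≤ y) : (X.g i : ℝ) ^ x ≤ (X.g i : ℝ) ^ y :=
  pow_le_pow_right₀ (X.hg1 i) h

include X in
theorem hC30 : 0 < C3 := by
  have := X.hΛ2
  have := X.hK
  have := X.ha
  rw [X.hC3]
  positivity

theorem hd (i : ℕ) (h : X.fb (X.bl i)) :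
    (X.g i : ℝ) ^ (e + 7) ≤ (X.c (i + 1) : ℝ) - X.c i ∧
      (X.c (i + 1) : ℝ) - X.c i ≤ B1 / 2 * (X.g i : ℝ) ^ (e + 7) := by
  have := pow_step (X.hg1 i) (e + 7)
  rw [X.hcr, X.hcr, X.hgf i h]
  push_cast at this ⊢
  have hb : B1 / 2 = ((e : ℝ) + 7 + 1) * 2 ^ (e + 7) := by
    rw [X.hB1, X.hΛ]
    ring
  exact ⟨this.1, this.2.trans (le_of_eq (by rw [hb]))⟩

theorem hlop (i : ℕ) : 0 < X.lo i := by
  rw [X.hlo]
  exact div_pos (X.hmp _) (by linarith [X.hΛ2])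

theorem hlom (i : ℕ) : X.lo i ≤ X.lo (i + 1) := by
  rw [X.hlo, X.hlo]
  refine div_le_div_of_nonneg_right (X.hmono ?_) (by linarith [X.hΛ2])
  rcases X.hbn i with h | h
  · rw [h]
  · rw [h.1]
    omega

theorem hmk {i k : ℕ} (hk : X.bl i = k + 1) : X.mm k = Λ * X.lo i := by
  rw [X.hlo, hk, Nat.add_sub_cancel, mul_div_cancel₀ _ (by linarith [X.hΛ2])]

theorem hdb (i : ℕ) (h : X.fb (X.bl i)) (h' : X.fb (X.bl (i + 1))) :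
    max (X.b (i + 1) - X.b i) 0 ≤ B1 ^ 2 * (X.g i : ℝ) ^ (e + 6) := by
  refine max_le ?_ (by positivity)
  have := (pow_step (X.hg1 i) (e + 6)).2
  rw [X.hbf i h, X.hbf _ h', X.hgf i h]
  push_cast at this ⊢
  have h1 : ((e : ℝ) + 6 + 1) * 2 ^ (e + 6) ≤ B1 := by
    rw [X.hB1, X.hΛ]
    exact mul_le_mul (by linarith) (pow_le_pow_right₀ (by norm_num) (by omega)) (by positivity)
      (by positivity)
  have h2 : ((X.g i : ℝ) + 1) ^ (e + 7) - (X.g i : ℝ) ^ (e + 7) ≤ B1 * (X.g i : ℝ) ^ (e + 6) :=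
    this.trans (mul_le_mul_of_nonneg_right h1 (by positivity))
  have h3 := mul_le_mul_of_nonneg_left h2 (by linarith [X.hB] : 0 ≤ B1)
  linarith

theorem hm2 {i k : ℕ} (hk : X.bl i = k + 1) (h : X.fb (X.bl i)) :
    X.mm (k + 2) ≤ K ^ 2 * (Λ * X.lo i) := by
  have h1 := (X.hfb' k).1 (hk ▸ h)
  have h2 := mul_le_mul_of_nonneg_left h1.1 (by linarith [X.hK] : 0 ≤ K)
  rw [← X.hmk hk]
  linarith [h1.2]

theorem hlen (i : ℕ) (h : X.fb (X.bl i)) :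
    (X.g i : ℝ) ^ (e + 7) ≤ K ^ 2 * (Λ * X.lo i) * (σ (X.c (i + 1)) - σ (X.c i)) := by
  obtain ⟨k, hk⟩ := X.hfb _ h
  have h2 := X.S1 (k + 2) (X.c i) (X.c (i + 1)) (X.hcm (Nat.lt_succ_self i)).le (X.hcP i _ hk).2
  exact ((X.hd i h).1.trans h2).trans (mul_le_mul_of_nonneg_right (X.hm2 hk h) (X.hl i).le)

theorem lo_le (i : ℕ) (h : X.fb (X.bl i)) :
    ∃ x y : ℕ, x < y ∧ y ≤ X.c i ∧ X.lo i * (σ y - σ x) ≤ ε * y - Cp - x := by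
  obtain ⟨k, hk⟩ := X.hfb _ h
  refine ⟨X.P k, X.P (k + 1), X.hPlt k, (X.hcP i _ hk).1, ?_⟩
  have h1 := X.hml k
  have h0 := X.hPp k
  have hΛ := X.hΛ2
  rw [X.hmk hk] at h1
  have h2 : 4 * (X.P k : ℝ) ≤ ε * (Λ * X.P k) := by
    have := mul_le_mul_of_nonneg_right X.hε h0.le
    linarith
  have h3 : (X.P k : ℝ) ≤ ε * (Λ * X.P k) - Cp - X.P k := by linarith [X.T9 k]
  rw [X.hPs]
  refine le_trans (le_of_mul_le_mul_left ?_ (by linarith : 0 < Λ)) h3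
  linarith

theorem junc (i : ℕ) (h : X.fb (X.bl i)) (h' : X.fb (X.bl (i + 1))) :
    X.c i < X.c (i + 1) - C6 * X.g i ^ 2 ∧ X.c (i + 1) - C6 * X.g i ^ 2 < X.c (i + 1) ∧
    0 < X.lo i / (X.g i : ℝ) ^ 2 ∧
    CF ≤ X.lo i / (X.g i : ℝ) ^ 2 * (σ (X.c (i + 1)) - σ (X.c (i + 1) - C6 * X.g i ^ 2)) ∧
    CF * (1 + (σ (X.c (i + 1)) - σ (X.c (i + 1) - C6 * X.g i ^ 2)) *
      (((X.c (i + 2) : ℝ) - X.c (i + 1)) / (σ (X.c (i + 2)) - σ (X.c (i + 1))) +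
        X.lo i / (X.g i : ℝ) ^ 2)) ≤ (X.g i : ℝ) ^ 3 ∧
    CF * (X.g (i + 1) : ℝ) ^ 3 ≤
      X.lo i / (X.g i : ℝ) ^ 2 * (σ (X.c (i + 2)) - σ (X.c (i + 1))) := by
  obtain ⟨k, hk⟩ := X.hfb _ h
  have hgi := X.hg1 i
  have hΛ := X.hΛ2
  have hK := X.hK
  have hCF := X.hCF
  have hC61 := X.hC61
  have hlop := X.hlop i
  have hg2p : (0 : ℝ) < (X.g i : ℝ) ^ 2 := by positivity
  have hs : ((C6 * X.g i ^ 2 : ℕ) : ℝ) < (X.c (i + 1) : ℝ) - X.c i := by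
    refine lt_of_lt_of_le ?_ ((X.hpw i (by omega : 3 ≤ e + 7)).trans (X.hd i h).1)
    push_cast
    have := mul_le_mul_of_nonneg_right (X.T2 i) hg2p.le
    linarith
  have hs' : X.c i + C6 * X.g i ^ 2 < X.c (i + 1) := by
    have : ((X.c i + C6 * X.g i ^ 2 : ℕ) : ℝ) < X.c (i + 1) := by
      rw [Nat.cast_add]
      linarith
    exact_mod_cast this
  have hs0 : 0 < C6 * X.g i ^ 2 := by
    have : (0 : ℝ) < ((C6 * X.g i ^ 2 : ℕ) : ℝ) := by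
      push_cast
      positivity
    exact_mod_cast this
  have ht : ((X.c (i + 1) - C6 * X.g i ^ 2 : ℕ) : ℝ) = X.c (i + 1) - C6 * (X.g i : ℝ) ^ 2 := by
    rw [Nat.cast_sub (by omega)]
    push_cast
    ring
  have hh : 0 ≤ σ (X.c (i + 1)) - σ (X.c (i + 1) - C6 * X.g i ^ 2) :=
    sub_nonneg.2 (X.hm.monotone (Nat.sub_le _ _))
  have hA := X.S1 (k + 2) (X.c (i + 1) - C6 * X.g i ^ 2) (X.c (i + 1)) (Nat.sub_le _ _)
    (X.hcP i _ hk).2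
  have hB' := X.S2 k (X.c (i + 1) - C6 * X.g i ^ 2) (X.c (i + 1))
    ((X.hcP i _ hk).1.trans (by omega)) (Nat.sub_le _ _)
  rw [ht] at hA hB'
  rw [X.hmk hk] at hB'
  generalize σ (X.c (i + 1)) - σ (X.c (i + 1) - C6 * X.g i ^ 2) = h0 at *
  replace hA : (C6 : ℝ) * (X.g i : ℝ) ^ 2 ≤ K ^ 2 * (Λ * X.lo i) * h0 := by
    have := mul_le_mul_of_nonneg_right (X.hm2 hk h) hh
    linarith
  replace hB' : Λ * X.lo i * h0 ≤ (C6 : ℝ) * (X.g i : ℝ) ^ 2 := by linarith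
  obtain ⟨j, hj1, hj2⟩ : ∃ j, X.c (i + 2) ≤ X.P j ∧ X.mm j ≤ K ^ 3 * (Λ * X.lo i) := by
    refine ⟨X.bl (i + 1) + 1, (X.hcP (i + 1) _ rfl).2, ?_⟩
    have h3 := X.hm2 hk h
    rcases X.hbn i with h4 | h4
    · rw [h4, hk]
      exact h3.trans (mul_le_mul_of_nonneg_right (pow_le_pow_right₀ hK (by norm_num))
        (by positivity))
    · have h5 : X.bl (i + 1) = (k + 1) + 1 := by rw [h4.1, hk]
      have h6 := ((X.hfb' (k + 1)).1 (h5 ▸ h')).2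
      rw [h5]
      have := mul_le_mul_of_nonneg_left h3 (by linarith : 0 ≤ K)
      refine h6.trans (this.trans (le_of_eq (by ring)))
  have hC := X.S1 j (X.c (i + 1)) (X.c (i + 2)) (X.hcm (Nat.lt_succ_self _)).le hj1
  have hl1 : 0 < σ (X.c (i + 2)) - σ (X.c (i + 1)) := X.hl (i + 1)
  have hC' : (X.c (i + 2) : ℝ) - X.c (i + 1) ≤
      K ^ 3 * (Λ * X.lo i) * (σ (X.c (i + 2)) - σ (X.c (i + 1))) :=
    hC.trans (mul_le_mul_of_nonneg_right hj2 hl1.le)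
  refine ⟨by omega, by omega, div_pos hlop hg2p, ?_, ?_, ?_⟩
  · rw [div_mul_eq_mul_div, le_div_iff₀ hg2p]
    have h1 : CF * Λ * K ^ 2 * (X.g i : ℝ) ^ 2 ≤ K ^ 2 * (Λ * X.lo i) * h0 :=
      (mul_le_mul_of_nonneg_right X.hC6 hg2p.le).trans hA
    have h2 : (Λ * K ^ 2) * (CF * (X.g i : ℝ) ^ 2) ≤ (Λ * K ^ 2) * (X.lo i * h0) := by linarith
    exact le_of_mul_le_mul_left h2 (by positivity)
  · have h1 : ((X.c (i + 2) : ℝ) - X.c (i + 1)) / (σ (X.c (i + 2)) - σ (X.c (i + 1))) ≤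
        K ^ 3 * (Λ * X.lo i) := by
      rw [div_le_iff₀ hl1]
      exact hC'
    have h5 : (1 : ℝ) ≤ (X.g i : ℝ) ^ 2 := one_le_pow₀ hgi
    have h2 : X.lo i / (X.g i : ℝ) ^ 2 ≤ Λ * X.lo i :=
      (div_le_self hlop.le h5).trans (le_mul_of_one_le_left hlop.le (by linarith))
    have h3 : h0 * (((X.c (i + 2) : ℝ) - X.c (i + 1)) / (σ (X.c (i + 2)) - σ (X.c (i + 1))) +
        X.lo i / (X.g i : ℝ) ^ 2) ≤ (K ^ 3 + 1) * (C6 * (X.g i : ℝ) ^ 2) :=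
      calc _ ≤ h0 * (K ^ 3 * (Λ * X.lo i) + Λ * X.lo i) :=
            mul_le_mul_of_nonneg_left (add_le_add h1 h2) hh
        _ = (K ^ 3 + 1) * (Λ * X.lo i * h0) := by ring
        _ ≤ _ := mul_le_mul_of_nonneg_left hB' (by positivity)
    calc _ ≤ CF * ((1 + C6 * (K ^ 3 + 1)) * (X.g i : ℝ) ^ 2) :=
          mul_le_mul_of_nonneg_left (by linarith) (by linarith)
      _ = CF * (1 + C6 * (K ^ 3 + 1)) * (X.g i : ℝ) ^ 2 := by ring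
      _ ≤ X.g i * (X.g i : ℝ) ^ 2 := mul_le_mul_of_nonneg_right (X.T3 i) hg2p.le
      _ = _ := by ring
  · rw [div_mul_eq_mul_div, le_div_iff₀ hg2p]
    have h1 : (X.g i : ℝ) ^ (e + 7) ≤ (X.c (i + 2) : ℝ) - X.c (i + 1) :=
      (pow_le_pow_left₀ (Nat.cast_nonneg _) (by exact_mod_cast (X.hglt i).le) _).trans
        (X.hd (i + 1) h').1
    have h2 : (X.g (i + 1) : ℝ) ^ 3 ≤ 8 * (X.g i : ℝ) ^ 3 :=
      (pow_le_pow_left₀ (Nat.cast_nonneg _) (X.hg2 i) 3).trans (le_of_eq (by ring))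
    have h3 := X.T4 i
    have h5 : (K ^ 3 * Λ) * (CF * (X.g (i + 1) : ℝ) ^ 3 * (X.g i : ℝ) ^ 2) ≤
        (K ^ 3 * Λ) * (X.lo i * (σ (X.c (i + 2)) - σ (X.c (i + 1)))) :=
      calc (K ^ 3 * Λ) * (CF * (X.g (i + 1) : ℝ) ^ 3 * (X.g i : ℝ) ^ 2)
          ≤ (K ^ 3 * Λ) * (CF * (8 * (X.g i : ℝ) ^ 3) * (X.g i : ℝ) ^ 2) := by gcongr
        _ = (X.g i : ℝ) ^ 3 * (8 * CF * Λ * K ^ 3) * (X.g i : ℝ) ^ 2 := by ring
        _ ≤ (X.g i : ℝ) ^ 3 * X.g i * (X.g i : ℝ) ^ 2 := by gcongr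
        _ = (X.g i : ℝ) ^ 6 := by ring
        _ ≤ (X.g i : ℝ) ^ (e + 7) := X.hpw i (by omega)
        _ ≤ _ := by linarith
    exact le_of_mul_le_mul_left h5 (by positivity)

theorem hBg (i : ℕ) : B1 ≤ X.g i := by
  have h1 := X.T10 i
  have h2 := mul_le_mul_of_nonneg_right X.hδ1 (Nat.cast_nonneg (α := ℝ) (X.g i))
  have h3 := mul_le_mul_of_nonneg_left (by linarith [X.hΛ2] : 1 ≤ Λ) (by linarith [X.hB] : 0 ≤ B1)
  linarith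

theorem b_next (i : ℕ) (h : X.fb (X.bl (i + 1))) : X.b (i + 1) ≤ 2 * X.b i := by
  have hgi := X.hg1 i
  have hB := X.hB
  have hδ := X.hδ
  by_cases h' : X.fb (X.bl i)
  · have h1 := (le_max_left _ _).trans (X.hdb i h' h)
    have h2 := X.hbf i h'
    have h4 : B1 ^ 2 * (X.g i : ℝ) ^ (e + 6) ≤ B1 * (X.g i : ℝ) ^ (e + 7) :=
      calc B1 ^ 2 * (X.g i : ℝ) ^ (e + 6) = B1 * B1 * (X.g i : ℝ) ^ (e + 6) := by ring
        _ ≤ B1 * X.g i * (X.g i : ℝ) ^ (e + 6) := by gcongr; exact X.hBg i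
        _ = _ := by ring
    linarith
  · rw [X.hbf _ h, X.hbc _ h', X.hcr]
    have h1 : (X.g (i + 1) : ℝ) ^ (e + 7) ≤ Λ * (X.g i : ℝ) ^ (e + 7) := by
      refine (pow_le_pow_left₀ (Nat.cast_nonneg _) (X.hg2 i) _).trans ?_
      have h0 : (2 : ℝ) ^ (e + 7) ≤ Λ := by
        rw [X.hΛ]
        exact pow_le_pow_right₀ (by norm_num) (by omega)
      rw [mul_pow]
      exact mul_le_mul_of_nonneg_right h0 (by positivity)
    have h2 : 0 ≤ δ * (X.g i : ℝ) ^ (e + 8) := by positivity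
    calc B1 * (X.g (i + 1) : ℝ) ^ (e + 7) ≤ B1 * (Λ * (X.g i : ℝ) ^ (e + 7)) := by gcongr
      _ = (B1 * Λ) * (X.g i : ℝ) ^ (e + 7) := by ring
      _ ≤ (δ * X.g i) * (X.g i : ℝ) ^ (e + 7) :=
          mul_le_mul_of_nonneg_right (X.T10 i) (by positivity)
      _ = δ * (X.g i : ℝ) ^ (e + 8) := by ring
      _ ≤ _ := by linarith

theorem small {x y : ℝ} (i : ℕ) (hy : 0 ≤ y) (h : x ≤ y * X.g i) :
    x * (X.g i : ℝ) ^ 3 ≤ y * X.c i :=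
  calc x * (X.g i : ℝ) ^ 3 ≤ (y * X.g i) * (X.g i : ℝ) ^ 3 := by gcongr
    _ = y * (X.g i : ℝ) ^ 4 := by ring
    _ ≤ y * X.c i := by
      rw [X.hcr]
      exact mul_le_mul_of_nonneg_left (X.hpw i (by omega)) hy

theorem b_ge (i : ℕ) : ((X.c (i + 1) : ℝ) - X.c i) + 40 * (X.g i : ℝ) ^ 3 ≤ X.b i := by
  by_cases h : X.fb (X.bl i)
  · rw [X.hbf i h]
    have h1 := (X.hd i h).2
    have h2 := X.hpw i (by omega : 3 ≤ e + 7)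
    have h3 := mul_le_mul_of_nonneg_right X.hB (by positivity : 0 ≤ (X.g i : ℝ) ^ (e + 7))
    linarith
  · rw [X.hbc i h]
    have h1 := X.hcq i
    have h4 := X.small i X.hδ.le (X.T11 i)
    linarith

theorem b_le (i : ℕ) : a * X.b i + (mn + 50) * (X.g i : ℝ) ^ 3 ≤ β * X.c i := by
  have hmn : (0 : ℝ) ≤ mn + 50 := by positivity
  by_cases h : X.fb (X.bl i)
  · rw [X.hbf i h, X.hcr]
    have h1 := mul_le_mul_of_nonneg_right (X.T14 i) (by positivity : 0 ≤ (X.g i : ℝ) ^ (e + 7))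
    have h2 := mul_le_mul_of_nonneg_left (X.hpw i (by omega : 3 ≤ e + 7)) hmn
    rw [pow_succ (X.g i : ℝ) (e + 7)]
    linarith
  · rw [X.hbc i h]
    have h4 := X.small i X.hβ.le (X.T15 i)
    have h5 := mul_le_mul_of_nonneg_right X.hδa (Nat.cast_nonneg (α := ℝ) (X.c i))
    linarith

theorem E_le (i : ℕ) : 2 * (C3 / X.g i * X.lo i) ≤ X.lo i := by
  have h2 : 2 * (C3 / X.g i) ≤ 1 := by
    rw [← mul_div_assoc, div_le_one (by linarith [X.hg1 i])]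
    exact X.T5 i
  have := mul_le_mul_of_nonneg_right h2 (X.hlop i).le
  linarith

theorem gain (i : ℕ) (h : X.fb (X.bl i)) (h' : X.fb (X.bl (i + 1))) :
    a * (1 + 9 * (X.g i : ℝ) ^ 3 + max (X.b (i + 1) - X.b i) 0) ≤
      (σ (X.c (i + 1)) - σ (X.c i)) * (C3 / X.g i * X.lo i) := by
  have h1 := X.hlen i h
  have h2 := X.hdb i h h'
  have hgi := X.hg1 i
  have ha := X.ha
  have h3 : a * (1 + 9 * (X.g i : ℝ) ^ 3 + max (X.b (i + 1) - X.b i) 0) ≤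
      a * ((B1 ^ 2 + 10) * (X.g i : ℝ) ^ (e + 6)) := by
    have h5 := X.hpw i (by omega : 3 ≤ e + 6)
    have h6 : 1 ≤ (X.g i : ℝ) ^ (e + 6) := one_le_pow₀ hgi
    exact mul_le_mul_of_nonneg_left (by linarith) (by linarith)
  refine h3.trans ?_
  have h4 : (σ (X.c (i + 1)) - σ (X.c i)) * (C3 / X.g i * X.lo i) =
      a * (B1 ^ 2 + 10) * (K ^ 2 * (Λ * X.lo i) * (σ (X.c (i + 1)) - σ (X.c i))) / X.g i := by
    have h5 : ∀ x y z : ℝ, x * (C3 / y * z) =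
        a * (B1 ^ 2 + 10) * (K ^ 2 * (Λ * z) * x) / y := by
      intro x y z
      rw [X.hC3]
      ring
    exact h5 _ _ _
  rw [h4, le_div_iff₀ (by linarith), mul_assoc, mul_assoc, ← pow_succ, ← mul_assoc]
  exact mul_le_mul_of_nonneg_left h1 (by positivity)

theorem b_blk (k i : ℕ) (h1 : X.I k ≤ i) (h2 : i < X.I (k + 1)) :
    X.b i ≤ 2 * (X.mm k * (σ (X.P (k + 1)) - σ (X.P k))) := by
  have hk : X.bl i = k := (X.hbl k i).2 ⟨h1, h2⟩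
  have h3 : X.b i ≤ X.c i := by
    by_cases h : X.fb (X.bl i)
    · rw [X.hbf i h, X.hcr, pow_succ (X.g i : ℝ) (e + 7), mul_comm]
      exact mul_le_mul_of_nonneg_left (X.hBg i) (by positivity)
    · rw [X.hbc i h]
      exact mul_le_of_le_one_left (Nat.cast_nonneg _) X.hδ1
  have h4 : (X.c i : ℝ) ≤ X.P (k + 1) := by
    exact_mod_cast (X.hcm (Nat.lt_succ_self i)).le.trans (X.hcP i _ hk).2
  rw [X.hml]
  rw [X.hPs] at h4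
  have := mul_le_mul_of_nonneg_right X.hΛ2 (X.hPp k).le
  linarith [X.hPp k]

theorem η_ge (i : ℕ) : 0 ≤ 4 * (((X.g i : ℝ))⁻¹ - ((X.g (i + 1) : ℝ))⁻¹) +
    2 * C3 * ((1 / 2) ^ X.bl i - (1 / 2) ^ X.bl (i + 1)) := by
  have h1 : ((X.g (i + 1) : ℝ))⁻¹ ≤ ((X.g i : ℝ))⁻¹ :=
    inv_anti₀ (by linarith [X.hg1 i]) (by exact_mod_cast (X.hglt i).le)
  have h2 : ((1 : ℝ) / 2) ^ X.bl (i + 1) ≤ (1 / 2) ^ X.bl i := by
    refine pow_le_pow_of_le_one (by norm_num) (by norm_num) ?_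
    rcases X.hbn i with h | h
    · exact h.ge
    · rw [h.1]
      omega
  have := sub_nonneg.2 h1
  have := sub_nonneg.2 h2
  have := X.hC30
  positivity

theorem j1 (i : ℕ) (h : X.fb (X.bl i)) (h' : X.fb (X.bl (i + 1))) :
    a * max (X.b (i + 1) - X.b i) 0 + a + 9 * (X.g i : ℝ) ^ 3 + mn ≤
      (σ (X.c (i + 1)) - σ (X.c i)) * X.lo (i + 1) / 8 := by
  have h1 := X.hlen i h
  have h2 := X.hdb i h h'
  have hgi := X.hg1 i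
  have ha := X.ha
  have hK := X.hK
  have hΛ := X.hΛ2
  have h0 : (1 : ℝ) ≤ (X.g i : ℝ) ^ (e + 6) := one_le_pow₀ hgi
  have h3 : a * max (X.b (i + 1) - X.b i) 0 + a + 9 * (X.g i : ℝ) ^ 3 + mn ≤
      (a * B1 ^ 2 + a + 9 + mn) * (X.g i : ℝ) ^ (e + 6) := by
    have h4 := mul_le_mul_of_nonneg_left h2 (by linarith : 0 ≤ a)
    have h5 := X.hpw i (by omega : 3 ≤ e + 6)
    have h6 := mul_le_mul_of_nonneg_left h0 (by linarith : 0 ≤ a)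
    have h7 := mul_le_mul_of_nonneg_left h0 (Nat.cast_nonneg (α := ℝ) mn)
    linarith
  refine h3.trans ?_
  have h4 := X.T8 i
  have h5 : (8 * Λ * K ^ 2) * ((a * B1 ^ 2 + a + 9 + mn) * (X.g i : ℝ) ^ (e + 6)) ≤
      (8 * Λ * K ^ 2) * ((σ (X.c (i + 1)) - σ (X.c i)) * X.lo (i + 1) / 8) :=
    calc (8 * Λ * K ^ 2) * ((a * B1 ^ 2 + a + 9 + mn) * (X.g i : ℝ) ^ (e + 6))
        = (8 * Λ * K ^ 2 * (a * B1 ^ 2 + a + 9 + mn)) * (X.g i : ℝ) ^ (e + 6) := by ring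
      _ ≤ X.g i * (X.g i : ℝ) ^ (e + 6) := by gcongr
      _ = (X.g i : ℝ) ^ (e + 7) := by ring
      _ ≤ K ^ 2 * (Λ * X.lo i) * (σ (X.c (i + 1)) - σ (X.c i)) := h1
      _ ≤ K ^ 2 * (Λ * X.lo (i + 1)) * (σ (X.c (i + 1)) - σ (X.c i)) := by
          have := (X.hl i).le
          have := X.hlom i
          gcongr
      _ = _ := by ring
  exact le_of_mul_le_mul_left h5 (by positivity)

theorem j2 (i : ℕ) (h : X.fb (X.bl i)) :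
    C3 / X.g (i + 1) * X.lo (i + 1) - C3 / X.g i * X.lo i + X.lo i / (X.g i : ℝ) ^ 2 ≤
      (4 * (((X.g i : ℝ))⁻¹ - ((X.g (i + 1) : ℝ))⁻¹) +
        2 * C3 * ((1 / 2) ^ X.bl i - (1 / 2) ^ X.bl (i + 1))) * (X.lo (i + 1) / 2) := by
  have hgi := X.hg1 i
  have hC30 := X.hC30
  have hg' : (X.g (i + 1) : ℝ) = X.g i + 1 := by
    rw [X.hgf i h]
    push_cast
    ring
  have h1 : X.lo i / (X.g i : ℝ) ^ 2 ≤
      4 * (((X.g i : ℝ))⁻¹ - ((X.g (i + 1) : ℝ))⁻¹) * (X.lo (i + 1) / 2) := by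
    have h2 : ((X.g i : ℝ) ^ 2)⁻¹ ≤ 2 * (((X.g i : ℝ))⁻¹ - ((X.g (i + 1) : ℝ))⁻¹) := by
      rw [hg']
      have : 2 * (((X.g i : ℝ))⁻¹ - ((X.g i : ℝ) + 1)⁻¹) =
          ((X.g i : ℝ) * ((X.g i + 1) / 2))⁻¹ := by
        field_simp
        ring
      rw [this]
      exact inv_anti₀ (by positivity) (by nlinarith)
    rw [div_eq_mul_inv]
    calc X.lo i * ((X.g i : ℝ) ^ 2)⁻¹
        ≤ X.lo (i + 1) * (2 * (((X.g i : ℝ))⁻¹ - ((X.g (i + 1) : ℝ))⁻¹)) :=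
          mul_le_mul (X.hlom i) h2 (by positivity) (X.hlop _).le
      _ = _ := by ring
  have h2 : C3 / X.g (i + 1) * X.lo (i + 1) - C3 / X.g i * X.lo i ≤
      2 * C3 * ((1 / 2) ^ X.bl i - (1 / 2) ^ X.bl (i + 1)) * (X.lo (i + 1) / 2) := by
    rcases X.hbn i with h3 | h3
    · have h4 : X.lo (i + 1) = X.lo i := by rw [X.hlo, X.hlo, h3]
      have h5 : C3 / X.g (i + 1) ≤ C3 / X.g i :=
        div_le_div_of_nonneg_left hC30.le (by linarith) (by linarith)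
      rw [h3, h4, sub_self]
      have := mul_le_mul_of_nonneg_right h5 (X.hlop i).le
      linarith
    · have h4 : C3 / X.g (i + 1) ≤ C3 * (1 / 2) ^ (X.bl i + 1) := by
        rw [one_div, inv_pow, div_eq_mul_inv]
        exact mul_le_mul_of_nonneg_left (inv_anti₀ (by positivity) h3.2) hC30.le
      have h5 : 0 ≤ C3 / X.g i * X.lo i :=
        mul_nonneg (div_nonneg hC30.le (Nat.cast_nonneg _)) (X.hlop i).le
      have h6 := mul_le_mul_of_nonneg_right h4 (X.hlop (i + 1)).le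
      rw [h3.1]
      rw [pow_succ] at h6 ⊢
      linarith
  rw [add_mul]
  linarith

end Pre

theorem exists_sch {σ : ℕ → ℝ} (hm : StrictMono σ) (ht : Tendsto σ atTop atTop)
    (hmean : ∀ x y z w : ℕ, x ≤ y → y ≤ z → z ≤ w →
      ((y : ℝ) - x) * (σ w - σ z) ≤ ((w : ℝ) - z) * (σ y - σ x))
    {a β CF ε Cp A0 K δ : ℝ} {e q0 mn : ℕ} (ha : 1 ≤ a) (hβ : 0 < β) (hCF : 1 ≤ CF)
    (hK : 1 ≤ K) (hε : 4 ≤ ε * 2 ^ (e + 8)) (hδ : 0 < δ) (hδ1 : δ ≤ 1) (hδa : 2 * a * δ ≤ β)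
    (hq : (1 + ((2 : ℝ) ^ q0)⁻¹) ^ (e + 8) ≤ 1 + δ / 2) :
    Nonempty (Sch σ a β CF ε Cp A0 (2 ^ (e + 8)) K (e + 8) (2 ^ q0) mn) := by
  obtain ⟨B1, C3, C6, ⟨X⟩⟩ := exists_pre (A0 := A0) (Cp := Cp) (mn := mn) hm hmean ha hβ hCF hK hε
    hδ hδ1 hδa hq
  refine ⟨{
    c := X.c
    t := fun i => X.c (i + 1) - C6 * X.g i ^ 2
    g := fun i => X.g i
    I := X.I
    fine := fun i => X.fb (X.bl i)
    mm := X.mm
    ℓ := fun k => σ (X.P (k + 1)) - σ (X.P k)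
    lo := X.lo
    κ := fun i => X.lo i / (X.g i : ℝ) ^ 2
    E := fun i => C3 / X.g i * X.lo i
    b := X.b
    η := fun i => 4 * (((X.g i : ℝ))⁻¹ - ((X.g (i + 1) : ℝ))⁻¹) +
      2 * C3 * ((1 / 2) ^ X.bl i - (1 / 2) ^ X.bl (i + 1))
    c_mono := X.hcm
    c_eq := X.hcr
    c_two := fun i => ?_
    g_ge := X.T0
    g_one := X.hg1
    g_two := X.hg2
    lo_pos := X.hlop
    lo_le := X.lo_le
    junc := X.junc
    b_next := X.b_next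
    b_ge := X.b_ge
    b_le := X.b_le
    E_ge := fun i => mul_nonneg (div_nonneg X.hC30.le (Nat.cast_nonneg _)) (X.hlop i).le
    E_le := X.E_le
    gain := X.gain
    I_mono := X.hIm
    mm_pos := X.hmp
    mm_mono := X.hmono
    ℓ_pos := fun k => sub_pos.2 (hm (X.hPlt k))
    ℓ_sum := fun hs => ?_
    mℓ := fun k => ?_
    b_blk := X.b_blk
    η_ge := X.η_ge
    η_sum := ?_
    not_fine := ?_
    crude := fun k hk => ?_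
    fin := fun k hk => ?_
    j1 := X.j1
    j2 := fun i h _ => X.j2 i h }⟩
  · have : (X.c (i + 1) : ℝ) ≤ 2 * X.c i :=
      (X.hcq i).trans (mul_le_mul_of_nonneg_right (by linarith) (Nat.cast_nonneg _))
    exact_mod_cast this
  · have h1 : ∀ N, ∑ k ∈ Finset.range N, (σ (X.P (k + 1)) - σ (X.P k)) =
        σ (X.P N) - σ (X.P 0) := fun N => Finset.sum_range_sub (fun k => σ (X.P k)) N
    have h2 : Tendsto (fun N => σ (X.P N) - σ (X.P 0)) atTop atTop :=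
      tendsto_atTop_add_const_right _ _
        (ht.comp (strictMono_nat_of_lt_succ X.hPlt).tendsto_atTop)
    have h3 := hs.hasSum.tendsto_sum_nat
    simp only [h1] at h3
    exact not_tendsto_atTop_of_tendsto_nhds h3 h2
  · rw [X.hml, X.hml, X.hPs]
    exact le_of_eq (by ring)
  · refine summable_of_sum_range_le (c := 4 + 2 * C3) X.η_ge fun N => ?_
    rw [Finset.sum_add_distrib, ← Finset.mul_sum, ← Finset.mul_sum,
      Finset.sum_range_sub' (fun i => ((X.g i : ℝ))⁻¹),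
      Finset.sum_range_sub' (fun i => ((1 : ℝ) / 2) ^ X.bl i)]
    have h1 : ((X.g 0 : ℝ))⁻¹ ≤ 1 := inv_le_one_of_one_le₀ (X.hg1 0)
    have h2 : ((1 : ℝ) / 2) ^ X.bl 0 ≤ 1 := pow_le_one₀ (by norm_num) (by norm_num)
    have h3 : (0 : ℝ) ≤ ((X.g N : ℝ))⁻¹ := by positivity
    have h4 : (0 : ℝ) ≤ ((1 : ℝ) / 2) ^ X.bl N := by positivity
    have h5 := mul_le_mul_of_nonneg_left
      (by linarith : ((1 : ℝ) / 2) ^ X.bl 0 - ((1 : ℝ) / 2) ^ X.bl N ≤ 1) X.hC30.le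
    linarith
  · have h0 : X.bl 0 = 0 := (X.hbl 0 0).2 ⟨X.hI0.le, by
      have := X.hIm (Nat.lt_succ_self 0)
      rwa [X.hI0] at this⟩
    intro h
    obtain ⟨k, hk⟩ := X.hfb _ h
    omega
  · have h1 : ¬ X.fb (k + 1) := fun h => hk ((X.hfb' k).1 h)
    refine ⟨(X.hIc (k + 1) h1).le, fun i h2 h3 => ?_⟩
    rw [(X.hbl (k + 1) i).2 ⟨h2, h3⟩]
    exact h1
  · refine ⟨by rw [X.hcI, X.hcI], fun i h2 h3 => ?_⟩
    have h4 : X.bl i = k + 1 := (X.hbl (k + 1) i).2 ⟨h2, h3⟩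
    refine ⟨by rw [h4]; exact (X.hfb' k).2 hk, by rw [X.hlo, h4, Nat.add_sub_cancel], ?_⟩
    rw [div_le_iff₀ (X.hl i)]
    exact X.S1 (k + 2) (X.c i) (X.c (i + 1)) (X.hcm (Nat.lt_succ_self i)).le (X.hcP i _ h4).2

end Crest.Agent.T223.Na
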