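import Crest.Agent.T223.NaSchC_80

/-!
# Row 223, module NA (helper80): `SchedStmt` from FLAG, NF and LYAP
-/

set_option autoImplicit false
set_option maxHeartbeats 400000

open Set Filter Topology Metric

namespace Crest.Agent.T223.Na

open Crest.Agent.T223.Tr Crest.Agent.T223.Dyn

variable {n : ℕ}

theorem det_comp3 (A B : EE n ≃L[ℂ] EE n) (T : EE n →L[ℂ] EE n) :
    ((A : EE n →L[ℂ] EE n).comp (T.comp (B : EE n →L[ℂ] EE n))).det =
      (A : EE n →L[ℂ] EE n).det * T.det * (B : EE n →L[ℂ] EE n).det := by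
  simp only [ContinuousLinearMap.det]
  rw [← LinearMap.det_comp, ← LinearMap.det_comp]
  rfl

theorem det_conj (A B : EE n ≃L[ℂ] EE n) (F : EE n → EE n) (x : EE n) :
    (fderiv ℂ (fun z => A (F (B z))) x).det =
      (A : EE n →L[ℂ] EE n).det * (fderiv ℂ F (B x)).det * (B : EE n →L[ℂ] EE n).det := by
  have h1 : fderiv ℂ (fun z => A (F (B z))) x =
      (A : EE n →L[ℂ] EE n).comp ((fderiv ℂ F (B x)).comp (B : EE n →L[ℂ] EE n)) := by
    rw [← B.comp_right_fderiv, ← A.comp_fderiv]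
    rfl
  rw [h1, det_comp3]

theorem det_symm (A : EE n ≃L[ℂ] EE n) :
    (A : EE n →L[ℂ] EE n).det * (A.symm : EE n →L[ℂ] EE n).det = 1 := by
  have h := det_comp3 A A.symm (ContinuousLinearMap.id ℂ (EE n))
  have h1 : (A : EE n →L[ℂ] EE n).comp ((ContinuousLinearMap.id ℂ (EE n)).comp
      (A.symm : EE n →L[ℂ] EE n)) = ContinuousLinearMap.id ℂ (EE n) := by
    ext1 x
    simp
  have h2 : (ContinuousLinearMap.id ℂ (EE n)).det = 1 := by
    simp [ContinuousLinearMap.det]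
  rw [h1, h2, mul_one] at h
  exact h.symm

theorem le_exp2 {A B : EE n → EE n} {x y z : ℝ} (hA : ∀ v, ‖A v‖ ≤ Real.exp x * ‖v‖)
    (hB : ∀ v, ‖B v‖ ≤ Real.exp y * ‖v‖) (h : x + y ≤ z) (v : EE n) :
    ‖A (B v)‖ ≤ Real.exp z * ‖v‖ :=
  calc ‖A (B v)‖ ≤ Real.exp x * (Real.exp y * ‖v‖) :=
        (hA _).trans (mul_le_mul_of_nonneg_left (hB v) (Real.exp_pos _).le)
    _ = Real.exp (x + y) * ‖v‖ := by rw [Real.exp_add, mul_assoc]
    _ ≤ _ := mul_le_mul_of_nonneg_right (Real.exp_le_exp.2 h) (norm_nonneg _)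

theorem le_exp_self (x : ℝ) : x ≤ Real.exp x := by linarith [Real.add_one_le_exp x]

variable {Φ : ℕ → ℕ → EE n → EE n} {r κ : ℝ} {σ : ℕ → ℝ} {a β CF ε Cp A0 Λ K : ℝ} {p q mn : ℕ}

namespace Sch

variable (X : Sch σ a β CF ε Cp A0 Λ K p q mn)

/-- length of a piece -/
def len (i : ℕ) : ℝ := σ (X.c (i + 1)) - σ (X.c i)

theorem g3 (i : ℕ) : X.g i ≤ X.g i ^ 3 := le_self_pow₀ (X.g_one i) (by norm_num)

theorem g3n (i : ℕ) : X.g (i + 1) ^ 3 ≤ 8 * X.g i ^ 3 :=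
  (pow_le_pow_left₀ (by linarith [X.g_one (i + 1)]) (X.g_two i) 3).trans (le_of_eq (by ring))

theorem dc (i : ℕ) : (0 : ℝ) ≤ (X.c (i + 1) : ℝ) - X.c i :=
  sub_nonneg.2 (by exact_mod_cast (X.c_mono (Nat.lt_succ_self i)).le)

theorem cle (i : ℕ) : X.c i ≤ X.c (i + 1) := (X.c_mono (Nat.lt_succ_self i)).le

end Sch

/-- adapted frames along a schedule -/
structure Fr (Φ : ℕ → ℕ → EE n → EE n) (X : Sch σ a β CF ε Cp A0 Λ K p q mn) where
  α : ℕ → EE n ≃L[ℂ] EE n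
  Le : ℕ → EE n ≃L[ℂ] EE n
  Ae : ℕ → EE n ≃L[ℂ] EE n
  lam : ℕ → Fin n → ℝ
  len_pos : ∀ i, 0 < X.len i
  hLe : ∀ i, (Le i : EE n →L[ℂ] EE n) = Lm Φ (X.c i) (X.c (i + 1))
  Le_le : ∀ i x, ‖Le i x‖ ≤ Real.exp 0 * ‖x‖
  Le_inv : ∀ i x, ‖(Le i).symm x‖ ≤ Real.exp ((X.c (i + 1) : ℝ) - X.c i) * ‖x‖
  α_le : ∀ i x, ‖α i x‖ ≤ Real.exp (X.g i ^ 3) * ‖x‖
  α_inv : ∀ i x, ‖(α i).symm x‖ ≤ Real.exp (X.g i ^ 3) * ‖x‖
  α0 : ∀ x, α 0 x = x
  Ae_le : ∀ i, X.fine i → ∀ x, ‖Ae i x‖ ≤ Real.exp (X.g i ^ 3) * ‖x‖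
  Ae_inv : ∀ i, X.fine i → ∀ x, ‖(Ae i).symm x‖ ≤ Real.exp (X.g i ^ 3) * ‖x‖
  lam_ge : ∀ i, X.fine i → ∀ l, X.lo i ≤ lam i l
  lam_le : ∀ i, X.fine i → ∀ l, lam i l ≤ ((X.c (i + 1) : ℝ) - X.c i) / X.len i
  diag : ∀ i, X.fine i → ∀ x, Ae i (Le i x) = dg (fun l => X.len i * lam i l) (α i x)
  jun : ∀ i, X.fine i → X.fine (i + 1) → ∀ k l,
    α (i + 1) ((Ae i).symm (EuclideanSpace.single l 1)) k ≠ 0 → lam i l ≤ lam (i + 1) k + X.κ i

theorem exists_fr (hc : Coc Φ r κ) (hh : NAHyp Φ r σ)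
    (hp : ∀ k : ℕ, ‖Lm Φ 0 k‖ ≤ Real.exp (Cp - ε * k)) (hA : CF ≤ A0)
    (X : Sch σ a β CF ε Cp A0 Λ K p q mn)
    (hF : ∀ (L : ℕ → ℕ → EE n →L[ℂ] EE n) (σ : ℕ → ℝ) (c t : ℕ → ℕ) (fine : ℕ → Prop)
    (lo hi κ cst : ℕ → ℝ), StrictMono σ → StrictMono c →
    (∀ i j k, i ≤ j → j ≤ k → (L j k).comp (L i j) = L i k) →
    (∀ j k, j ≤ k → Function.Injective (L j k)) → Cvx L σ →
    (∀ i, fine i → 0 ≤ lo i ∧ CF ≤ cst i ∧ ∀ v,
      ‖L (c i) (c (i + 1)) v‖ ≤ Real.exp (-(lo i * (σ (c (i + 1)) - σ (c i)))) * ‖v‖ ∧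
      ‖v‖ ≤ Real.exp (hi i * (σ (c (i + 1)) - σ (c i))) * ‖L (c i) (c (i + 1)) v‖) →
    (∀ i, fine i → fine (i + 1) → c i < t i ∧ t i < c (i + 1) ∧ 0 < κ i ∧
      CF ≤ κ i * (σ (c (i + 1)) - σ (t i)) ∧
      CF * (1 + (σ (c (i + 1)) - σ (t i)) * (hi (i + 1) + κ i)) ≤ cst i ∧
      CF * cst (i + 1) ≤ κ i * (σ (c (i + 2)) - σ (c (i + 1)))) →
    ∃ (As Ae : ℕ → EE n ≃L[ℂ] EE n) (lam : ℕ → Fin n → ℝ), ∀ i, fine i →
      (∀ x, ‖As i x‖ ≤ Real.exp (cst i) * ‖x‖) ∧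
      (∀ x, ‖(As i).symm x‖ ≤ Real.exp (cst i) * ‖x‖) ∧
      (∀ x, ‖Ae i x‖ ≤ Real.exp (cst i) * ‖x‖) ∧
      (∀ x, ‖(Ae i).symm x‖ ≤ Real.exp (cst i) * ‖x‖) ∧
      (∀ l, lo i ≤ lam i l ∧ lam i l ≤ hi i) ∧
      (∀ x, Ae i (L (c i) (c (i + 1)) x) =
        dg (fun l => (σ (c (i + 1)) - σ (c i)) * lam i l) (As i x)) ∧
      (fine (i + 1) → ∀ k l, As (i + 1) ((Ae i).symm (EuclideanSpace.single l 1)) k ≠ 0 →
        lam i l ≤ lam (i + 1) k + κ i)) :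
    Nonempty (Fr Φ X) := by
  classical
  have hl : ∀ i, 0 < X.len i := fun i => sub_pos.2 (hh.mono (X.c_mono (Nat.lt_succ_self i)))
  obtain ⟨As, Ae, lam, H⟩ := hF (Lm Φ) σ X.c X.t X.fine X.lo
    (fun i => ((X.c (i + 1) : ℝ) - X.c i) / X.len i) X.κ (fun i => X.g i ^ 3) hh.mono X.c_mono
    (fun i j k => Lm_comp hc) (fun j k => Lm_inj hc) hh.cvx
    (fun i hi => ⟨(X.lo_pos i).le, hA.trans ((X.g_ge i).trans (X.g3 i)), fun v => ⟨by
      obtain ⟨x, y, h1, h2, h3⟩ := X.lo_le i hi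
      exact Lm_contr hc hh hp h1 h2 (X.c_mono (Nat.lt_succ_self i)) h3 v, by
      have h1 : ((X.c (i + 1) : ℝ) - X.c i) / X.len i * (σ (X.c (i + 1)) - σ (X.c i)) =
        (X.c (i + 1) : ℝ) - X.c i := div_mul_cancel₀ _ (hl i).ne'
      rw [h1]
      exact hh.inv _ _ (X.cle i) v⟩⟩) X.junc
  choose Le hLe using fun i => exists_cle _ (Lm_inj hc (X.cle i))
  have hLa : ∀ i x, Le i x = Lm Φ (X.c i) (X.c (i + 1)) x := fun i x => by rw [← hLe]; rfl
  obtain ⟨α, hα, hα'⟩ : ∃ α : ℕ → EE n ≃L[ℂ] EE n, (∀ i, X.fine i → α i = As i) ∧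
      ∀ i, ¬ X.fine i → α i = ContinuousLinearEquiv.refl ℂ (EE n) :=
    ⟨fun i => if X.fine i then As i else ContinuousLinearEquiv.refl ℂ (EE n),
      fun i h => by simp [h], fun i h => by simp [h]⟩
  have h1 : ∀ i (x : EE n), ‖x‖ ≤ Real.exp (X.g i ^ 3) * ‖x‖ := fun i x =>
    le_mul_of_one_le_left (norm_nonneg _)
      (Real.one_le_exp (by linarith [X.g3 i, X.g_one i]))
  refine ⟨{
    α := α, Le := Le, Ae := Ae, lam := lam, len_pos := hl, hLe := hLe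
    Le_le := fun i x => by simpa [hLa] using hh.nrm _ _ (X.cle i) x
    Le_inv := fun i x => by
      have := hh.inv _ _ (X.cle i) ((Le i).symm x)
      rwa [← hLa, ContinuousLinearEquiv.apply_symm_apply] at this
    α_le := fun i x => ?_
    α_inv := fun i x => ?_
    α0 := fun x => by rw [hα' 0 X.not_fine]; rfl
    Ae_le := fun i h => (H i h).2.2.1
    Ae_inv := fun i h => (H i h).2.2.2.1
    lam_ge := fun i h l => ((H i h).2.2.2.2.1 l).1
    lam_le := fun i h l => ((H i h).2.2.2.2.1 l).2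
    diag := fun i h x => by rw [hLa, hα i h]; exact (H i h).2.2.2.2.2.1 x
    jun := fun i h h' => by rw [hα _ h']; exact (H i h).2.2.2.2.2.2 h' }⟩
  · by_cases h : X.fine i
    · rw [hα i h]
      exact (H i h).1 x
    · rw [hα' i h]
      exact h1 i x
  · by_cases h : X.fine i
    · rw [hα i h]
      exact (H i h).2.1 x
    · rw [hα' i h]
      exact h1 i x

namespace Fr

variable {X : Sch σ a β CF ε Cp A0 Λ K p q mn} (F : Fr Φ X)

/-- the linear data in the adapted frames -/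
noncomputable def lin : LinD n where
  L i := (F.α i).symm.trans ((F.Le i).trans (F.α (i + 1)))
  J i := (F.Ae i).symm.trans (F.α (i + 1))
  wt i l := F.lam i l - X.E i
  len := X.len
  e i := X.len i * X.E i
  fine := X.fine
  b := X.b
  cst i := 9 * X.g i ^ 3

theorem wt_ge (i : ℕ) (h : X.fine i) (l : Fin n) : X.lo i / 2 ≤ F.lin.wt i l := by
  have h1 := F.lam_ge i h l
  have h2 := X.E_le i
  simp only [lin]
  linarith

theorem ok : F.lin.Ok a where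
  b_ge i := by
    have := X.b_ge i
    have := X.dc i
    have := X.g3 i
    have := X.g_one i
    simp only [lin]
    linarith
  cst_ge i := by
    have := X.g3 i
    have := X.g_one i
    simp only [lin]
    linarith
  b_next := X.b_next
  L_le i x := by
    have h1 := le_exp2 (F.Le_le i) (F.α_inv i) le_rfl
    have h2 := le_exp2 (z := X.b i) (F.α_le (i + 1)) h1
      (by linarith [X.b_ge i, X.dc i, X.g3 i, X.g3n i, X.g_one i]) x
    exact h2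
  L_inv i x := by
    have h1 := le_exp2 (F.Le_inv i) (F.α_inv (i + 1)) le_rfl
    have h2 := le_exp2 (z := X.b i) (F.α_le i) h1
      (by linarith [X.b_ge i, X.dc i, X.g3 i, X.g3n i, X.g_one i]) x
    exact h2
  L_eq i h x := by
    have h1 := F.diag i h ((F.α i).symm x)
    rw [ContinuousLinearEquiv.apply_symm_apply] at h1
    have h2 : (fun l => F.lin.len i * F.lin.wt i l + F.lin.e i) =
        fun l => X.len i * F.lam i l := by
      funext l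
      simp only [lin]
      ring
    rw [h2, ← h1]
    simp [lin]
  J_le i h x := by
    have h2 := le_exp2 (z := 9 * X.g i ^ 3) (F.α_le (i + 1)) (F.Ae_inv i h)
      (by linarith [X.g3n i]) x
    exact h2
  J_inv i h x := by
    have h2 := le_exp2 (z := 9 * X.g i ^ 3) (F.Ae_le i h) (F.α_inv (i + 1))
      (by linarith [X.g3n i]) x
    exact h2
  wt_pos i h l := (half_pos (X.lo_pos i)).trans_le (F.wt_ge i h l)
  len_pos i _ := F.len_pos i
  e_ge i _ := mul_nonneg (F.len_pos i).le (X.E_ge i)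
  rho_le i h l := by
    have h1 := F.lam_le i h l
    rw [le_div_iff₀ (F.len_pos i)] at h1
    have := X.b_ge i
    have := X.g3 i
    have := X.g_one i
    simp only [lin]
    linarith
  gain := X.gain

/-- the transition maps in the adapted frames -/
noncomputable def f (i : ℕ) (x : EE n) : EE n :=
  F.α (i + 1) (Φ (X.c i) (X.c (i + 1)) ((F.α i).symm x))

/-- the volume normalisation in the adapted frames -/
noncomputable def V (V0 : ℕ → EE n → EE n) (i : ℕ) (x : EE n) : EE n :=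
  F.α i (V0 (X.c i) ((F.α i).symm x))

theorem tanV {V0 : ℕ → EE n → EE n} (hV : ∀ i, Tan (Real.exp (X.g i ^ 3)) (V0 (X.c i))) (i : ℕ)
    {z : ℝ} (hz : 4 * X.g i ^ 3 ≤ z) : Tan (Real.exp z) (F.V V0 i) := by
  have h := (hV i).conj (Real.exp_pos _)
    (Real.one_le_exp (by linarith [X.g3 i, X.g_one i])) (F.α i) (F.α_le i) (F.α_inv i)
  refine h.mono (by positivity) ?_
  rw [← Real.exp_nat_mul, ← Real.exp_add]
  exact Real.exp_le_exp.2 (by push_cast; linarith)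

theorem mapOk (hc : Coc Φ r κ) (h1 : κ ≤ A0) (h2 : r⁻¹ ≤ A0) {V0 : ℕ → EE n → EE n}
    (hV : ∀ i, Tan (Real.exp (X.g i ^ 3)) (V0 (X.c i)))
    (hvol : ∀ j k, j ≤ k → ∀ᶠ x in 𝓝 (0 : EE n),
      (fderiv ℂ (V0 k) (Φ j k x)).det * (fderiv ℂ (Φ j k) x).det =
        (Lm Φ j k).det * (fderiv ℂ (V0 j) x).det) : MapOk F.lin F.f (F.V V0) := by
  have hb : ∀ i, 40 * X.g i ^ 3 ≤ X.b i := fun i => by linarith [X.b_ge i, X.dc i]
  have hg : ∀ i, 1 ≤ X.g i ^ 3 := fun i => (X.g_one i).trans (X.g3 i)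
  have hin : ∀ i, ∀ x ∈ ball (0 : EE n) (Real.exp (-X.b i)), (F.α i).symm x ∈ ball (0 : EE n) r := by
    intro i x hx
    rw [mem_ball_zero_iff] at hx ⊢
    have h3 : r⁻¹ ≤ Real.exp (X.g i ^ 3) :=
      h2.trans ((X.g_ge i).trans ((X.g3 i).trans (le_exp_self _)))
    rw [inv_le_comm₀ hc.r_pos (Real.exp_pos _), ← Real.exp_neg] at h3
    calc _ ≤ Real.exp (X.g i ^ 3) * ‖x‖ := F.α_inv i x
      _ < Real.exp (X.g i ^ 3) * Real.exp (-X.b i) := mul_lt_mul_of_pos_left hx (Real.exp_pos _)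
      _ ≤ Real.exp (-X.g i ^ 3) := by
          rw [← Real.exp_add]
          exact Real.exp_le_exp.2 (by linarith [hb i, hg i])
      _ ≤ r := h3
  have t1 : ∀ i, Tan (Real.exp (X.b i)) (F.V V0 i) := fun i =>
    F.tanV hV i (by linarith [hb i, hg i])
  have t2 : ∀ i, Tan (Real.exp (X.b i)) (F.V V0 (i + 1)) := fun i =>
    F.tanV hV (i + 1) (by linarith [hb i, hg i, X.g3n i])
  simp only [Tan, ← Real.exp_neg] at t1 t2
  refine ⟨fun i => ?_, fun i x hx => ?_, fun i => ?_, fun i => (t1 i).1, fun i => (t2 i).1,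
    fun i => (t1 i).2, fun i => (t2 i).2, fun i => ?_⟩
  · exact (F.α (i + 1)).differentiable.comp_differentiableOn
      ((hc.hol _ _ (X.cle i)).comp (F.α i).symm.differentiable.differentiableOn (hin i))
  · have h3 := hc.bd _ _ (X.cle i) _ (hin i x hx)
    have h4 : κ ≤ Real.exp (X.g i ^ 3) :=
      h1.trans ((X.g_ge i).trans ((X.g3 i).trans (le_exp_self _)))
    calc ‖F.f i x‖ ≤ Real.exp (X.g (i + 1) ^ 3) * (Real.exp (X.g i ^ 3) *
          (Real.exp (X.g i ^ 3) * ‖x‖)) :=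
          (F.α_le _ _).trans (mul_le_mul_of_nonneg_left (h3.trans
            (mul_le_mul h4 (F.α_inv i x) (norm_nonneg _) (Real.exp_pos _).le)) (Real.exp_pos _).le)
      _ = Real.exp (X.g (i + 1) ^ 3 + X.g i ^ 3 + X.g i ^ 3) * ‖x‖ := by
          rw [Real.exp_add, Real.exp_add]
          ring
      _ ≤ Real.exp (X.b i) * ‖x‖ := mul_le_mul_of_nonneg_right
          (Real.exp_le_exp.2 (by linarith [hb i, hg i, X.g3n i])) (norm_nonneg _)
  · have h3 := hasFDerivAt_Lm hc (X.cle i)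
    rw [← F.hLe, ← map_zero (F.α i).symm] at h3
    exact (F.α (i + 1)).hasFDerivAt.comp 0 (h3.comp 0 (F.α i).symm.hasFDerivAt)
  · have h3 : Tendsto (F.α i).symm (𝓝 0) (𝓝 0) := by
      simpa using (F.α i).symm.continuous.tendsto 0
    filter_upwards [h3.eventually (hvol _ _ (X.cle i))] with x hx
    have e1 := det_conj (F.α (i + 1)) (F.α (i + 1)).symm (V0 (X.c (i + 1))) (F.f i x)
    have e2 := det_conj (F.α (i + 1)) (F.α i).symm (Φ (X.c i) (X.c (i + 1))) x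
    have e3 := det_conj (F.α i) (F.α i).symm (V0 (X.c i)) x
    have e4 := det_comp3 (F.α (i + 1)) (F.α i).symm (F.Le i)
    have e5 := det_symm (F.α i)
    have e6 := det_symm (F.α (i + 1))
    rw [F.hLe] at e4
    rw [f, ContinuousLinearEquiv.symm_apply_apply] at e1
    have e7 : (F.lin.L i : EE n →L[ℂ] EE n) = (F.α (i + 1) : EE n →L[ℂ] EE n).comp
        ((Lm Φ (X.c i) (X.c (i + 1))).comp ((F.α i).symm : EE n →L[ℂ] EE n)) := by
      rw [← F.hLe]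
      rfl
    rw [e7, e4]
    refine (congrArg₂ (· * ·) e1 e2).trans (Eq.trans ?_ (congrArg₂ (· * ·) rfl e3).symm)
    generalize (F.α (i + 1) : EE n →L[ℂ] EE n).det = u at *
    generalize ((F.α (i + 1)).symm : EE n →L[ℂ] EE n).det = u' at *
    generalize (F.α i : EE n →L[ℂ] EE n).det = w at *
    generalize ((F.α i).symm : EE n →L[ℂ] EE n).det = w' at *
    linear_combination (u * w') * hx +
      (u * w' * (fderiv ℂ (V0 (X.c (i + 1))) (Φ (X.c i) (X.c (i + 1)) ((F.α i).symm x))).det *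
        (fderiv ℂ (Φ (X.c i) (X.c (i + 1))) ((F.α i).symm x)).det) * e6 -
      (u * w' * (Lm Φ (X.c i) (X.c (i + 1))).det *
        (fderiv ℂ (V0 (X.c i)) ((F.α i).symm x)).det) * e5

theorem lyap {s : ℕ → EE n ≃ EE n} (ha : 1 ≤ a) (hΛ : 0 < Λ) (h1 : (n : ℝ) ≤ A0)
    (h2 : n ≤ mn)
    (H : ∀ (I : ℕ → ℕ) (m ℓ η : ℕ → ℝ),
      StrictMono I → (∀ k, 0 < m k) → Monotone m → (∀ k, 0 < ℓ k) → ¬ Summable ℓ →
      (∀ k, m (k + 1) * ℓ (k + 1) ≤ Λ * (m k * ℓ k)) →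
      (∀ k i, I k ≤ i → i < I (k + 1) → F.lin.b i ≤ 2 * (m k * ℓ k)) →
      (∀ i, 0 ≤ η i) → Summable η →
      (∀ k, ¬ (m (k + 1) ≤ K * m k ∧ m (k + 2) ≤ K * m (k + 1)) →
        I (k + 2) ≤ I (k + 1) + q ∧ ∀ i, I (k + 1) ≤ i → i < I (k + 2) → ¬ F.lin.fine i) →
      (∀ k, m (k + 1) ≤ K * m k ∧ m (k + 2) ≤ K * m (k + 1) →
        ℓ (k + 1) ≤ ∑ i ∈ Finset.Ico (I (k + 1)) (I (k + 2)), F.lin.len i ∧
        ∀ i, I (k + 1) ≤ i → i < I (k + 2) → F.lin.fine i ∧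
          ∀ l, (2 * Λ)⁻¹ * m k ≤ F.lin.wt i l ∧ F.lin.wt i l ≤ m (k + 2)) →
      (∀ i, F.lin.fine i → a + F.lin.cst i + n ≤ a * F.lin.b i) →
      (∀ i, F.lin.fine i → F.lin.fine (i + 1) → ∀ k,
        a * max (F.lin.b (i + 1) - F.lin.b i) 0 + a + F.lin.cst i + n ≤
          F.lin.len i * F.lin.wt (i + 1) k / 4 ∧
        ∀ l, F.lin.J i (EuclideanSpace.single l 1) k ≠ 0 →
          F.lin.wt i l ≤ (1 + η i) * F.lin.wt (i + 1) k) →
      ∀ (R : ℝ) (i0 : ℕ), ∃ i, i0 ≤ i ∧ ∀ x : EE n, ‖x‖ ≤ R →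
        ‖orb (fun j y => F.lin.L j (s j y)) i x‖ ≤ 1) :
    ∀ (R : ℝ) (i0 : ℕ), ∃ i, i0 ≤ i ∧ ∀ x : EE n, ‖x‖ ≤ R →
        ‖orb (fun j y => F.lin.L j (s j y)) i x‖ ≤ 1 := by
  refine H X.I X.mm X.ℓ X.η X.I_mono X.mm_pos X.mm_mono X.ℓ_pos X.ℓ_sum X.mℓ X.b_blk X.η_ge
    X.η_sum X.crude (fun k hk => ?_) (fun i _ => ?_) (fun i h h' k => ⟨?_, fun l hl => ?_⟩)
  · obtain ⟨h3, h4⟩ := X.fin k hk
    refine ⟨le_of_eq ?_, fun i h5 h6 => ?_⟩
    · rw [h3]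
      exact (Finset.sum_Ico_sub (fun i => σ (X.c i)) (X.I_mono (Nat.lt_succ_self _)).le).symm
    · obtain ⟨h7, h8, h9⟩ := h4 i h5 h6
      refine ⟨h7, fun l => ⟨le_trans (le_of_eq ?_) (F.wt_ge i h7 l), ?_⟩⟩
      · rw [h8]
        field_simp
      · have := (F.lam_le i h7 l).trans h9
        have := X.E_ge i
        simp only [lin]
        linarith
  · have h3 : 1 + 39 * X.g i ^ 3 ≤ X.b i := by linarith [X.b_ge i, X.dc i, X.g3 i, X.g_one i]
    have h4 := mul_le_mul_of_nonneg_left h3 (by linarith : 0 ≤ a)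
    have h5 := mul_le_mul_of_nonneg_right ha (by linarith [X.g3 i, X.g_one i] : 0 ≤ X.g i ^ 3)
    simp only [lin]
    linarith [X.g3 i, X.g_ge i, X.g_one i]
  · have h3 := X.j1 i h h'
    have h4 := mul_le_mul_of_nonneg_left (F.wt_ge (i + 1) h' k) (F.len_pos i).le
    have h5 : (n : ℝ) ≤ mn := by exact_mod_cast h2
    simp only [lin, Sch.len] at h4 ⊢
    linarith
  · have h3 := F.jun i h h' k l hl
    have h4 := X.j2 i h h'
    have h5 := mul_le_mul_of_nonneg_left (F.wt_ge (i + 1) h' k) (X.η_ge i)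
    simp only [lin] at h5 ⊢
    linarith

theorem nfp {D : ℝ} {m J0 : ℕ} {V0 : ℕ → EE n → EE n} {ν s : ℕ → EE n ≃ EE n} (ha : 1 ≤ a)
    (hp : p ≠ 0) (h1 : (J0 : ℝ) ≤ A0) (h2 : m ≤ mn)
    (hV : ∀ i, Tan (Real.exp (X.g i ^ 3)) (V0 (X.c i)))
    (hν : ∀ i, Aut D (a * X.b i) (ν i)) (hs : ∀ i, Aut D (a * X.b i) (s i))
    (hN : ∀ i x, ‖x‖ ≤ Real.exp (-(a * X.b i)) →
      ‖ν (i + 1) (F.V V0 (i + 1) (F.f i x)) - F.lin.L i (s i (ν i (F.V V0 i x)))‖ ≤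
        Real.exp (a * X.b i) * ‖x‖ ^ (m + 1))
    (hO : ∀ (R : ℝ) (i0 : ℕ), ∃ i, i0 ≤ i ∧ ∀ x : EE n, ‖x‖ ≤ R →
      ‖orb (fun j y => F.lin.L j (s j y)) i x‖ ≤ 1) : NFP Φ m β J0 := by
  have hg : ∀ i, 1 ≤ X.g i ^ 3 := fun i => (X.g_one i).trans (X.g3 i)
  have hb : ∀ i, 40 * X.g i ^ 3 ≤ a * X.b i := fun i => by
    have h3 : 40 * X.g i ^ 3 ≤ X.b i := by linarith [X.b_ge i, X.dc i]
    exact h3.trans (le_mul_of_one_le_left (by linarith [hg i]) ha)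
  have hm : ∀ i, a * X.b i + (m + 50) * X.g i ^ 3 ≤ β * X.c i := fun i => by
    have h3 : (m : ℝ) ≤ mn := by exact_mod_cast h2
    have := mul_le_mul_of_nonneg_right h3 (by linarith [hg i] : 0 ≤ X.g i ^ 3)
    linarith [X.b_le i]
  have hm0 : ∀ i, 0 ≤ (m : ℝ) * X.g i ^ 3 := fun i =>
    mul_nonneg (Nat.cast_nonneg _) (by linarith [hg i])
  have cj : ∀ i {z : ℝ} {u : EE n → EE n}, z ≤ a * X.b i + 2 → Tan (Real.exp z) u →
      Tan (Real.exp (β * X.c i)) (fun x => (F.α i).symm (u (F.α i x))) := by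
    intro i z u hz hu
    refine (hu.conj (Real.exp_pos _) (Real.one_le_exp (by linarith [hg i])) (F.α i).symm
      (F.α_inv i) (F.α_le i)).mono (by positivity) ?_
    rw [← Real.exp_nat_mul, ← Real.exp_add]
    exact Real.exp_le_exp.2 (by push_cast; linarith [hm i, hm0 i, hg i])
  have hL : ∀ i y, Lm Φ (X.c i) (X.c (i + 1)) ((F.α i).symm y) =
      (F.α (i + 1)).symm (F.lin.L i y) := by
    intro i y
    rw [← F.hLe]
    simp [lin]
  refine ⟨X.c, fun i x => (F.α i).symm (ν i (F.V V0 i (F.α i x))),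
    fun i => (F.α i).toEquiv.trans ((s i).trans (F.α i).symm.toEquiv), X.c_mono, ?_, X.c_two,
    fun i => ?_, fun i => ?_, fun i => ?_, fun i => ?_, fun i => ?_, fun i x hx => ?_,
    fun R i0 => ?_⟩
  · have : (J0 : ℝ) ≤ X.c 0 := by
      rw [X.c_eq]
      exact h1.trans ((X.g_ge 0).trans (le_self_pow₀ (X.g_one 0) hp))
    exact_mod_cast this
  · refine cj i le_rfl (u := fun x => ν i (F.V V0 i x)) ?_
    refine ((tan_of_aut (hν i)).1.comp (F.tanV hV i (by linarith [hb i, hg i]))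
      (Real.exp_pos _)).mono (by positivity) ?_
    rw [Real.exp_add, mul_comm]
    exact mul_le_mul_of_nonneg_left (by linarith [Real.add_one_le_exp (2 : ℝ)]) (Real.exp_pos _).le
  · exact (F.α i).symm.differentiable.comp ((hs i).hol.comp (F.α i).differentiable)
  · exact (F.α i).symm.differentiable.comp ((hs i).hol'.comp (F.α i).differentiable)
  · exact cj i (by linarith) (tan_of_aut (hs i)).1
  · exact cj i (by linarith) (tan_of_aut (hs i)).2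
  · have h3 : ‖F.α i x‖ ≤ Real.exp (-(a * X.b i)) :=
      calc _ ≤ Real.exp (X.g i ^ 3) * ‖x‖ := F.α_le i x
        _ ≤ Real.exp (X.g i ^ 3) * Real.exp (-(β * X.c i)) :=
          mul_le_mul_of_nonneg_left hx (Real.exp_pos _).le
        _ ≤ _ := by
          rw [← Real.exp_add]
          exact Real.exp_le_exp.2 (by linarith [hm i, hm0 i, hg i])
    have h4 := hN i _ h3
    have h5 : F.f i (F.α i x) = F.α (i + 1) (Φ (X.c i) (X.c (i + 1)) x) := by simp [f]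
    rw [h5] at h4
    have h6 : ((F.α i).toEquiv.trans ((s i).trans (F.α i).symm.toEquiv))
        ((F.α i).symm (ν i (F.V V0 i (F.α i x)))) =
        (F.α i).symm (s i (ν i (F.V V0 i (F.α i x)))) := by simp
    beta_reduce
    rw [h6, hL, ← map_sub]
    calc _ ≤ Real.exp (X.g (i + 1) ^ 3) * (Real.exp (a * X.b i) *
          (Real.exp (X.g i ^ 3) * ‖x‖) ^ (m + 1)) :=
          (F.α_inv _ _).trans (mul_le_mul_of_nonneg_left (h4.trans (mul_le_mul_of_nonneg_left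
            (pow_le_pow_left₀ (norm_nonneg _) (F.α_le i x) _) (Real.exp_pos _).le))
            (Real.exp_pos _).le)
      _ = Real.exp (X.g (i + 1) ^ 3 + a * X.b i + ((m + 1 : ℕ) : ℝ) * X.g i ^ 3) *
          ‖x‖ ^ (m + 1) := by
          rw [Real.exp_add, Real.exp_add, Real.exp_nat_mul]
          ring
      _ ≤ _ := mul_le_mul_of_nonneg_right
          (Real.exp_le_exp.2 (by push_cast; linarith [hm i, hg i, X.g3n i])) (by positivity)
  · obtain ⟨i, hi, h3⟩ := hO R i0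
    refine ⟨i, hi, fun x hx => ?_⟩
    have h4 : ∀ i, orb (fun j y => Lm Φ (X.c j) (X.c (j + 1))
        (((F.α j).toEquiv.trans ((s j).trans (F.α j).symm.toEquiv)) y)) i x =
        (F.α i).symm (orb (fun j y => F.lin.L j (s j y)) i x) := by
      intro i
      induction i with
      | zero => exact ((F.α 0).eq_symm_apply).2 (F.α0 x)
      | succ i ih =>
        simp only [orb, Function.comp_apply]
        rw [ih, ← hL]
        simp
    rw [h4]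
    refine (F.α_inv i _).trans ((mul_le_of_le_one_right (Real.exp_pos _).le (h3 x hx)).trans ?_)
    exact Real.exp_le_exp.2 (by linarith [hm i, hm0 i, hg i, hb i])

end Fr

theorem schedStmt (hF : FlagStmt n) (hN : NFStmt n) (hL : LyapStmt n) : SchedStmt n := by
  intro Φ r κ σ _ hc hh hV m β J0 hβ
  obtain ⟨a, D, ha, hD, hN⟩ := hN m
  obtain ⟨CF, hCF, hF⟩ := hF
  obtain ⟨ε, Cp, hε, -, hp⟩ := Lm_pinch hc hh
  obtain ⟨CV, pV, V0, hCV, hV, hvol⟩ := hV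
  have h2 : Tendsto (fun k : ℕ => (2 : ℝ) ^ k) atTop atTop :=
    tendsto_pow_atTop_atTop_of_one_lt (by norm_num)
  obtain ⟨e, he⟩ : ∃ e : ℕ, 4 ≤ ε * 2 ^ (e + 8) := by
    obtain ⟨e, he⟩ := (h2.eventually_ge_atTop (4 / ε)).exists
    refine ⟨e, ?_⟩
    rw [div_le_iff₀ hε, mul_comm] at he
    exact he.trans (mul_le_mul_of_nonneg_left (pow_le_pow_right₀ (by norm_num) (by omega)) hε.le)
  obtain ⟨δ, hδ, hδ1, hδa⟩ : ∃ δ : ℝ, 0 < δ ∧ δ ≤ 1 ∧ 2 * a * δ ≤ β := by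
    refine ⟨min 1 (β / (2 * a)), by positivity, min_le_left _ _, ?_⟩
    rw [mul_comm, ← le_div_iff₀ (by positivity)]
    exact min_le_right _ _
  obtain ⟨q0, hq⟩ : ∃ q0 : ℕ, (1 + ((2 : ℝ) ^ q0)⁻¹) ^ (e + 8) ≤ 1 + δ / 2 := by
    have h3 := ((tendsto_inv_atTop_zero.comp h2).const_add 1).pow (e + 8)
    rw [add_zero, one_pow] at h3
    exact (h3.eventually_le_const (by linarith : (1 : ℝ) < 1 + δ / 2)).exists
  have hΛ : (1 : ℝ) ≤ 2 ^ (e + 8) := one_le_pow₀ (by norm_num)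
  obtain ⟨K, hK, hL⟩ := hL a D (2 ^ (e + 8)) (2 * 2 ^ (e + 8))⁻¹ 2 (2 ^ q0) ha hD hΛ
    (by positivity) (inv_le_one_of_one_le₀ (by linarith)) (by norm_num)
  obtain ⟨A0, A1, A2, A3, A4, A5, A6, A7⟩ : ∃ A0 : ℝ, CF ≤ A0 ∧ (J0 : ℝ) ≤ A0 ∧ κ ≤ A0 ∧
      r⁻¹ ≤ A0 ∧ CV ≤ A0 ∧ (1 + (e + 9) * pV : ℝ) ≤ A0 ∧ (n : ℝ) ≤ A0 :=
    ((eventually_ge_atTop _).and ((eventually_ge_atTop _).and ((eventually_ge_atTop _).and
      ((eventually_ge_atTop _).and ((eventually_ge_atTop _).and ((eventually_ge_atTop _).and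
      (eventually_ge_atTop _))))))).exists
  obtain ⟨X⟩ := exists_sch (Cp := Cp) (A0 := A0) (mn := m + n) hh.mono hh.top
    (fun x y z w => mean_le hh) ha hβ hCF hK he hδ hδ1 hδa hq
  obtain ⟨F⟩ := exists_fr hc hh hp A1 X hF
  have hV' : ∀ i, Tan (Real.exp (X.g i ^ 3)) (V0 (X.c i)) := by
    intro i
    have hg := X.g_one i
    refine (hV _).mono (by positivity) ?_
    have h3 : (X.c i : ℝ) + 1 ≤ Real.exp (X.g i) ^ (e + 9) := by
      rw [X.c_eq, pow_succ _ (e + 8)]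
      have h4 : X.g i ^ (e + 8) ≤ Real.exp (X.g i) ^ (e + 8) :=
        pow_le_pow_left₀ (by linarith) (le_exp_self _) _
      have h5 : 1 ≤ X.g i ^ (e + 8) := one_le_pow₀ hg
      have h6 := mul_le_mul_of_nonneg_left
        (by linarith [Real.add_one_le_exp (X.g i)] : 2 ≤ Real.exp (X.g i))
        (by linarith : 0 ≤ Real.exp (X.g i) ^ (e + 8))
      linarith
    calc CV * ((X.c i : ℝ) + 1) ^ pV ≤ Real.exp (X.g i) * (Real.exp (X.g i) ^ (e + 9)) ^ pV :=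
          mul_le_mul (A5.trans ((X.g_ge i).trans (le_exp_self _)))
            (pow_le_pow_left₀ (by positivity) h3 _) (by positivity) (Real.exp_pos _).le
      _ = Real.exp ((1 + (e + 9) * pV) * X.g i) := by
          rw [← pow_mul, ← Real.exp_nat_mul, ← Real.exp_add]
          congr 1
          push_cast
          ring
      _ ≤ _ := Real.exp_le_exp.2 (by
          have h4 := mul_le_mul_of_nonneg_right (A6.trans (X.g_ge i)) (by linarith : 0 ≤ X.g i)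
          have h5 : X.g i ^ 2 ≤ X.g i ^ 3 := pow_le_pow_right₀ hg (by norm_num)
          linarith)
  obtain ⟨ν, s, hν, -, hs, hly, hN⟩ := hN F.lin F.f (F.V V0) F.ok (F.mapOk hc A3 A4 hV' hvol)
  exact F.nfp ha (by omega) A2 (Nat.le_add_right _ _) hV' hν hs hN
    (F.lyap ha (by positivity) A7 (Nat.le_add_left _ _)
      fun I mm ℓ η => hL K le_rfl F.lin s I mm ℓ η F.ok hs hly)

end Crest.Agent.T223.Na
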