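import Crest.Agent.R273.Levi_145
import Crest.Agent.R273.C0a_390
import Crest.Agent.T223.Hm0_77

/-!
# Row 223, module NFORM (helper79), part 1: Levi forms in one chart

* `hq_hess`      : `Hm.hq (hess u z) v = lev u z v`
* `lev_nsq`      : `|s|² / w` is plurisubharmonic if `s` is holomorphic and `-log w` is psh
* `lev_near`     : uniform strict positivity near a point
* `bd_cpt`       : bounds for first and second derivatives on a compact set
* `pole`, `lev_pole` : `log (pole + δ)` has Levi form bounded below uniformly in `δ`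
-/

set_option autoImplicit false
set_option linter.unusedSectionVars false
set_option maxSynthPendingDepth 3

open Set Filter Topology Complex Matrix Metric
open scoped ContDiff Matrix ComplexConjugate ComplexOrder

namespace Crest.Agent.T223.Nf

open Crest.Agent.R275.Geo
open Crest.Agent.R273.Hess_333 (hess)
open Crest.Agent.R273.Levi_145

noncomputable section

variable {n : ℕ}

theorem two_le : (2 : WithTop ℕ∞) ≤ ∞ := WithTop.coe_le_coe.2 (le_top : (2 : ℕ∞) ≤ ⊤)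

theorem lev4 (u : Cn n → ℝ) (z v : Cn n) :
    Crest.Agent.R273.Defs_333.lev u z v = 4 * lev u z v := by
  simp only [Crest.Agent.R273.Defs_333.lev, lev, iteratedFDeriv_two_apply]
  simp only [Matrix.cons_val_zero, Matrix.cons_val_one]
  ring

theorem hq_hess {u : Cn n → ℝ} {z : Cn n} (hu : ContDiffAt ℝ ∞ u z) (v : Fin n → ℂ) :
    Hm.hq (hess u z) v = lev u z (WithLp.toLp 2 v) := by
  have h1 := Crest.Agent.R273.Hess_333.lev_eq hu (WithLp.toLp 2 v)
  rw [lev4] at h1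
  have h2 : ((lev u z (WithLp.toLp 2 v) : ℝ) : ℂ) =
      Crest.Agent.R273.Hess_333.hq u z (WithLp.toLp 2 v) := by
    push_cast at h1
    linear_combination (1 / 4 : ℂ) * h1
  have h3 : star v ⬝ᵥ ((hess u z)ᵀ *ᵥ v) =
      Crest.Agent.R273.Hess_333.hq u z (WithLp.toLp 2 v) := by
    unfold Crest.Agent.R273.Hess_333.hq
    simp only [dotProduct, Matrix.mulVec, Matrix.transpose_apply, Pi.star_apply, Finset.mul_sum]
    rw [Finset.sum_comm]
    refine Finset.sum_congr rfl fun a _ => Finset.sum_congr rfl fun b _ => ?_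
    simp only [RCLike.star_def]
    ring
  unfold Hm.hq
  rw [h3, ← h2, Complex.ofReal_re]

theorem lev_of_psd {u : Cn n → ℝ} {z : Cn n} (hu : ContDiffAt ℝ ∞ u z)
    (h : (hess u z).PosSemidef) (v : Cn n) : 0 ≤ lev u z v := by
  have h1 := Crest.Agent.R273.HessB_333.lev_nonneg_of_posSemidef hu h v
  rw [lev4] at h1
  linarith

theorem lev_of_pd {u : Cn n → ℝ} {z : Cn n} (hu : ContDiffAt ℝ ∞ u z)
    (h : (hess u z).PosDef) {v : Cn n} (hv : v ≠ 0) : 0 < lev u z v := by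
  have h1 := Crest.Agent.R273.HessB_333.lev_pos_of_posDef hu h hv
  rw [lev4] at h1
  linarith

theorem psd_of_lev {u : Cn n → ℝ} {z : Cn n} (hu : ContDiffAt ℝ ∞ u z)
    (h : ∀ v, 0 ≤ lev u z v) : (hess u z).PosSemidef :=
  Crest.Agent.R273.HessB_333.posSemidef_hess hu fun v => by
    rw [lev4]
    have := h v
    linarith

theorem lev_localMin {u : Cn n → ℝ} {z : Cn n} (hu : ContDiffAt ℝ 2 u z) (hm : IsLocalMin u z)
    (v : Cn n) : 0 ≤ lev u z v := by
  unfold lev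
  have h1 := Crest.Agent.R273.C0a_390.fderiv2_nonneg hu hm v
  have h2 := Crest.Agent.R273.C0a_390.fderiv2_nonneg hu hm (I • v)
  linarith

/-- the squared norm of a holomorphic section of a seminegative bundle is plurisubharmonic -/
theorem lev_nsq {s : Cn n → ℂ} {w : Cn n → ℝ} {z : Cn n} (hs : AnalyticAt ℂ s z)
    (hw : ContDiffAt ℝ 2 w z) (h0 : 0 < w z) (hp : ∀ v, 0 ≤ lev (fun y => -Real.log (w y)) z v)
    (v : Cn n) : 0 ≤ lev (fun y => ‖s y‖ ^ 2 / w y) z v := by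
  have hwp : ∀ᶠ y in 𝓝 z, 0 < w y := hw.continuousAt.eventually (lt_mem_nhds h0)
  by_cases hz : s z = 0
  · refine lev_localMin ((c2_normSq hs 2).div hw h0.ne') ?_ v
    filter_upwards [hwp] with y hy
    change ‖s z‖ ^ 2 / w z ≤ ‖s y‖ ^ 2 / w y
    rw [hz]
    simp only [norm_zero, ne_eq, OfNat.ofNat_ne_zero, not_false_eq_true, zero_pow, zero_div]
    positivity
  · have hsp : ∀ᶠ y in 𝓝 z, s y ≠ 0 := hs.continuousAt.eventually_ne hz
    have h1 : ContDiffAt ℝ 2 (fun y => Real.log (‖s y‖ ^ 2)) z :=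
      (c2_normSq hs 2).log (by positivity)
    have h2 : ContDiffAt ℝ 2 (fun y => -Real.log (w y)) z := (hw.log h0.ne').neg
    have h3 : (fun y => ‖s y‖ ^ 2 / w y) =ᶠ[𝓝 z]
        fun y => Real.exp (Real.log (‖s y‖ ^ 2) + -Real.log (w y)) := by
      filter_upwards [hwp, hsp] with y hy hy2
      rw [Real.exp_add, Real.exp_neg, Real.exp_log hy, Real.exp_log (by positivity),
        div_eq_mul_inv]
    rw [lev_congr h3, lev_exp (u := fun y => Real.log (‖s y‖ ^ 2) + -Real.log (w y)) (h1.add h2),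
      lev_add h1 h2, lev_log_normSq hs hz]
    have := hp v
    positivity

theorem abs_lev_le (u : Cn n → ℝ) (z v : Cn n) :
    |lev u z v| ≤ ‖fderiv ℝ (fderiv ℝ u) z‖ * ‖v‖ ^ 2 := by
  set B := fderiv ℝ (fderiv ℝ u) z
  have h1 : ∀ w : Cn n, |B w w| ≤ ‖B‖ * ‖w‖ ^ 2 := fun w => by
    have := B.le_opNorm₂ w w
    rw [Real.norm_eq_abs] at this
    nlinarith
  have h2 := h1 v
  have h3 := h1 (I • v)
  rw [norm_smul, Complex.norm_I, one_mul] at h3
  have h4 : 0 ≤ ‖B‖ * ‖v‖ ^ 2 := by positivity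
  have h5 : lev u z v = (B v v + B (I • v) (I • v)) / 4 := rfl
  rw [h5, abs_le]
  rw [abs_le] at h2 h3
  constructor <;> linarith [h2.1, h2.2, h3.1, h3.2]

theorem norm_gr_le {u : Cn n → ℝ} {z : Cn n} (hu : DifferentiableAt ℝ u z) (v : Cn n) :
    ‖gr u z v‖ ^ 2 ≤ ‖fderiv ℝ u z‖ ^ 2 * ‖v‖ ^ 2 := by
  rw [norm_gr_sq hu]
  set B := fderiv ℝ u z
  have h1 : ∀ w : Cn n, (B w) ^ 2 ≤ ‖B‖ ^ 2 * ‖w‖ ^ 2 := fun w => by
    have := B.le_opNorm w
    rw [Real.norm_eq_abs] at this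
    rw [← mul_pow, ← sq_abs (B w)]
    exact pow_le_pow_left₀ (abs_nonneg _) this 2
  have h2 := h1 v
  have h3 := h1 (I • v)
  rw [norm_smul, Complex.norm_I, one_mul] at h3
  have h4 : 0 ≤ ‖B‖ ^ 2 * ‖v‖ ^ 2 := by positivity
  linarith

/-- uniform positivity near a point -/
theorem lev_near {u : Cn n → ℝ} {z0 : Cn n} (hu : ContDiffAt ℝ ∞ u z0)
    (h : (hess u z0).PosDef) :
    ∃ c : ℝ, 0 < c ∧ ∀ᶠ z in 𝓝 z0, ∀ v, c * ‖v‖ ^ 2 ≤ lev u z v := by
  set B := fun z => fderiv ℝ (fderiv ℝ u) z with hB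
  have hc : Continuous fun v : Cn n => lev u z0 v := by
    have h1 : Continuous fun v : Cn n => B z0 v v := (B z0).continuous.clm_apply continuous_id
    have h2 : Continuous fun v : Cn n => I • v := continuous_id.const_smul I
    exact (h1.add (h1.comp h2)).div_const 4
  obtain ⟨c, hc0, hc1⟩ := (isCompact_sphere (0 : Cn n) 1).exists_forall_le' hc.continuousOn
    (a := 0) (fun v hv => lev_of_pd hu h (by
      rw [mem_sphere_zero_iff_norm] at hv
      intro h0
      rw [h0, norm_zero] at hv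
      exact zero_ne_one hv))
  have h0 : ∀ v, c * ‖v‖ ^ 2 ≤ lev u z0 v := by
    intro v
    rcases eq_or_ne v 0 with rfl | hv
    · simp [lev_zero]
    · have hn : ‖v‖ ≠ 0 := norm_ne_zero_iff.2 hv
      have hn' : ((‖v‖ : ℝ) : ℂ) ≠ 0 := by exact_mod_cast hn
      have e : v = ((‖v‖ : ℝ) : ℂ) • ((((‖v‖ : ℝ) : ℂ))⁻¹ • v) := by
        rw [smul_smul, mul_inv_cancel₀ hn', one_smul]
      have h1 : (((‖v‖ : ℝ) : ℂ))⁻¹ • v ∈ sphere (0 : Cn n) 1 := by
        rw [mem_sphere_zero_iff_norm, norm_smul, norm_inv, Complex.norm_real, norm_norm,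
          inv_mul_cancel₀ hn]
      have h2 := hc1 _ h1
      have h3 := lev_smul (hu.of_le two_le) ((‖v‖ : ℝ) : ℂ) ((((‖v‖ : ℝ) : ℂ))⁻¹ • v)
      rw [← e, Complex.norm_real, norm_norm] at h3
      rw [h3, mul_comm]
      exact mul_le_mul_of_nonneg_left h2 (by positivity)
  have hBc : ContinuousAt B z0 := by
    have h1 : ContDiffAt ℝ 1 (fderiv ℝ u) z0 := (hu.of_le two_le).fderiv_right (by norm_num)
    have h2 : ContDiffAt ℝ 0 (fderiv ℝ (fderiv ℝ u)) z0 := h1.fderiv_right (by norm_num)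
    exact h2.continuousAt
  refine ⟨c / 2, by positivity, ?_⟩
  have h3 : ∀ᶠ z in 𝓝 z0, ‖B z - B z0‖ < c := by
    have := hBc.eventually (ball_mem_nhds (B z0) hc0)
    filter_upwards [this] with z hz
    rwa [← dist_eq_norm]
  filter_upwards [h3] with z hz v
  have h1 : ∀ w : Cn n, |(B z - B z0) w w| ≤ c * ‖w‖ ^ 2 := fun w => by
    have h4 := (B z - B z0).le_opNorm₂ w w
    rw [Real.norm_eq_abs] at h4
    have h5 : ‖B z - B z0‖ * (‖w‖ * ‖w‖) ≤ c * (‖w‖ * ‖w‖) :=
      mul_le_mul_of_nonneg_right hz.le (by positivity)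
    nlinarith
  have h4 := h1 v
  have h5 := h1 (I • v)
  rw [norm_smul, Complex.norm_I, one_mul] at h5
  have h6 := h0 v
  have e1 : lev u z v = (B z v v + B z (I • v) (I • v)) / 4 := rfl
  have e2 : lev u z0 v = (B z0 v v + B z0 (I • v) (I • v)) / 4 := rfl
  simp only [_root_.sub_apply] at h4 h5
  rw [abs_le] at h4 h5
  rw [e1]
  rw [e2] at h6
  linarith [h4.1, h5.1]

/-- bounds on a compact set -/
theorem bd_cpt {u : Cn n → ℝ} (hu : ContDiff ℝ ∞ u) {S : Set (Cn n)} (hS : IsCompact S) :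
    ∃ C : ℝ, 0 ≤ C ∧ ∀ z ∈ S, ∀ v, |lev u z v| ≤ C * ‖v‖ ^ 2 ∧ ‖gr u z v‖ ^ 2 ≤ C * ‖v‖ ^ 2 := by
  have h1 : ContDiff ℝ 1 (fderiv ℝ u) := (hu.of_le two_le).fderiv_right (by norm_num)
  have h2 : Continuous (fderiv ℝ (fderiv ℝ u)) := h1.continuous_fderiv (by norm_num)
  obtain ⟨C1, hC1⟩ := hS.exists_bound_of_continuousOn h1.continuous.continuousOn
  obtain ⟨C2, hC2⟩ := hS.exists_bound_of_continuousOn h2.continuousOn
  refine ⟨C1 ^ 2 + |C2|, by positivity, fun z hz v => ⟨?_, ?_⟩⟩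
  · refine (abs_lev_le u z v).trans (mul_le_mul_of_nonneg_right ?_ (by positivity))
    have := hC2 z hz
    have := le_abs_self C2
    nlinarith [sq_nonneg C1]
  · refine (norm_gr_le (hu.differentiable (by simp) z) v).trans
      (mul_le_mul_of_nonneg_right ?_ (by positivity))
    have h3 := pow_le_pow_left₀ (norm_nonneg _) (hC1 z hz) 2
    have := abs_nonneg C2
    linarith

/-- `|z - z0|²` near `z0`, `1` far away -/
def pole {z0 : Cn n} (b : ContDiffBump z0) (z : Cn n) : ℝ := b z * ‖z - z0‖ ^ 2 + (1 - b z)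

theorem pole_smooth {z0 : Cn n} (b : ContDiffBump z0) : ContDiff ℝ ∞ (pole b) := by
  unfold pole
  have h1 : ContDiff ℝ ∞ (fun z : Cn n => ‖z - z0‖ ^ 2) := (contDiff_id.sub contDiff_const).norm_sq ℝ
  exact (b.contDiff.mul h1).add (contDiff_const.sub b.contDiff)

theorem pole_nonneg {z0 : Cn n} (b : ContDiffBump z0) (z : Cn n) : 0 ≤ pole b z := by
  unfold pole
  have h1 : 0 ≤ b z := b.nonneg
  have h2 : b z ≤ 1 := b.le_one
  have h3 : 0 ≤ b z * ‖z - z0‖ ^ 2 := by positivity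
  linarith

theorem pole_le {z0 : Cn n} (b : ContDiffBump z0) (z : Cn n) : pole b z ≤ b.rOut ^ 2 + 1 := by
  unfold pole
  have h1 : 0 ≤ b z := b.nonneg
  have h2 : b z ≤ 1 := b.le_one
  by_cases hz : b.rOut ≤ dist z z0
  · rw [b.zero_of_le_dist hz]
    nlinarith [sq_nonneg b.rOut]
  · rw [not_le, dist_eq_norm] at hz
    have h3 : ‖z - z0‖ ^ 2 ≤ b.rOut ^ 2 := pow_le_pow_left₀ (norm_nonneg _) hz.le 2
    nlinarith [sq_nonneg ‖z - z0‖]

theorem pole_ge {z0 : Cn n} (b : ContDiffBump z0) {z : Cn n} (hz : z ∉ ball z0 b.rIn) :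
    min (b.rIn ^ 2) 1 ≤ pole b z := by
  unfold pole
  have h1 : 0 ≤ b z := b.nonneg
  have h2 : b z ≤ 1 := b.le_one
  rw [mem_ball, not_lt, dist_eq_norm] at hz
  have h3 : b.rIn ^ 2 ≤ ‖z - z0‖ ^ 2 := pow_le_pow_left₀ b.rIn_pos.le hz 2
  have h4 := min_le_left (b.rIn ^ 2) 1
  have h5 := min_le_right (b.rIn ^ 2) 1
  nlinarith [mul_le_mul_of_nonneg_left (h4.trans h3) h1,
    mul_le_mul_of_nonneg_left h5 (sub_nonneg.2 h2)]

theorem pole_zero {z0 : Cn n} (b : ContDiffBump z0) : pole b z0 = 0 := by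
  unfold pole
  rw [b.one_of_mem_closedBall (mem_closedBall_self b.rIn_pos.le)]
  simp

theorem lev_pole {z0 : Cn n} (b : ContDiffBump z0) : ∃ Λ : ℝ, 0 ≤ Λ ∧ ∀ δ : ℝ, 0 < δ →
    ∀ z ∈ closedBall z0 b.rOut, ∀ v,
      -(Λ * ‖v‖ ^ 2) ≤ lev (fun w => Real.log (pole b w + δ)) z v := by
  obtain ⟨C, hC0, hC⟩ := bd_cpt (pole_smooth b) (isCompact_closedBall z0 b.rOut)
  set c : ℝ := min (b.rIn ^ 2) 1 with hc
  have hc0 : 0 < c := lt_min (pow_pos b.rIn_pos 2) one_pos
  refine ⟨C / c + C / c ^ 2, by positivity, fun δ hδ z hz v => ?_⟩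
  by_cases hin : z ∈ ball z0 b.rIn
  · set F : Option (Fin n) → Cn n → ℂ := fun j w =>
      match j with
      | none => ((Real.sqrt δ : ℝ) : ℂ)
      | some a => w a - z0 a with hF
    have hFa : ∀ j, AnalyticAt ℂ (F j) z := by
      intro j
      cases j with
      | none => exact analyticAt_const
      | some a =>
        exact ((EuclideanSpace.proj a : Cn n →L[ℂ] ℂ).analyticAt z).sub analyticAt_const
    have h0 : ∃ j, F j z ≠ 0 := ⟨none, by
      have : Real.sqrt δ ≠ 0 := (Real.sqrt_pos.2 hδ).ne'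
      simpa [hF] using this⟩
    have h1 : (fun w => Real.log (pole b w + δ)) =ᶠ[𝓝 z] fun w => Real.log (sumSq F w) := by
      filter_upwards [isOpen_ball.mem_nhds hin] with w hw
      congr 1
      unfold pole sumSq
      rw [b.one_of_mem_closedBall (ball_subset_closedBall hw), Fintype.sum_option,
        EuclideanSpace.norm_sq_eq]
      simp only [hF, Complex.norm_real, Real.norm_eq_abs, sq_abs, Real.sq_sqrt hδ.le,
        PiLp.sub_apply]
      ring
    rw [lev_congr h1]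
    have h2 := lev_log_sumSq_nonneg hFa h0 v
    have h3 : 0 ≤ (C / c + C / c ^ 2) * ‖v‖ ^ 2 := by positivity
    linarith
  · have h1 : c ≤ pole b z + δ := by
      have := pole_ge b hin
      linarith
    have h2 : ContDiffAt ℝ 2 (pole b) z := ((pole_smooth b).of_le two_le).contDiffAt
    have h3 : ContDiffAt ℝ 2 (fun w => pole b w + δ) z := h2.add contDiffAt_const
    have h4 : lev (fun w => pole b w + δ) z v = lev (pole b) z v := by
      rw [lev_add (u := pole b) (v := fun _ => δ) h2 contDiffAt_const, lev_const, add_zero]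
    have h5 : ‖gr (fun w => pole b w + δ) z v‖ ^ 2 = ‖gr (pole b) z v‖ ^ 2 := by
      rw [norm_gr_sq (h3.differentiableAt (by norm_num)),
        norm_gr_sq (h2.differentiableAt (by norm_num)), fderiv_add_const]
    rw [lev_log (u := fun w => pole b w + δ) h3 (by linarith), h4, h5]
    obtain ⟨h6, h7⟩ := hC z hz v
    set P := pole b z + δ
    have hP : 0 < P := by linarith
    have h8 : -(C / c * ‖v‖ ^ 2) ≤ lev (pole b) z v / P := by
      have h9 : C * ‖v‖ ^ 2 / P ≤ C * ‖v‖ ^ 2 / c :=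
        div_le_div_of_nonneg_left (by positivity) hc0 h1
      have h10 : -(C * ‖v‖ ^ 2) / P ≤ lev (pole b) z v / P :=
        div_le_div_of_nonneg_right (abs_le.1 h6).1 hP.le
      have e1 : -(C * ‖v‖ ^ 2) / P = -(C * ‖v‖ ^ 2 / P) := by ring
      have e2 : C / c * ‖v‖ ^ 2 = C * ‖v‖ ^ 2 / c := by ring
      linarith
    have h11 : ‖gr (pole b) z v‖ ^ 2 / P ^ 2 ≤ C / c ^ 2 * ‖v‖ ^ 2 := by
      have h9 : C * ‖v‖ ^ 2 / P ^ 2 ≤ C * ‖v‖ ^ 2 / c ^ 2 :=
        div_le_div_of_nonneg_left (by positivity) (by positivity) (pow_le_pow_left₀ hc0.le h1 2)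
      have h10 : ‖gr (pole b) z v‖ ^ 2 / P ^ 2 ≤ C * ‖v‖ ^ 2 / P ^ 2 :=
        div_le_div_of_nonneg_right h7 (by positivity)
      have e2 : C / c ^ 2 * ‖v‖ ^ 2 = C * ‖v‖ ^ 2 / c ^ 2 := by ring
      linarith
    nlinarith

end

end Crest.Agent.T223.Nf
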