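import Crest.Agent.T223.Nf1_79

/-!
# Row 223, module NFORM (helper79), part 2: peak `n`-forms from Hoermander's theorem

* `ns vol s x` : chart free squared norm `|s i x|² / vol.w i x` of an `n`-form
* `peak`       : the family of solutions for the weights `N ψ + m log (f + δ)`, uniform in `δ`
-/

set_option autoImplicit false
set_option linter.unusedSectionVars false

open Set Filter Topology Complex Matrix Metric MeasureTheory
open scoped ContDiff Matrix ComplexConjugate ComplexOrder ENNReal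

namespace Crest.Agent.T223.Nf

open Crest.Agent.R275.Geo Crest.Agent.R275.Core144
open Crest.Agent.R275.OmT75 (tr tr_val dj)
open Crest.Agent.R273.Hess_333 (hess)
open Crest.Agent.R273.Levi_145
open Crest.Agent.R273.Defs_333 (HM)
open Crest.Agent.R273.Kah_333 Crest.Agent.R273.Vm_333
open Crest.Agent.T223.Hm

noncomputable section

variable {n : ℕ} {M : Type} [TopologicalSpace M] {A : Atl n M}

/-! ### change of charts -/

theorem anal_tr {i j : A.ι} {x : M} (hx : x ∈ (A.e i).source ∩ (A.e j).source) :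
    AnalyticAt ℂ (tr A i j) (A.e i x) :=
  Crest.Agent.R266.SCV.analyticOnNhd_of_differentiableOn (isOpen_ov i j) (A.holo i j) _
    (mem_ov hx)

theorem read_eq {W : Type*} {i j : A.ι} {x : M} (f : M → W)
    (hx : x ∈ (A.e i).source ∩ (A.e j).source) :
    (fun z => f ((A.e i).symm z)) =ᶠ[𝓝 (A.e i x)]
      fun z => (fun w => f ((A.e j).symm w)) (tr A i j z) := by
  filter_upwards [(isOpen_ov i j).mem_nhds (mem_ov hx)] with z hz
  simp only [tr]
  rw [(A.e j).left_inv hz.2]

theorem sm_at {W : Type*} [NormedAddCommGroup W] [NormedSpace ℝ W] {u : M → W} {i : A.ι}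
    (hu : A.SmAt i u) {x : M} (hx : x ∈ (A.e i).source) :
    ContDiffAt ℝ ∞ (fun z => u ((A.e i).symm z)) (A.e i x) :=
  ContDiffOn.contDiffAt hu ((A.e i).open_target.mem_nhds ((A.e i).map_source hx))

theorem lev_chg {u : M → ℝ} {i j : A.ι} (hu : A.SmAt i u) {x : M}
    (hx : x ∈ (A.e j).source ∩ (A.e i).source) (v : Cn n) :
    lev (fun z => u ((A.e j).symm z)) (A.e j x) v =
      lev (fun z => u ((A.e i).symm z)) (A.e i x) (fderiv ℂ (tr A j i) (A.e j x) v) := by
  have h1 : ContDiffAt ℝ 2 (fun z => u ((A.e i).symm z)) (tr A j i (A.e j x)) := by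
    rw [tr_val hx]; exact (sm_at hu hx.2).of_le two_le
  rw [lev_congr (read_eq u hx), lev_comp (anal_tr hx) h1, tr_val hx]

theorem gr_congr {u w : Cn n → ℝ} {z : Cn n} (h : u =ᶠ[𝓝 z] w) (v : Cn n) :
    gr u z v = gr w z v := by
  unfold gr
  refine Finset.sum_congr rfl fun a _ => ?_
  rw [Crest.Agent.R275.OmT75.dj_congr (cx_congr h)]

theorem gr_const (c : ℝ) (z v : Cn n) : gr (fun _ => c) z v = 0 := by
  rw [gr_eq (differentiableAt_const c)]
  simp

theorem gr_chg {u : M → ℝ} {i j : A.ι} (hu : A.SmAt i u) {x : M}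
    (hx : x ∈ (A.e j).source ∩ (A.e i).source) (v : Cn n) :
    gr (fun z => u ((A.e j).symm z)) (A.e j x) v =
      gr (fun z => u ((A.e i).symm z)) (A.e i x) (fderiv ℂ (tr A j i) (A.e j x) v) := by
  have h1 : DifferentiableAt ℝ (fun z => u ((A.e i).symm z)) (tr A j i (A.e j x)) := by
    rw [tr_val hx]; exact (sm_at hu hx.2).differentiableAt (by simp)
  have hT : DifferentiableAt ℂ (tr A j i) (A.e j x) := (anal_tr hx).differentiableAt
  have h2 : HasFDerivAt (fun z => (fun w => u ((A.e i).symm w)) (tr A j i z))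
      ((fderiv ℝ (fun z => u ((A.e i).symm z)) (tr A j i (A.e j x))).comp
        ((fderiv ℂ (tr A j i) (A.e j x)).restrictScalars ℝ)) (A.e j x) :=
    h1.hasFDerivAt.comp (A.e j x) (hT.hasFDerivAt.restrictScalars ℝ)
  rw [gr_congr (read_eq u hx), gr_eq h2.differentiableAt, h2.fderiv]
  rw [tr_val hx] at h1
  rw [gr_eq h1, tr_val hx]
  simp only [ContinuousLinearMap.comp_apply, ContinuousLinearMap.coe_restrictScalars', map_smul]

theorem tendsto_symm {i : A.ι} {x : M} (hx : x ∈ (A.e i).source) :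
    Tendsto (A.e i).symm (𝓝 (A.e i x)) (𝓝 x) := by
  have := (A.e i).continuousAt_symm ((A.e i).map_source hx)
  rwa [ContinuousAt, (A.e i).left_inv hx] at this

/-! ### extension by zero -/

open Classical in
/-- a function of the coordinates, extended by zero -/
def ex0 (A : Atl n M) (i : A.ι) (φ : Cn n → ℝ) (x : M) : ℝ :=
  if x ∈ (A.e i).source then φ (A.e i x) else 0

theorem ex0_mem {i : A.ι} {φ : Cn n → ℝ} {x : M} (hx : x ∈ (A.e i).source) :
    ex0 A i φ x = φ (A.e i x) := if_pos hx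

theorem ex0_zero {i : A.ι} {φ : Cn n → ℝ} {T : Set (Cn n)} (hT : ∀ z ∉ T, φ z = 0) {x : M}
    (hx : x ∉ (A.e i).symm '' T) : ex0 A i φ x = 0 := by
  by_cases hs : x ∈ (A.e i).source
  · rw [ex0_mem hs]
    exact hT _ fun h => hx ⟨A.e i x, h, (A.e i).left_inv hs⟩
  · exact if_neg hs

theorem cpt_symm {i : A.ι} {T : Set (Cn n)} (hc : IsCompact T) (hs : T ⊆ (A.e i).target) :
    IsCompact ((A.e i).symm '' T) :=
  hc.image_of_continuousOn ((A.e i).continuousOn_symm.mono hs)

theorem symm_sub {i : A.ι} {T : Set (Cn n)} (hs : T ⊆ (A.e i).target) :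
    (A.e i).symm '' T ⊆ (A.e i).source := by
  rintro _ ⟨z, hz, rfl⟩
  exact (A.e i).map_target (hs hz)

theorem mem_of_symm {i : A.ι} {T : Set (Cn n)} (hs : T ⊆ (A.e i).target) {y : M}
    (hy : y ∈ (A.e i).symm '' T) : A.e i y ∈ T := by
  obtain ⟨z, hz, rfl⟩ := hy
  rwa [(A.e i).right_inv (hs hz)]

theorem ex0_sm [T2Space M] {i : A.ι} {φ : Cn n → ℝ} (hφ : ContDiff ℝ ∞ φ) {T : Set (Cn n)}
    (hc : IsCompact T) (hs : T ⊆ (A.e i).target) (hT : ∀ z ∉ T, φ z = 0) :
    A.Sm (ex0 A i φ) := by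
  intro j z hz
  refine ContDiffAt.contDiffWithinAt ?_
  have hx := (A.e j).map_target hz
  by_cases hi : (A.e j).symm z ∈ (A.e i).source
  · have h1 : AnalyticAt ℂ (tr A j i) (A.e j ((A.e j).symm z)) := anal_tr ⟨hx, hi⟩
    rw [(A.e j).right_inv hz] at h1
    have h2 : ContDiffAt ℝ ∞ (fun w => φ (tr A j i w)) z :=
      hφ.contDiffAt.comp z (h1.contDiffAt.restrict_scalars ℝ)
    refine h2.congr_of_eventuallyEq ?_
    have h3 : ∀ᶠ w in 𝓝 z, (A.e j).symm w ∈ (A.e i).source :=
      ((A.e j).continuousAt_symm hz).eventually ((A.e i).open_source.mem_nhds hi)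
    filter_upwards [h3] with w hw
    rw [ex0_mem hw]
    rfl
  · have h0 : (A.e j).symm z ∉ (A.e i).symm '' T := fun h => hi (symm_sub hs h)
    have h3 : ∀ᶠ w in 𝓝 z, (A.e j).symm w ∉ (A.e i).symm '' T :=
      ((A.e j).continuousAt_symm hz).eventually
        ((cpt_symm hc hs).isClosed.isOpen_compl.mem_nhds h0)
    refine (contDiffAt_const (c := (0 : ℝ))).congr_of_eventuallyEq ?_
    filter_upwards [h3] with w hw
    exact ex0_zero hT hw

/-! ### the norm of an `n`-form, the weights -/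

/-- `|s|² / vol` -/
def ns [Countable A.ι] (vol : HM (KB A)⁻¹) (s : A.ι → M → ℂ) (x : M) : ℝ :=
  gl vol (fun i y => ‖s i y‖ ^ 2) x

theorem vol_tr (vol : HM (KB A)⁻¹) {i j : A.ι} {x : M}
    (hx : x ∈ (A.e i).source ∩ (A.e j).source) :
    vol.w j x = ‖(KB A).g j i x‖ ^ 2 * vol.w i x := by
  rw [vol.tr i j x hx, LB.inv_g, LB.inv_eq]

theorem ns_eq [Countable A.ι] (vol : HM (KB A)⁻¹) {s : A.ι → M → ℂ} {x : M}
    (hs : ∀ i j, x ∈ (A.e i).source ∩ (A.e j).source → s i x = (KB A).g i j x * s j x)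
    {i : A.ι} (hx : x ∈ (A.e i).source) : ns vol s x = ‖s i x‖ ^ 2 / vol.w i x := by
  have hk := ix_mem (A := A) x
  unfold ns gl
  have h1 : ‖(KB A).g (ix A x) i x‖ ≠ 0 := norm_ne_zero_iff.2 (LB.ne_zero _ _ _ _)
  have h2 := (vol.pos i x hx).ne'
  simp only [smul_eq_mul]
  rw [hs _ _ ⟨hk, hx⟩, vol_tr vol ⟨hx, hk⟩, norm_mul]
  field_simp

theorem ns_nonneg [Countable A.ι] (vol : HM (KB A)⁻¹) (s : A.ι → M → ℂ) (x : M) :
    0 ≤ ns vol s x := by
  unfold ns gl
  have := vol.pos _ x (ix_mem (A := A) x)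
  rw [smul_eq_mul]
  positivity

/-- the weight `e^{-φ}` -/
def hw (φ : M → ℝ) (hφ : A.Sm φ) : HM ((KB A)⁻¹ * KB A) where
  w _ x := Real.exp (-φ x)
  pos _ _ _ := Real.exp_pos _
  sm i := Real.contDiff_exp.comp_contDiffOn (hφ i).neg
  tr i j x _ := by
    rw [LB.mul_g, LB.inv_g, inv_mul_cancel₀ (LB.ne_zero _ _ _ _)]
    simp

theorem cur_hw (φ : M → ℝ) (hφ : A.Sm φ) (i : A.ι) (x : M) :
    cur (hw φ hφ) i x = hess (fun z => φ ((A.e i).symm z)) (A.e i x) := by
  unfold cur
  congr 1
  funext z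
  simp [HM.wt, hw]

/-- `∂̄ (χ g)`, `g` holomorphic -/
theorem dot_db {χ : Cn n → ℝ} {g : Cn n → ℂ} {z : Cn n} (hχ : DifferentiableAt ℝ χ z)
    (hg : DifferentiableAt ℂ g z) (v : Fin n → ℂ) :
    ‖star v ⬝ᵥ (fun a => dbj a (fun w => (χ w : ℂ) * g w) z)‖ ^ 2 =
      ‖g z‖ ^ 2 * ‖gr χ z (WithLp.toLp 2 v)‖ ^ 2 := by
  have h1 : ∀ a, dbj a (fun w => (χ w : ℂ) * g w) z = conj (dj a (cx χ) z) * g z := by
    intro a
    have h2 := dbj_mul' (a := a) (f := cx χ) (g := g) (cx_diff hχ) (hg.restrictScalars ℝ)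
    have h3 : dbj a (cx χ) z = conj (dj a (cx χ) z) := by
      rw [← dbj_conj (cx_diff hχ)]
      congr 1
      funext y
      simp [cx]
    rw [dbj_holo hg, mul_zero, add_zero, h3] at h2
    exact h2
  have h4 : star v ⬝ᵥ (fun a => dbj a (fun w => (χ w : ℂ) * g w) z) =
      g z * conj (gr χ z (WithLp.toLp 2 v)) := by
    unfold gr
    simp only [dotProduct, Pi.star_apply, h1, map_sum, map_mul, Finset.mul_sum, RCLike.star_def]
    exact Finset.sum_congr rfl fun a _ => by ring
  rw [h4, norm_mul, Complex.norm_conj, mul_pow]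

/-- **peak forms** -/
theorem peak (H : HoerStmt) [T2Space M] [MeasurableSpace M] [BorelSpace M] [Countable A.ι]
    (P : Part A) (K : Kah A) (hC : Cut K) (vol : HM (KB A)⁻¹) {ψ : M → ℝ} (hs : A.Sm ψ)
    (h0 : ∀ i, ∀ y ∈ (A.e i).source, (hsf A ψ i y).PosSemidef) {i : A.ι} {x : M}
    (hx : x ∈ (A.e i).source) (h1 : (hsf A ψ i x).PosDef) (m : ℕ) :
    ∃ (N B κ0 : ℝ) (f : M → ℝ) (G : A.ι → M → ℂ) (U : Set M), 0 ≤ N ∧ 0 ≤ κ0 ∧ A.Sm f ∧
      (∀ y, 0 ≤ f y ∧ f y ≤ B) ∧ f x = 0 ∧ IsS (KB A) G ∧ Cs G ∧ IsOpen U ∧ x ∈ U ∧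
      U ⊆ (A.e i).source ∧ (∀ y ∈ U, G i y = 1) ∧
      ∀ δ : ℝ, 0 < δ → ∃ F : A.ι → M → ℂ, IsS (KB A) F ∧ (∀ j, HolAt A j univ (F j)) ∧
        ∫⁻ y, ENNReal.ofReal (Real.exp (-(N * ψ y + m * Real.log (f y + δ))) *
          ns vol (F - G) y) ∂(vm vol) ≤ ENNReal.ofReal κ0 := by
  classical
  set z0 := A.e i x with hz0
  obtain ⟨c, hc, hcz⟩ := lev_near (sm_at (hs i) hx) h1
  obtain ⟨ε, hε, hεs⟩ := Metric.nhds_basis_closedBall.mem_iff.1
    (inter_mem hcz ((A.e i).open_target.mem_nhds ((A.e i).map_source hx)))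
  let b : ContDiffBump z0 := ⟨ε / 2, ε, by positivity, by linarith⟩
  set T : Set (Cn n) := closedBall z0 ε with hT
  set T' : Set (Cn n) := closedBall z0 ε \ ball z0 (ε / 2) with hT'
  have hTc : IsCompact T := isCompact_closedBall _ _
  have hT'c : IsCompact T' := hTc.diff isOpen_ball
  have hTt : T ⊆ (A.e i).target := fun z hz => (hεs hz).2
  have hT't : T' ⊆ (A.e i).target := fun z hz => hTt hz.1
  have hb0 : ∀ z ∉ T, b z = 0 := fun z hz => b.zero_of_le_dist (by
    rw [hT, mem_closedBall, not_le] at hz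
    exact hz.le)
  have hp0 : ∀ z ∉ T, pole b z - 1 = 0 := fun z hz => by
    unfold pole
    rw [hb0 z hz]
    ring
  set S : Set M := (A.e i).symm '' T with hS
  set S' : Set M := (A.e i).symm '' T' with hS'
  have hSc : IsCompact S := cpt_symm hTc hTt
  have hS'c : IsCompact S' := cpt_symm hT'c hT't
  set χ : M → ℝ := ex0 A i b with hχ
  set f : M → ℝ := fun y => ex0 A i (fun z => pole b z - 1) y + 1 with hf
  have hχs : A.Sm χ := ex0_sm b.contDiff hTc hTt hb0
  have hfs : A.Sm f := fun j =>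
    (ex0_sm ((pole_smooth b).sub contDiff_const) hTc hTt hp0 j).add contDiffOn_const
  have hfi : ∀ y ∈ (A.e i).source, f y = pole b (A.e i y) := fun y hy => by
    simp only [hf, ex0_mem hy]
    ring
  have hfo : ∀ y ∉ S, f y = 1 := fun y hy => by
    simp only [hf, ex0_zero hp0 hy]
    ring
  have hχo : ∀ y ∉ S, χ y = 0 := fun y hy => ex0_zero hb0 hy
  have hfb : ∀ y, 0 ≤ f y ∧ f y ≤ ε ^ 2 + 1 := fun y => by
    by_cases hy : y ∈ S
    · rw [hfi y (symm_sub hTt hy)]
      exact ⟨pole_nonneg b _, pole_le b _⟩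
    · rw [hfo y hy]
      exact ⟨zero_le_one, by nlinarith [sq_nonneg ε]⟩
  set G : A.ι → M → ℂ := fun j y => (χ y : ℂ) * (KB A).g j i y with hG
  have hGo : ∀ j, ∀ y ∉ S, G j y = 0 := fun j y hy => by
    simp only [hG, hχo y hy]
    simp
  have hSo : ∀ y ∉ S, ∀ᶠ w in 𝓝 y, w ∉ S := fun y hy => hSc.isClosed.isOpen_compl.mem_nhds hy
  have hGS : IsS (KB A) G := by
    refine ⟨fun j z hz => ContDiffAt.contDiffWithinAt ?_, fun j k y hy => ?_⟩
    · have hy := (A.e j).map_target hz
      by_cases hi : (A.e j).symm z ∈ (A.e i).source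
      · have h2 : ContDiffAt ℝ ∞ (fun w => (KB A).g j i ((A.e j).symm w)) z :=
          (((KB A).hol j i).contDiffOn (A.e i).open_source).contDiffAt
            ((isOpen_ti (A.e i).open_source).mem_nhds ⟨hz, hi⟩)
        have h3 : ContDiffAt ℝ ∞ (fun w => χ ((A.e j).symm w)) z :=
          (hχs j).contDiffAt ((A.e j).open_target.mem_nhds hz)
        exact (Complex.ofRealCLM.contDiff.contDiffAt.comp z h3).mul h2
      · have h2 : (A.e j).symm z ∉ S := fun h => hi (symm_sub hTt h)
        refine (contDiffAt_const (c := (0 : ℂ))).congr_of_eventuallyEq ?_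
        filter_upwards [((A.e j).continuousAt_symm hz).eventually (hSo _ h2)] with w hw
        exact hGo j _ hw
    · by_cases hi : y ∈ (A.e i).source
      · simp only [hG]
        rw [← (KB A).mul j k i y ⟨hy, hi⟩]
        ring
      · have h2 : y ∉ S := fun h => hi (symm_sub hTt h)
        rw [hGo j y h2, hGo k y h2, mul_zero]
  obtain ⟨Λ, hΛ, hΛp⟩ := lev_pole b
  obtain ⟨C, hC0, hCb⟩ := bd_cpt (u := b) b.contDiff hTc
  set N : ℝ := (m * Λ + 1) / c with hN
  have hN0 : 0 ≤ N := by positivity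
  set c' : ℝ := min ((ε / 2) ^ 2) 1 with hc'
  have hc'0 : 0 < c' := lt_min (by positivity) one_pos
  -- the bound for the weight on `S'`
  obtain ⟨κ1, hκ1⟩ := hT'c.exists_bound_of_continuousOn
    (f := fun z => Real.exp (-(N * ψ ((A.e i).symm z) + m * Real.log c')) /
      vol.w i ((A.e i).symm z)) (by
      refine ContinuousOn.div ?_ ((vol.sm i).continuousOn.mono hT't) fun z hz =>
        (vol.pos i _ ((A.e i).map_target (hT't hz))).ne'
      refine Real.continuous_exp.comp_continuousOn (ContinuousOn.neg (ContinuousOn.add ?_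
        continuousOn_const))
      exact continuousOn_const.mul ((hs i).continuousOn.mono hT't))
  have hfin : vm vol S' ≠ ⊤ := by
    have := isLocallyFinite_vm vol
    exact hS'c.measure_lt_top.ne
  set U : Set M := (A.e i).source ∩ A.e i ⁻¹' ball z0 (ε / 2) with hU
  have hUo : IsOpen U := (A.e i).isOpen_inter_preimage isOpen_ball
  have hχU : ∀ y ∈ U, χ y = 1 := fun y hy => by
    rw [hχ, ex0_mem hy.1]
    exact b.one_of_mem_closedBall (ball_subset_closedBall hy.2)
  refine ⟨N, ε ^ 2 + 1, (C * |κ1|) * (vm vol S').toReal, f, G, U, hN0, by positivity, hfs, hfb, ?_,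
    hGS, ⟨S, hSc, hGo⟩, hUo, ⟨hx, mem_ball_self (by positivity)⟩, inter_subset_left, ?_, ?_⟩
  · rw [hfi x hx]; exact pole_zero b
  · intro y hy
    simp only [hG, hχU y hy, (KB A).self]
    simp
  intro δ hδ
  set φ : M → ℝ := fun y => N * ψ y + m * Real.log (f y + δ) with hφ
  have hls : A.Sm (fun y => Real.log (f y + δ)) := fun j =>
    ((hfs j).add contDiffOn_const).log fun z _ => by
      have := (hfb ((A.e j).symm z)).1
      positivity
  have hφs : A.Sm φ := fun j =>
    (contDiffOn_const.mul (hs j)).add (contDiffOn_const.mul (hls j))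
  have hlev : ∀ j, ∀ y ∈ (A.e j).source, ∀ v, lev (fun z => φ ((A.e j).symm z)) (A.e j y) v =
      N * lev (fun z => ψ ((A.e j).symm z)) (A.e j y) v +
        m * lev (fun z => Real.log (f ((A.e j).symm z) + δ)) (A.e j y) v := by
    intro j y hy v
    have h2 := (sm_at (hs j) hy).of_le two_le
    have h3 := (sm_at (u := fun y => Real.log (f y + δ)) (hls j) hy).of_le two_le
    rw [← lev_const_mul N h2, ← lev_const_mul (m : ℝ) h3,
      ← lev_add (contDiffAt_const.mul h2) (contDiffAt_const.mul h3)]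
  -- in the chart `i`, on `S`
  have hin : ∀ y ∈ S, ∀ v, ‖v‖ ^ 2 ≤ lev (fun z => φ ((A.e i).symm z)) (A.e i y) v := by
    intro y hy v
    have hyi := symm_sub hTt hy
    have hyT : A.e i y ∈ T := mem_of_symm hTt hy
    have h2 : (fun z => Real.log (f ((A.e i).symm z) + δ)) =ᶠ[𝓝 (A.e i y)]
        fun w => Real.log (pole b w + δ) := by
      filter_upwards [(A.e i).open_target.mem_nhds (hTt hyT)] with w hw
      rw [hfi _ ((A.e i).map_target hw), (A.e i).right_inv hw]
    rw [hlev i y hyi, lev_congr h2]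
    have h3 := hΛp δ hδ _ hyT v
    have h4 := (hεs hyT).1 v
    have h5 : N * (c * ‖v‖ ^ 2) = (m * Λ + 1) * ‖v‖ ^ 2 := by
      rw [hN]; field_simp
    have h6 := mul_le_mul_of_nonneg_left h4 hN0
    have h7 := mul_le_mul_of_nonneg_left h3 (Nat.cast_nonneg m : (0 : ℝ) ≤ m)
    nlinarith
  have hpos : ∀ j, ∀ y ∈ (A.e j).source, ∀ v,
      0 ≤ lev (fun z => φ ((A.e j).symm z)) (A.e j y) v := by
    intro j y hy v
    by_cases hyS : y ∈ S
    · rw [lev_chg (hφs i) ⟨hy, symm_sub hTt hyS⟩]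
      exact (sq_nonneg _).trans (hin y hyS _)
    · have h2 : (fun z => Real.log (f ((A.e j).symm z) + δ)) =ᶠ[𝓝 (A.e j y)]
          fun _ => Real.log (1 + δ) := by
        filter_upwards [(tendsto_symm hy).eventually (hSo y hyS)] with w hw
        rw [hfo _ hw]
      rw [hlev j y hy, lev_congr h2, lev_const, mul_zero, add_zero]
      exact mul_nonneg hN0 (lev_of_psd (sm_at (hs j) hy) (h0 j y hy) v)
  have hsemi : (hw φ hφs).Semipos := semipos_of_cur fun j y hy => by
    rw [cur_hw]
    exact psd_of_lev (sm_at (hφs j) hy) (hpos j y hy)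
  have hmeas : MeasurableSet S' := hS'c.isClosed.measurableSet
  obtain ⟨F, hF1, hF2, hF3⟩ := H n M A P K hC (KB A) (hw φ hφs) hsemi vol G hGS ⟨S, hSc, hGo⟩
    (S'.indicator fun _ => C * |κ1|) (measurable_const.indicator hmeas)
    (fun y => indicator_nonneg (fun _ _ => by positivity) y) (by
      intro j y hy v
      rw [cur_hw, hq_hess (sm_at (hφs j) hy)]
      by_cases hyS : y ∈ S
      · have hyi := symm_sub hTt hyS
        have hyT : A.e i y ∈ T := mem_of_symm hTt hyS
        have h2 : ‖star v ⬝ᵥ dbs G j y‖ ^ 2 = ‖(KB A).g j i y‖ ^ 2 *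
            ‖gr (fun z => χ ((A.e j).symm z)) (A.e j y) (WithLp.toLp 2 v)‖ ^ 2 := by
          have h3 := dot_db (χ := fun z => χ ((A.e j).symm z))
            (g := fun z => (KB A).g j i ((A.e j).symm z)) (z := A.e j y)
            ((sm_at (hχs j) hy).differentiableAt (by simp))
            (((KB A).hol j i).diffAt (A.e i).open_source hy hyi) v
          simp only [(A.e j).left_inv hy] at h3
          exact h3
        have h3 : (fun z => χ ((A.e i).symm z)) =ᶠ[𝓝 (A.e i y)] b := by
          filter_upwards [(A.e i).open_target.mem_nhds (hTt hyT)] with w hw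
          rw [hχ, ex0_mem ((A.e i).map_target hw), (A.e i).right_inv hw]
        rw [h2, gr_chg (hχs i) ⟨hy, hyi⟩, lev_chg (hφs i) ⟨hy, hyi⟩, gr_congr h3]
        set v' := fderiv ℂ (tr A j i) (A.e j y) (WithLp.toLp 2 v)
        by_cases hyS' : y ∈ S'
        · have hyT' : A.e i y ∈ T' := mem_of_symm hT't hyS'
          rw [indicator_of_mem hyS', vol_tr vol ⟨hyi, hy⟩]
          have h4 := (hCb _ hyT v').2
          have h5 := hin y hyS v'
          have h6 := hκ1 _ hyT'
          simp only [(A.e i).left_inv hyi] at h6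
          have hwp := vol.pos i y hyi
          have h7 : Real.exp (-(N * ψ y + m * Real.log c')) ≤ |κ1| * vol.w i y := by
            rw [← div_le_iff₀ hwp]
            exact (le_abs_self _).trans (h6.trans (le_abs_self _))
          have h8 : (hw φ hφs).w j y ≤ Real.exp (-(N * ψ y + m * Real.log c')) := by
            change Real.exp (-φ y) ≤ _
            refine Real.exp_le_exp.2 (neg_le_neg ?_)
            have h9 : c' ≤ f y + δ := by
              rw [hfi y hyi]
              have := pole_ge b (z := A.e i y) hyT'.2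
              linarith
            have h10 := Real.log_le_log hc'0 h9
            have h11 := mul_le_mul_of_nonneg_left h10 (Nat.cast_nonneg m : (0 : ℝ) ≤ m)
            simp only [hφ]
            linarith
          have h9 : ‖gr b (A.e i y) v'‖ ^ 2 ≤
              C * lev (fun z => φ ((A.e i).symm z)) (A.e i y) v' :=
            h4.trans (mul_le_mul_of_nonneg_left h5 hC0)
          calc (hw φ hφs).w j y * (‖(KB A).g j i y‖ ^ 2 * ‖gr b (A.e i y) v'‖ ^ 2)
              ≤ (|κ1| * vol.w i y) * (‖(KB A).g j i y‖ ^ 2 *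
                (C * lev (fun z => φ ((A.e i).symm z)) (A.e i y) v')) :=
                mul_le_mul (h8.trans h7) (mul_le_mul_of_nonneg_left h9 (by positivity))
                  (by positivity) (by positivity)
            _ = _ := by ring
        · have h4 : A.e i y ∈ ball z0 (ε / 2) := by
            by_contra h5
            exact hyS' ⟨A.e i y, ⟨hyT, h5⟩, (A.e i).left_inv hyi⟩
          have h5 : (b : Cn n → ℝ) =ᶠ[𝓝 (A.e i y)] fun _ => 1 := by
            filter_upwards [isOpen_ball.mem_nhds h4] with w hw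
            exact b.one_of_mem_closedBall (ball_subset_closedBall hw)
          rw [indicator_of_notMem hyS', gr_congr h5, gr_const]
          simp
      · have hyS' : y ∉ S' := fun h => hyS (image_mono sdiff_subset h)
        have h2 : dbs G j y = 0 := by
          funext a
          have h3 : (fun z => G j ((A.e j).symm z)) =ᶠ[𝓝 (A.e j y)] fun _ => 0 := by
            filter_upwards [(tendsto_symm hy).eventually (hSo y hyS)] with w hw
            exact hGo j _ hw
          unfold dbs Atl.db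
          rw [Crest.Agent.R275.OmT75.dbj_congr h3]
          simp [dbj]
        rw [h2, indicator_of_notMem hyS']
        simp)
  refine ⟨F, hF1, hF2, ?_⟩
  have e1 : ∀ y, Real.exp (-(N * ψ y + m * Real.log (f y + δ))) * ns vol (F - G) y =
      gl vol (fun i y => (hw φ hφs).w i y * ‖F i y - G i y‖ ^ 2) y := by
    intro y
    unfold ns gl
    simp only [hw, hφ, smul_eq_mul, Pi.sub_apply]
    ring
  simp only [e1]
  refine hF3.trans (le_of_eq ?_)
  have e2 : (fun y => ENNReal.ofReal (S'.indicator (fun _ => C * |κ1|) y)) =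
      S'.indicator fun _ => ENNReal.ofReal (C * |κ1|) := by
    funext y
    by_cases hy : y ∈ S'
    · rw [indicator_of_mem hy, indicator_of_mem hy]
    · rw [indicator_of_notMem hy, indicator_of_notMem hy, ENNReal.ofReal_zero]
  rw [e2, lintegral_indicator_const hmeas,
    ENNReal.ofReal_mul (p := C * |κ1|) (by positivity), ENNReal.ofReal_toReal hfin]

end

end Crest.Agent.T223.Nf
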