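import Crest.Agent.T223.Nf2_79
import Crest.Agent.R281.Ins4_615
import Crest.Agent.R281.Sm4_593

/-!
# Row 223, module NFORM (helper79), part 3: mean value inequality and growth

* `mv`     : sub-mean value inequality on a complete Kaehler manifold with `Ric ≥ 0`
* `vol_ge` : volumes of balls (Bishop-Gromov)
* `nform`  : a holomorphic `n`-form with `s x ≠ 0` and `|s|² ≤ exp (C (1 + d))`
-/

set_option autoImplicit false
set_option linter.unusedSectionVars false

open Set Filter Topology Complex Matrix Metric MeasureTheory Manifold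
open scoped ContDiff Matrix ComplexConjugate ComplexOrder Manifold

namespace Crest.Agent.T223.Nf

open Crest.Agent.R275.Geo Crest.Agent.R275.Core144
open Crest.Agent.R273.Hess_333 (hess)
open Crest.Agent.R273.Levi_145
open Crest.Agent.R273.Defs_333 (HM)
open Crest.Agent.R273.Kah_333 Crest.Agent.R273.Vm_333 Crest.Agent.R273.Vol_333
open Crest.Agent.R273.RMan_798 Crest.Agent.R273.RMan4_798
open Crest.Agent.R281.Ins_615
open Crest.Agent.R281.Sm4_593 (CDG CDG_pos dg1)
open Crest.Agent.R247.Mcp688 (Rad)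
open Crest.Agent.T223.Hm

noncomputable section

variable {n : ℕ} {M : Type} [TopologicalSpace M] {A : Atl n M} [T2Space M] [ConnectedSpace M]

/-- the Riemannian volume -/
abbrev mu (K : Kah A) : Measure (ofKah K).M := Measure.euclideanHausdorffMeasure (2 * n)

theorem rad' (K : Kah A) (hP : ProperSpace (ofKah K).M) (hR : (volK K).Semipos) :
    Nonempty (Rad (2 * n) 0 (ofKah K).M (mu K)) := by
  refine Crest.Agent.R247.Bgr546.rad_all (2 * n) 0 le_rfl (ofKah K).M ?_
  rw [neg_zero]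
  exact hasRicci K hR

theorem mu_ball_pos (K : Kah A) (hP : ProperSpace (ofKah K).M) (y : (ofKah K).M) {r : ℝ}
    (hr : 0 < r) : 0 < (mu K).real (ball y r) ∧ mu K (ball y r) ≠ ⊤ := by
  have h1 : IsLocallyFiniteMeasure (mu K) :=
    Crest.Agent.R247.Ms322.isLocallyFiniteMeasure (2 * n) (ofKah K).M
  have h2 : (mu K).IsOpenPosMeasure :=
    Crest.Agent.R247.Ms322.isOpenPosMeasure (2 * n) (ofKah K).M
  have h3 : mu K (ball y r) ≠ ⊤ := measure_ball_lt_top.ne
  exact ⟨ENNReal.toReal_pos (measure_ball_pos _ y hr).ne' h3, h3⟩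

/-- Bishop-Gromov -/
theorem vol_ge (K : Kah A) (hP : ProperSpace (ofKah K).M) (hR : (volK K).Semipos)
    (p y : (ofKah K).M) {r R S : ℝ} (hr : 0 < r) (hS : R + dist p y ≤ S) (hrS : r ≤ S) :
    (mu K).real (ball p R) ≤ (S / r) ^ (2 * n) * (mu K).real (ball y r) := by
  obtain ⟨C⟩ := rad' K hP hR
  have h1 := C.mu_ball_le' le_rfl p y hr hS hrS
  have h2 := (mu_ball_pos K hP y hr).2
  have h3 : 0 ≤ (S / r) ^ (2 * n) := pow_nonneg (div_nonneg (hr.le.trans hrS) hr.le) _
  simp only [zero_mul, zero_div, Real.exp_zero, one_mul] at h1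
  have h4 := ENNReal.toReal_mono (ENNReal.mul_ne_top ENNReal.ofReal_ne_top h2) h1
  rw [ENNReal.toReal_mul, ENNReal.toReal_ofReal h3] at h4
  exact h4

/-- **sub-mean value inequality** -/
theorem mv (hn : 1 ≤ n) (K : Kah A) (hP : ProperSpace (ofKah K).M) (hR : (volK K).Semipos)
    {f : M → ℝ} (hf0 : ∀ y, 0 ≤ f y) {U : Set M} (hU : IsOpen U)
    (hf : ∀ y ∈ U, ∃ i, y ∈ (A.e i).source ∧
      ContDiffAt ℝ ∞ (fun z => f ((A.e i).symm z)) (A.e i y) ∧
      ∀ v, 0 ≤ lev (fun z => f ((A.e i).symm z)) (A.e i y) v)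
    (y : (ofKah K).M) {r B : ℝ} (hr : 0 < r) (hB : 0 ≤ B) (hsub : ∀ w ∈ closedBall y r, w ∈ U)
    (hint : ∫⁻ w in ball y r, ENNReal.ofReal (f w) ∂(mu K) ≤ ENNReal.ofReal B) :
    f y ≤ CDG (2 * n) * (((mu K).real (ball y r))⁻¹ * B) := by
  obtain ⟨C⟩ := rad' K hP hR
  have hsm : ∀ z : (ofKah K).M, z ∈ U →
      ContMDiffAt (𝓡 (2 * n)) 𝓘(ℝ, ℝ) 2 (fun p : (ofKah K).M => f p) z := by
    intro z hz
    obtain ⟨i, hi, h1, -⟩ := hf z hz
    exact (contMDiffAt_iffK K two_le hi).2 (h1.of_le two_le)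
  have hU' : IsOpen (X := (ofKah K).M) U := hU
  have h1 := dg1 (n := 2 * n) C (by omega) (x0 := y) hr hU' hsub
    (f := fun p : (ofKah K).M => f p) hsm (A := 0) (B := 0) le_rfl le_rfl (by simp)
    (fun z hz => by
      obtain ⟨i, hi, h1, h2⟩ := hf z hz
      have h3 := mLap_loc K hi h1
      have h4 := Crest.Agent.R273.FIa0_597.tr_re_nonneg (K.pos i z hi) (psd_of_lev h1 h2)
      have h5 : 0 ≤ (Crest.Agent.R273.FIb0_597.trC K (hsf A f) i z).re := h4
      rw [h3]
      linarith) (x := y) (mem_closedBall_self (by positivity))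
  refine h1.trans (mul_le_mul_of_nonneg_left ?_ (CDG_pos _).le)
  rw [zero_mul, add_zero]
  refine mul_le_mul_of_nonneg_left ?_ (inv_nonneg.2 measureReal_nonneg)
  have h2 : ContinuousOn (fun p : (ofKah K).M => f p) (ball y r) := fun z hz =>
    (hsm z (hsub z (ball_subset_closedBall hz))).continuousAt.continuousWithinAt
  have h3 : (fun p : (ofKah K).M => max (f p) 0) = fun p : (ofKah K).M => f p :=
    funext fun p => max_eq_left (hf0 p)
  have h4 := integral_eq_lintegral_of_nonneg_ae (μ := (mu K).restrict (ball y r))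
    (f := fun p : (ofKah K).M => f p) (Eventually.of_forall fun p => hf0 p)
    (h2.aestronglyMeasurable isOpen_ball.measurableSet)
  rw [h3]
  exact h4.le.trans (ENNReal.toReal_le_of_le_ofReal hB hint)

variable [Countable A.ι]

/-- the norm of a form which is holomorphic near `y` -/
theorem ns_psh (K : Kah A) (hR : (volK K).Semipos) {s : A.ι → M → ℂ} (hs : IsS (KB A) s)
    {i : A.ι} {y : M} (hy : y ∈ (A.e i).source)
    (ha : AnalyticAt ℂ (fun z => s i ((A.e i).symm z)) (A.e i y)) :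
    ContDiffAt ℝ ∞ (fun z => ns (volK K) s ((A.e i).symm z)) (A.e i y) ∧
      ∀ v, 0 ≤ lev (fun z => ns (volK K) s ((A.e i).symm z)) (A.e i y) v := by
  have h1 : (fun z => ns (volK K) s ((A.e i).symm z)) =ᶠ[𝓝 (A.e i y)]
      fun z => ‖s i ((A.e i).symm z)‖ ^ 2 / (volK K).w i ((A.e i).symm z) := by
    filter_upwards [(A.e i).open_target.mem_nhds ((A.e i).map_source hy)] with z hz
    exact ns_eq _ (fun j k h => hs.tr j k _ h) ((A.e i).map_target hz)
  have h2 := sm_at ((volK K).sm i) hy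
  have h3 : 0 < (volK K).w i ((A.e i).symm (A.e i y)) :=
    (volK K).pos i _ ((A.e i).map_target ((A.e i).map_source hy))
  refine ⟨((c2_normSq ha ∞).div h2 h3.ne').congr_of_eventuallyEq h1, fun v => ?_⟩
  rw [lev_congr h1]
  refine lev_nsq ha (h2.of_le two_le) h3 (fun w => ?_) v
  have h4 := hR i _ ((A.e i).map_source hy) w
  rw [lev4] at h4
  have h5 : 0 ≤ lev ((volK K).wt i) (A.e i y) w := by linarith
  exact h5

theorem ns_sm (vol : HM (KB A)⁻¹) {s : A.ι → M → ℂ} (hs : IsS (KB A) s) : A.Sm (ns vol s) := by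
  intro i
  have h1 : ContDiffOn ℝ ∞ (fun z => ‖s i ((A.e i).symm z)‖ ^ 2 / vol.w i ((A.e i).symm z))
      (A.e i).target :=
    (ContDiffOn.norm_sq ℝ (hs.sm i)).div (vol.sm i) fun z hz =>
      (vol.pos i _ ((A.e i).map_target hz)).ne'
  exact h1.congr fun z hz => ns_eq _ (fun j k h => hs.tr j k _ h) ((A.e i).map_target hz)

theorem ns_le (vol : HM (KB A)⁻¹) (F G : A.ι → M → ℂ) (y : M) :
    ns vol F y ≤ 2 * ns vol (F - G) y + 2 * ns vol G y := by
  unfold ns gl
  have h0 := vol.pos _ y (ix_mem (A := A) y)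
  simp only [smul_eq_mul, Pi.sub_apply]
  set a := F (ix A y) y
  set b := G (ix A y) y
  have h1 : ‖a‖ ≤ ‖a - b‖ + ‖b‖ := by simpa using norm_add_le (a - b) b
  have h2 : ‖a‖ ^ 2 ≤ 2 * ‖a - b‖ ^ 2 + 2 * ‖b‖ ^ 2 := by
    have h3 := pow_le_pow_left₀ (norm_nonneg _) h1 2
    nlinarith [sq_nonneg (‖a - b‖ - ‖b‖)]
  have h3 := mul_le_mul_of_nonneg_left h2 (inv_nonneg.2 h0.le)
  linarith

theorem isS_sub {N : LB A} {F G : A.ι → M → ℂ} (hF : IsS N F) (hG : IsS N G) : IsS N (F - G) :=
  ⟨fun i => ContDiffOn.sub (hF.sm i) (hG.sm i), fun i j x hx => by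
    simp only [Pi.sub_apply]
    rw [hF.tr i j x hx, hG.tr i j x hx]
    ring⟩

/-- weighted integral to plain integral on a ball -/
theorem lint_ball [MeasurableSpace M] [BorelSpace M] (K : Kah A) {u φ : M → ℝ}
    (hu : ∀ y, 0 ≤ u y) {κ0 E : ℝ} (y : (ofKah K).M) {r : ℝ}
    (hE : ∀ w ∈ ball y r, φ w ≤ E)
    (h : ∫⁻ w, ENNReal.ofReal (Real.exp (-φ w) * u w) ∂(vm (volK K)) ≤ ENNReal.ofReal κ0) :
    ∫⁻ w in ball y r, ENNReal.ofReal (u w) ∂(mu K) ≤ ENNReal.ofReal (Real.exp E * κ0) := by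
  rw [← lintegral_muHE K] at h
  calc ∫⁻ w in ball y r, ENNReal.ofReal (u w) ∂(mu K)
      ≤ ∫⁻ w in ball y r, ENNReal.ofReal (Real.exp E) *
          ENNReal.ofReal (Real.exp (-φ w) * u w) ∂(mu K) := by
        refine setLIntegral_mono' isOpen_ball.measurableSet fun w hw => ?_
        rw [← ENNReal.ofReal_mul (Real.exp_pos _).le]
        refine ENNReal.ofReal_le_ofReal ?_
        rw [← mul_assoc, ← Real.exp_add]
        refine le_mul_of_one_le_left (hu w) (Real.one_le_exp ?_)
        have := hE w hw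
        linarith
    _ ≤ ∫⁻ w, ENNReal.ofReal (Real.exp E) *
          ENNReal.ofReal (Real.exp (-φ w) * u w) ∂(mu K) := setLIntegral_le_lintegral _ _
    _ = ENNReal.ofReal (Real.exp E) *
          ∫⁻ w, ENNReal.ofReal (Real.exp (-φ w) * u w) ∂(mu K) :=
        lintegral_const_mul' _ _ ENNReal.ofReal_ne_top
    _ ≤ ENNReal.ofReal (Real.exp E) * ENNReal.ofReal κ0 := mul_le_mul_right h _
    _ = _ := (ENNReal.ofReal_mul (Real.exp_pos _).le).symm

theorem exp_bound {a b c d : ℝ} (ha : 0 ≤ a) (hb : 0 ≤ b) (hc : 0 ≤ c) (hd : 0 ≤ d) :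
    a * Real.exp (c * (1 + d)) + b ≤ Real.exp ((c + a + b) * (1 + d)) := by
  have h1 : 1 ≤ Real.exp (c * (1 + d)) := Real.one_le_exp (by positivity)
  have h2 : a + b ≤ Real.exp ((a + b) * (1 + d)) := by
    have h3 := Real.add_one_le_exp ((a + b) * (1 + d))
    nlinarith [mul_nonneg (add_nonneg ha hb) hd]
  have h3 : Real.exp ((c + a + b) * (1 + d)) =
      Real.exp ((a + b) * (1 + d)) * Real.exp (c * (1 + d)) := by
    rw [← Real.exp_add]; congr 1; ring
  rw [h3]
  nlinarith [mul_le_mul_of_nonneg_right h2 (Real.exp_pos (c * (1 + d))).le]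

/-- **the `n`-form** -/
theorem nform (H : HoerStmt) (hn : 1 ≤ n) (P : Part A) (K : Kah A)
    (hP : ProperSpace (ofKah K).M) (hC : Cut K) (hR : (volK K).Semipos) (p : (ofKah K).M)
    {ψ : M → ℝ} (hs : A.Sm ψ) (h0 : ∀ i, ∀ y ∈ (A.e i).source, (hsf A ψ i y).PosSemidef)
    {i : A.ι} {x : M} (hx : x ∈ (A.e i).source) (h1 : (hsf A ψ i x).PosDef) {Cψ : ℝ}
    (hCψ : 0 ≤ Cψ) (h2 : ∀ y : (ofKah K).M, ψ y ≤ Cψ * (1 + dist p y)) :
    ∃ (s : A.ι → M → ℂ) (C : ℝ), IsHS (KB A) univ s ∧ s i x ≠ 0 ∧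
      ∀ j, ∀ y ∈ (A.e j).source, ‖s j y‖ ^ 2 / (K.g j y).det.re ≤
        Real.exp (C * (1 + dist (α := (ofKah K).M) p y)) := by
  classical
  let _ : MeasurableSpace M := borel M
  have : BorelSpace M := ⟨rfl⟩
  obtain ⟨N, B, κ0, f, G, U, hN, hκ0, hfs, hfb, hfx, hG, ⟨S, hSc, hSG⟩, hUo, hxU, hUi, hGU, hsol⟩ :=
    peak H P K hC (volK K) hs h0 hx h1 (2 * n + 1)
  let x' : (ofKah K).M := x
  -- the Lipschitz bound for `f` near `x`
  obtain ⟨L, t, ht, hL⟩ := Crest.Agent.R247.Ms322.LLo.of_contMDiffAt (n := 2 * n)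
    (M := (ofKah K).M) (U := univ) (f := fun q : (ofKah K).M => f q)
    (fun z _ => (contMDiff_of_sm K hfs z).of_le (by simp)) x' (mem_univ _)
  have hU' : IsOpen (X := (ofKah K).M) U := hUo
  obtain ⟨r0, hr0, hr0s⟩ := Metric.nhds_basis_closedBall.mem_iff.1
    (inter_mem ht (hU'.mem_nhds (x := x') hxU))
  set E0 : ℝ := N * (Cψ * (2 + dist p x')) with hE0
  set V1 : ℝ := (mu K).real (ball x' 1) with hV1
  have hV1p : 0 < V1 := (mu_ball_pos K hP x' one_pos).1
  have hw0 : 0 < (volK K).w i x := (volK K).pos i x hx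
  set D : ℝ := CDG (2 * n) * (V1⁻¹ * (Real.exp E0 * ((L : ℝ) + 1) ^ (2 * n + 1) * κ0)) with hD
  have hD0 : 0 ≤ D := by
    have := (CDG_pos (2 * n)).le
    positivity
  set r : ℝ := min (min r0 1) (((volK K).w i x)⁻¹ / (D + 1)) with hr
  have hrp : 0 < r := lt_min (lt_min hr0 one_pos) (by positivity)
  have hrr0 : r ≤ r0 := (min_le_left _ _).trans (min_le_left _ _)
  have hr1 : r ≤ 1 := (min_le_left _ _).trans (min_le_right _ _)
  have hrD : D * r < ((volK K).w i x)⁻¹ := by
    have h3 : r ≤ ((volK K).w i x)⁻¹ / (D + 1) := min_le_right _ _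
    rw [le_div_iff₀ (by positivity)] at h3
    nlinarith
  obtain ⟨F, hF, hFh, hFi⟩ := hsol r hrp
  have hFa : ∀ j, ∀ y ∈ (A.e j).source,
      AnalyticAt ℂ (fun z => F j ((A.e j).symm z)) (A.e j y) := fun j y hy =>
    Crest.Agent.R266.SCV.analyticOnNhd_of_differentiableOn (A.e j).open_target
      (DifferentiableOn.mono (hFh j) fun w hw => ⟨hw, mem_univ _⟩) _ ((A.e j).map_source hy)
  -- the value at `x`
  have hFx : F i x ≠ 0 := by
    intro hF0
    have hv := isS_sub hF hG
    have h3 : ∀ w ∈ ball x' r, N * ψ w + ((2 * n + 1 : ℕ) : ℝ) * Real.log (f w + r) ≤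
        E0 + ((2 * n + 1 : ℕ) : ℝ) * Real.log (((L : ℝ) + 1) * r) := by
      intro w hw
      have hwt := hr0s (closedBall_subset_closedBall hrr0 (ball_subset_closedBall hw))
      have h4 := hL.dist_le_mul w hwt.1 x' (hr0s (mem_closedBall_self hr0.le)).1
      have h5 : f x' = 0 := hfx
      simp only [h5, Real.dist_eq, sub_zero] at h4
      have h6 : dist w x' < r := hw
      have h7 : f w + r ≤ ((L : ℝ) + 1) * r := by
        have := le_abs_self (f w)
        have h8 : (L : ℝ) * dist w x' ≤ L * r := mul_le_mul_of_nonneg_left h6.le L.2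
        linarith
      have h8 := Real.log_le_log (by have := (hfb w).1; positivity) h7
      have h9 : ψ w ≤ Cψ * (2 + dist p x') := by
        refine (h2 w).trans (mul_le_mul_of_nonneg_left ?_ hCψ)
        have := dist_triangle p x' w
        rw [dist_comm x' w] at this
        linarith
      have h10 := mul_le_mul_of_nonneg_left h9 hN
      have h11 := mul_le_mul_of_nonneg_left h8 (Nat.cast_nonneg (2 * n + 1) : (0 : ℝ) ≤ _)
      linarith
    have h4 := lint_ball K (ns_nonneg (volK K) (F - G)) x' h3 hFi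
    have h5 := mv hn K hP hR (ns_nonneg (volK K) (F - G)) hUo (fun y hy => ⟨i, hUi hy, by
      refine ns_psh K hR hv (hUi hy) ?_
      have h6 : (fun z => (F - G) i ((A.e i).symm z)) =ᶠ[𝓝 (A.e i y)]
          fun z => F i ((A.e i).symm z) - 1 := by
        filter_upwards [(tendsto_symm (hUi hy)).eventually (hUo.mem_nhds hy)] with w hw
        simp only [Pi.sub_apply, hGU _ hw]
      exact ((hFa i y (hUi hy)).sub analyticAt_const).congr h6.symm⟩) x' hrp (by positivity)
      (fun w hw => (hr0s (closedBall_subset_closedBall hrr0 hw)).2) h4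
    have h6 : ns (volK K) (F - G) x' = ((volK K).w i x)⁻¹ := by
      change ns (volK K) (F - G) x = _
      rw [ns_eq _ (fun j k h => hv.tr j k _ h) hx]
      simp only [Pi.sub_apply]
      rw [hF0, hGU x hxU]
      simp
    have h7 := vol_ge K hP hR x' x' (R := 1) (S := 1) hrp (by simp) hr1
    have hVr := (mu_ball_pos K hP x' hrp).1
    have h8 : ((mu K).real (ball x' r))⁻¹ ≤ V1⁻¹ * (1 / r) ^ (2 * n) := by
      rw [inv_le_iff_one_le_mul₀ hVr, mul_assoc, ← div_le_iff₀' (inv_pos.2 hV1p)]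
      simpa using h7
    have h9 : Real.exp (E0 + ((2 * n + 1 : ℕ) : ℝ) * Real.log (((L : ℝ) + 1) * r)) =
        Real.exp E0 * (((L : ℝ) + 1) ^ (2 * n + 1) * r ^ (2 * n + 1)) := by
      rw [Real.exp_add, ← Real.log_pow, Real.exp_log (by positivity), mul_pow]
    rw [h6, h9] at h5
    have h10 : ((mu K).real (ball x' r))⁻¹ *
        (Real.exp E0 * (((L : ℝ) + 1) ^ (2 * n + 1) * r ^ (2 * n + 1)) * κ0) ≤
        V1⁻¹ * (Real.exp E0 * ((L : ℝ) + 1) ^ (2 * n + 1) * κ0) * r := by
      refine (mul_le_mul_of_nonneg_right h8 (by positivity)).trans (le_of_eq ?_)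
      rw [one_div, inv_pow, pow_succ r]
      field_simp
    have h11 := mul_le_mul_of_nonneg_left h10 (CDG_pos (2 * n)).le
    have h12 : CDG (2 * n) * (V1⁻¹ * (Real.exp E0 * ((L : ℝ) + 1) ^ (2 * n + 1) * κ0) * r) =
        D * r := by rw [hD]; ring
    linarith
  -- the bound for `G`
  obtain ⟨CG, hCG⟩ := hSc.exists_bound_of_continuousOn
    (sm_continuous (ns_sm (volK K) hG)).continuousOn
  have hGb : ∀ y, ns (volK K) G y ≤ |CG| := by
    intro y
    by_cases hy : y ∈ S
    · exact (le_abs_self _).trans ((hCG y hy).trans (le_abs_self _))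
    · have : ns (volK K) G y = 0 := by
        unfold ns gl
        simp [hSG _ y hy]
      rw [this]
      exact abs_nonneg _
  set W1 : ℝ := (mu K).real (ball p 1) with hW1
  have hW1p : 0 < W1 := (mu_ball_pos K hP p one_pos).1
  set E1 : ℝ := ((2 * n + 1 : ℕ) : ℝ) * Real.log (B + r) with hE1
  set a : ℝ := CDG (2 * n) * (W1⁻¹ * (2 * Real.exp E1 * κ0)) with ha
  set b : ℝ := CDG (2 * n) * (2 * |CG|) with hb
  set c : ℝ := 2 * (N * Cψ) + 2 * n with hc
  have hCD := (CDG_pos (2 * n)).le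
  have hgrow : ∀ y : (ofKah K).M, ns (volK K) F y ≤ Real.exp ((c + a + b) * (1 + dist p y)) := by
    intro y
    refine le_trans ?_ (exp_bound (by positivity) (by positivity) (by positivity) dist_nonneg)
    set d := dist p y with hd
    have hd0 : 0 ≤ d := dist_nonneg
    have h3 : ∀ w ∈ ball y 1, N * ψ w + ((2 * n + 1 : ℕ) : ℝ) * Real.log (f w + r) ≤
        2 * (N * Cψ) * (1 + d) + E1 := by
      intro w hw
      have h6 : dist w y < 1 := hw
      have h8 := Real.log_le_log (by have := (hfb w).1; positivity)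
        (add_le_add_left (hfb w).2 r)
      have h9 : ψ w ≤ Cψ * (2 * (1 + d)) := by
        refine (h2 w).trans (mul_le_mul_of_nonneg_left ?_ hCψ)
        have := dist_triangle p y w
        rw [dist_comm y w] at this
        linarith
      have h10 := mul_le_mul_of_nonneg_left h9 hN
      have h11 := mul_le_mul_of_nonneg_left h8 (Nat.cast_nonneg (2 * n + 1) : (0 : ℝ) ≤ _)
      linarith
    have h4 := lint_ball K (ns_nonneg (volK K) (F - G)) y h3 hFi
    obtain ⟨hVy, hVy'⟩ := mu_ball_pos K hP y one_pos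
    set Vy := (mu K).real (ball y 1) with hVyd
    set X : ℝ := Real.exp (2 * (N * Cψ) * (1 + d) + E1) * κ0 with hX
    have hX0 : 0 ≤ X := by positivity
    have h5 : ∫⁻ w in ball y 1, ENNReal.ofReal (ns (volK K) F w) ∂(mu K) ≤
        ENNReal.ofReal (2 * X + 2 * |CG| * Vy) := by
      calc ∫⁻ w in ball y 1, ENNReal.ofReal (ns (volK K) F w) ∂(mu K)
          ≤ ∫⁻ w in ball y 1, (ENNReal.ofReal 2 * ENNReal.ofReal (ns (volK K) (F - G) w) +
              ENNReal.ofReal (2 * |CG|)) ∂(mu K) := by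
            refine lintegral_mono fun w => ?_
            have h6 := ns_nonneg (volK K) (F - G) w
            rw [← ENNReal.ofReal_mul (by norm_num),
              ← ENNReal.ofReal_add (by positivity) (by positivity)]
            refine ENNReal.ofReal_le_ofReal ?_
            have h7 := ns_le (volK K) F G w
            have h8 := hGb w
            linarith
        _ = ENNReal.ofReal 2 * ∫⁻ w in ball y 1, ENNReal.ofReal (ns (volK K) (F - G) w) ∂(mu K) +
              ENNReal.ofReal (2 * |CG|) * mu K (ball y 1) := by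
            rw [lintegral_add_right _ measurable_const,
              lintegral_const_mul' _ _ ENNReal.ofReal_ne_top, setLIntegral_const]
        _ ≤ ENNReal.ofReal 2 * ENNReal.ofReal X +
              ENNReal.ofReal (2 * |CG|) * ENNReal.ofReal Vy := by
            refine add_le_add (mul_le_mul_right h4 _) (le_of_eq ?_)
            rw [hVyd, Measure.real, ENNReal.ofReal_toReal hVy']
        _ = _ := by
            rw [← ENNReal.ofReal_mul (by norm_num), ← ENNReal.ofReal_mul (by positivity),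
              ← ENNReal.ofReal_add (by positivity) (by positivity)]
    have h6 := mv hn K hP hR (ns_nonneg (volK K) F) isOpen_univ (fun w _ => by
      obtain ⟨j, hj⟩ := A.cover w
      exact ⟨j, hj, ns_psh K hR hF hj (hFa j w hj)⟩) y one_pos (by positivity)
      (fun w _ => mem_univ _) h5
    have h7 := vol_ge K hP hR p y (r := 1) (R := 1) (S := 1 + d) one_pos le_rfl (by linarith)
    have h8 : (1 + d) ^ (2 * n) ≤ Real.exp (2 * n * (1 + d)) := by
      have h9 : 1 + d ≤ Real.exp (1 + d) := by linarith [Real.add_one_le_exp (1 + d)]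
      have h10 := pow_le_pow_left₀ (by positivity) h9 (2 * n)
      rw [← Real.exp_nat_mul] at h10
      simpa using h10
    have h9 : Vy⁻¹ ≤ W1⁻¹ * Real.exp (2 * n * (1 + d)) := by
      rw [inv_le_iff_one_le_mul₀ hVy, mul_assoc, ← div_le_iff₀' (inv_pos.2 hW1p)]
      rw [div_one] at h7
      have h10 := mul_le_mul_of_nonneg_right h8 hVy.le
      simp only [one_div, inv_inv]
      linarith
    have h10 : Vy⁻¹ * (2 * X + 2 * |CG| * Vy) = Vy⁻¹ * (2 * X) + 2 * |CG| := by
      field_simp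
    have h11 : Vy⁻¹ * (2 * X) ≤ W1⁻¹ * (2 * Real.exp E1 * κ0) * Real.exp (c * (1 + d)) := by
      refine (mul_le_mul_of_nonneg_right h9 (by positivity)).trans (le_of_eq ?_)
      have h12 : Real.exp (c * (1 + d)) =
          Real.exp (2 * (N * Cψ) * (1 + d)) * Real.exp (2 * n * (1 + d)) := by
        rw [← Real.exp_add, hc]; congr 1; ring
      rw [hX, Real.exp_add, h12]
      ring
    refine h6.trans ?_
    rw [h10, mul_add]
    have h12 := mul_le_mul_of_nonneg_left h11 hCD
    rw [ha, hb]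
    linarith
  refine ⟨fun j y => if y ∈ (A.e j).source then F j y else 0, c + a + b,
    ⟨fun j => (hFh j).congr fun y hy _ => by rw [if_pos hy], fun j y hy => if_neg hy,
      fun j k y hy _ => by rw [if_pos hy.1, if_pos hy.2]; exact hF.tr j k y hy⟩, ?_, ?_⟩
  · simp only [if_pos hx]
    exact hFx
  · intro j y hy
    simp only [if_pos hy]
    exact (ns_eq (volK K) (fun j k h => hF.tr j k _ h) hy).symm.le.trans (hgrow y)

end

end Crest.Agent.T223.Nf
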