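import Crest.Agent.T223.OsKitA_61
import Crest.Agent.T223.FrB_38
import Crest.Agent.T223.EvC_41
import Crest.Agent.T223.Bx_45
import Crest.Agent.T223.TrTr_90

/-!
# Row 223, module OSG (helper21), assembly, part A: `LipOn` from `gsq`, congruence and jump of the
invariant, restrictions
-/

set_option autoImplicit false
set_option linter.unusedVariables false
set_option linter.unusedSectionVars false

open Set Filter Topology Metric
open scoped ContDiff ComplexConjugate Matrix ComplexOrder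

namespace Crest.Agent.T223.Os

open Crest.Agent.R275.Geo Crest.Agent.R273.Kah_333 Crest.Agent.R273.Hess_333
open Crest.Agent.R273.HessB_333 (hess_congr)
open Crest.Agent.T223.Br Crest.Agent.T223.Tr
open Crest.Agent.T223.Db (dom SmST)

noncomputable section

variable {n : ℕ}

/-! ### `gsq` bounds the differential -/

theorem fderiv_sq_le_gsq {G : Mat n} (hG : G.PosDef) {φ : Cn n → ℝ} {z : Cn n}
    (hd : DifferentiableAt ℝ φ z) (v : Cn n) :
    fderiv ℝ φ z v ^ 2 ≤ 4 * nqi G (dz φ z) * nq G v := by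
  set ξ := dz φ z with hξ
  set η : Cn n := WithLp.toLp 2 fun b => conj (∑ c, G c b * v c) with hη
  have hu : IsUnit G.det := (Matrix.isUnit_iff_isUnit_det G).1 hG.isUnit
  have h1 : ∀ a, ∑ b, G⁻¹ b a * conj (η b) = v a := by
    intro a
    have h3 : ∑ b, G⁻¹ b a * conj (η b) = ∑ c, (G * G⁻¹) c a * v c := by
      simp only [hη, Complex.conj_conj, Finset.mul_sum, Matrix.mul_apply, Finset.sum_mul]
      rw [Finset.sum_comm]
      exact Finset.sum_congr rfl fun d _ => Finset.sum_congr rfl fun a _ => by ring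
    rw [h3, Matrix.mul_nonsing_inv _ hu]
    simp [Matrix.one_apply]
  have h2 : ∀ ζ : Cn n, Bx.ipi G ζ η = (∑ a, v a * ζ a).re := by
    intro ζ
    rw [Bx.ipi_eq]
    congr 1
    refine Finset.sum_congr rfl fun a _ => ?_
    rw [← h1 a, Finset.sum_mul]
    exact Finset.sum_congr rfl fun b _ => by ring
  have h3 : nqi G η = nq G v := by
    rw [← Bx.ipi_self, h2, ← Complex.conj_re]
    unfold nq
    congr 1
    rw [map_sum, Finset.sum_comm]
    refine Finset.sum_congr rfl fun a _ => ?_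
    simp only [hη, map_mul, Complex.conj_conj, Finset.mul_sum]
    exact Finset.sum_congr rfl fun b _ => by ring
  have h4 := Bx.ipi_sq_le hG ξ η
  rw [h2, h3] at h4
  rw [fderiv_eq_wd hd]
  have h5 : (∑ k, v k * Crest.Agent.R275.EDR890.wd (false, k) (cu φ) z).re = (∑ a, v a * ξ a).re :=
    rfl
  rw [h5]
  nlinarith

theorem abs_fderiv_le_of_gsq {g : Cn n → Mat n} {φ : Cn n → ℝ} {z : Cn n} (hG : (g z).PosDef)
    (hd : DifferentiableAt ℝ φ z) {c : ℝ} (hc : 0 ≤ c) (h : 4 * gsq g φ z ≤ c ^ 2) (v : Cn n) :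
    |fderiv ℝ φ z v| ≤ c * Real.sqrt (nq (g z) v) := by
  have h1 := fderiv_sq_le_gsq hG hd v
  have h2 : 0 ≤ nq (g z) v := Ev.nq_nonneg hG.posSemidef v
  refine abs_le_of_sq_le_sq' ?_ (by positivity) |> abs_le.2
  rw [mul_pow, Real.sq_sqrt h2]
  exact h1.trans (mul_le_mul_of_nonneg_right h h2)

theorem exists_nq_lower {G : Mat n} (hG : G.PosDef) :
    ∃ m : ℝ, 0 < m ∧ ∀ v : Cn n, m * ‖v‖ ≤ Real.sqrt (nq G v) := by
  have hc : Continuous fun v : Cn n => nq G v := by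
    unfold nq
    fun_prop
  have hs : ∀ (c : ℝ) (v : Cn n), nq G ((c : ℂ) • v) = c ^ 2 * nq G v := by
    intro c v
    unfold nq
    rw [← Complex.re_ofReal_mul]
    congr 1
    simp only [PiLp.smul_apply, smul_eq_mul, map_mul, Complex.conj_ofReal, Finset.mul_sum]
    refine Finset.sum_congr rfl fun a _ => Finset.sum_congr rfl fun b _ => ?_
    push_cast; ring
  rcases (sphere (0 : Cn n) 1).eq_empty_or_nonempty with he | hne
  · refine ⟨1, one_pos, fun v => ?_⟩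
    by_cases hv : v = 0
    · simp [hv]
    · exfalso
      have : ((‖v‖⁻¹ : ℝ) : ℂ) • v ∈ sphere (0 : Cn n) 1 := by
        rw [mem_sphere_zero_iff_norm, norm_smul, Complex.norm_real, norm_inv, norm_norm,
          inv_mul_cancel₀ (norm_ne_zero_iff.2 hv)]
      rw [he] at this
      exact this
  obtain ⟨w, hw, hmin⟩ := (isCompact_sphere (0 : Cn n) 1).exists_isMinOn hne hc.continuousOn
  have hw0 : w ≠ 0 := by
    rintro rfl
    simp at hw
  have hp : 0 < nq G w := Ev.nq_pos hG hw0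
  refine ⟨Real.sqrt (nq G w), Real.sqrt_pos.2 hp, fun v => ?_⟩
  by_cases hv : v = 0
  · simp [hv]
  have hn : 0 < ‖v‖ := norm_pos_iff.2 hv
  have h1 : ((‖v‖⁻¹ : ℝ) : ℂ) • v ∈ sphere (0 : Cn n) 1 := by
    rw [mem_sphere_zero_iff_norm, norm_smul, Complex.norm_real, norm_inv, norm_norm,
      inv_mul_cancel₀ hn.ne']
  have h2 : nq G w ≤ (‖v‖⁻¹) ^ 2 * nq G v := by
    rw [← hs]; exact hmin h1
  refine Real.le_sqrt_of_sq_le ?_
  rw [mul_pow, Real.sq_sqrt hp.le]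
  have h3 := mul_le_mul_of_nonneg_right h2 (sq_nonneg ‖v‖)
  have h4 : ‖v‖⁻¹ ^ 2 * nq G v * ‖v‖ ^ 2 = nq G v := by field_simp
  linarith

variable {M : Type} [TopologicalSpace M] {A : Atl n M}

/-- `LipOn` from a bound for `gsq` in every chart -/
theorem lipOn_of_gsq {G : MF A} {U : Set M} {ρ : M → ℝ} {c : ℝ} (hc : 0 ≤ c)
    (h : ∀ i, ∀ x ∈ (A.e i).source, x ∈ U → (G i (A.e i x)).PosDef ∧
      DifferentiableAt ℝ (inC A i ρ) (A.e i x) ∧ 4 * gsq (G i) (inC A i ρ) (A.e i x) ≤ c ^ 2) :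
    LipOn G U c ρ := by
  intro i x hi hx ε hε
  obtain ⟨hp, hd, hg⟩ := h i x hi hx
  obtain ⟨m, hm, hm'⟩ := exists_nq_lower hp
  have h1 := hd.hasFDerivAt.isLittleO.def (mul_pos hε hm)
  filter_upwards [h1] with w hw
  have h2 := abs_fderiv_le_of_gsq hp hd hc hg (w - A.e i x)
  have h3 := mul_le_mul_of_nonneg_left (hm' (w - A.e i x)) hε.le
  rw [Real.norm_eq_abs, inC_apply ρ hi] at hw
  have h4 := abs_add_le (inC A i ρ w - ρ x - fderiv ℝ (inC A i ρ) (A.e i x) (w - A.e i x))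
    (fderiv ℝ (inC A i ρ) (A.e i x) (w - A.e i x))
  rw [sub_add_cancel] at h4
  nlinarith

theorem Gr_chart {G : MF A} {U : Set M} (hG : KahOn G U) (hU : IsOpen U) {f : M → ℝ}
    (hf : SmOn A U f) {i : A.ι} {x : M} (hi : x ∈ (A.e i).source) (hx : x ∈ U) :
    gsq (G i) (inC A i f) (A.e i x) = Gr G f x :=
  hG.tr.gsq_indep hi (ch_mem A x) hx
    ((hf.contDiffAt hU (ch_mem A x) hx).differentiableAt (by simp))

theorem Sc_chart {G : MF A} {U : Set M} (hG : KahOn G U) (hU : IsOpen U) {i : A.ι} {x : M}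
    (hi : x ∈ (A.e i).source) (hx : x ∈ U) : scal (G i) (A.e i x) = Sc G x :=
  hG.scal_indep hi (ch_mem A x) (hU.mem_nhds hx)

theorem lipOn_of_Gr {G : MF A} {U O : Set M} (hG : KahOn G U) (hU : IsOpen U) {ρ : M → ℝ}
    (hρ : SmOn A U ρ) (hO : O ⊆ U) {c : ℝ} (hc : 0 ≤ c) (h : ∀ x ∈ O, 4 * Gr G ρ x ≤ c ^ 2) :
    LipOn G O c ρ :=
  lipOn_of_gsq hc fun i x hi hx => ⟨(hG.kah i x hi (hO hx)).posDef,
    (hρ.contDiffAt hU hi (hO hx)).differentiableAt (by simp), by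
      rw [Gr_chart hG hU hρ hi (hO hx)]; exact h x hx⟩

/-! ### congruence -/

theorem scal_congr' {g h : Cn n → Mat n} {z : Cn n} (e : g =ᶠ[𝓝 z] h) : scal g =ᶠ[𝓝 z] scal h :=
  e.eventually_nhds.mono fun w hw => by
    have hw' : g =ᶠ[𝓝 w] h := hw
    simp only [scal, ric_congr hw', hw'.self_of_nhds]

theorem lyhS_congr21 {g h : Cn n → Mat n} {z : Cn n} (e : g =ᶠ[𝓝 z] h) (τ : ℝ) (c : ℂ)
    (a v : Cn n) : lyhS g τ z c a v = lyhS h τ z c a v := by
  have h1 : ∀ k, nabRic g z k = nabRic h z k := fun k => by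
    unfold nabRic
    rw [T223.wdM_congr (ric_congr' e), T223.wdM_congr e, e.self_of_nhds, ric_congr e]
  have h2 : bis g z v a = bis h z v a := by
    unfold bis
    simp only [Rm_congr e]
  unfold lyhS
  rw [hess_congr (scal_congr' e), ric_congr e, e.self_of_nhds, h2]
  simp only [h1]

theorem EqF.ev21 {G G' : MF A} {U : Set M} (h : EqF G G' U) (hU : IsOpen U) {i : A.ι} {x : M}
    (hi : x ∈ (A.e i).source) (hx : x ∈ U) : G i =ᶠ[𝓝 (A.e i x)] G' i := by
  filter_upwards [ev_chart hi (hU.mem_nhds hx)] with w hw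
  obtain ⟨y, hy, rfl, -, hyU⟩ := hw
  exact h i y hy hyU

theorem inC_ev21 {f f' : M → ℝ} {U : Set M} (h : ∀ x ∈ U, f x = f' x) (hU : IsOpen U) {i : A.ι}
    {x : M} (hi : x ∈ (A.e i).source) (hx : x ∈ U) : inC A i f =ᶠ[𝓝 (A.e i x)] inC A i f' := by
  filter_upwards [ev_chart hi (hU.mem_nhds hx)] with w hw
  obtain ⟨y, hy, rfl, -, hyU⟩ := hw
  rw [inC_apply f hy, inC_apply f' hy, h y hyU]

theorem eqF_gφ (K0 : Kah A) {φ φ' : ℝ → M → ℝ} {t : ℝ} {U : Set M} (hU : IsOpen U)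
    (h : ∀ x ∈ U, φ t x = φ' t x) : EqF (gφ K0 φ t) (gφ K0 φ' t) U := fun i x hi hx => by
  unfold gφ
  rw [hess_congr (inC_ev21 h hU hi hx)]

section congr

variable {G G' : MF A} {U : Set M} (h : EqF G G' U) (hU : IsOpen U) {x : M} (hx : x ∈ U)
include h hU hx

theorem Sc_congr : Sc G x = Sc G' x := (scal_congr' (h.ev21 hU (ch_mem A x) hx)).self_of_nhds

theorem lv_congr (K0 : Kah A) : lv K0 G x = lv K0 G' x := by
  unfold lv lvol ldet
  rw [h _ x (ch_mem A x) hx]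

theorem Gr_congr {f f' : M → ℝ} (hf : ∀ x ∈ U, f x = f' x) : Gr G f x = Gr G' f' x := by
  unfold Gr gsq
  rw [h _ x (ch_mem A x) hx, Bx.dz_congr (inC_ev21 hf hU (ch_mem A x) hx)]

theorem LyhGe.congr {τ κ θ : ℝ} (H : LyhGe G τ κ θ x) : LyhGe G' τ κ θ x := fun i hi c a v => by
  rw [← h i x hi hx, ← lyhS_congr21 (h.ev21 hU hi hx)]
  exact H i hi c a v

theorem HesGe.congr {f f' : M → ℝ} (hf : ∀ x ∈ U, f x = f' x) {c : ℝ} (H : HesGe G f c x) :
    HesGe G' f' c x := fun i hi v => by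
  rw [← h i x hi hx, ← ric_congr (h.ev21 hU hi hx), ← hess_congr (inC_ev21 hf hU hi hx)]
  exact H i hi v

theorem MetLe.congr {c : ℝ} {K0 : Kah A} (H : MetLe G c K0 x) : MetLe G' c K0 x := fun i hi v => by
  rw [← h i x hi hx]
  exact H i hi v

end congr

/-! ### monotonicity -/

theorem LyhGe.mono21 {G : MF A} {τ κ θ κ' θ' : ℝ} {x : M}
    (hp : ∀ i, x ∈ (A.e i).source → (G i (A.e i x)).PosDef) (H : LyhGe G τ κ θ x) (h1 : θ ≤ θ')
    (h2 : θ * κ ≤ θ' * κ') : LyhGe G τ κ' θ' x := fun i hi c a v => by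
  refine le_trans (neg_le_neg ?_) (H i hi c a v)
  have ha : 0 ≤ nq (G i (A.e i x)) a := Ev.nq_nonneg (hp i hi).posSemidef a
  have hv : 0 ≤ nq (G i (A.e i x)) v := Ev.nq_nonneg (hp i hi).posSemidef v
  refine mul_le_mul_of_nonneg_right ?_ hv
  have h3 := mul_le_mul_of_nonneg_right h1 ha
  have h4 := mul_le_mul_of_nonneg_right h2 (sq_nonneg ‖c‖)
  nlinarith

theorem HesGe.mono21 {G : MF A} {f : M → ℝ} {c c' : ℝ} {x : M}
    (hp : ∀ i, x ∈ (A.e i).source → (G i (A.e i x)).PosDef) (H : HesGe G f c x) (h1 : c ≤ c') :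
    HesGe G f c' x := fun i hi v =>
  le_trans (neg_le_neg (mul_le_mul_of_nonneg_right h1
    (Ev.nq_nonneg (hp i hi).posSemidef v))) (H i hi v)

theorem MetLe.mono21 {G : MF A} {c c' : ℝ} {K0 : Kah A} {x : M} (H : MetLe G c K0 x) (h1 : c ≤ c') :
    MetLe G c' K0 x := fun i hi v =>
  (H i hi v).trans (mul_le_mul_of_nonneg_right h1 (Ev.nq_nonneg (K0.pos i x hi).posSemidef v))

theorem LyhGe.bkge' {G : MF A} {τ κ θ : ℝ} {x : M} (H : LyhGe G τ κ θ x) {i : A.ι}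
    (hi : x ∈ (A.e i).source) : BKge (G i) (A.e i x) θ := fun v w => by
  have := H i hi 0 w v
  simp only [lyhS, norm_zero, map_zero, zero_mul, Complex.zero_re, ne_eq, OfNat.ofNat_ne_zero,
    not_false_eq_true, zero_pow, mul_zero, add_zero, zero_add] at this
  linarith [mul_right_comm θ (nq (G i (A.e i x)) v) (nq (G i (A.e i x)) w)]

theorem Good.mono' {G : MF A} {u ρ : M → ℝ} {W W' : Set M} {r Kρ Kρ' : ℝ} {x : M} {ψ : Cn n → M}
    (h : Good G u ρ W r Kρ x ψ) (hW : W ⊆ W') (hK : Kρ ≤ Kρ') (hr : 0 ≤ r) :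
    Good G u ρ W' r Kρ' x ψ :=
  ⟨⟨h.qc.imm, fun w hw => hW (h.qc.maps hw), h.qc.zero, h.qc.ctr, h.qc.lo, h.qc.hi⟩, h.dG, h.du,
    h.dρ1, fun j h1 h2 w hw => (h.dρ j h1 h2 w hw).trans (mul_le_mul_of_nonneg_right hK hr)⟩

theorem FlowOn.mono' {a b a' b' : ℝ} {U U' : Set M} {g : ℝ → MF A} (h : FlowOn a b U g)
    (ha : a ≤ a') (hb : b' ≤ b) (hU : U' ⊆ U) : FlowOn a' b' U' g :=
  ⟨fun i k l => (h.sm i k l).mono (prod_mono (Icc_subset_Icc ha hb) (dom_mono i hU)),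
    fun s hs => (h.kah s (Icc_subset_Icc ha hb hs)).mono hU,
    fun s hs i x hi hx => h.krf s (Ioo_subset_Ioo ha hb hs) i x hi (hU hx)⟩

variable [T2Space M] [ConnectedSpace M] {K0 : Kah A} {p : M} {P : Par} {I : Init K0 p} {a : ℝ}

theorem Inv.congr {G G' : MF A} {u ρ v u' ρ' v' : M → ℝ} {U : Set M} (h : EqF G G' U)
    (hU : IsOpen U) (hu : ∀ x ∈ U, u x = u' x) (hρ : ∀ x ∈ U, ρ x = ρ' x)
    (hv : ∀ x ∈ U, v x = v' x) {s q e : ℝ} {x : M} (hx : x ∈ U)
    (H : Inv P I a G u ρ v s q x e) : Inv P I a G' u' ρ' v' s q x e := by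
  have e1 := lv_congr h hU hx K0
  have e2 := Sc_congr h hU hx
  have e3 := Gr_congr h hU hx hu
  have e4 := Gr_congr h hU hx hρ
  have e5 := hu x hx
  have e6 := hρ x hx
  have e7 := hv x hx
  refine ⟨LyhGe.congr h hU hx H.ia, HesGe.congr h hU hx hu H.ib, ?_, ?_, ?_, ?_, ?_⟩
  · have := H.ic
    unfold IC at *
    rwa [← e4, ← e6]
  · have := H.id
    unfold ID at *
    rwa [← e1, ← e5, ← e6]
  · have := H.ie
    unfold IE at *
    rw [← e1, ← e7]
    exact ⟨MetLe.congr h hU hx this.1, this.2⟩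
  · have := H.if'
    unfold IF Sf at *
    rwa [← e1, ← e6, ← e7]
  · have := H.ig
    unfold IG Phi at *
    rwa [← e2, ← e3, ← e5, ← e6]

/-- the invariant survives a change of scale if the error is multiplied by `16` -/
theorem Inv.jump (hP : P.Ok) {G : MF A} {u ρ v : M → ℝ} {s q q' e e' : ℝ} {x : M}
    (hp : ∀ i, x ∈ (A.e i).source → (G i (A.e i x)).PosDef) (hs : 0 ≤ s) (he : 0 ≤ e)
    (hq : 0 ≤ q) (hq' : 0 ≤ q') (hqq : q ≤ 4 * q') (hee : 16 * e ≤ e')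
    (H : Inv P I a G u ρ v s q x e) : Inv P I a G u ρ v s q' x e' := by
  have h0 : e ≤ e' := by linarith
  have h1 : q * e ≤ q' * e' := by nlinarith [mul_nonneg hq' he]
  have h2 : q * e * q ≤ q' * e' * q' := by
    have h3 : q * q ≤ 4 * q' * (4 * q') := mul_le_mul hqq hqq hq (by positivity)
    have h4 := mul_le_mul_of_nonneg_right h3 he
    have h5 := mul_le_mul_of_nonneg_left hee (mul_nonneg hq' hq')
    nlinarith
  have hK := hP.K0
  have hK1 := hP.K10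
  have hτ := hP.τ_pos hs
  have hCb := hP.Cb0
  have h6 : ∀ c : ℝ, 0 ≤ c → c * e ≤ c * e' := fun c hc => mul_le_mul_of_nonneg_left h0 hc
  refine ⟨?_, ?_, ⟨H.ic.1, ?_⟩, ⟨?_, ?_, fun C' θ hθ => ?_⟩, ⟨?_, ?_, ?_⟩, fun α hα => ⟨fun y => ?_, ?_⟩,
    ?_⟩
  · refine LyhGe.mono21 hp H.ia ?_ ?_
    · nlinarith [mul_le_mul_of_nonneg_left h1 hK.le]
    · nlinarith [mul_le_mul_of_nonneg_left h2 hK.le]
  · refine HesGe.mono21 hp H.ib ?_
    have : (0 : ℝ) ≤ (n + 1) * P.K := by positivity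
    nlinarith [mul_le_mul_of_nonneg_left h1 this]
  · linarith [H.ic.2, h6 _ hK.le]
  · linarith [H.id.1, h6 _ hK1.le]
  · linarith [H.id.2.1, h6 (P.K1 * (1 + P.Cb)) (by positivity)]
  · have := hθ.1
    linarith [H.id.2.2 C' θ hθ, h6 (P.K1 * (1 + C')) (by positivity)]
  · exact H.ie.1.mono21 (Real.exp_le_exp.2 (h6 _ hK1.le))
  · linarith [H.ie.2.1, h6 _ hK1.le]
  · linarith [H.ie.2.2, h6 (P.K1 * (1 + s)) (by positivity)]
  · linarith [(H.if' α hα).1 y, h6 (P.K1 * (1 + s)) (by positivity)]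
  · linarith [(H.if' α hα).2, h6 (P.K1 * (1 + s)) (by positivity)]
  · have h7 := mul_le_mul_of_nonneg_left h1 (mul_pos hK1 hτ).le
    have h8 := H.ig
    unfold IG at *
    nlinarith

end

end Crest.Agent.T223.Os
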