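import Crest.Agent.T223.OsAsmA_21

/-!
# Row 223, module OSG (helper21), assembly, part B: the state at a restart, state → step → state
-/

set_option autoImplicit false
set_option linter.unusedVariables false
set_option linter.unusedSectionVars false

open Set Filter Topology Metric
open scoped ContDiff ComplexConjugate Matrix ComplexOrder

namespace Crest.Agent.T223.Os

open Crest.Agent.R275.Geo Crest.Agent.R273.Kah_333 Crest.Agent.R273.Hess_333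
open Crest.Agent.T223.Br Crest.Agent.T223.Tr
open Crest.Agent.T223.Db (dom SmST)

noncomputable section

variable {n : ℕ} {M : Type} [TopologicalSpace M] {A : Atl n M}
variable [T2Space M] [ConnectedSpace M] {K0 : Kah A} {p : M} {P : Par} {I : Init K0 p} {a : ℝ}

/-- the state at a restart -/
structure St (P : Par) (I : Init K0 p) (a c1 Kρ σ t : ℝ) where
  W : Set M
  G : MF A
  u : M → ℝ
  ρ : M → ℝ
  v : M → ℝ
  op : IsOpen W
  sub : ∀ x ∈ W, I.ρ0 x < a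
  kah : KahOn G W
  su : SmOn A W u
  sρ : SmOn A W ρ
  sv : SmOn A W v
  pot : EqF G (gφ K0 (fun _ => v) t) W
  cpt : IsCompact {x | x ∈ W ∧ ρ x ≤ σ + c1 * P.r σ t}
  good : ∀ x ∈ W, ρ x ≤ σ + c1 * P.r σ t → ∃ ψ, Good G u ρ W (P.r σ t) Kρ x ψ
  inv : ∀ x ∈ W, ρ x ≤ σ + c1 * P.r σ t →
    Inv P I a G u ρ v t (1 / P.r σ t ^ 2) x (min (P.Eb σ t t (ρ x)) 1 / P.J)
  pW : p ∈ W
  pρ : ρ p ≤ σ / 2

/-- the conclusion of `StepStmt` on `M` -/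
def StepOn (A : Atl n M) (δ0 C0 Kρ K : ℝ) : Prop :=
  ∀ (G : MF A) (u0 ρ0 : M → ℝ) (W : Set M) (r c t : ℝ), IsOpen W → KahOn G W → SmOn A W u0 →
    SmOn A W ρ0 → 0 < r → IsCompact {x | x ∈ W ∧ ρ0 x ≤ c} →
    (∀ x ∈ W, ρ0 x ≤ c → ∃ ψ, Good G u0 ρ0 W r Kρ x ψ) →
    ∃ (g : ℝ → MF A) (u ρ φ : ℝ → M → ℝ),
      FlowOn t (t + δ0 * r ^ 2) {x | x ∈ W ∧ ρ0 x < c - C0 * r} g ∧
      HeatOn t (t + δ0 * r ^ 2) {x | x ∈ W ∧ ρ0 x < c - C0 * r} g u ∧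
      HeatOn t (t + δ0 * r ^ 2) {x | x ∈ W ∧ ρ0 x < c - C0 * r} g ρ ∧
      PhiOn t (t + δ0 * r ^ 2) {x | x ∈ W ∧ ρ0 x < c - C0 * r} g φ ∧
      EqF (g t) G {x | x ∈ W ∧ ρ0 x < c - C0 * r} ∧
      ∀ x ∈ W, ρ0 x < c - C0 * r → u t x = u0 x ∧ ρ t x = ρ0 x ∧
        ∀ s ∈ Icc t (t + δ0 * r ^ 2), Crude K r t g u ρ s x

/-- the conclusion of `RenewStmt` on `M` -/
def RenewOn (A : Atl n M) (δ ε0 N Kρ : ℝ) : Prop :=
  ∀ (U : Set M) (g : ℝ → MF A) (u ρ : ℝ → M → ℝ) (t b r c : ℝ), IsOpen U → 0 < r →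
    t + δ * r ^ 2 < b → FlowOn t b U g → HeatOn t b U g u → HeatOn t b U g ρ →
    IsCompact {x | x ∈ U ∧ ρ t x ≤ c} →
    (∀ s ∈ Icc t (t + δ * r ^ 2), ∀ x ∈ U, ρ t x ≤ c → BkAbs (g s) (ε0 / r ^ 2) x ∧
      Gr (g s) (u s) x ≤ ε0 / r ^ 2 ∧ Gr (g s) (ρ s) x ≤ 2) →
    ∀ r' ∈ Icc r (2 * r), ∀ x ∈ U, ρ t x ≤ c - N * r →
      ∃ ψ, Good (g (t + δ * r ^ 2)) (u (t + δ * r ^ 2)) (ρ (t + δ * r ^ 2))
        {x | x ∈ U ∧ ρ t x ≤ c} r' Kρ x ψ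

theorem isCompact_sub {Z U : Set M} (hZ : IsCompact Z) {f : M → ℝ} (hf : ContinuousOn f Z) (c : ℝ)
    {Y : Set M} (h : ∀ x, x ∈ Y ↔ x ∈ Z ∧ f x ≤ c) : IsCompact Y := by
  have : Y = Z ∩ f ⁻¹' Iic c := by ext x; exact h x
  rw [this]
  exact hZ.of_isClosed_subset (hf.preimage_isClosed_of_isClosed hZ.isClosed isClosed_Iic)
    inter_subset_left

theorem isOpen_sub {W : Set M} (hW : IsOpen W) {f : M → ℝ} (hf : ContinuousOn f W) (c : ℝ) :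
    IsOpen {x | x ∈ W ∧ f x < c} := hf.isOpen_inter_preimage hW isOpen_Iio

/-- state → step -/
theorem St.toStp (hP : P.Ok) (hC : I.C = P.Cb) {δ0 C0 Kρ σ t : ℝ} (hδ : P.δ < δ0) (hC0 : 0 ≤ C0)
    (hS : StepOn A δ0 C0 Kρ P.K) (hV : SpotStmt n) (ht : 0 ≤ t) (hσ : P.ρs t ≤ σ)
    (X : St P I a (P.K + 2 + C0) Kρ σ t) :
    ∃ S : Stp P I a, S.t = t ∧ S.σ = σ ∧ EqF (S.g t) X.G S.U ∧ p ∈ S.U ∧ S.ρ t p ≤ σ / 2 := by
  have hσ0 : 0 ≤ σ := by linarith [hP.one_le_ρs ht]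
  have hr := hP.r_pos hσ0 ht
  have hK := hP.K0
  set r := P.r σ t with hrdef
  obtain ⟨g, u, ρ, φ, h1, h2, h3, h4, h5, h6⟩ :=
    hS X.G X.u X.ρ X.W r _ t X.op X.kah X.su X.sρ hr X.cpt X.good
  set U := {x | x ∈ X.W ∧ X.ρ x < σ + (P.K + 2 + C0) * r - C0 * r} with hU
  have hUo : IsOpen U := isOpen_sub X.op X.sρ.continuousOn _
  have hUW : U ⊆ X.W := fun x hx => hx.1
  have hlt : t < t + δ0 * r ^ 2 := by
    have : 0 < δ0 * r ^ 2 := mul_pos (hP.δ0.trans hδ) (by positivity)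
    linarith
  obtain ⟨v, hv, hv0⟩ := hV M A K0 t _ U g φ X.v hlt hUo h1 h4 (X.sv.mono hUW)
    (h5.trans (X.pot.mono hUW))
  have hρ0 : ∀ x ∈ U, ρ t x = X.ρ x := fun x hx => (h6 x hx.1 hx.2).2.1
  have hle : σ + (P.K + 1) * r ≤ σ + (P.K + 2 + C0) * r := by nlinarith
  have hp : p ∈ U := ⟨X.pW, by nlinarith [X.pρ]⟩
  refine ⟨⟨t, σ, t + δ0 * r ^ 2, U, g, u, ρ, v, hC, ht, hσ, ?_, hUo, fun x hx => X.sub x hx.1, ?_,
    h1, h2, h3, hv, fun s hs x hx => (h6 x hx.1 hx.2).2.2 s hs, fun x hx hx' => ?_⟩,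
    rfl, rfl, h5, hp, ?_⟩
  · have : P.δ * r ^ 2 < δ0 * r ^ 2 := mul_lt_mul_of_pos_right hδ (by positivity)
    linarith
  · refine isCompact_sub (U := U) X.cpt (X.sρ.continuousOn.mono fun x hx => hx.1)
      (σ + (P.K + 1) * r) fun x => ⟨fun hx => ?_, fun hx => ?_⟩
    · have := hρ0 x hx.1 ▸ hx.2
      exact ⟨⟨hx.1.1, this.trans hle⟩, this⟩
    · have hxU : x ∈ U := ⟨hx.1.1, by nlinarith [hx.2]⟩
      exact ⟨hxU, by rw [hρ0 x hxU]; exact hx.2⟩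
  · rw [hρ0 x hx] at hx' ⊢
    exact (X.inv x hx.1 (hx'.trans hle)).congr h5.symm hUo
      (fun y hy => (h6 y hy.1 hy.2).1.symm) (fun y hy => (hρ0 y hy).symm)
      (fun y hy => (hv0 y hy).symm) hx
  · change ρ t p ≤ σ / 2
    rw [hρ0 p hp]; exact X.pρ

namespace Stp

/-- all conclusions of the leaves -/
def All (S : Stp P I a) : Prop := S.OA ∧ S.OB ∧ S.OC ∧ S.OD ∧ S.OE ∧ S.OF ∧ S.OG ∧ S.OP

variable {S : Stp P I a}

theorem All.inv (H : S.All) {s : ℝ} (hs : s ∈ Icc S.t S.t') {x : M} (hx : x ∈ S.Kc) :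
    Inv P I a (S.g s) (S.u s) (S.ρ s) (S.v s) s S.q x (S.E s x) :=
  ⟨H.1 s hs x hx, H.2.1 s hs x hx, H.2.2.1 s hs x hx, H.2.2.2.1 s hs x hx, H.2.2.2.2.1 s hs x hx,
    H.2.2.2.2.2.1 s hs x hx, H.2.2.2.2.2.2.1 s hs x hx⟩

theorem kahK (hP : P.Ok) {s : ℝ} (hs : s ∈ Icc S.t S.t') : KahOn (S.g s) S.U :=
  S.flow.kah s (mem_Icc hP hs)

theorem posK (hP : P.Ok) {s : ℝ} (hs : s ∈ Icc S.t S.t') {x : M} (hx : x ∈ S.U) (i : A.ι)
    (hi : x ∈ (A.e i).source) : (S.g s i (A.e i x)).PosDef := ((kahK hP hs).kah i x hi hx).posDef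

theorem Gr_nonneg (hP : P.Ok) {s : ℝ} (hs : s ∈ Icc S.t S.t') {x : M} (hx : x ∈ S.U)
    (f : M → ℝ) : 0 ≤ Gr (S.g s) f x := Bx.gsq_nonneg (posK hP hs hx _ (ch_mem A x))

/-- smallness of the curvature and of the gradients deep inside -/
theorem All.small (hn : 1 ≤ n) (hP : P.Ok) (H : S.All) {ε0 e0 : ℝ}
    (hB : 10 * (2 * P.K + 4) ≤ P.B) (hΛ : 4 * P.Λ ≤ ε0 * P.L)
    (he : (P.K1 + n ^ 2 * P.K) * e0 ≤ ε0 / 2) (he' : P.K * e0 ≤ 1)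
    {s : ℝ} (hs : s ∈ Icc S.t S.t') {x : M} (hx : x ∈ S.Kc) (hE : S.E s x ≤ e0) :
    BkAbs (S.g s) (ε0 / S.r ^ 2) x ∧ Gr (S.g s) (S.u s) x ≤ ε0 / S.r ^ 2 ∧
      Gr (S.g s) (S.ρ s) x ≤ 2 := by
  have J := H.inv hs hx
  have hq := S.q_pos hP
  have hτ := hP.τ_pos (nonneg hP hs)
  have hE0 := E_pos (S := S) s x
  have hK := hP.K0
  have hK1 := hP.K10
  have hL := hP.L0
  have hn' : (1 : ℝ) ≤ n := by exact_mod_cast hn
  have hε : 0 ≤ ε0 := by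
    by_contra hc
    push Not at hc
    nlinarith [hP.Λ0]
  have hΨ := hP.Ψ_pos J.ic.1 (nonneg hP hs)
  have h1 : P.Λ * P.Ψ (S.ρ s x) s ≤ ε0 / 2 * (P.τ s * S.q) := by
    have h2 := mul_le_mul_of_nonneg_right hΛ hΨ.le
    have h3 := mul_le_mul_of_nonneg_left (ΛΨ_le hP hs hx J.ic.1 hB) hε
    nlinarith
  have h2 : (P.K1 + n ^ 2 * P.K) * S.E s x ≤ ε0 / 2 :=
    (mul_le_mul_of_nonneg_left hE (by positivity)).trans he
  have hl : 0 ≤ P.K * S.q * S.E s x := by positivity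
  have h3 : -(n ^ 2 * (P.K * S.q * S.E s x)) ≤ Sc (S.g s) x :=
    Ev.scal_ge ((kahK hP hs).kah _ x (ch_mem A x) hx.1) (LyhGe.bkge' J.ia (ch_mem A x))
  have h4 := J.ig
  unfold IG Phi at h4
  have h5 := Gr_nonneg hP hs hx.1 (S.u s)
  have h6 := mul_le_mul_of_nonneg_right h2 (mul_pos hτ hq).le
  have h7 : 0 ≤ 16 * (n : ℝ) * S.u s x ^ 2 := by positivity
  have h8 : 0 ≤ P.τ s * Gr (S.g s) (S.u s) x := by positivity
  have h9 : P.τ s * Gr (S.g s) (S.u s) x ≤ 16 * n * (P.τ s * Gr (S.g s) (S.u s) x) := by nlinarith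
  have h10 := mul_le_mul_of_nonneg_left h3 hτ.le
  rw [S.div_r hP]
  refine ⟨fun i hi => ⟨fun v w => ?_, fun v w => ?_⟩, ?_, ?_⟩
  · refine le_trans (neg_le_neg ?_) (LyhGe.bkge' J.ia hi v w)
    have hv : 0 ≤ nq (S.g s i (A.e i x)) v := Ev.nq_nonneg (posK hP hs hx.1 i hi).posSemidef v
    have hw : 0 ≤ nq (S.g s i (A.e i x)) w := Ev.nq_nonneg (posK hP hs hx.1 i hi).posSemidef w
    refine mul_le_mul_of_nonneg_right (mul_le_mul_of_nonneg_right ?_ hv) hw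
    have h11 : P.K * S.E s x ≤ ε0 := by
      have : P.K * S.E s x ≤ (P.K1 + n ^ 2 * P.K) * S.E s x :=
        mul_le_mul_of_nonneg_right (by nlinarith [hP.KK]) hE0.le
      linarith
    nlinarith
  · refine (Ev.bkle_of_bkge ((kahK hP hs).kah i x hi hx.1) hl (LyhGe.bkge' J.ia hi) v w).trans ?_
    have hv : 0 ≤ nq (S.g s i (A.e i x)) v := Ev.nq_nonneg (posK hP hs hx.1 i hi).posSemidef v
    have hw : 0 ≤ nq (S.g s i (A.e i x)) w := Ev.nq_nonneg (posK hP hs hx.1 i hi).posSemidef w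
    refine mul_le_mul_of_nonneg_right (mul_le_mul_of_nonneg_right ?_ hv) hw
    rw [Sc_chart (kahK hP hs) S.op hi hx.1]
    refine le_of_mul_le_mul_left ?_ hτ
    nlinarith
  · refine le_of_mul_le_mul_left ?_ hτ
    nlinarith
  · have := mul_le_mul_of_nonneg_left hE hK.le
    linarith [J.ic.2]

/-- step → next state -/
theorem All.next (hn : 1 ≤ n) (hP : P.Ok) (H : S.All) {c1 Kρ ε0 N m m0 : ℝ}
    (hR : RenewOn A P.δ ε0 N Kρ) (hc1 : 0 ≤ c1) (hN : 0 ≤ N) (hm : 0 ≤ m)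
    (hB : 10 * (2 * P.K + 4) ≤ P.B) (hΛ : 4 * P.Λ ≤ ε0 * P.L)
    (he : (P.K1 + n ^ 2 * P.K) * Real.exp (P.K + P.V - m) ≤ ε0 / 2)
    (he' : P.K * Real.exp (P.K + P.V - m) ≤ 1)
    (hm0 : m + N + 2 * c1 + P.K + 3 ≤ m0) (hJ : 16 * P.J ≤ Real.exp (m0 - 2 * c1 - P.V))
    (hBm : 10 * m0 ≤ P.B) (hp : p ∈ S.U) (hpρ : S.ρ S.t p ≤ S.σ / 2)
    (hσ' : 2 * (P.B * (1 + S.t')) ≤ S.σ - m0 * S.r) :
    ∃ X : St P I a c1 Kρ (S.σ - m0 * S.r) S.t', X.G = S.g S.t' := by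
  have hr := S.r_pos hP
  have hK := hP.K0
  have ht' : S.t' ∈ Icc S.t S.t' := ⟨(S.t_lt hP).le, le_rfl⟩
  have ht0 : S.t ∈ Icc S.t S.t' := ⟨le_rfl, (S.t_lt hP).le⟩
  have ht'0 := nonneg hP ht'
  have hσ'0 : 0 ≤ S.σ - m0 * S.r := le_trans (by have := hP.B0; positivity) hσ'
  set r' := P.r (S.σ - m0 * S.r) S.t' with hr'
  have hr1 : S.r ≤ r' := hP.r_le_next (S.σ0 hP) S.t0 ht'.1 (S.t'_le hP) (by linarith) hσ'0
  have hr2 : r' ≤ 2 * S.r :=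
    hP.next_le_r (S.σ0 hP) S.t0 ht'.1 (S.t'_le hP) (by linarith) hBm (by linarith) hσ'0
  have hr'0 : 0 < r' := hr.trans_le hr1
  set W := {x | x ∈ S.U ∧ S.ρ S.t x < S.σ + (P.K + 1) * S.r} with hW
  have hsm : ∀ s ∈ Icc S.t S.t', SmOn A S.U (S.ρ s) := fun s hs =>
    smOn_of_SmST S.hρ.sm (mem_Icc hP hs)
  have hWo : IsOpen W := isOpen_sub S.op (hsm _ ht0).continuousOn _
  have hWU : W ⊆ S.U := fun x hx => hx.1
  have hWK : W ⊆ S.Kc := fun x hx => ⟨hx.1, hx.2.le⟩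
  have hc1r : c1 * r' ≤ 2 * c1 * S.r := by nlinarith
  have hdeep : ∀ x ∈ S.U, S.ρ S.t' x ≤ S.σ - m0 * S.r + c1 * r' →
      S.ρ S.t x ≤ S.σ - m * S.r - N * S.r := by
    intro x hx hx'
    have h1 := (abs_le.1 (S.crude _ (mem_Icc hP ht') x hx).oρ).1
    change -(P.K * S.r) ≤ _ at h1
    nlinarith [mul_le_mul_of_nonneg_right hm0 hr.le]
  have hmr : 0 ≤ m * S.r := by positivity
  have hNr : 0 ≤ N * S.r := by positivity
  have hKr : 0 < (P.K + 1) * S.r := by positivity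
  have hZ : IsCompact {x | x ∈ S.U ∧ S.ρ S.t x ≤ S.σ - m * S.r} :=
    isCompact_sub (U := S.U) S.cptK ((hsm _ ht0).continuousOn.mono Kc_sub) (S.σ - m * S.r)
      fun x => ⟨fun hx => ⟨⟨hx.1, by linarith [hx.2]⟩, hx.2⟩, fun hx => ⟨hx.1.1, hx.2⟩⟩
  have hgood := hR S.U S.g S.u S.ρ S.t S.b S.r (S.σ - m * S.r) S.op hr S.lt' S.flow S.hu S.hρ hZ
    (fun s hs x hx hx' => by
      have hxK : x ∈ S.Kc := ⟨hx, by linarith⟩
      refine H.small hn hP hB hΛ he he' hs hxK ?_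
      rw [E_le_exp_iff hP]
      have h1 := (abs_le.1 (crudeK hP hs hxK).oρ).2
      have h2 := le_sg hP hs
      linarith) r' ⟨hr1, hr2⟩
  refine ⟨⟨W, S.g S.t', S.u S.t', S.ρ S.t', S.v S.t', hWo, fun x hx => S.sub x hx.1,
    (kahK hP ht').mono hWU, (smOn_of_SmST S.hu.sm (mem_Icc hP ht')).mono hWU,
    (hsm _ ht').mono hWU, (smOn_of_SmST S.hv.sm (mem_Icc hP ht')).mono hWU,
    (S.hv.pot _ (mem_Icc hP ht')).mono hWU, ?_, fun x hx hx' => ?_, fun x hx hx' => ?_, ?_, ?_⟩,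
    rfl⟩
  · refine isCompact_sub (U := S.U) S.cptK ((hsm _ ht').continuousOn.mono Kc_sub)
      (S.σ - m0 * S.r + c1 * r') fun x => ⟨fun hx => ⟨hWK hx.1, hx.2⟩, fun hx => ⟨⟨hx.1.1, ?_⟩, hx.2⟩⟩
    linarith [hdeep x hx.1.1 hx.2]
  · obtain ⟨ψ, hψ⟩ := hgood x hx.1 (hdeep x hx.1 hx')
    exact ⟨ψ, hψ.mono' (fun y hy => ⟨hy.1, by linarith [hy.2]⟩) le_rfl hr'0.le⟩
  · refine (H.inv ht' (hWK hx)).jump hP (posK hP ht' hx.1) ht'0 (E_pos _ _).le (S.q_pos hP).le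
      (by positivity) ?_ ?_
    · unfold q
      rw [mul_one_div, div_le_div_iff₀ (by positivity) (by positivity)]
      nlinarith
    · rw [le_div_iff₀ hP.J0]
      set z := S.ρ S.t' x - (S.σ - m0 * S.r) with hz
      have hz1 : z ≤ 2 * c1 * S.r := by linarith
      have h1 : S.E S.t' x ≤ Real.exp (z / S.r - m0 + P.V) := by
        rw [E_le_exp_iff hP, add_mul, sub_mul, div_mul_cancel₀ _ hr.ne']
        linarith [le_sg hP ht']
      have h2 : 16 * S.E S.t' x * P.J ≤ Real.exp (z / S.r - 2 * c1) := by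
        calc 16 * S.E S.t' x * P.J = 16 * P.J * S.E S.t' x := by ring
          _ ≤ Real.exp (m0 - 2 * c1 - P.V) * Real.exp (z / S.r - m0 + P.V) :=
            mul_le_mul hJ h1 (E_pos _ _).le (Real.exp_pos _).le
          _ = _ := by rw [← Real.exp_add]; congr 1; ring
      have h3 : z / S.r ≤ 2 * c1 := by rw [div_le_iff₀ hr]; exact hz1
      refine h2.trans (le_min ?_ (Real.exp_le_one_iff.2 (by linarith)))
      unfold Par.Eb
      rw [Real.exp_le_exp, sub_self, mul_zero, zero_div, sub_zero, neg_sub]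
      change z / S.r - 2 * c1 ≤ z / r'
      rcases le_total z 0 with h4 | h4
      · have : z / S.r ≤ z / r' := by
          rw [div_le_div_iff₀ hr hr'0]; nlinarith
        linarith
      · have : 0 ≤ z / r' := by positivity
        linarith
  · exact ⟨hp, by linarith [S.σ0 hP]⟩
  · have := (H.2.2.2.2.2.2.2 hp hpρ _ ht').1
    linarith

theorem deep_small (hP : P.Ok) {η : ℝ} (hη : 0 < η)
    (hσ : 768 * P.K1 * Real.exp P.V / η ≤ S.σ) {s : ℝ} (hs : s ∈ Icc S.t S.t') {x : M}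
    (hx : S.ρ s x ≤ S.σ / 2) : P.K1 * S.q ^ 2 * S.E s x ≤ η / 2 := by
  have hr := S.r_pos hP
  have hσ1 : 1 ≤ S.σ := hP.B1.trans (S.B_le_σ hP)
  have hK1 := hP.K10
  have h1 : S.E s x ≤ Real.exp (P.V - S.σ / 2 / S.r) := by
    rw [E_le_exp_iff hP, sub_mul, div_mul_cancel₀ _ hr.ne']
    linarith [le_sg hP hs]
  have h2 := Real.pow_div_factorial_le_exp (S.σ / 2 / S.r) (by positivity) 4
  have h3 : S.σ * S.q ^ 2 ≤ 384 * Real.exp (S.σ / 2 / S.r) := by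
    have h4 : (S.σ / 2 / S.r) ^ 4 / (Nat.factorial 4 : ℕ) = S.σ ^ 4 * S.q ^ 2 / 384 := by
      unfold q
      norm_num [Nat.factorial]
      field_simp
      norm_num
    rw [h4] at h2
    have h5 : S.σ ≤ S.σ ^ 4 := le_self_pow₀ hσ1 (by norm_num)
    nlinarith [mul_le_mul_of_nonneg_right h5 (sq_nonneg S.q)]
  rw [Real.exp_sub] at h1
  have h6 := Real.exp_pos (S.σ / 2 / S.r)
  have h7 := Real.exp_pos P.V
  rw [le_div_iff₀ h6] at h1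
  rw [div_le_iff₀ hη] at hσ
  have hE := E_pos (S := S) s x
  have h8 : S.σ * S.q ^ 2 * S.E s x ≤ 384 * Real.exp P.V := by
    have := mul_le_mul_of_nonneg_right h3 hE.le
    nlinarith
  refine le_of_mul_le_mul_left ?_ (show 0 < S.σ by linarith)
  have h9 := mul_le_mul_of_nonneg_left h8 hK1.le
  nlinarith

/-- the export of one step -/
theorem All.out (hP : P.Ok) (H : S.All) {η R : ℝ} (hη : 0 < η) (hη1 : η ≤ 1)
    (hB : 4 * P.K ≤ P.B) (hσ : 768 * P.K1 * Real.exp P.V / η ≤ S.σ)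
    (hσ' : P.B * (1 + S.t') + P.B * R ≤ S.σ / 2) (hp : p ∈ S.U) (hpρ : S.ρ S.t p ≤ S.σ / 2) :
    {x | dK K0 p x < R} ⊆ S.U ∧
      ∀ s ∈ Icc S.t S.t', Out P I a η {x | dK K0 p x < R} s (S.g s) := by
  have hB0 := hP.B0
  have key : ∀ s ∈ Icc S.t S.t', ∀ x, dK K0 p x < R →
      P.B * (1 + s) + P.B * dK K0 p x ≤ S.σ / 2 := by
    intro s hs x hx
    have h1 := mul_le_mul_of_nonneg_left hx.le hB0.le
    have h2 := mul_le_mul_of_nonneg_left hs.2 hB0.le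
    linarith
  have hP' := H.2.2.2.2.2.2.2 hp hpρ
  have ht0 : S.t ∈ Icc S.t S.t' := ⟨le_rfl, (S.t_lt hP).le⟩
  have hO : {x | dK K0 p x < R} ⊆ S.Kc := fun x hx =>
    ((hP' _ ht0).2.2.1 x (key _ ht0 x hx)).1
  refine ⟨hO.trans Kc_sub, fun s hs => ⟨S.ρ s, ?_, (hP' s hs).1, (hP' s hs).2.1, fun x hx => ?_⟩⟩
  · refine lipOn_of_Gr (kahK hP hs) S.op (smOn_of_SmST S.hρ.sm (mem_Icc hP hs))
      (hO.trans Kc_sub) hB0.le fun x hx => ?_
    have := (crudeK hP hs (hO hx)).gρ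
    nlinarith [hP.B1]
  have hxK := hO hx
  have J := H.inv hs hxK
  have h1 := ((hP' s hs).2.2.1 x (key s hs x hx)).2
  have h2 := h1.trans (key s hs x hx)
  have h3 := deep_small hP hη hσ hs h2
  have hq := S.one_le_q hP
  have hE := E_pos (S := S) s x
  have hK1 := hP.K10
  have hKK := hP.KK
  have hτ := hP.τ_pos (nonneg hP hs)
  have h4 : P.K1 * S.q * S.E s x ≤ η / 2 := by
    refine le_trans ?_ h3
    exact mul_le_mul_of_nonneg_right (mul_le_mul_of_nonneg_left (by nlinarith) hK1.le) hE.le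
  have h5 : P.K1 * S.E s x ≤ η / 2 := by
    refine le_trans ?_ h4
    exact mul_le_mul_of_nonneg_right (by nlinarith) hE.le
  refine ⟨LyhGe.mono21 (posK hP hs hxK.1) J.ia ?_ ?_, J.ie.1.mono21 ?_, J.ic.1, h1,
    (hP' s hs).2.2.2 x hxK h2, fun C' θ hθ => ?_, ?_⟩
  · nlinarith [mul_le_mul_of_nonneg_right hKK (mul_pos (S.q_pos hP) hE).le]
  · nlinarith [mul_le_mul_of_nonneg_right hKK (mul_pos (pow_pos (S.q_pos hP) 2) hE).le]
  · have h6 := Real.add_one_le_exp (-(P.K1 * S.E s x))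
    have h7 := Real.exp_pos (P.K1 * S.E s x)
    have h8 : Real.exp (-(P.K1 * S.E s x)) * Real.exp (P.K1 * S.E s x) = 1 := by
      rw [← Real.exp_add]; simp
    have h9 := mul_le_mul_of_nonneg_right h6 h7.le
    by_contra hc
    push Not at hc
    nlinarith
  · have h6 := J.id.2.2 C' θ hθ
    have h7 := mul_le_mul_of_nonneg_right (show P.K1 * S.E s x ≤ 1 by linarith)
      (show 0 ≤ 1 + C' by linarith [hθ.1])
    nlinarith
  · have h6 := J.ig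
    unfold IG Phi at h6
    have h7 := Gr_nonneg hP hs hxK.1 (S.u s)
    have h8 : 0 ≤ 16 * (n : ℝ) * (P.τ s * Gr (S.g s) (S.u s) x + S.u s x ^ 2) := by positivity
    have h9 := mul_le_mul_of_nonneg_left (show P.K1 * S.q * S.E s x ≤ 1 by linarith) hτ.le
    nlinarith

end Stp

end

end Crest.Agent.T223.Os
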