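import Crest.Agent.T223.OsAsmB_21

/-!
# Row 223, module OSG (helper21), assembly, part C: the start, the induction, `osgStmt`
-/

set_option autoImplicit false
set_option linter.unusedVariables false
set_option linter.unusedSectionVars false

open Set Filter Topology Metric
open scoped ContDiff ComplexConjugate Matrix ComplexOrder

namespace Crest.Agent.T223.Os

open Crest.Agent.R275.Geo Crest.Agent.R273.Kah_333 Crest.Agent.R273.Hess_333
open Crest.Agent.R273.RMan4_798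
open Crest.Agent.T223.Br Crest.Agent.T223.Tr
open Crest.Agent.T223.Db (dom SmST)

noncomputable section

variable {n : ℕ} {M : Type} [TopologicalSpace M] {A : Atl n M}

theorem continuous_of_chart {f : M → ℝ} (F : A.ι → Cn n → ℝ)
    (h1 : ∀ i, ∀ x ∈ (A.e i).source, F i (A.e i x) = f x)
    (h2 : ∀ i, ∀ x ∈ (A.e i).source, ContinuousAt (F i) (A.e i x)) : Continuous f := by
  refine continuous_iff_continuousAt.2 fun x => ?_
  obtain ⟨i, hi⟩ := A.cover x
  refine ((h2 i x hi).comp ((A.e i).continuousAt hi)).congr ?_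
  filter_upwards [(A.e i).open_source.mem_nhds hi] with y hy
  exact h1 i y hy

theorem continuous_Sc0 (K0 : Kah A) : Continuous (Sc (gc K0)) :=
  continuous_of_chart (fun i => scal (gc K0 i))
    (fun i x hi => Sc_chart (kahOn_gc K0 univ) isOpen_univ hi (mem_univ _))
    fun i x hi => (kahAt_gc K0 i ((A.e i).map_source hi)).cd_scal.continuousAt

theorem continuous_Gr0 (K0 : Kah A) {u : M → ℝ} (hu : A.Sm u) : Continuous (Gr (gc K0) u) :=
  continuous_of_chart (fun i => gsq (gc K0 i) (inC A i u))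
    (fun i x hi => Gr_chart (kahOn_gc K0 univ) isOpen_univ (smOn_of_sm hu univ) hi (mem_univ _))
    fun i x hi => by
      have hk := kahAt_gc K0 i ((A.e i).map_source hi)
      exact (cd_slice (F := fun (_ : ℝ) z => gsq (gc K0 i) (inC A i u) z) (t := 0)
        (Cn.cda_gsq (g := fun _ => gc K0 i) (p := ((0 : ℝ), A.e i x))
          (fun a b => cd_static 0 (hk.sm a b)) hk.posDef (u := fun _ => inC A i u)
          (cd_static 0 (sm_inC hu hi)))).continuousAt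

theorem continuous_sm {f : M → ℝ} (h : A.Sm f) : Continuous f :=
  continuousOn_univ.1 (smOn_of_sm h univ).continuousOn

theorem lv_self (K0 : Kah A) (x : M) : lv K0 (gc K0) x = 0 := sub_self _

variable [T2Space M] [ConnectedSpace M] {K0 : Kah A} {p : M}

theorem dK_self' (K0 : Kah A) (x : M) : dK K0 x x = 0 := dist_self (α := (ofKah K0).M) x

theorem dK_nonneg' (K0 : Kah A) (x y : M) : 0 ≤ dK K0 x y := dist_nonneg (α := (ofKah K0).M)

theorem dK_tri (K0 : Kah A) (x y z : M) : dK K0 x z ≤ dK K0 x y + dK K0 z y :=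
  dist_triangle_right (α := (ofKah K0).M) x z y

theorem continuous_dK' (K0 : Kah A) (x : M) : Continuous fun y : M => dK K0 x y := by
  have h : Continuous fun y : (ofKah K0).M => dist (α := (ofKah K0).M) x y :=
    continuous_const.dist continuous_id
  exact h

theorem dK_le_zt (K0 : Kah A) (y : M) (α : ℝ) (x : M) : dK K0 y x ≤ zt K0 y α x :=
  Real.le_sqrt_of_sq_le (by nlinarith [sq_nonneg α])

theorem isCompact_ρ0 (H : Hyp K0) (I : Init K0 p) (c : ℝ) : IsCompact {x | I.ρ0 x ≤ c} := by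
  have := H.proper
  have h1 : IsCompact (closedBall (α := (ofKah K0).M) p (c + 1)) := isCompact_closedBall _ _
  have h2 : IsCompact {x : M | dK K0 p x ≤ c + 1} := by
    have e : {x : M | dK K0 p x ≤ c + 1} = closedBall (α := (ofKah K0).M) p (c + 1) :=
      Set.ext fun x => (mem_closedBall' (α := (ofKah K0).M)).symm
    rw [e]
    exact h1
  refine h2.of_isClosed_subset (isClosed_le (continuous_sm I.ρ0_sm) continuous_const) fun x hx => ?_
  have h3 := (abs_le.1 (I.ρ0_near x)).1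
  have h4 : I.ρ0 x ≤ c := hx
  change dK K0 p x ≤ c + 1
  linarith

/-- the invariant at time `0` without error -/
theorem inv_zero {P : Par} (hP : P.Ok) (I : Init K0 p) (hC : I.C = P.Cb) {a q : ℝ} {x : M}
    (hx : I.ρ0 x < a) (h1 : LyhGe (gc K0) P.tA 1 0 x)
    (h2 : Phi (gc K0) (I.u0 a) P.tA x ≤ P.Ψ (I.ρ0 x) 0) :
    Inv P I a (gc K0) (I.u0 a) I.ρ0 (fun _ => 0) 0 q x 0 := by
  have hτ : P.τ 0 = P.tA := zero_add _
  have hn1 := abs_le.1 (I.ρ0_near x)
  have hpos : ∀ i, x ∈ (A.e i).source → (gc K0 i (A.e i x)).PosDef := fun i hi =>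
    (kahAt_gc K0 i ((A.e i).map_source hi)).posDef
  have hS : Sf K0 (gc K0) (fun _ => 0) 0 x = 0 := by simp [Sf]
  refine ⟨?_, fun i hi v => ?_, ⟨I.ρ0_nonneg x, ?_⟩, ⟨?_, ?_, fun C' θ hθ => ?_⟩,
    ⟨fun i hi v => ?_, ?_, ?_⟩, fun α hα => ⟨fun y => ?_, ?_⟩, ?_⟩
  · unfold IA
    rw [hτ]
    exact h1.mono21 hpos (by simp) (by simp)
  · have := (I.u0_pot a).ge i x hi hx v
    simp only [mul_zero, zero_mul, neg_zero]
    linarith
  · have := I.ρ0_grad _ _ ((A.e (ch A x)).map_source (ch_mem A x))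
    simpa [Gr] using this
  · simp [lv_self]
  · have h3 := I.u0_le a x hx.le
    rw [hC] at h3
    have h4 := mul_le_mul_of_nonneg_left (show 1 + dK K0 p x ≤ 2 + I.ρ0 x by linarith) hP.Cb0.le
    simp only [mul_zero, add_zero]
    linarith
  · have h3 := hθ.2.2 x hx.le
    have h4 := mul_le_mul_of_nonneg_left (show 1 + dK K0 p x ≤ 2 + I.ρ0 x by linarith) hθ.1
    simp only [mul_zero, add_zero, lv_self]
    linarith
  · simp [gc_apply K0 hi]
  · simp [lv_self]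
  · simp
  · rw [hS]
    have h3 := dK_tri K0 p x y
    have h4 := dK_le_zt K0 y α x
    simp only [mul_zero]
    linarith
  · rw [hS]
    have h4 := dK_le_zt K0 p α x
    simp only [mul_zero]
    linarith
  · unfold IG
    rw [hτ]
    have h3 := le_mul_of_one_le_left (hP.Ψ_pos (I.ρ0_nonneg x) le_rfl).le hP.Λ1
    simp only [mul_zero, add_zero]
    linarith

/-- the state at time `0` for a tiny time shift -/
theorem exists_start (H : Hyp K0) (I : Init K0 p) (hG : InitGStmt n) (hL : InitLStmt n)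
    {c1 Kρ σ0 : ℝ} (hc1 : 0 ≤ c1) (hK : 4 ≤ Kρ) (hσ : 2 ≤ σ0) :
    ∃ τ1 : ℝ, 0 < τ1 ∧ ∀ P : Par, P.Ok → I.C = P.Cb → P.tA ≤ τ1 →
      Nonempty (St P I (σ0 + c1 + 1) c1 Kρ σ0 0) := by
  set a := σ0 + c1 + 1 with ha
  have hρc := continuous_sm I.ρ0_sm
  have hZ := isCompact_ρ0 H I (σ0 + c1)
  have hWo : IsOpen {x | I.ρ0 x < a} := isOpen_lt hρc continuous_const
  have hZW : {x | I.ρ0 x ≤ σ0 + c1} ⊆ {x | I.ρ0 x < a} := fun x hx => by
    have : I.ρ0 x ≤ σ0 + c1 := hx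
    change I.ρ0 x < a
    linarith
  obtain ⟨r0, hr0, hg⟩ := hG M A K0 (I.u0 a) I.ρ0 _ _ hWo hZ hZW (I.u0_pot a).sm I.ρ0_sm I.ρ0_grad
  obtain ⟨τ0, hτ0, hl⟩ := hL M A K0 _ H.bk hZ
  have hc : Continuous fun x => |Sc (gc K0) x| + 16 * n * (|Gr (gc K0) (I.u0 a) x| + I.u0 a x ^ 2) :=
    (continuous_Sc0 K0).abs.add (continuous_const.mul ((continuous_Gr0 K0 (I.u0_pot a).sm).abs.add
      ((continuous_sm (I.u0_pot a).sm).pow 2)))
  obtain ⟨C, hC⟩ := hZ.bddAbove_image hc.continuousOn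
  refine ⟨min (min (r0 ^ 2) τ0) (Real.exp (-C)), by positivity, fun P hP hPC htA => ?_⟩
  have hσ0 : 0 ≤ σ0 := by linarith
  have hr := hP.r_pos hσ0 le_rfl
  have hr1 := hP.r_le_one hσ0 le_rfl
  have hτ : P.τ 0 = P.tA := zero_add _
  have hrr : P.r σ0 0 ≤ r0 := by
    have h1 := hP.r_sq_le_τ hσ0 le_rfl
    rw [hτ] at h1
    exact (pow_le_pow_iff_left₀ hr.le hr0.le two_ne_zero).1
      (h1.trans (htA.trans ((min_le_left _ _).trans (min_le_left _ _))))
  have hin : ∀ x, I.ρ0 x ≤ σ0 + c1 * P.r σ0 0 → I.ρ0 x ≤ σ0 + c1 := fun x hx => by nlinarith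
  refine ⟨⟨{x | I.ρ0 x < a}, gc K0, I.u0 a, I.ρ0, fun _ => 0, hWo, fun x hx => hx, kahOn_gc K0 _,
    smOn_of_sm (I.u0_pot a).sm _, smOn_of_sm I.ρ0_sm _, fun i => contDiffOn_const, fun i x hi hx => ?_,
    ?_, fun x hx hx' => ?_, fun x hx hx' => ?_, ?_, ?_⟩⟩
  · have : inC A i (fun _ : M => (0 : ℝ)) = fun _ => 0 := rfl
    simp [gφ, this, Bx.hess_const]
  · exact isCompact_sub (U := univ) hZ hρc.continuousOn (σ0 + c1 * P.r σ0 0)
      fun x => ⟨fun hx => ⟨hin x hx.2, hx.2⟩, fun hx => ⟨hZW hx.1, hx.2⟩⟩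
  · obtain ⟨ψ, hψ⟩ := hg _ hr hrr x (hin x hx')
    exact ⟨ψ, hψ.mono' le_rfl hK hr.le⟩
  · have hq : (0 : ℝ) ≤ 1 / P.r σ0 0 ^ 2 := by positivity
    refine (inv_zero hP I hPC hx (hl _ hP.tA0
      (htA.trans ((min_le_left _ _).trans (min_le_right _ _))) x (hin x hx')) ?_).jump hP
      (fun i hi => (kahAt_gc K0 i ((A.e i).map_source hi)).posDef) le_rfl le_rfl hq hq
      (by linarith) ?_
    · have h1 := hC (mem_image_of_mem _ (hin x hx'))
      have h2 : C ≤ P.ell (I.ρ0 x) 0 := by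
        have h3 : 0 ≤ Real.log (I.ρ0 x + P.ρs 0) :=
          Real.log_nonneg (by linarith [hP.one_le_ρs le_rfl, I.ρ0_nonneg x])
        have h4 : C ≤ Real.log (1 + 1 / P.τ 0) := by
          rw [hτ, Real.le_log_iff_exp_le (by have := hP.tA0; positivity)]
          have h5 := one_div_le_one_div_of_le hP.tA0 (htA.trans (min_le_right _ _))
          rw [Real.exp_neg, one_div, inv_inv] at h5
          linarith
        unfold Par.ell
        linarith [hP.B0]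
      have h3 : P.ell (I.ρ0 x) 0 ≤ P.Ψ (I.ρ0 x) 0 := by
        have h4 := hP.B1.trans (hP.B_le_ell (I.ρ0_nonneg x) le_rfl)
        have h5 : 1 ≤ (I.ρ0 x + P.ρs 0) ^ 2 :=
          one_le_pow₀ (by linarith [hP.one_le_ρs le_rfl, I.ρ0_nonneg x])
        unfold Par.Ψ
        nlinarith
      refine le_trans ?_ (h1.trans (h2.trans h3))
      have h4 : ∀ y : ℝ, P.tA * y ≤ |y| := fun y =>
        (mul_le_mul_of_nonneg_left (le_abs_self y) hP.tA0.le).trans
          (mul_le_of_le_one_left (abs_nonneg y) hP.tA1)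
      unfold Phi
      have h5 := mul_le_mul_of_nonneg_left (h4 (Gr (gc K0) (I.u0 a) x))
        (show (0 : ℝ) ≤ 16 * n by positivity)
      nlinarith [h4 (Sc (gc K0) x)]
    · rw [mul_zero]
      exact div_nonneg (le_min (Real.exp_pos _).le zero_le_one) hP.J0.le
  · have h1 := (abs_le.1 (I.ρ0_near p)).2
    rw [dK_self'] at h1
    change I.ρ0 p < a
    linarith
  · have h1 := (abs_le.1 (I.ρ0_near p)).2
    rw [dK_self'] at h1
    linarith

/-- the induction over the restarts -/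
theorem run (hn : 1 ≤ n) {P : Par} (hP : P.Ok) {I : Init K0 p} (hC : I.C = P.Cb) {a : ℝ}
    (hA : ∀ S : Stp P I a, S.All) {δ0 C0 Kρ ε0 N m m0 η R T σ0 Sg : ℝ} (hδ : P.δ < δ0)
    (hC0 : 0 ≤ C0) (hS : StepOn A δ0 C0 Kρ P.K) (hV : SpotStmt n) (hGl : GlueStmt n)
    (hR : RenewOn A P.δ ε0 N Kρ) (hN : 0 ≤ N) (hm : 0 ≤ m)
    (hB : 10 * (2 * P.K + 4) ≤ P.B) (hΛ : 4 * P.Λ ≤ ε0 * P.L)
    (he : (P.K1 + n ^ 2 * P.K) * Real.exp (P.K + P.V - m) ≤ ε0 / 2)
    (he' : P.K * Real.exp (P.K + P.V - m) ≤ 1)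
    (hm0 : m + N + 2 * (P.K + 2 + C0) + P.K + 3 ≤ m0)
    (hJ : 16 * P.J ≤ Real.exp (m0 - 2 * (P.K + 2 + C0) - P.V)) (hBm : 10 * m0 ≤ P.B)
    (hη : 0 < η) (hη1 : η ≤ 1) (hR0 : 0 ≤ R) (hT : 0 ≤ T)
    (hS1 : 768 * P.K1 * Real.exp P.V / η ≤ Sg) (hS2 : 2 * (P.B * (1 + T) + P.B * R) ≤ Sg)
    (hS3 : P.ρs T ≤ Sg) (X0 : St P I a (P.K + 2 + C0) Kρ σ0 0) (j : ℕ)
    (hj : ∀ i, i ≤ j → Sg ≤ (P.seq m0 σ0 i).1 ∧ (P.seq m0 σ0 i).2 ≤ T) :
    ∃ (X : St P I a (P.K + 2 + C0) Kρ (P.seq m0 σ0 j).1 (P.seq m0 σ0 j).2) (G : ℝ → MF A),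
      0 ≤ (P.seq m0 σ0 j).2 ∧ ((P.seq m0 σ0 j).2 = 0 ∨
        (FlowOn 0 (P.seq m0 σ0 j).2 {x | dK K0 p x < R} G ∧ G (P.seq m0 σ0 j).2 = X.G ∧
          ∀ s ∈ Icc 0 (P.seq m0 σ0 j).2, Out P I a η {x | dK K0 p x < R} s (G s))) := by
  induction j with
  | zero => exact ⟨X0, fun _ => X0.G, le_rfl, Or.inl rfl⟩
  | succ j ih =>
    obtain ⟨X, G, h0, hG⟩ := ih fun i hi => hj i (hi.trans (Nat.le_succ j))
    have h1 := hj j (Nat.le_succ j)
    have h2 := hj (j + 1) le_rfl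
    have e1 : P.seq m0 σ0 (j + 1) = ((P.seq m0 σ0 j).1 - m0 * P.r (P.seq m0 σ0 j).1
      (P.seq m0 σ0 j).2, (P.seq m0 σ0 j).2 + P.δ * P.r (P.seq m0 σ0 j).1 (P.seq m0 σ0 j).2 ^ 2) :=
      rfl
    rw [e1] at h2 ⊢
    generalize P.seq m0 σ0 j = z at *
    obtain ⟨σ, t⟩ := z
    dsimp only at *
    obtain ⟨S, rfl, rfl, h3, h4, h5⟩ := X.toStp hP hC hδ hC0 hS hV h0
      ((hP.ρs_mono h0 h1.2).trans (hS3.trans h1.1))
    change Sg ≤ S.σ - m0 * S.r ∧ S.t' ≤ T at h2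
    have hB0 := hP.B0
    have hK := hP.K0
    have h6 : P.B * (1 + S.t') ≤ P.B * (1 + T) :=
      mul_le_mul_of_nonneg_left (by linarith [h2.2]) hB0.le
    have h7 : 0 ≤ P.B * R := by positivity
    obtain ⟨X', hX'⟩ := (hA S).next hn hP hR (c1 := P.K + 2 + C0) (by linarith) hN hm hB hΛ he he'
      hm0 hJ hBm h4 h5 (by linarith [h2.1])
    obtain ⟨hO, hout⟩ := (hA S).out hP hη hη1 (by linarith) (hS1.trans h1.1) (R := R)
      (by linarith [h1.1]) h4 h5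
    have hlt := S.t_lt hP
    have hF : FlowOn S.t S.t' {x | dK K0 p x < R} S.g := S.flow.mono' le_rfl S.lt'.le hO
    rcases h0.eq_or_lt with h8 | h8
    · refine ⟨X', S.g, h0.trans hlt.le, Or.inr ⟨?_, hX'.symm, ?_⟩⟩
      · rw [h8]; exact hF
      · rw [h8]; exact hout
    · obtain ⟨g1, g2, g3⟩ := hG.resolve_left h8.ne'
      refine ⟨X', fun s => if s ≤ S.t then G s else S.g s, h0.trans hlt.le, Or.inr ⟨?_, ?_, ?_⟩⟩
      · refine hGl M A _ G S.g 0 S.t S.t' (isOpen_lt (continuous_dK' K0 p) continuous_const) h8 hlt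
          g1 hF ?_
        rw [g2]
        exact (h3.mono hO).symm
      · change (if S.t' ≤ S.t then G S.t' else S.g S.t') = X'.G
        rw [if_neg (not_le.2 hlt), hX']
      · intro s hs
        by_cases h9 : s ≤ S.t
        · simp only [if_pos h9]
          exact g3 s ⟨hs.1, h9⟩
        · simp only [if_neg h9]
          exact hout s ⟨(not_le.1 h9).le, hs.2⟩

end

theorem leaf_all {n : ℕ} (ha : LaStmt n) (hb : LbStmt n) (hc : LcStmt n) (hd : LdStmt n)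
    (he : LeStmt n) (hf : LfStmt n) (hl : LlStmt n) (hg : LgStmt n) (hp : LpStmt n) :
    Leaf n fun S => S.All := by
  unfold LaStmt LbStmt LcStmt LdStmt LeStmt LfStmt LlStmt LgStmt LpStmt Leaf at *
  refine Ev.mono (Ev.and ha (Ev.and hb (Ev.and hc (Ev.and hd (Ev.and he (Ev.and hf (Ev.and hl
    (Ev.and hg hp)))))))) ?_
  rintro P hP ⟨a1, a2, a3, a4, a5, a6, a7, a8, a9⟩ M _ _ _ A K0 p I a S
  have b1 := a1 M A K0 p I a S
  have b2 := a2 M A K0 p I a S b1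
  have b3 := a3 M A K0 p I a S
  have b4 := a4 M A K0 p I a S
  have b5 := a5 M A K0 p I a S b1
  have b6 := a6 M A K0 p I a S
  have b7 := a7 M A K0 p I a S b3 b4 b5 b6
  exact ⟨b1, b2, b3, b4, b5, b6, a8 M A K0 p I a S b1 b2 b3 b7, a9 M A K0 p I a S b3 b4 b5 b6⟩

theorem exists_exp_le (c d ε : ℝ) (hε : 0 < ε) : ∃ m : ℝ, 0 ≤ m ∧ ∀ m', m ≤ m' →
    c * Real.exp (d - m') ≤ ε := by
  have h1 : Tendsto (fun m : ℝ => c * Real.exp (d - m)) atTop (𝓝 (c * 0)) :=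
    tendsto_const_nhds.mul (Real.tendsto_exp_atBot.comp
      (tendsto_atBot_add_const_left _ d tendsto_neg_atTop_atBot))
  rw [mul_zero] at h1
  obtain ⟨m, hm⟩ := eventually_atTop.1 (h1.eventually (ge_mem_nhds hε))
  exact ⟨max m 0, le_max_right _ _, fun m' h => hm m' ((le_max_left _ _).trans h)⟩

/-- **OSG from its leaves** -/
theorem osgStmt {n : ℕ} (hn : 1 ≤ n) (ha : LaStmt n) (hb : LbStmt n) (hc : LcStmt n)
    (hd : LdStmt n) (he : LeStmt n) (hf : LfStmt n) (hl : LlStmt n) (hg : LgStmt n)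
    (hp : LpStmt n) (hStep : StepStmt n) (hSpot : SpotStmt n) (hRen : RenewStmt n)
    (hIG : InitGStmt n) (hIL : InitLStmt n) (hGl : GlueStmt n) (hOs : OsgoodStmt)
    (hApx : ApxStmt n) : OsgStmt n := by
  intro M _ _ _ _ _ A K0 p H I
  obtain ⟨δ0, C0, hδ0, hδ1, hC0, hStep⟩ := hStep
  obtain ⟨ε0, N, Kρ, hε0, hN, hKρ, hRen⟩ := hRen (δ0 / 2) (by linarith) (by linarith)
  obtain ⟨K, hK, hStep⟩ := hStep Kρ
  obtain ⟨Λ0, hL⟩ := leaf_all ha hb hc hd he hf hl hg hp I.C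
  obtain ⟨V0, hL⟩ := hL K
  set V := max V0 (K + 1) with hV
  obtain ⟨K10, hL⟩ := hL V (le_max_left _ _)
  set K1 := max K10 K with hK1
  set Λ := max Λ0 1 with hΛ
  set L := max Λ (4 * Λ / ε0) with hLdef
  obtain ⟨B0, hL⟩ := hL K1 (le_max_left _ _) Λ (le_max_left _ _) L
  obtain ⟨m1, hm1, hm1'⟩ := exists_exp_le (K1 + n ^ 2 * K) (K + V) (ε0 / 2) (by linarith)
  obtain ⟨m2, hm2, hm2'⟩ := exists_exp_le K (K + V) 1 one_pos
  set m := max m1 m2 with hm
  set m0 := max (m + N + 2 * (K + 2 + C0) + K + 3)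
    (Real.log (16 * (16 * Real.exp (2 * K))) + 2 * (K + 2 + C0) + V) with hm0
  set B := max B0 (max (10 * (2 * K + 4)) (10 * m0)) with hB
  have hB1 : 10 * (2 * K + 4) ≤ B := (le_max_left _ _).trans (le_max_right _ _)
  have hB2 : 10 * m0 ≤ B := (le_max_right _ _).trans (le_max_right _ _)
  have hm00 : 0 ≤ m := hm1.trans (le_max_left _ _)
  have hm01 : m + N + 2 * (K + 2 + C0) + K + 3 ≤ m0 := le_max_left _ _
  have hOk : ∀ tA : ℝ, 0 < tA → tA ≤ 1 → Par.Ok ⟨I.C, K, V, K1, Λ, L, B, δ0 / 2, tA⟩ :=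
    fun tA h1 h2 => ⟨I.one_le, hK, le_max_right _ _, le_max_right _ _, le_max_right _ _,
      le_max_left _ _, by change 1 ≤ B; linarith, by change 0 < δ0 / 2; linarith,
      by change δ0 / 2 ≤ 1; linarith, h1, h2⟩
  refine hApx M A K0 p I I.C K V K1 Λ L B (δ0 / 2) fun k => ?_
  have hk : (0 : ℝ) < k + 1 := by positivity
  set T : ℝ := max ((k : ℝ) + 1) 0 + 1 with hT
  have hT0 : 0 ≤ T := by positivity
  set Sg : ℝ := max (max (768 * K1 * Real.exp V / (1 / (k + 1))) (2 * (B * (1 + T) + B * (k + 1))))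
    (B * (1 + T) ^ 2) with hSg
  obtain ⟨σ1, hOs⟩ := hOs I.C K V K1 Λ L B (δ0 / 2) m0 (k + 1) Sg (by linarith)
  set σ0 := max σ1 2 with hσ0
  obtain ⟨τ1, hτ1, hst⟩ := exists_start H I hIG hIL (c1 := K + 2 + C0) (σ0 := σ0) (by linarith) hKρ
    (le_max_right _ _)
  have hη1 : 1 / ((k : ℝ) + 1) ≤ 1 := by
    rw [div_le_one hk]; linarith [(Nat.cast_nonneg k : (0 : ℝ) ≤ k)]
  set tA := min τ1 (1 / ((k : ℝ) + 1)) with htA
  have hP := hOk tA (by positivity) ((min_le_right _ _).trans hη1)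
  obtain ⟨j, hj1, hj2⟩ := hOs σ0 (le_max_left _ _) tA hP
  obtain ⟨X0⟩ := hst _ hP rfl (min_le_left _ _)
  obtain ⟨X, G, -, hG⟩ := run hn hP (I := I) rfl
    (fun S => hL B (le_max_left _ _) _ tA hP M A K0 p I _ S) (δ0 := δ0)
    (by change δ0 / 2 < δ0; linarith) hC0 (hStep M A) hSpot hGl (hRen M A) hN hm00 hB1
    (by
      change 4 * Λ ≤ ε0 * L
      have h1 : 4 * Λ / ε0 ≤ L := le_max_right _ _
      rw [div_le_iff₀ hε0] at h1
      linarith)
    (hm1' m (le_max_left _ _)) (hm2' m (le_max_right _ _)) hm01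
    (by
      change 16 * (16 * Real.exp (2 * K)) ≤ Real.exp (m0 - 2 * (K + 2 + C0) - V)
      rw [← Real.log_le_iff_le_exp (by positivity)]
      have : Real.log (16 * (16 * Real.exp (2 * K))) + 2 * (K + 2 + C0) + V ≤ m0 := le_max_right _ _
      linarith)
    hB2 (η := 1 / (k + 1)) (by positivity) hη1 hk.le hT0
    ((le_max_left _ _).trans (le_max_left _ _)) ((le_max_right _ _).trans (le_max_left _ _))
    (le_max_right _ _) X0 j hj2
  obtain ⟨g1, -, g3⟩ := hG.resolve_left (by linarith)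
  exact ⟨tA, _, _, G, hP, min_le_right _ _, by linarith, g1, g3⟩

end Crest.Agent.T223.Os
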