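import Crest.Agent.T223.OsInt3_21
import Crest.Agent.T223.StAsm_93

/-!
# Row 223, module OSG (helper21): the module is proved
-/

set_option autoImplicit false

namespace Crest.Agent.T223.Os

theorem osgFin {n : ℕ} (hn : 1 ≤ n) : OsgStmt n := osgStmt3 hn (St.asmStmt n)

end Crest.Agent.T223.Os
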