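import Crest.Agent.T223.QcImpB_48
import Crest.Agent.T223.QcImpDef_48
import Crest.Agent.T223.TrPb_90

/-!
# Row 223, module QC / IMP (helper48): `ImpStmt` from `LimStmt`
-/

set_option autoImplicit false
set_option linter.unusedSectionVars false
set_option linter.unusedVariables false

open Set Filter Topology Metric
open scoped ContDiff InnerProductSpace ComplexConjugate Matrix

namespace Crest.Agent.T223.Qc48

open Crest.Agent.R275.Geo Crest.Agent.R275.EDR890 Crest.Agent.T223.Br Crest.Agent.T223.Tr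

noncomputable section

variable {n : ℕ}

/-- the operator of a sesquilinear form -/
def opT (g : Matrix (Fin n) (Fin n) ℂ) : Op n := Matrix.toEuclideanCLM (n := Fin n) (𝕜 := ℂ) gᵀ

theorem opT_apply (g : Matrix (Fin n) (Fin n) ℂ) (v : Cn n) (b : Fin n) :
    opT g v b = ∑ a, g a b * v a := by
  rw [opT, Matrix.ofLp_toEuclideanCLM]
  simp [Matrix.mulVec, dotProduct]

theorem opT_mul (g h : Matrix (Fin n) (Fin n) ℂ) : opT (g * h) = opT h * opT g := by
  simp only [opT, Matrix.transpose_mul, map_mul]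

theorem opT_star (g : Matrix (Fin n) (Fin n) ℂ) : opT gᴴ = star (opT g) := by
  rw [opT, opT, ← map_star]
  rfl

theorem opT_add (g h : Matrix (Fin n) (Fin n) ℂ) : opT (g + h) = opT g + opT h := by
  simp only [opT, Matrix.transpose_add, map_add]

theorem opT_smul (c : ℂ) (g : Matrix (Fin n) (Fin n) ℂ) : opT (c • g) = c • opT g := by
  simp only [opT, Matrix.transpose_smul, map_smul]

theorem opT_sum {ι : Type} (s : Finset ι) (g : ι → Matrix (Fin n) (Fin n) ℂ) :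
    opT (∑ i ∈ s, g i) = ∑ i ∈ s, opT (g i) := by
  simp only [opT, Matrix.transpose_sum, map_sum]

theorem re_inner_opT (g : Matrix (Fin n) (Fin n) ℂ) (v : Cn n) :
    (⟪v, opT g v⟫_ℂ).re = nq g v := by
  unfold nq
  congr 1
  simp only [PiLp.inner_apply, opT_apply, RCLike.inner_apply, Finset.sum_mul]
  rw [Finset.sum_comm]

theorem opT_eq_sum (g : Matrix (Fin n) (Fin n) ℂ) :
    opT g = ∑ a, ∑ b, g a b • opT (Matrix.single a b (1 : ℂ)) := by
  conv_lhs => rw [Matrix.matrix_eq_sum_single g]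
  rw [opT_sum]
  refine Finset.sum_congr rfl fun a _ => ?_
  rw [opT_sum]
  refine Finset.sum_congr rfl fun b _ => ?_
  rw [← opT_smul, Matrix.smul_single, smul_eq_mul, mul_one]

theorem isUnit_opT {g : Matrix (Fin n) (Fin n) ℂ} (h : ∀ v : Cn n, ‖v‖ ^ 2 / 2 ≤ nq g v) :
    IsUnit (opT g) := by
  have hi : Function.Injective (opT g) := by
    rw [injective_iff_map_eq_zero]
    intro v hv
    have h1 := h v
    rw [← re_inner_opT, hv] at h1
    simp only [inner_zero_right, Complex.zero_re] at h1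
    have : ‖v‖ ^ 2 = 0 := le_antisymm (by linarith) (sq_nonneg _)
    simpa using this
  refine ⟨(ContinuousLinearEquiv.unitsEquiv ℂ (Cn n)).symm (eqvOf _ hi), ?_⟩
  ext v : 1
  exact eqvOf_apply _ hi v

theorem abs_nq_le {D : Matrix (Fin n) (Fin n) ℂ} {δ : ℝ} (h : ∀ a b, ‖D a b‖ ≤ δ) (v : Cn n) :
    |nq D v| ≤ δ * n ^ 2 * ‖v‖ ^ 2 := by
  unfold nq
  refine (Complex.abs_re_le_norm _).trans ((norm_sum_le _ _).trans ?_)
  have h1 : ∀ a, ‖∑ b, D a b * v a * conj (v b)‖ ≤ ∑ b : Fin n, δ * ‖v‖ ^ 2 := by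
    intro a
    refine (norm_sum_le _ _).trans (Finset.sum_le_sum fun b _ => ?_)
    have hδ : 0 ≤ δ := (norm_nonneg _).trans (h a b)
    rw [norm_mul, norm_mul, Complex.norm_conj, pow_two, ← mul_assoc]
    gcongr
    · exact h a b
    · exact PiLp.norm_apply_le v a
    · exact PiLp.norm_apply_le v b
  refine (Finset.sum_le_sum fun a _ => h1 a).trans (le_of_eq ?_)
  simp
  ring

theorem wd_true_conj {f g : Cn n → ℂ} {z : Cn n} (hg : DifferentiableAt ℝ g z)
    (h : f =ᶠ[𝓝 z] fun w => conj (g w)) (c : Fin n) :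
    wd (true, c) f z = conj (wd (false, c) g z) := by
  rw [wd_congr h]
  have h1 : HasFDerivAt (fun w => conj (g w))
      ((Complex.conjCLE : ℂ →L[ℝ] ℂ).comp (fderiv ℝ g z)) z :=
    (Complex.conjCLE : ℂ →L[ℝ] ℂ).hasFDerivAt.comp z hg.hasFDerivAt
  simp only [wd, wdL, h1.fderiv]
  simp [map_ofNat]

/-- the elementary bilinear maps `x ↦ y ↦ x_c y_a e_p` -/
def El (c a p : Fin n) : Cn n →L[ℂ] Op n :=
  (EuclideanSpace.proj c : Cn n →L[ℂ] ℂ).smulRight (opT (Matrix.single a p (1 : ℂ)))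

/-- Christoffel symbols as an operator valued form -/
def chA (Γ : Fin n → Matrix (Fin n) (Fin n) ℂ) : Cn n →L[ℂ] Op n :=
  ∑ c, ∑ a, ∑ p, Γ c a p • El c a p

theorem chA_apply (Γ : Fin n → Matrix (Fin n) (Fin n) ℂ) (x : Cn n) :
    chA Γ x = ∑ c, x c • opT (Γ c) := by
  simp only [chA, El, _root_.sum_apply, _root_.smul_apply, ContinuousLinearMap.smulRight_apply]
  refine Finset.sum_congr rfl fun c _ => ?_
  rw [opT_eq_sum (Γ c), Finset.smul_sum]
  refine Finset.sum_congr rfl fun a _ => ?_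
  rw [Finset.smul_sum]
  refine Finset.sum_congr rfl fun p _ => ?_
  rw [smul_comm]
  rfl

/-- the constant in the bound of `chA` -/
def cEl (n : ℕ) : ℝ := ∑ c : Fin n, ∑ a : Fin n, ∑ p : Fin n, ‖El c a p‖

theorem cEl_nonneg : 0 ≤ cEl n :=
  Finset.sum_nonneg fun c _ => Finset.sum_nonneg fun a _ => Finset.sum_nonneg fun p _ =>
    (El c a p).opNorm_nonneg

theorem norm_chA_le {Γ : Fin n → Matrix (Fin n) (Fin n) ℂ} {C : ℝ} (h : ∀ c a p, ‖Γ c a p‖ ≤ C) :
    ‖chA Γ‖ ≤ C * cEl n := by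
  unfold chA cEl
  rw [Finset.mul_sum]
  refine (norm_sum_le (E := Cn n →L[ℂ] Op n) _ _).trans (Finset.sum_le_sum fun c _ => ?_)
  rw [Finset.mul_sum]
  refine (norm_sum_le (E := Cn n →L[ℂ] Op n) _ _).trans (Finset.sum_le_sum fun a _ => ?_)
  rw [Finset.mul_sum]
  refine (norm_sum_le (E := Cn n →L[ℂ] Op n) _ _).trans (Finset.sum_le_sum fun p _ => ?_)
  exact (ContinuousLinearMap.opNorm_smul_le (Γ c a p) (El c a p)).trans
    (mul_le_mul_of_nonneg_right (h c a p) (El c a p).opNorm_nonneg)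

theorem diff_sum3 {W : Type} [NormedAddCommGroup W] [NormedSpace ℂ W]
    (e : Fin n → Fin n → Fin n → W) {f : Fin n → Fin n → Fin n → Cn n → ℂ} {U : Set (Cn n)}
    (hf : ∀ c a p, DifferentiableOn ℂ (f c a p) U) :
    DifferentiableOn ℂ (fun z => ∑ c, ∑ a, ∑ p, f c a p z • e c a p) U :=
  DifferentiableOn.fun_sum fun c _ => DifferentiableOn.fun_sum fun a _ =>
    DifferentiableOn.fun_sum fun p _ => (hf c a p).smul_const _

theorem diff_chA {Γ : Fin n → Cn n → Matrix (Fin n) (Fin n) ℂ} {U : Set (Cn n)}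
    (hΓ : ∀ c a p, DifferentiableOn ℂ (fun z => Γ c z a p) U) :
    DifferentiableOn ℂ (fun z => chA (fun c => Γ c z)) U :=
  diff_sum3 (W := Cn n →L[ℂ] Op n) El hΓ

theorem chA_symm {Γ : Fin n → Matrix (Fin n) (Fin n) ℂ} (hs : ∀ c a p, Γ c a p = Γ a c p)
    (x y : Cn n) : chA Γ x y = chA Γ y x := by
  ext p
  simp only [chA_apply, _root_.sum_apply, _root_.smul_apply, WithLp.ofLp_sum, WithLp.ofLp_smul,
    Finset.sum_apply, Pi.smul_apply, opT_apply, smul_eq_mul, Finset.mul_sum]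
  rw [Finset.sum_comm]
  refine Finset.sum_congr rfl fun a _ => Finset.sum_congr rfl fun c _ => ?_
  rw [hs c a p]
  ring

theorem alg_ode {B : Type} [CStarAlgebra B] {h : B} (hsa : star h = h) (γ : Fin n → B)
    (x : Fin n → ℂ) :
    (∑ c, x c • (h * γ c)) + ∑ c, conj (x c) • star (h * γ c) =
      h * (∑ c, x c • γ c) + star (∑ c, x c • γ c) * h := by
  rw [Finset.mul_sum, star_sum, Finset.sum_mul]
  congr 1
  · refine Finset.sum_congr rfl fun c _ => ?_
    rw [mul_smul_comm]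
  · refine Finset.sum_congr rfl fun c _ => ?_
    rw [star_mul, hsa, star_smul, smul_mul_assoc]
    rfl

theorem opT_ode {g : Matrix (Fin n) (Fin n) ℂ} (hg : g.IsHermitian)
    (Γ : Fin n → Matrix (Fin n) (Fin n) ℂ) (x : Cn n) :
    opT ((∑ c, x c • (Γ c * g)) + ∑ c, conj (x c) • (Γ c * g)ᴴ) =
      opT g * chA Γ x + star (chA Γ x) * opT g := by
  have hsa : star (opT g) = opT g := by rw [← opT_star, hg.eq]
  rw [opT_add, opT_sum, opT_sum, chA_apply]
  simp only [opT_smul, opT_star, opT_mul]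
  exact alg_ode (B := Op n) hsa (fun c => opT (Γ c)) (fun c => x c)

/-- a matrix field with holomorphic Christoffel symbols is flat -/
theorem exists_flat_mat {G0 : Cn n → Matrix (Fin n) (Fin n) ℂ}
    {Γ : Fin n → Cn n → Matrix (Fin n) (Fin n) ℂ} {r C : ℝ} (hr : 0 < r)
    (hCr : C * cEl n * r ≤ 1 / 4)
    (hG : ∀ a b, DifferentiableOn ℝ (fun z => G0 z a b) (ball 0 r))
    (hh : ∀ z ∈ ball (0 : Cn n) r, (G0 z).IsHermitian)
    (hlo : ∀ v : Cn n, ‖v‖ ^ 2 / 2 ≤ nq (G0 0) v)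
    (hΓ : ∀ c a p, DifferentiableOn ℂ (fun z => Γ c z a p) (ball 0 r))
    (hC : ∀ c a p, ∀ z ∈ ball (0 : Cn n) r, ‖Γ c z a p‖ ≤ C)
    (hd : ∀ c, ∀ z ∈ ball (0 : Cn n) r, wdM (false, c) G0 z = Γ c z * G0 z)
    (hs : ∀ c a p, ∀ z ∈ ball (0 : Cn n) r, Γ c z a p = Γ a z c p) :
    ∃ σ : Cn n → Cn n, DifferentiableOn ℂ σ (ball 0 (r / 4)) ∧
      MapsTo σ (ball 0 (r / 4)) (ball 0 r) ∧ σ 0 = 0 ∧
      fderiv ℂ σ 0 = ContinuousLinearMap.id ℂ (Cn n) ∧
      ∀ z ∈ ball (0 : Cn n) (r / 4), ∀ v, ‖fderiv ℂ σ z v‖ ≤ 2 * ‖v‖ ∧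
        nq (G0 (σ z)) (fderiv ℂ σ z v) = nq (G0 0) v := by
  have hHf : (fun z => opT (G0 z)) =
      fun z => ∑ a, ∑ b, G0 z a b • opT (Matrix.single a b (1 : ℂ)) :=
    funext fun z => opT_eq_sum _
  have hHd : ∀ z ∈ ball (0 : Cn n) r, HasFDerivAt (fun z => opT (G0 z))
      (∑ a, ∑ b, (fderiv ℝ (fun z => G0 z a b) z).smulRight (opT (Matrix.single a b (1 : ℂ))))
      z := by
    intro z hz
    rw [hHf]
    refine HasFDerivAt.fun_sum fun a _ => HasFDerivAt.fun_sum fun b _ => ?_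
    exact ((hG a b).differentiableAt (isOpen_ball.mem_nhds hz)).hasFDerivAt.smul_const
      (opT (Matrix.single a b (1 : ℂ)))
  have hsa : ∀ z ∈ ball (0 : Cn n) r, star (opT (G0 z)) = opT (G0 z) := by
    intro z hz
    rw [← opT_star, (hh z hz).eq]
  refine (exists_flat_chart (A := fun z => chA (fun c => Γ c z))
    (H := fun z => opT (G0 z)) (C := C * cEl n) hr ?_
    (fun z hz => norm_chA_le fun c a p => hC c a p z hz)
    hCr (fun z hz => (hHd z hz).differentiableAt.differentiableWithinAt) ?_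
    (hsa 0 (mem_ball_self hr)) (isUnit_opT hlo) ?_).imp ?_
  rotate_right
  · rintro σ ⟨h1, h2, h3, h4, h5⟩
    refine ⟨h1, h2, h3, h4, fun z hz v => ⟨(h5 z hz v).1, ?_⟩⟩
    rw [← re_inner_opT, ← re_inner_opT, (h5 z hz v).2]
  · exact diff_chA hΓ
  · intro z hz x
    have hzn := isOpen_ball.mem_nhds hz
    rw [(hHd z hz).fderiv]
    have e1 : (∑ a, ∑ b, (fderiv ℝ (fun z => G0 z a b) z).smulRight
        (opT (Matrix.single a b (1 : ℂ)))) x =
        opT (Matrix.of fun a b => fderiv ℝ (fun z => G0 z a b) z x) := by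
      rw [opT_eq_sum (Matrix.of _)]
      simp only [_root_.sum_apply, ContinuousLinearMap.smulRight_apply, Matrix.of_apply]
    have e2 : (Matrix.of fun a b => fderiv ℝ (fun z => G0 z a b) z x) =
        (∑ c, x c • (Γ c z * G0 z)) + ∑ c, conj (x c) • (Γ c z * G0 z)ᴴ := by
      ext a b
      rw [Matrix.of_apply, Crest.Agent.R275.EDR890.apply_eq_sum, Fintype.sum_prod_type, Fintype.sum_bool, add_comm]
      simp only [Matrix.add_apply, Matrix.sum_apply, Matrix.smul_apply, ze_apply, cj_true, cj_false,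
        Matrix.conjTranspose_apply]
      congr 1
      · refine Finset.sum_congr rfl fun c _ => ?_
        rw [← hd c z hz]
        rfl
      · refine Finset.sum_congr rfl fun c _ => ?_
        rw [← hd c z hz]
        congr 1
        refine wd_true_conj (g := fun w => G0 w b a) ((hG b a).differentiableAt hzn) ?_ c
        filter_upwards [hzn] with w hw
        exact ((hh w hw).apply a b).symm
    rw [e1, e2]
    exact opT_ode (hh z hz) (fun c => Γ c z) x
  · intro z hz x y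
    exact chA_symm (fun c a p => hs c a p z hz) x y

/-- **IMP** -/
theorem impStmt (hL : LimStmt n) : ImpStmt n := by
  obtain ⟨C, hC0, hL⟩ := hL
  have hK := cEl_nonneg (n := n)
  set r : ℝ := 1 / (4 * (C * cEl n) + 2) with hr
  have hden : 0 < 4 * (C * cEl n) + 2 := by positivity
  have hr0 : 0 < r := by positivity
  have hr2 : r ≤ 1 / 2 := by
    rw [hr]
    exact one_div_le_one_div_of_le (by norm_num) (by nlinarith [mul_nonneg hC0.le hK])
  have hCr : C * cEl n * r ≤ 1 / 4 := by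
    rw [hr, mul_one_div, div_le_iff₀ hden]
    linarith
  have hsub : ball (0 : Cn n) r ⊆ ball 0 (1 / 2) := ball_subset_ball hr2
  have hsub1 : ball (0 : Cn n) (1 / 2) ⊆ ball 0 1 := ball_subset_ball (by norm_num)
  refine ⟨r / 4, by positivity, by linarith, fun ε' hε' => ?_⟩
  by_contra hcon
  push Not at hcon
  have hpos : ∀ j : ℕ, (0 : ℝ) < 1 / ((j : ℝ) + 1) := fun j => by positivity
  choose G hG hbad using fun j : ℕ => hcon (1 / ((j : ℝ) + 1)) (hpos j)
  obtain ⟨φ, G0, Γ, hφ, hU, hG0, hΓ, hΓb, hd, hs⟩ :=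
    hL G (fun j => 1 / ((j : ℝ) + 1)) tendsto_one_div_add_atTop_nhds_zero_nat hG
  have hh : ∀ z ∈ ball (0 : Cn n) (1 / 2), (G0 z).IsHermitian := by
    intro z hz
    ext a b
    have h1 := (hU a b).tendsto_at hz
    have h2 := (Complex.continuous_conj.tendsto _).comp ((hU b a).tendsto_at hz)
    refine tendsto_nhds_unique h2 (h1.congr fun j => ?_)
    exact (((hG (φ j)).herm z (hsub1 hz)).apply a b).symm
  have hclose : ∀ δ : ℝ, 0 < δ → ∃ j, ∀ z ∈ ball (0 : Cn n) (1 / 2), ∀ v,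
      |nq (G j z) v - nq (G0 z) v| ≤ δ * n ^ 2 * ‖v‖ ^ 2 := by
    intro δ hδ
    have h1 : ∀ᶠ j in atTop, ∀ a b, ∀ z ∈ ball (0 : Cn n) (1 / 2),
        dist (G0 z a b) (G (φ j) z a b) < δ :=
      eventually_all.2 fun a => eventually_all.2 fun b =>
        Metric.tendstoUniformlyOn_iff.1 (hU a b) δ hδ
    obtain ⟨j, hj⟩ := h1.exists
    refine ⟨φ j, fun z hz v => ?_⟩
    rw [← nq_sub]
    refine abs_nq_le (fun a b => ?_) v
    have := hj a b z hz
    rw [dist_comm, dist_eq_norm] at this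
    exact this.le
  have h0 : (0 : Cn n) ∈ ball (0 : Cn n) (1 / 2) := mem_ball_self (by norm_num)
  have hlo : ∀ v : Cn n, ‖v‖ ^ 2 / 2 ≤ nq (G0 0) v := by
    intro v
    refine le_of_forall_pos_le_add fun η hη => ?_
    obtain ⟨j, hj⟩ := hclose (η / (n ^ 2 * ‖v‖ ^ 2 + 1)) (by positivity)
    have h1 := (abs_le.1 (hj 0 h0 v)).2
    have h2 := (hG j).lo 0 (hsub1 h0) v
    have h3 : η / (n ^ 2 * ‖v‖ ^ 2 + 1) * n ^ 2 * ‖v‖ ^ 2 ≤ η := by
      rw [mul_assoc, div_mul_eq_mul_div, div_le_iff₀ (by positivity)]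
      nlinarith
    linarith
  obtain ⟨σ, h1, h2, h3, h4, h5⟩ := exists_flat_mat (G0 := G0) (Γ := Γ) hr0 hCr
    (fun a b => (hG0 a b).mono hsub) (fun z hz => hh z (hsub hz)) hlo
    (fun c a p => (hΓ c a p).mono hsub) (fun c a p z hz => hΓb c a p z (hsub hz))
    (fun c z hz => hd c z (hsub hz)) (fun c a p z hz => hs c a p z (hsub hz))
  set δ : ℝ := ε' / (10 * (n ^ 2 + 1)) with hδ
  have hδ0 : 0 < δ := by positivity
  have hδn : δ * n ^ 2 ≤ ε' / 10 := by
    rw [hδ, div_mul_eq_mul_div, div_le_div_iff₀ (by positivity) (by norm_num)]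
    nlinarith
  obtain ⟨j, hj⟩ := hclose δ hδ0
  obtain ⟨z, hz, v, hv⟩ := hbad j σ h1 (fun z hz => hsub1 (hsub (h2 hz))) h3 h4
  obtain ⟨h6, h7⟩ := h5 z hz v
  have h8 := abs_le.1 (hj _ (hsub (h2 hz)) (fderiv ℂ σ z v))
  have h9 := abs_le.1 (hj 0 h0 v)
  have h10 := (hG j).lo 0 (hsub1 h0) v
  have h11 : ‖fderiv ℂ σ z v‖ ^ 2 ≤ 4 * ‖v‖ ^ 2 := by
    have := pow_le_pow_left₀ (norm_nonneg _) h6 2
    linarith
  have h12 : δ * n ^ 2 * ‖fderiv ℂ σ z v‖ ^ 2 ≤ ε' / 10 * (4 * ‖v‖ ^ 2) :=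
    mul_le_mul hδn h11 (sq_nonneg _) (by positivity)
  have h13 : δ * n ^ 2 * ‖v‖ ^ 2 ≤ ε' / 10 * ‖v‖ ^ 2 :=
    mul_le_mul_of_nonneg_right hδn (sq_nonneg _)
  have h14 : ε' * (‖v‖ ^ 2 / 2) ≤ ε' * nq (G j 0) v := mul_le_mul_of_nonneg_left h10 hε'.le
  rw [h7] at h8
  have := hv (by linarith [h8.1, h9.2])
  linarith [h8.2, h9.1]

end

end Crest.Agent.T223.Qc48
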