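import Crest.Agent.R273.Kah_333

/-!
# Row 223, module TRANS (helper90): lifting through an immersed ball

* `path_lift`   : path lifting through a local homeomorphism under a compactness a-priori bound
* `Hol A f U`, `Imm A f U` : holomorphic maps / immersions `Cn n ⊇ U → M`
* `lift_unique` : uniqueness of continuous lifts on preconnected sets
* `exists_lift` : holomorphic lift of `f : ball x0 r → M` through an immersion `ψ : ball 0 R → M`
-/

set_option autoImplicit false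
set_option linter.unusedSectionVars false
set_option linter.unusedVariables false

open Set Filter Topology Metric
open scoped ContDiff

namespace Crest.Agent.T223.Tr

open Crest.Agent.R275.Geo

noncomputable section

section top

variable {E X : Type*} [MetricSpace E] [TopologicalSpace X] [T2Space X]

/-- partial lifts on `[0,t]` -/
def PL (ψ : E → X) (U : Set E) (γ : ℝ → X) (y0 : E) (t : ℝ) (Γ : ℝ → E) : Prop :=
  ContinuousOn Γ (Icc 0 t) ∧ Γ 0 = y0 ∧ ∀ s ∈ Icc 0 t, Γ s ∈ U ∧ ψ (Γ s) = γ s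

theorem PL.mono {ψ : E → X} {U : Set E} {γ : ℝ → X} {y0 : E} {t t' : ℝ} {Γ : ℝ → E}
    (h : PL ψ U γ y0 t Γ) (ht : t' ≤ t) : PL ψ U γ y0 t' Γ :=
  ⟨h.1.mono (Icc_subset_Icc_right ht), h.2.1, fun s hs => h.2.2 s ⟨hs.1, hs.2.trans ht⟩⟩

theorem path_step {ψ : E → X} {U K : Set E} (hU : IsOpen U) (hψ : IsLocalHomeomorphOn ψ U)
    (hK : IsCompact K) (hKU : K ⊆ U) {γ : ℝ → X} (hγ : ContinuousOn γ (Icc 0 1)) {y0 : E}
    (hap : ∀ t ∈ Icc (0 : ℝ) 1, ∀ Γ, PL ψ U γ y0 t Γ → Γ t ∈ K) {a : ℝ} (ha : a ∈ Icc (0 : ℝ) 1)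
    (hcl : ∀ ε > 0, ∃ t ∈ Icc 0 a, a - ε < t ∧ ∃ Γ, PL ψ U γ y0 t Γ) :
    ∃ δ > 0, ∀ t ∈ Icc (0 : ℝ) 1, t < a + δ → ∃ Γ, PL ψ U γ y0 t Γ := by
  have : Nonempty E := ⟨y0⟩
  choose! t ht hlt Γ hΓ using hcl
  set u : ℕ → ℝ := fun k => t (1 / ((k : ℝ) + 1)) with hu
  have hpos : ∀ k : ℕ, (0 : ℝ) < 1 / ((k : ℝ) + 1) := fun k => by positivity
  have huI : ∀ k, u k ∈ Icc (0 : ℝ) 1 := fun k =>
    ⟨(ht _ (hpos k)).1, (ht _ (hpos k)).2.trans ha.2⟩
  have hua : Tendsto u atTop (𝓝 a) := by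
    have h1 : Tendsto (fun k : ℕ => a - 1 / ((k : ℝ) + 1)) atTop (𝓝 (a - 0)) :=
      tendsto_const_nhds.sub tendsto_one_div_add_atTop_nhds_zero_nat
    rw [sub_zero] at h1
    exact tendsto_of_tendsto_of_tendsto_of_le_of_le h1 tendsto_const_nhds
      (fun k => (hlt _ (hpos k)).le) (fun k => (ht _ (hpos k)).2)
  set y : ℕ → E := fun k => Γ (1 / ((k : ℝ) + 1)) (u k) with hy
  have hyK : ∀ k, y k ∈ K := fun k => hap _ (huI k) _ (hΓ _ (hpos k))
  obtain ⟨z, hzK, φ, hφ, hz⟩ := hK.tendsto_subseq hyK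
  have hua' : Tendsto (u ∘ φ) atTop (𝓝[Icc 0 1] a) :=
    tendsto_nhdsWithin_iff.2 ⟨hua.comp hφ.tendsto_atTop, Eventually.of_forall fun k => huI _⟩
  have hψz : ψ z = γ a := by
    have h1 : Tendsto (fun k => ψ (y (φ k))) atTop (𝓝 (ψ z)) :=
      (hψ.continuousAt (hKU hzK)).tendsto.comp hz
    have h2 : Tendsto (fun k => γ (u (φ k))) atTop (𝓝 (γ a)) := (hγ a ha).tendsto.comp hua'
    have h3 : (fun k => ψ (y (φ k))) = fun k => γ (u (φ k)) := by
      funext k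
      exact ((hΓ _ (hpos (φ k))).2.2 _ ⟨(huI _).1, le_rfl⟩).2
    rw [h3] at h1
    exact tendsto_nhds_unique h1 h2
  obtain ⟨q0, hq0, hq0e⟩ := hψ z (hKU hzK)
  set q := q0.restr U with hq
  have hqs : q.source = q0.source ∩ U := by rw [hq, q0.restr_source' _ hU]
  have hqe : ∀ w, q w = ψ w := fun w => by rw [hq0e]; rfl
  have hzq : z ∈ q.source := by rw [hqs]; exact ⟨hq0, hKU hzK⟩
  have hγa : γ a ∈ q.target := by rw [← hψz, ← hqe]; exact q.map_source hzq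
  have h1 : ∀ᶠ s in 𝓝[Icc 0 1] a, γ s ∈ q.target :=
    (hγ a ha).tendsto (q.open_target.mem_nhds hγa)
  obtain ⟨δ, hδ, hδs⟩ := Metric.mem_nhdsWithin_iff.1 h1
  refine ⟨δ, hδ, fun t' ht' ht'δ => ?_⟩
  have h2 : ∀ᶠ k in atTop, y (φ k) ∈ q.source := hz (q.open_source.mem_nhds hzq)
  have h3 : ∀ᶠ k in atTop, a - δ < u (φ k) :=
    (hua.comp hφ.tendsto_atTop) (Ioi_mem_nhds (by linarith))
  obtain ⟨k, hk2, hk3⟩ := (h2.and h3).exists
  set b := u (φ k) with hb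
  set Γ0 := Γ (1 / (((φ k : ℕ) : ℝ) + 1)) with hΓ0
  have hP : PL ψ U γ y0 b Γ0 := hΓ _ (hpos (φ k))
  have hba : b ≤ a := (ht _ (hpos (φ k))).2
  have hb0 : 0 ≤ b := (huI _).1
  by_cases hc : t' ≤ b
  · exact ⟨Γ0, hP.mono hc⟩
  push Not at hc
  have hin : ∀ s ∈ Icc b t', γ s ∈ q.target := fun s hs =>
    hδs ⟨by rw [mem_ball, Real.dist_eq, abs_lt]; constructor <;> linarith [hs.1, hs.2],
      hb0.trans hs.1, hs.2.trans ht'.2⟩
  have hyb : q.symm (γ b) = Γ0 b := by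
    have : γ b = q (Γ0 b) := by rw [hqe]; exact (hP.2.2 b ⟨hb0, le_rfl⟩).2.symm
    rw [this]; exact q.left_inv hk2
  classical
  refine ⟨fun s => if s ≤ b then Γ0 s else q.symm (γ s), ?_, ?_, ?_⟩
  · refine ContinuousOn.if (fun s hs => ?_) ?_ ?_
    · have : s = b := frontier_le_subset_eq continuous_id continuous_const hs.2
      rw [this, hyb]
    · have hcl : closure {s : ℝ | s ≤ b} = {s : ℝ | s ≤ b} :=
        closure_le_eq continuous_id continuous_const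
      rw [hcl]
      exact hP.1.mono fun s hs => ⟨hs.1.1, hs.2⟩
    · simp_rw [not_le]
      have hsub : Icc 0 t' ∩ closure {s : ℝ | b < s} ⊆ Icc b t' := fun s hs =>
        ⟨closure_lt_subset_le continuous_const continuous_id hs.2, hs.1.2⟩
      refine ContinuousOn.mono ?_ hsub
      exact q.continuousOn_symm.comp (hγ.mono fun s hs => ⟨hb0.trans hs.1, hs.2.trans ht'.2⟩) hin
  · simp only [hb0, if_true]; exact hP.2.1
  · intro s hs
    by_cases hsb : s ≤ b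
    · simp only [hsb, if_true]; exact hP.2.2 s ⟨hs.1, hsb⟩
    · simp only [hsb, if_false]
      have h4 := hin s ⟨(not_le.1 hsb).le, hs.2⟩
      refine ⟨?_, by rw [← hqe]; exact q.right_inv h4⟩
      have := q.map_target h4
      rw [hqs] at this; exact this.2

/-- path lifting through a local homeomorphism, if all partial lifts end in a compact set -/
theorem path_lift {ψ : E → X} {U K : Set E} (hU : IsOpen U) (hψ : IsLocalHomeomorphOn ψ U)
    (hK : IsCompact K) (hKU : K ⊆ U) {γ : ℝ → X} (hγ : ContinuousOn γ (Icc 0 1)) {y0 : E}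
    (hy0 : y0 ∈ U) (h0 : ψ y0 = γ 0)
    (hap : ∀ t ∈ Icc (0 : ℝ) 1, ∀ Γ, PL ψ U γ y0 t Γ → Γ t ∈ K) :
    ∃ Γ, PL ψ U γ y0 1 Γ := by
  set T : Set ℝ := {t | t ∈ Icc (0 : ℝ) 1 ∧ ∃ Γ, PL ψ U γ y0 t Γ} with hT
  have h0T : (0 : ℝ) ∈ T := by
    refine ⟨⟨le_rfl, zero_le_one⟩, fun _ => y0, continuousOn_const, rfl, fun s hs => ?_⟩
    have : s = 0 := le_antisymm hs.2 hs.1
    rw [this]; exact ⟨hy0, h0⟩
  have hbd : BddAbove T := ⟨1, fun t ht => ht.1.2⟩
  set a := sSup T with ha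
  have ha0 : 0 ≤ a := le_csSup hbd h0T
  have ha1 : a ≤ 1 := csSup_le ⟨0, h0T⟩ fun t ht => ht.1.2
  obtain ⟨δ, hδ, H⟩ := path_step hU hψ hK hKU hγ hap (a := a) ⟨ha0, ha1⟩ (by
    intro ε hε
    obtain ⟨t, ht, hlt⟩ := exists_lt_of_lt_csSup ⟨0, h0T⟩ (show a - ε < a by linarith)
    exact ⟨t, ⟨ht.1.1, le_csSup hbd ht⟩, hlt, ht.2⟩)
  by_cases h1 : 1 < a + δ
  · exact H 1 ⟨zero_le_one, le_rfl⟩ h1
  · exfalso
    push Not at h1
    have hI : a + δ / 2 ∈ Icc (0 : ℝ) 1 := ⟨by linarith, by linarith⟩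
    have : a + δ / 2 ≤ a := le_csSup hbd ⟨hI, H _ hI (by linarith)⟩
    linarith

/-- uniqueness of continuous lifts -/
theorem lift_unique {B : Type*} [TopologicalSpace B] {ψ : E → X} {U : Set E} (hU : IsOpen U)
    (hψ : IsLocalHomeomorphOn ψ U) {s : Set B} (hs : IsPreconnected s) {g₁ g₂ : B → E}
    (h₁ : ContinuousOn g₁ s) (h₂ : ContinuousOn g₂ s) (m₁ : MapsTo g₁ s U) (m₂ : MapsTo g₂ s U)
    (he : ∀ b ∈ s, ψ (g₁ b) = ψ (g₂ b)) {a : B} (ha : a ∈ s) (h : g₁ a = g₂ a) :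
    EqOn g₁ g₂ s := by
  have hp : IsLocalHomeomorph (fun w : U => ψ w) := by
    rw [isLocalHomeomorph_iff_isLocalHomeomorphOn_univ]
    exact hψ.comp hU.isOpenEmbedding_subtypeVal.isLocalHomeomorph.isLocalHomeomorphOn
      (fun w _ => w.2)
  rw [isPreconnected_iff_preconnectedSpace] at hs
  have := (T2Space.isSeparatedMap (fun w : U => ψ w)).eq_of_comp_eq hp.isLocallyInjective
    (g₁ := fun b : s => (⟨g₁ b, m₁ b.2⟩ : U)) (g₂ := fun b : s => (⟨g₂ b, m₂ b.2⟩ : U))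
    ((continuousOn_iff_continuous_domRestrict.1 h₁).subtype_mk _)
    ((continuousOn_iff_continuous_domRestrict.1 h₂).subtype_mk _)
    (funext fun b => he b b.2) ⟨a, ha⟩ (Subtype.ext h)
  intro b hb
  exact congrArg Subtype.val (congr_fun this ⟨b, hb⟩)

end top

variable {n : ℕ} {M : Type} [TopologicalSpace M] {A : Atl n M}

/-- `f` read in the chart `i` -/
def rd (A : Atl n M) (i : A.ι) (f : Cn n → M) : Cn n → Cn n := fun w => A.e i (f w)

/-- `f` is holomorphic on `U` -/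
def Hol (A : Atl n M) (f : Cn n → M) (U : Set (Cn n)) : Prop :=
  ∀ z ∈ U, ContinuousAt f z ∧
    ∀ i, f z ∈ (A.e i).source → DifferentiableAt ℂ (rd A i f) z

/-- `f` is a holomorphic immersion on `U` -/
def Imm (A : Atl n M) (f : Cn n → M) (U : Set (Cn n)) : Prop :=
  Hol A f U ∧ ∀ z ∈ U, ∀ i, f z ∈ (A.e i).source → Function.Injective (fderiv ℂ (rd A i f) z)

theorem Hol.mono {f : Cn n → M} {U V : Set (Cn n)} (h : Hol A f U) (hV : V ⊆ U) : Hol A f V :=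
  fun z hz => h z (hV hz)

theorem Imm.mono {f : Cn n → M} {U V : Set (Cn n)} (h : Imm A f U) (hV : V ⊆ U) : Imm A f V :=
  ⟨h.1.mono hV, fun z hz => h.2 z (hV hz)⟩

theorem Hol.continuousOn {f : Cn n → M} {U : Set (Cn n)} (h : Hol A f U) : ContinuousOn f U :=
  fun z hz => (h z hz).1.continuousWithinAt

theorem Hol.eventually {f : Cn n → M} {U : Set (Cn n)} (h : Hol A f U) (hU : IsOpen U)
    {z : Cn n} (hz : z ∈ U) {i : A.ι} (hi : f z ∈ (A.e i).source) :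
    ∀ᶠ w in 𝓝 z, w ∈ U ∧ f w ∈ (A.e i).source ∧ DifferentiableAt ℂ (rd A i f) w := by
  filter_upwards [hU.mem_nhds hz, (h z hz).1 ((A.e i).open_source.mem_nhds hi)] with w hw hw'
  exact ⟨hw, hw', (h w hw).2 i hw'⟩

theorem contDiffAt_of_eventually {F : Type*} [NormedAddCommGroup F] [NormedSpace ℂ F]
    [CompleteSpace F] {f : Cn n → F} {z : Cn n} (h : ∀ᶠ w in 𝓝 z, DifferentiableAt ℂ f w) :
    ContDiffAt ℂ ω f z := by
  obtain ⟨U, hU, hUo, hUz⟩ := _root_.eventually_nhds_iff.1 h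
  have h1 : DifferentiableOn ℂ f U := fun w hw => (hU w hw).differentiableWithinAt
  exact (Crest.Agent.R266.SCV.contDiffOn_omega_of_differentiableOn hUo h1).contDiffAt
    (hUo.mem_nhds hUz)

theorem Hol.contDiffAt {f : Cn n → M} {U : Set (Cn n)} (h : Hol A f U) (hU : IsOpen U)
    {z : Cn n} (hz : z ∈ U) {i : A.ι} (hi : f z ∈ (A.e i).source) :
    ContDiffAt ℂ ω (rd A i f) z :=
  contDiffAt_of_eventually ((h.eventually hU hz hi).mono fun _ hw => hw.2.2)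

/-- an injective endomorphism of `Cn n` as an equivalence -/
def eqvOf (L : Cn n →L[ℂ] Cn n) (h : Function.Injective L) : Cn n ≃L[ℂ] Cn n :=
  (LinearEquiv.ofBijective (L : Cn n →ₗ[ℂ] Cn n)
    ⟨h, LinearMap.surjective_of_injective (f := (L : Cn n →ₗ[ℂ] Cn n)) h⟩).toContinuousLinearEquiv

theorem eqvOf_coe (L : Cn n →L[ℂ] Cn n) (h : Function.Injective L) :
    ((eqvOf L h : Cn n ≃L[ℂ] Cn n) : Cn n →L[ℂ] Cn n) = L := by
  ext v; rfl

theorem eqvOf_apply (L : Cn n →L[ℂ] Cn n) (h : Function.Injective L) (v : Cn n) :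
    eqvOf L h v = L v := rfl

theorem isLocalHomeomorphOn_of_inj {φ : Cn n → Cn n} {z : Cn n}
    (h : ∀ᶠ w in 𝓝 z, DifferentiableAt ℂ φ w) (hi : Function.Injective (fderiv ℂ φ z)) :
    IsLocalHomeomorphOn φ {z} := by
  intro w hw
  rw [mem_singleton_iff] at hw
  subst hw
  have h1 : HasStrictFDerivAt φ ((eqvOf _ hi : Cn n ≃L[ℂ] Cn n) : Cn n →L[ℂ] Cn n) w := by
    rw [eqvOf_coe]
    exact (contDiffAt_of_eventually h).hasStrictFDerivAt (by simp)
  exact ⟨h1.toOpenPartialHomeomorph φ, h1.mem_toOpenPartialHomeomorph_source, rfl⟩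

theorem Imm.isLocalHomeomorphOn {f : Cn n → M} {U : Set (Cn n)} (h : Imm A f U) (hU : IsOpen U) :
    IsLocalHomeomorphOn f U := by
  intro z hz
  obtain ⟨i, hi⟩ := A.cover (f z)
  have h1 : IsLocalHomeomorphOn (A.e i ∘ f) {z} :=
    isLocalHomeomorphOn_of_inj ((h.1.eventually hU hz hi).mono fun _ hw => hw.2.2) (h.2 z hz i hi)
  have h2 : IsLocalHomeomorphOn (A.e i) (f '' {z}) :=
    (IsLocalHomeomorphOn.OpenPartialHomeomorph.isLocalHomeomorphOn (A.e i)).mono (by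
      rw [image_singleton]; exact singleton_subset_iff.2 hi)
  exact (h1.of_comp_left h2 (fun x hx => by
    rw [mem_singleton_iff] at hx; rw [hx]; exact (h.1 z hz).1)) z rfl

/-- infinitesimal comparison: `ψ`-vectors over `f`-vectors are at most `κ` times as long -/
def Cmp (A : Atl n M) (f : Cn n → M) (D : Set (Cn n)) (ψ : Cn n → M) (U : Set (Cn n)) (κ : ℝ) :
    Prop :=
  ∀ x ∈ D, ∀ y ∈ U, f x = ψ y → ∃ i, f x ∈ (A.e i).source ∧
    ∀ v w, fderiv ℂ (rd A i f) x v = fderiv ℂ (rd A i ψ) y w → ‖w‖ ≤ κ * ‖v‖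

/-- derivative of a continuous lift -/
theorem lift_hasFDerivWithinAt {B : Type*} [NormedAddCommGroup B] [NormedSpace ℝ B]
    {ψ : Cn n → M} {U : Set (Cn n)} (hψ : Imm A ψ U) (hU : IsOpen U) {g : B → M} {Γ : B → Cn n}
    {s : Set B} {b : B} (hb : b ∈ s) (hΓ : ContinuousWithinAt Γ s b) (hm : Γ b ∈ U)
    (he : ∀ᶠ c in 𝓝[s] b, ψ (Γ c) = g c) {i : A.ι} (hi : g b ∈ (A.e i).source)
    {g' : B →L[ℝ] Cn n} (hg : HasFDerivWithinAt (fun c => A.e i (g c)) g' s b) :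
    ∃ Γ' : B →L[ℝ] Cn n, HasFDerivWithinAt Γ Γ' s b ∧
      ∀ v, fderiv ℂ (rd A i ψ) (Γ b) (Γ' v) = g' v := by
  have hi' : ψ (Γ b) ∈ (A.e i).source := by rw [he.self_of_nhdsWithin hb]; exact hi
  have hinj := hψ.2 _ hm i hi'
  set L := eqvOf _ hinj with hL
  have h1 : HasFDerivWithinAt (rd A i ψ) ((fderiv ℂ (rd A i ψ) (Γ b)).restrictScalars ℝ) univ
      (Γ b) := (((hψ.1 _ hm).2 i hi').hasFDerivAt.restrictScalars ℝ).hasFDerivWithinAt
  refine ⟨((L.symm : Cn n →L[ℂ] Cn n).restrictScalars ℝ) ∘L g', ?_, fun v => ?_⟩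
  · refine HasFDerivWithinAt.of_comp_of_leftInverse (by rw [nhdsWithin_univ]; exact hΓ) h1 hg
      ?_ (fun v => L.symm_apply_apply v) hb
    filter_upwards [he] with c hc
    simp only [Function.comp, rd, hc]
  · exact L.apply_symm_apply (g' v)

theorem lift_differentiableAt {ψ : Cn n → M} {U : Set (Cn n)} (hψ : Imm A ψ U) (hU : IsOpen U)
    {f : Cn n → M} {Φ : Cn n → Cn n} {x : Cn n} (hΦ : ContinuousAt Φ x) (hm : Φ x ∈ U)
    (he : ∀ᶠ c in 𝓝 x, ψ (Φ c) = f c) {i : A.ι} (hi : f x ∈ (A.e i).source)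
    (hf : DifferentiableAt ℂ (rd A i f) x) :
    DifferentiableAt ℂ Φ x ∧
      ∀ v, fderiv ℂ (rd A i ψ) (Φ x) (fderiv ℂ Φ x v) = fderiv ℂ (rd A i f) x v := by
  have hi' : ψ (Φ x) ∈ (A.e i).source := by rw [he.self_of_nhds]; exact hi
  have hinj := hψ.2 _ hm i hi'
  set L := eqvOf _ hinj with hL
  have h1 : HasFDerivAt (rd A i ψ) (fderiv ℂ (rd A i ψ) (Φ x)) (Φ x) :=
    ((hψ.1 _ hm).2 i hi').hasFDerivAt
  have h2 : HasFDerivAt Φ ((L.symm : Cn n →L[ℂ] Cn n) ∘L fderiv ℂ (rd A i f) x) x := by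
    refine HasFDerivAt.of_comp_of_leftInverse hΦ h1 hf.hasFDerivAt ?_
      (fun v => L.symm_apply_apply v)
    filter_upwards [he] with c hc
    simp only [Function.comp, rd, hc]
  refine ⟨h2.differentiableAt, fun v => ?_⟩
  rw [h2.fderiv]
  exact L.apply_symm_apply _

/-- a priori bound for partial lifts of a segment -/
theorem seg_apriori {ψ : Cn n → M} {U : Set (Cn n)} (hψ : Imm A ψ U) (hU : IsOpen U)
    {f : Cn n → M} {D : Set (Cn n)} (hf : Hol A f D) {κ : ℝ} (hc : Cmp A f D ψ U κ)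
    {x0 v y0 : Cn n} (hD : ∀ s ∈ Icc (0 : ℝ) 1, x0 + s • v ∈ D) {t : ℝ} (ht : t ∈ Icc (0 : ℝ) 1)
    {Γ : ℝ → Cn n} (hΓ : PL ψ U (fun s => f (x0 + s • v)) y0 t Γ) :
    ‖Γ t - y0‖ ≤ κ * ‖v‖ * t := by
  have key : ∀ s ∈ Icc 0 t, ∃ d : Cn n, HasDerivWithinAt Γ d (Icc 0 t) s ∧ ‖d‖ ≤ κ * ‖v‖ := by
    intro s hs
    have hsI : s ∈ Icc (0 : ℝ) 1 := ⟨hs.1, hs.2.trans ht.2⟩
    obtain ⟨i, hi, hcmp⟩ := hc _ (hD s hsI) _ (hΓ.2.2 s hs).1 (hΓ.2.2 s hs).2.symm
    have h1 : HasDerivAt (fun s : ℝ => x0 + s • v) v s := by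
      simpa using ((hasDerivAt_id s).smul_const v).const_add x0
    have h2 : HasDerivAt (fun s : ℝ => A.e i (f (x0 + s • v)))
        (fderiv ℂ (rd A i f) (x0 + s • v) v) s :=
      HasFDerivAt.comp_hasDerivAt (l := rd A i f) (f := fun s : ℝ => x0 + s • v) s
        (((hf _ (hD s hsI)).2 i hi).hasFDerivAt.restrictScalars ℝ) h1
    obtain ⟨Γ', h3, h4⟩ := lift_hasFDerivWithinAt hψ hU (g := fun s : ℝ => f (x0 + s • v)) hs
      (hΓ.1 s hs) (hΓ.2.2 s hs).1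
      (eventually_nhdsWithin_of_forall fun c hc => (hΓ.2.2 c hc).2) hi
      h2.hasFDerivAt.hasFDerivWithinAt
    refine ⟨Γ' 1, h3.hasDerivWithinAt, hcmp v _ ?_⟩
    rw [h4]; simp
  choose! d hd hdn using key
  have := norm_image_sub_le_of_norm_deriv_le_segment' hd (fun s hs => hdn s (Ico_subset_Icc_self hs))
    t ⟨ht.1, le_rfl⟩
  rwa [hΓ.2.1, sub_zero] at this

/-- **holomorphic lift** through an immersed ball -/
theorem exists_lift [T2Space M] {ψ : Cn n → M} {R : ℝ} (hψ : Imm A ψ (ball 0 R))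
    {f : Cn n → M} {x0 y0 : Cn n} {r κ : ℝ} (hf : Hol A f (ball x0 r))
    (hc : Cmp A f (ball x0 r) ψ (ball 0 R) κ) (hκ : 0 ≤ κ) (hr : 0 < r) (h0 : ψ y0 = f x0)
    (hR : ‖y0‖ + κ * r < R) :
    ∃ Φ : Cn n → Cn n, DifferentiableOn ℂ Φ (ball x0 r) ∧ Φ x0 = y0 ∧
      (∀ x ∈ ball x0 r, ‖Φ x - y0‖ ≤ κ * ‖x - x0‖ ∧ ψ (Φ x) = f x ∧ ‖fderiv ℂ Φ x‖ ≤ κ) := by
  have hloc := hψ.isLocalHomeomorphOn isOpen_ball
  have hseg : ∀ x ∈ ball x0 r, ∀ s ∈ Icc (0 : ℝ) 1, x0 + s • (x - x0) ∈ ball x0 r := by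
    intro x hx s hs
    rw [mem_ball, dist_eq_norm] at hx ⊢
    rw [add_sub_cancel_left, norm_smul, Real.norm_of_nonneg hs.1]
    calc s * ‖x - x0‖ ≤ 1 * ‖x - x0‖ := by gcongr; exact hs.2
      _ < r := by rwa [one_mul]
  have hKU : closedBall y0 (κ * r) ⊆ ball 0 R := fun y hy => by
    rw [mem_closedBall, dist_eq_norm] at hy
    rw [mem_ball_zero_iff]
    calc ‖y‖ = ‖y0 + (y - y0)‖ := by congr 1; abel
      _ ≤ ‖y0‖ + ‖y - y0‖ := norm_add_le _ _
      _ < R := by linarith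
  have hy0 : y0 ∈ ball (0 : Cn n) R := hKU (mem_closedBall_self (by positivity))
  have hex : ∀ x ∈ ball x0 r, ∃ Γ, PL ψ (ball 0 R) (fun s => f (x0 + s • (x - x0))) y0 1 Γ := by
    intro x hx
    refine path_lift isOpen_ball hloc (isCompact_closedBall y0 (κ * r)) hKU ?_ hy0
      (by simpa using h0) fun t ht Γ hΓ => ?_
    · exact hf.continuousOn.comp (by fun_prop) (hseg x hx)
    · have h1 := seg_apriori hψ isOpen_ball hf hc (hseg x hx) ht hΓ
      rw [mem_closedBall, dist_eq_norm]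
      rw [mem_ball, dist_eq_norm] at hx
      calc _ ≤ κ * ‖x - x0‖ * t := h1
        _ ≤ κ * r * 1 := by gcongr <;> [exact ht.1; exact ht.2]
        _ = κ * r := mul_one _
  choose! Γ hΓ using hex
  have hI1 : (1 : ℝ) ∈ Icc (0 : ℝ) 1 := ⟨zero_le_one, le_rfl⟩
  have hcont : ContinuousOn (fun x => Γ x 1) (ball x0 r) := by
    have hp : IsLocalHomeomorph (fun w : ball (0 : Cn n) R => ψ w) := by
      rw [isLocalHomeomorph_iff_isLocalHomeomorphOn_univ]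
      exact hloc.comp isOpen_ball.isOpenEmbedding_subtypeVal.isLocalHomeomorph.isLocalHomeomorphOn
        (fun w _ => w.2)
    let F : C(unitInterval × ball x0 r, M) :=
      ⟨fun ta => f (x0 + (ta.1 : ℝ) • ((ta.2 : Cn n) - x0)),
        hf.continuousOn.comp_continuous (by fun_prop) fun ta => hseg _ ta.2.2 _ ta.1.2⟩
    let g : unitInterval × ball x0 r → ball (0 : Cn n) R := fun ta =>
      ⟨Γ ta.2 ta.1, ((hΓ _ ta.2.2).2.2 _ ta.1.2).1⟩
    have hg : Continuous g := by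
      refine hp.continuous_lift (T2Space.isSeparatedMap _) F
        (funext fun ta => ((hΓ _ ta.2.2).2.2 _ ta.1.2).2) ?_ fun a => ?_
      · have : (fun a : ball x0 r => g ⟨0, a⟩) = fun _ => ⟨y0, hy0⟩ := by
          funext a; exact Subtype.ext (hΓ _ a.2).2.1
        rw [this]; exact continuous_const
      · refine Continuous.subtype_mk ?_ _
        exact (hΓ _ a.2).1.comp_continuous continuous_subtype_val fun t => t.2
    rw [continuousOn_iff_continuous_domRestrict]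
    exact continuous_subtype_val.comp (hg.comp (Continuous.prodMk_right (1 : unitInterval)))
  have hlift : ∀ x ∈ ball x0 r, ψ (Γ x 1) = f x := fun x hx => by
    simpa using ((hΓ x hx).2.2 1 hI1).2
  have hbd : ∀ x ∈ ball x0 r, ‖Γ x 1 - y0‖ ≤ κ * ‖x - x0‖ := fun x hx => by
    simpa using seg_apriori hψ isOpen_ball hf hc (hseg x hx) hI1 (hΓ x hx)
  have hder : ∀ x ∈ ball x0 r, DifferentiableAt ℂ (fun x => Γ x 1) x ∧
      ‖fderiv ℂ (fun x => Γ x 1) x‖ ≤ κ := by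
    intro x hx
    have hm := ((hΓ x hx).2.2 1 hI1).1
    obtain ⟨i, hi, hcmp⟩ := hc x hx _ hm (hlift x hx).symm
    obtain ⟨h1, h2⟩ := lift_differentiableAt hψ isOpen_ball (f := f) (Φ := fun x => Γ x 1)
      (hcont.continuousAt (isOpen_ball.mem_nhds hx)) hm
      (by filter_upwards [isOpen_ball.mem_nhds hx] with c hc using hlift c hc) hi ((hf x hx).2 i hi)
    exact ⟨h1, ContinuousLinearMap.opNorm_le_bound _ hκ fun v => hcmp v _ (h2 v).symm⟩
  refine ⟨fun x => Γ x 1, fun x hx => (hder x hx).1.differentiableWithinAt, ?_,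
    fun x hx => ⟨hbd x hx, hlift x hx, (hder x hx).2⟩⟩
  have := hbd x0 (mem_ball_self hr)
  rw [sub_self, norm_zero, mul_zero] at this
  exact sub_eq_zero.1 (norm_le_zero_iff.1 this)

end

end Crest.Agent.T223.Tr
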