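import Crest.Agent.T223.QcRig_35
import Crest.Agent.T223.TrLift_90

/-!
# Row 223, module QC (helper35): confined lifting

Abstract setting: `ψ : E ⊇ U → X` a local homeomorphism into a Hausdorff space, `f : E ⊇ W → X`
continuous, and every continuous local lift of `f` through `ψ` is holomorphic with
`η`-isometric derivative (`LG`).
* `lift_ball`     : lift on a ball
* `lift_ext`      : a lift on a convex set extends to its thickening
* `lift_confined` : lift on a long convex set, close to the translation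
-/

set_option autoImplicit false
set_option linter.unusedSectionVars false
set_option linter.unusedVariables false

open Set Filter Topology Metric
open scoped ContDiff

namespace Crest.Agent.T223.Qc35

open Crest.Agent.T223.Tr (PL path_lift lift_unique)

noncomputable section

variable {E : Type*} [NormedAddCommGroup E] [InnerProductSpace ℂ E] [FiniteDimensional ℂ E]
variable {X : Type*} [TopologicalSpace X] [T2Space X]

/-- every continuous local lift of `f` through `ψ` is holomorphic and `η`-isometric -/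
def LG (η : ℝ) (f : E → X) (W : Set E) (ψ : E → X) (U : Set E) : Prop :=
  ∀ x ∈ W, ∀ Φ : E → E, ContinuousAt Φ x → Φ x ∈ U → (∀ᶠ c in 𝓝 x, ψ (Φ c) = f c) →
    DifferentiableAt ℂ Φ x ∧ NIL η (fderiv ℂ Φ x)

theorem LG.mono {η η' : ℝ} {f ψ : E → X} {W W' U U' : Set E} (h : LG η f W ψ U) (hη : η ≤ η')
    (hW : W' ⊆ W) (hU : U' ⊆ U) : LG η' f W' ψ U' := fun x hx Φ h1 h2 h3 =>
  ⟨(h x (hW hx) Φ h1 (hU h2) h3).1, (h x (hW hx) Φ h1 (hU h2) h3).2.mono hη⟩

/-- local lifts exist and are unique -/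
theorem local_lift {ψ f : E → X} {U : Set E} (hψ : IsLocalHomeomorphOn ψ U) {x y : E}
    (hy : y ∈ U) (hf : ContinuousAt f x) (he : ψ y = f x) :
    ∃ Φ : E → E, ContinuousAt Φ x ∧ Φ x = y ∧ (∀ᶠ c in 𝓝 x, ψ (Φ c) = f c) ∧
      ∀ᶠ y' in 𝓝 y, ∀ c, ψ y' = f c → Φ c = y' := by
  obtain ⟨q, hq, hqe⟩ := hψ y hy
  have hqe' : ∀ w, q w = ψ w := fun w => by rw [hqe]
  have ht : f x ∈ q.target := by rw [← he, ← hqe']; exact q.map_source hq
  refine ⟨fun c => q.symm (f c), ?_, ?_, ?_, ?_⟩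
  · exact (q.continuousAt_symm ht).comp hf
  · show q.symm (f x) = y
    rw [← he, ← hqe']; exact q.left_inv hq
  · filter_upwards [hf (q.open_target.mem_nhds ht)] with c hc
    rw [← hqe']; exact q.right_inv hc
  · filter_upwards [q.open_source.mem_nhds hq] with y' hy' c hc
    show q.symm (f c) = y'
    rw [← hc, ← hqe']; exact q.left_inv hy'

theorem seg_bound {η : ℝ} (hη : η ≤ 1) {ψ f : E → X} {U W : Set E}
    (hψ : IsLocalHomeomorphOn ψ U) (hW : IsOpen W) (hf : ContinuousOn f W) (hG : LG η f W ψ U)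
    {x0 v y0 : E} (hD : ∀ s ∈ Icc (0 : ℝ) 1, x0 + (s : ℂ) • v ∈ W) {t : ℝ}
    (ht : t ∈ Icc (0 : ℝ) 1) {Γ : ℝ → E}
    (hΓ : PL ψ U (fun s => f (x0 + (s : ℂ) • v)) y0 t Γ) :
    ‖Γ t - y0‖ ≤ 3 / 2 * ‖v‖ * t := by
  have key : ∀ s ∈ Icc 0 t, ∃ d : E, HasDerivWithinAt Γ d (Icc 0 t) s ∧ ‖d‖ ≤ 3 / 2 * ‖v‖ := by
    intro s hs
    have hsI : s ∈ Icc (0 : ℝ) 1 := ⟨hs.1, hs.2.trans ht.2⟩
    have hxs := hD s hsI
    obtain ⟨Φ, h1, h2, h3, h4⟩ := local_lift hψ (hΓ.2.2 s hs).1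
      (hf.continuousAt (hW.mem_nhds hxs)) (hΓ.2.2 s hs).2
    obtain ⟨h5, h6⟩ := hG _ hxs Φ h1 (by rw [h2]; exact (hΓ.2.2 s hs).1) h3
    have h7 : HasDerivAt (fun s : ℂ => x0 + s • v) v (s : ℂ) := by
      simpa using ((hasDerivAt_id (s : ℂ)).smul_const v).const_add x0
    have h8 : HasDerivAt (fun s : ℂ => Φ (x0 + s • v)) (fderiv ℂ Φ (x0 + (s : ℂ) • v) v) (s : ℂ) :=
      HasFDerivAt.comp_hasDerivAt (l := Φ) (f := fun s : ℂ => x0 + s • v) (s : ℂ)
        h5.hasFDerivAt h7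
    have h9 : HasDerivAt (fun s : ℝ => Φ (x0 + (s : ℂ) • v))
        (fderiv ℂ Φ (x0 + (s : ℂ) • v) v) s := by
      have h10 := (h8.hasFDerivAt.restrictScalars ℝ).comp_hasDerivAt s
        (Complex.ofRealCLM.hasDerivAt (x := s))
      simpa [Function.comp_def] using h10
    refine ⟨_, h9.hasDerivWithinAt.congr_of_eventuallyEq ?_ h2.symm, h6.norm_le hη v⟩
    have h11 : ∀ᶠ s' in 𝓝[Icc 0 t] s, ∀ c, ψ (Γ s') = f c → Φ c = Γ s' := (hΓ.1 s hs) h4
    filter_upwards [h11, self_mem_nhdsWithin] with s' h12 h13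
    exact (h12 _ (hΓ.2.2 s' h13).2).symm
  choose! d hd hdn using key
  have := norm_image_sub_le_of_norm_deriv_le_segment' hd
    (fun s hs => hdn s (Ico_subset_Icc_self hs)) t ⟨ht.1, le_rfl⟩
  rwa [hΓ.2.1, sub_zero] at this

theorem lift_ball {η : ℝ} (hη : η ≤ 1) {ψ f : E → X} {U W : Set E} (hU : IsOpen U)
    (hψ : IsLocalHomeomorphOn ψ U) (hW : IsOpen W) (hf : ContinuousOn f W) (hG : LG η f W ψ U)
    {x0 y0 : E} {r : ℝ} (hr : 0 < r) (hrW : ball x0 r ⊆ W)
    (hKU : closedBall y0 (3 / 2 * r) ⊆ U) (h0 : ψ y0 = f x0) :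
    ∃ Φ : E → E, ContinuousOn Φ (ball x0 r) ∧ Φ x0 = y0 ∧
      ∀ x ∈ ball x0 r, Φ x ∈ U ∧ ψ (Φ x) = f x := by
  have : ProperSpace E := FiniteDimensional.proper ℂ E
  have hseg : ∀ x ∈ ball x0 r, ∀ s ∈ Icc (0 : ℝ) 1, x0 + (s : ℂ) • (x - x0) ∈ W := by
    intro x hx s hs
    apply hrW
    rw [mem_ball, dist_eq_norm] at hx ⊢
    rw [add_sub_cancel_left, norm_smul, Complex.norm_real, Real.norm_of_nonneg hs.1]
    calc s * ‖x - x0‖ ≤ 1 * ‖x - x0‖ := by gcongr; exact hs.2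
      _ < r := by rwa [one_mul]
  have hy0 : y0 ∈ U := hKU (mem_closedBall_self (by positivity))
  have hex : ∀ x ∈ ball x0 r, ∃ Γ, PL ψ U (fun s => f (x0 + (s : ℂ) • (x - x0))) y0 1 Γ := by
    intro x hx
    refine path_lift hU hψ (isCompact_closedBall y0 (3 / 2 * r)) hKU ?_ hy0
      (by simpa using h0) fun t ht Γ hΓ => ?_
    · exact hf.comp (by fun_prop) (hseg x hx)
    · have h1 := seg_bound hη hψ hW hf hG (hseg x hx) ht hΓ
      rw [mem_closedBall, dist_eq_norm]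
      rw [mem_ball, dist_eq_norm] at hx
      calc _ ≤ 3 / 2 * ‖x - x0‖ * t := h1
        _ ≤ 3 / 2 * r * 1 := by gcongr <;> [exact ht.1; exact ht.2]
        _ = 3 / 2 * r := mul_one _
  choose! Γ hΓ using hex
  have hI1 : (1 : ℝ) ∈ Icc (0 : ℝ) 1 := ⟨zero_le_one, le_rfl⟩
  have hcont : ContinuousOn (fun x => Γ x 1) (ball x0 r) := by
    have hp : IsLocalHomeomorph (fun w : U => ψ w) := by
      rw [isLocalHomeomorph_iff_isLocalHomeomorphOn_univ]
      exact hψ.comp hU.isOpenEmbedding_subtypeVal.isLocalHomeomorph.isLocalHomeomorphOn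
        (fun w _ => w.2)
    let F : C(unitInterval × ball x0 r, X) :=
      ⟨fun ta => f (x0 + (((ta.1 : ℝ)) : ℂ) • ((ta.2 : E) - x0)),
        hf.comp_continuous (by fun_prop) fun ta => hseg _ ta.2.2 _ ta.1.2⟩
    let g : unitInterval × ball x0 r → U := fun ta =>
      ⟨Γ ta.2 ta.1, ((hΓ _ ta.2.2).2.2 _ ta.1.2).1⟩
    have hg : Continuous g := by
      refine hp.continuous_lift (T2Space.isSeparatedMap _) F
        (funext fun ta => ((hΓ _ ta.2.2).2.2 _ ta.1.2).2) ?_ fun a => ?_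
      · have : (fun a : ball x0 r => g ⟨0, a⟩) = fun _ => ⟨y0, hy0⟩ := by
          funext a; exact Subtype.ext (hΓ _ a.2).2.1
        rw [this]; exact continuous_const
      · refine Continuous.subtype_mk ?_ _
        exact (hΓ _ a.2).1.comp_continuous continuous_subtype_val fun t => t.2
    rw [continuousOn_iff_continuous_domRestrict]
    exact continuous_subtype_val.comp (hg.comp (Continuous.prodMk_right (1 : unitInterval)))
  refine ⟨fun x => Γ x 1, hcont, ?_, fun x hx => ⟨((hΓ x hx).2.2 1 hI1).1, ?_⟩⟩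
  · have h1 := seg_bound hη hψ hW hf hG (hseg x0 (mem_ball_self hr)) hI1 (hΓ x0 (mem_ball_self hr))
    rw [sub_self, norm_zero, mul_zero, zero_mul] at h1
    exact sub_eq_zero.1 (norm_le_zero_iff.1 h1)
  · simpa using ((hΓ x hx).2.2 1 hI1).2

theorem lift_ext {η μ : ℝ} (hη : η ≤ 1) (hμ : 0 < μ) {ψ f : E → X} {U W C : Set E}
    (hU : IsOpen U) (hψ : IsLocalHomeomorphOn ψ U) (hW : IsOpen W) (hf : ContinuousOn f W)
    (hG : LG η f W ψ U) (hC : Convex ℝ C) {γ : E → E} (hγ : ContinuousOn γ C)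
    (hl : ∀ x ∈ C, ψ (γ x) = f x) (hCW : ∀ x ∈ C, ball x μ ⊆ W)
    (hCU : ∀ x ∈ C, closedBall (γ x) (3 / 2 * μ) ⊆ U) :
    ∃ γ' : E → E, ContinuousOn γ' (thickening μ C) ∧ EqOn γ' γ C ∧
      ∀ z ∈ thickening μ C, γ' z ∈ U ∧ ψ (γ' z) = f z := by
  have hγU : ∀ x ∈ C, γ x ∈ U := fun x hx => hCU x hx (mem_closedBall_self (by positivity))
  have h1 : ∀ x ∈ C, ∃ Φ : E → E, ContinuousOn Φ (ball x μ) ∧ Φ x = γ x ∧
      ∀ z ∈ ball x μ, Φ z ∈ U ∧ ψ (Φ z) = f z := fun x hx =>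
    lift_ball hη hU hψ hW hf hG hμ (hCW x hx) (hCU x hx) (hl x hx)
  choose! Φ hΦc hΦ0 hΦl using h1
  have hA : ∀ x ∈ C, EqOn (Φ x) γ (ball x μ ∩ C) := fun x hx =>
    lift_unique hU hψ ((convex_ball x μ).inter hC).isPreconnected
      ((hΦc x hx).mono inter_subset_left) (hγ.mono inter_subset_right)
      (fun z hz => (hΦl x hx z hz.1).1) (fun z hz => hγU z hz.2)
      (fun z hz => by rw [(hΦl x hx z hz.1).2, hl z hz.2]) ⟨mem_ball_self hμ, hx⟩ (hΦ0 x hx)
  have hB : ∀ x ∈ C, ∀ x' ∈ C, EqOn (Φ x) (Φ x') (ball x μ ∩ ball x' μ) := by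
    intro x hx x' hx' z hz
    have hd : dist x x' < 2 * μ := by
      have := dist_triangle_left x x' z
      have h2 := mem_ball.1 hz.1
      have h3 := mem_ball.1 hz.2
      linarith
    have hmC : midpoint ℝ x x' ∈ C := hC.midpoint_mem hx hx'
    have hm1 : midpoint ℝ x x' ∈ ball x μ := by
      rw [mem_ball, dist_midpoint_left]; norm_num; linarith
    have hm2 : midpoint ℝ x x' ∈ ball x' μ := by
      rw [mem_ball, dist_midpoint_right]; norm_num; linarith
    exact lift_unique hU hψ ((convex_ball x μ).inter (convex_ball x' μ)).isPreconnected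
      ((hΦc x hx).mono inter_subset_left) ((hΦc x' hx').mono inter_subset_right)
      (fun z hz => (hΦl x hx z hz.1).1) (fun z hz => (hΦl x' hx' z hz.2).1)
      (fun z hz => by rw [(hΦl x hx z hz.1).2, (hΦl x' hx' z hz.2).2]) ⟨hm1, hm2⟩
      ((hA x hx ⟨hm1, hmC⟩).trans (hA x' hx' ⟨hm2, hmC⟩).symm) hz
  have h2 : ∀ z ∈ thickening μ C, ∃ x ∈ C, z ∈ ball x μ := fun z hz => by
    obtain ⟨x, hx, hd⟩ := mem_thickening_iff.1 hz
    exact ⟨x, hx, hd⟩
  choose! c hcC hcb using h2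
  have h3 : ∀ x ∈ C, ∀ z ∈ ball x μ, Φ (c z) z = Φ x z := fun x hx z hz => by
    have hz' : z ∈ thickening μ C := mem_thickening_iff.2 ⟨x, hx, hz⟩
    exact hB _ (hcC z hz') x hx ⟨hcb z hz', hz⟩
  refine ⟨fun z => Φ (c z) z, fun z hz => ?_, fun x hx => ?_, fun z hz => ?_⟩
  · have h4 : ContinuousAt (Φ (c z)) z :=
      (hΦc _ (hcC z hz)).continuousAt (isOpen_ball.mem_nhds (hcb z hz))
    refine (h4.congr ?_).continuousWithinAt
    filter_upwards [isOpen_ball.mem_nhds (hcb z hz)] with w hw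
    exact (h3 _ (hcC z hz) w hw).symm
  · exact (h3 x hx x (mem_ball_self hμ)).trans (hΦ0 x hx)
  · exact hΦl _ (hcC z hz) z (hcb z hz)

/-- a continuous lift on an open set is holomorphic and almost isometric -/
theorem LG.of_lift {η : ℝ} {ψ f : E → X} {U W T : Set E} (hG : LG η f W ψ U) (hT : IsOpen T)
    (hTW : T ⊆ W) {γ : E → E} (hγ : ContinuousOn γ T) (hl : ∀ z ∈ T, γ z ∈ U ∧ ψ (γ z) = f z) :
    DifferentiableOn ℂ γ T ∧ NI η γ T := by
  have h : ∀ z ∈ T, DifferentiableAt ℂ γ z ∧ NIL η (fderiv ℂ γ z) := fun z hz =>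
    hG z (hTW hz) γ (hγ.continuousAt (hT.mem_nhds hz)) (hl z hz).1
      (by filter_upwards [hT.mem_nhds hz] with c hc using (hl c hc).2)
  exact ⟨fun z hz => (h z hz).1.differentiableWithinAt, fun z hz => (h z hz).2⟩

/-- estimates for a lift on the thickening of a convex set -/
theorem lift_est {η δ L a : ℝ} (hη : 0 < η) (hδ : 0 < δ) {ψ f : E → X} {U W V : Set E}
    (hG : LG η f W ψ U) (hV : Convex ℝ V) {x0 y0 : E} (h0 : x0 ∈ V)
    (hL : ∀ x ∈ V, ‖x - x0‖ ≤ L) (hVW : ∀ x ∈ V, ball x δ ⊆ W)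
    (ha : ∀ Φ : E → E, ContinuousAt Φ x0 → Φ x0 = y0 → (∀ᶠ c in 𝓝 x0, ψ (Φ c) = f c) →
      ‖fderiv ℂ Φ x0 - 1‖ ≤ a)
    {γ : E → E} (hγ : ContinuousOn γ (thickening (δ / 4) V)) (hγ0 : γ x0 = y0)
    (hl : ∀ z ∈ thickening (δ / 4) V, γ z ∈ U ∧ ψ (γ z) = f z) :
    DifferentiableOn ℂ γ (thickening (δ / 4) V) ∧ NI η γ (thickening (δ / 4) V) ∧
      ∀ z ∈ thickening (δ / 8) V, ‖fderiv ℂ γ z - 1‖ ≤ a + √(6 * η) / (δ / 16) * (L + δ) ∧
        ‖γ z - (y0 + (z - x0))‖ ≤ (a + √(6 * η) / (δ / 16) * (L + δ)) * (L + δ) := by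
  have hTW : thickening (δ / 4) V ⊆ W := fun z hz => by
    obtain ⟨x, hx, hd⟩ := mem_thickening_iff.1 hz
    exact hVW x hx (mem_ball.2 (by linarith))
  obtain ⟨h1, h2⟩ := hG.of_lift isOpen_thickening hTW hγ hl
  have hx0 : thickening (δ / 4) V ∈ 𝓝 x0 :=
    isOpen_thickening.mem_nhds (self_subset_thickening (by positivity) V h0)
  have h3 := ha γ (hγ.continuousAt hx0) hγ0 (by filter_upwards [hx0] with c hc using (hl c hc).2)
  refine ⟨h1, h2, ?_⟩
  have h4 := rig_affine (μ := δ / 8) (L := L + δ) hη (by positivity) (hV.thickening (δ / 8))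
    isOpen_thickening (W := thickening (δ / 4) V) (fun z hz w hw => by
      obtain ⟨x, hx, hd⟩ := mem_thickening_iff.1 hz
      refine mem_thickening_iff.2 ⟨x, hx, ?_⟩
      have := dist_triangle w z x
      have := mem_ball.1 hw
      linarith) h1 h2 (self_subset_thickening (by positivity) V h0) (fun z hz => by
      obtain ⟨x, hx, hd⟩ := mem_thickening_iff.1 hz
      have h5 := hL x hx
      rw [dist_eq_norm] at hd
      calc ‖z - x0‖ = ‖(z - x) + (x - x0)‖ := by congr 1; abel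
        _ ≤ ‖z - x‖ + ‖x - x0‖ := norm_add_le _ _
        _ ≤ L + δ := by linarith) h3
  have h6 : δ / 8 / 2 = δ / 16 := by ring
  rw [h6, hγ0] at h4
  exact h4

/-- **confined lifting**: if `V` (convex, size `L`) has margin `δ` in `W` and its translate has
margin `δ` in `U`, a lift exists on a neighbourhood of `V` and is close to the translation -/
theorem lift_confined {η δ L a : ℝ} (hη : 0 < η) (hη1 : η ≤ 1) (hδ : 0 < δ) {ψ f : E → X}
    {U W V : Set E} (hU : IsOpen U) (hψ : IsLocalHomeomorphOn ψ U) (hW : IsOpen W)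
    (hf : ContinuousOn f W) (hG : LG η f W ψ U) (hV : Convex ℝ V) {x0 y0 : E} (h0 : x0 ∈ V)
    (hL : ∀ x ∈ V, ‖x - x0‖ ≤ L) (hVW : ∀ x ∈ V, ball x δ ⊆ W)
    (hVU : ∀ x ∈ V, ball (y0 + (x - x0)) δ ⊆ U) (he : ψ y0 = f x0)
    (ha : ∀ Φ : E → E, ContinuousAt Φ x0 → Φ x0 = y0 → (∀ᶠ c in 𝓝 x0, ψ (Φ c) = f c) →
      ‖fderiv ℂ Φ x0 - 1‖ ≤ a)
    (hs : (a + √(6 * η) / (δ / 16) * (L + δ)) * (L + δ) ≤ δ / 4) :
    ∃ γ : E → E, DifferentiableOn ℂ γ (thickening (δ / 4) V) ∧ γ x0 = y0 ∧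
      (∀ z ∈ thickening (δ / 4) V, γ z ∈ U ∧ ψ (γ z) = f z) ∧ NI η γ (thickening (δ / 4) V) ∧
      ∀ z ∈ thickening (δ / 8) V, ‖fderiv ℂ γ z - 1‖ ≤ a + √(6 * η) / (δ / 16) * (L + δ) ∧
        ‖γ z - (y0 + (z - x0))‖ ≤ (a + √(6 * η) / (δ / 16) * (L + δ)) * (L + δ) := by
  have key : ∀ k : ℕ, ∃ γ : E → E,
      ContinuousOn γ (thickening (δ / 4) (V ∩ closedBall x0 (k * (δ / 16)))) ∧ γ x0 = y0 ∧
      ∀ z ∈ thickening (δ / 4) (V ∩ closedBall x0 (k * (δ / 16))), γ z ∈ U ∧ ψ (γ z) = f z := by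
    intro k
    induction k with
    | zero =>
      obtain ⟨Φ, h1, h2, h3⟩ := lift_ball (r := δ / 4) hη1 hU hψ hW hf hG (by positivity)
        ((ball_subset_ball (by linarith)).trans (hVW x0 h0))
        ((closedBall_subset_ball (show 3 / 2 * (δ / 4) < δ by linarith)).trans
          (by simpa using hVU x0 h0)) he
      have h4 : thickening (δ / 4) (V ∩ closedBall x0 (((0 : ℕ) : ℝ) * (δ / 16))) ⊆
          ball x0 (δ / 4) := fun z hz => by
        obtain ⟨x, hx, hd⟩ := mem_thickening_iff.1 hz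
        have h5 : x = x0 := by simpa using hx.2
        rw [h5] at hd; exact hd
      exact ⟨Φ, h1.mono h4, h2, fun z hz => h3 z (h4 hz)⟩
    | succ k ih =>
      obtain ⟨γ, h1, h2, h3⟩ := ih
      set V' := V ∩ closedBall x0 (k * (δ / 16)) with hV'
      have hk : (0 : ℝ) ≤ k * (δ / 16) := by positivity
      have hc : Convex ℝ V' := hV.inter (convex_closedBall _ _)
      have h0' : x0 ∈ V' := ⟨h0, mem_closedBall_self hk⟩
      obtain ⟨-, -, h4⟩ := lift_est hη hδ hG hc h0' (fun x hx => hL x hx.1)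
        (fun x hx => hVW x hx.1) ha h1 h2 h3
      have hsub : thickening (δ / 8) V' ⊆ thickening (δ / 4) V' :=
        thickening_mono (by linarith) V'
      obtain ⟨γ', h5, h6, h7⟩ := lift_ext (μ := δ / 4) hη1 (by positivity) hU hψ hW hf hG
        (hc.thickening (δ / 8)) (h1.mono hsub) (fun x hx => (h3 x (hsub hx)).2)
        (fun z hz w hw => by
          obtain ⟨x, hx, hd⟩ := mem_thickening_iff.1 hz
          refine hVW x hx.1 (mem_ball.2 ?_)
          have := dist_triangle w z x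
          have := mem_ball.1 hw
          linarith)
        (fun z hz w hw => by
          obtain ⟨x, hx, hd⟩ := mem_thickening_iff.1 hz
          refine hVU x hx.1 (mem_ball.2 ?_)
          have h8 := (h4 z hz).2.trans hs
          have h9 := mem_closedBall.1 hw
          rw [dist_eq_norm] at hd h9 ⊢
          calc ‖w - (y0 + (x - x0))‖
              = ‖(w - γ z) + (γ z - (y0 + (z - x0))) + (z - x)‖ := by congr 1; abel
            _ ≤ ‖w - γ z‖ + ‖γ z - (y0 + (z - x0))‖ + ‖z - x‖ := norm_add₃_le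
            _ < δ := by linarith)
      have h10 : V ∩ closedBall x0 (((k + 1 : ℕ) : ℝ) * (δ / 16)) ⊆ thickening (δ / 8) V' := by
        intro z hz
        by_cases hzk : ‖z - x0‖ ≤ k * (δ / 16)
        · exact self_subset_thickening (by positivity) V'
            ⟨hz.1, by rwa [mem_closedBall, dist_eq_norm]⟩
        push Not at hzk
        have hp : 0 < ‖z - x0‖ := hk.trans_lt hzk
        have hz2 : ‖z - x0‖ ≤ (k + 1) * (δ / 16) := by
          have := hz.2; rw [mem_closedBall, dist_eq_norm] at this; simpa using this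
        set s : ℝ := k * (δ / 16) / ‖z - x0‖ with hs'
        have hs0 : 0 ≤ s := by positivity
        have hs1 : s ≤ 1 := by rw [hs', div_le_one hp]; exact hzk.le
        have hsn : s * ‖z - x0‖ = k * (δ / 16) := by rw [hs']; field_simp
        refine mem_thickening_iff.2 ⟨x0 + s • (z - x0), ⟨hV.add_smul_sub_mem h0 hz.1 ⟨hs0, hs1⟩, ?_⟩,
          ?_⟩
        · rw [mem_closedBall, dist_eq_norm, add_sub_cancel_left, norm_smul,
            Real.norm_of_nonneg hs0, hsn]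
        · have h11 : z - (x0 + s • (z - x0)) = (1 - s) • (z - x0) := by
            rw [sub_smul, one_smul]; abel
          rw [dist_eq_norm, h11, norm_smul, Real.norm_of_nonneg (by linarith), sub_mul, one_mul,
            hsn]
          linarith
      have h12 := thickening_subset_of_subset (δ / 4) h10
      refine ⟨γ', h5.mono h12, ?_, fun z hz => h7 z (h12 hz)⟩
      rw [h6 (self_subset_thickening (by positivity) V' h0'), h2]
  obtain ⟨k, hk⟩ := exists_nat_ge (L / (δ / 16))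
  obtain ⟨γ, h1, h2, h3⟩ := key k
  have hVk : V ∩ closedBall x0 (k * (δ / 16)) = V := by
    refine inter_eq_left.2 fun x hx => ?_
    rw [mem_closedBall, dist_eq_norm]
    rw [div_le_iff₀ (by positivity)] at hk
    exact (hL x hx).trans hk
  rw [hVk] at h1 h3
  obtain ⟨h4, h5, h6⟩ := lift_est hη hδ hG hV h0 hL hVW ha h1 h2 h3
  exact ⟨γ, h4, h2, h3, h5, h6⟩

/-- the smallness condition of `lift_confined` can be met -/
theorem exists_small {δ L ε : ℝ} (hδ : 0 < δ) (hL : 0 ≤ L) (hε : 0 < ε) :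
    ∃ η0 > 0, η0 ≤ 1 ∧ ∀ η a, η ≤ η0 → a ≤ η0 →
      a + √(6 * η) / (δ / 16) * (L + δ) ≤ ε ∧
      (a + √(6 * η) / (δ / 16) * (L + δ)) * (L + δ) ≤ ε ∧
      (a + √(6 * η) / (δ / 16) * (L + δ)) * (L + δ) ≤ δ / 4 := by
  have hc : Continuous fun t : ℝ => t + √(6 * t) / (δ / 16) * (L + δ) := by fun_prop
  set b := min ε (min (ε / (L + δ)) (δ / 4 / (L + δ))) with hb
  have hLd : 0 < L + δ := by linarith
  have hb0 : 0 < b := by positivity
  have h1 : ∀ᶠ t in 𝓝 (0 : ℝ), t + √(6 * t) / (δ / 16) * (L + δ) < b :=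
    hc.continuousAt.eventually_lt continuousAt_const (by simpa using hb0)
  obtain ⟨r, hr, hr'⟩ := Metric.eventually_nhds_iff.1 h1
  refine ⟨min (r / 2) 1, by positivity, min_le_right _ _, fun η a h2 h3 => ?_⟩
  have h4 := hr' (y := min (r / 2) 1) (by
    rw [dist_zero_right, Real.norm_of_nonneg (by positivity)]
    exact (min_le_left _ _).trans_lt (by linarith))
  have h5 : a + √(6 * η) / (δ / 16) * (L + δ) ≤ b := by
    refine le_trans ?_ h4.le
    gcongr
  refine ⟨h5.trans (min_le_left _ _), ?_, ?_⟩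
  · rw [← le_div_iff₀ hLd]; exact h5.trans ((min_le_right _ _).trans (min_le_left _ _))
  · rw [← le_div_iff₀ hLd]; exact h5.trans ((min_le_right _ _).trans (min_le_right _ _))

end

end Crest.Agent.T223.Qc35
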