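import Crest.Agent.T223.QcIf_47
import Crest.Agent.T223.QcLift_35

/-!
# Row 223, module QC (helper35): the leaf LIFT for the abstract interface
-/

set_option autoImplicit false
set_option linter.unusedSectionVars false
set_option linter.unusedVariables false

open Set Filter Topology Metric

namespace Crest.Agent.T223.Qc35

open Crest.Agent.T223.Qc47
open Crest.Agent.T223.Tr (PL path_lift lift_unique)

noncomputable section

section gen

variable {E : Type*} [NormedAddCommGroup E] [InnerProductSpace ℂ E] [FiniteDimensional ℂ E]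
variable {X : Type*} [TopologicalSpace X] [T2Space X]

/-- lift on a small convex set -/
theorem lift_conv {η : ℝ} (hη : η ≤ 1) {ψ f : E → X} {U W D : Set E} (hU : IsOpen U)
    (hψ : IsLocalHomeomorphOn ψ U) (hW : IsOpen W) (hf : ContinuousOn f W) (hG : LG η f W ψ U)
    (hD : Convex ℝ D) (hDW : D ⊆ W) {x0 y0 : E} {r : ℝ} (hx0 : x0 ∈ D) (hDr : D ⊆ ball x0 r)
    (hKU : closedBall y0 (3 / 2 * r) ⊆ U) (h0 : ψ y0 = f x0) :
    ∃ Φ : E → E, ContinuousOn Φ D ∧ Φ x0 = y0 ∧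
      ∀ x ∈ D, Φ x ∈ U ∧ ψ (Φ x) = f x ∧ ‖Φ x - y0‖ ≤ 3 / 2 * ‖x - x0‖ := by
  have : ProperSpace E := FiniteDimensional.proper ℂ E
  have hr : 0 < r := pos_of_mem_ball (hDr hx0)
  have hseg : ∀ x ∈ D, ∀ s ∈ Icc (0 : ℝ) 1, x0 + (s : ℂ) • (x - x0) ∈ W := by
    intro x hx s hs
    apply hDW
    have := hD.add_smul_sub_mem hx0 hx hs
    rwa [← Complex.coe_smul] at this
  have hy0 : y0 ∈ U := hKU (mem_closedBall_self (by positivity))
  have hex : ∀ x ∈ D, ∃ Γ, PL ψ U (fun s => f (x0 + (s : ℂ) • (x - x0))) y0 1 Γ := by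
    intro x hx
    refine path_lift hU hψ (isCompact_closedBall y0 (3 / 2 * r)) hKU ?_ hy0
      (by simpa using h0) fun t ht Γ hΓ => ?_
    · exact hf.comp (by fun_prop) (hseg x hx)
    · have h1 := seg_bound hη hψ hW hf hG (hseg x hx) ht hΓ
      rw [mem_closedBall, dist_eq_norm]
      have hx' := hDr hx
      rw [mem_ball, dist_eq_norm] at hx'
      calc _ ≤ 3 / 2 * ‖x - x0‖ * t := h1
        _ ≤ 3 / 2 * r * 1 := by gcongr <;> [exact ht.1; exact ht.2]
        _ = 3 / 2 * r := mul_one _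
  choose! Γ hΓ using hex
  have hI1 : (1 : ℝ) ∈ Icc (0 : ℝ) 1 := ⟨zero_le_one, le_rfl⟩
  have hcont : ContinuousOn (fun x => Γ x 1) D := by
    have hp : IsLocalHomeomorph (fun w : U => ψ w) := by
      rw [isLocalHomeomorph_iff_isLocalHomeomorphOn_univ]
      exact hψ.comp hU.isOpenEmbedding_subtypeVal.isLocalHomeomorph.isLocalHomeomorphOn
        (fun w _ => w.2)
    let F : C(unitInterval × D, X) :=
      ⟨fun ta => f (x0 + (((ta.1 : ℝ)) : ℂ) • ((ta.2 : E) - x0)),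
        hf.comp_continuous (by fun_prop) fun ta => hseg _ ta.2.2 _ ta.1.2⟩
    let g : unitInterval × D → U := fun ta =>
      ⟨Γ ta.2 ta.1, ((hΓ _ ta.2.2).2.2 _ ta.1.2).1⟩
    have hg : Continuous g := by
      refine hp.continuous_lift (T2Space.isSeparatedMap _) F
        (funext fun ta => ((hΓ _ ta.2.2).2.2 _ ta.1.2).2) ?_ fun a => ?_
      · have : (fun a : D => g ⟨0, a⟩) = fun _ => ⟨y0, hy0⟩ := by
          funext a; exact Subtype.ext (hΓ _ a.2).2.1
        rw [this]; exact continuous_const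
      · refine Continuous.subtype_mk ?_ _
        exact (hΓ _ a.2).1.comp_continuous continuous_subtype_val fun t => t.2
    rw [continuousOn_iff_continuous_domRestrict]
    exact continuous_subtype_val.comp (hg.comp (Continuous.prodMk_right (1 : unitInterval)))
  have hb : ∀ x ∈ D, ‖Γ x 1 - y0‖ ≤ 3 / 2 * ‖x - x0‖ := fun x hx => by
    simpa using seg_bound hη hψ hW hf hG (hseg x hx) hI1 (hΓ x hx)
  refine ⟨fun x => Γ x 1, hcont, ?_, fun x hx => ⟨((hΓ x hx).2.2 1 hI1).1, ?_, hb x hx⟩⟩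
  · have h1 := hb x0 hx0
    rw [sub_self, norm_zero, mul_zero] at h1
    exact sub_eq_zero.1 (norm_le_zero_iff.1 h1)
  · simpa using ((hΓ x hx).2.2 1 hI1).2

/-- extension of a lift inside a convex open set -/
theorem lift_ext' {η μ : ℝ} (hη : η ≤ 1) (hμ : 0 < μ) {ψ f : E → X} {U W C : Set E}
    (hU : IsOpen U) (hψ : IsLocalHomeomorphOn ψ U) (hW : IsOpen W) (hWc : Convex ℝ W)
    (hf : ContinuousOn f W) (hG : LG η f W ψ U) (hC : Convex ℝ C) (hCW : C ⊆ W) {γ : E → E}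
    (hγ : ContinuousOn γ C) (hl : ∀ x ∈ C, ψ (γ x) = f x)
    (hCU : ∀ x ∈ C, closedBall (γ x) (3 / 2 * μ) ⊆ U) :
    ∃ γ' : E → E, ContinuousOn γ' (W ∩ thickening μ C) ∧
      (∀ z ∈ W ∩ thickening μ C, γ' z ∈ U ∧ ψ (γ' z) = f z) ∧
      ∀ x ∈ C, ∀ z ∈ W, z ∈ ball x μ → ‖γ' z - γ x‖ ≤ 3 / 2 * ‖z - x‖ := by
  have hγU : ∀ x ∈ C, γ x ∈ U := fun x hx => hCU x hx (mem_closedBall_self (by positivity))
  have hcv : ∀ x, Convex ℝ (W ∩ ball x μ) := fun x => hWc.inter (convex_ball x μ)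
  have h1 : ∀ x ∈ C, ∃ Φ : E → E, ContinuousOn Φ (W ∩ ball x μ) ∧ Φ x = γ x ∧
      ∀ z ∈ W ∩ ball x μ, Φ z ∈ U ∧ ψ (Φ z) = f z ∧ ‖Φ z - γ x‖ ≤ 3 / 2 * ‖z - x‖ := fun x hx =>
    lift_conv hη hU hψ hW hf hG (hcv x) inter_subset_left ⟨hCW hx, mem_ball_self hμ⟩
      inter_subset_right (hCU x hx) (hl x hx)
  choose! Φ hΦc hΦ0 hΦl using h1
  have hA : ∀ x ∈ C, EqOn (Φ x) γ ((W ∩ ball x μ) ∩ C) := fun x hx =>
    lift_unique hU hψ ((hcv x).inter hC).isPreconnected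
      ((hΦc x hx).mono inter_subset_left) (hγ.mono inter_subset_right)
      (fun z hz => (hΦl x hx z hz.1).1) (fun z hz => hγU z hz.2)
      (fun z hz => by rw [(hΦl x hx z hz.1).2.1, hl z hz.2])
      ⟨⟨hCW hx, mem_ball_self hμ⟩, hx⟩ (hΦ0 x hx)
  have hB : ∀ x ∈ C, ∀ x' ∈ C, EqOn (Φ x) (Φ x') ((W ∩ ball x μ) ∩ (W ∩ ball x' μ)) := by
    intro x hx x' hx' z hz
    have hd : dist x x' < 2 * μ := by
      have := dist_triangle_left x x' z
      have h2 := mem_ball.1 hz.1.2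
      have h3 := mem_ball.1 hz.2.2
      linarith
    have hmC : midpoint ℝ x x' ∈ C := hC.midpoint_mem hx hx'
    have hm1 : midpoint ℝ x x' ∈ W ∩ ball x μ := by
      refine ⟨hCW hmC, ?_⟩
      rw [mem_ball, dist_midpoint_left]; norm_num; linarith
    have hm2 : midpoint ℝ x x' ∈ W ∩ ball x' μ := by
      refine ⟨hCW hmC, ?_⟩
      rw [mem_ball, dist_midpoint_right]; norm_num; linarith
    exact lift_unique hU hψ ((hcv x).inter (hcv x')).isPreconnected
      ((hΦc x hx).mono inter_subset_left) ((hΦc x' hx').mono inter_subset_right)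
      (fun z hz => (hΦl x hx z hz.1).1) (fun z hz => (hΦl x' hx' z hz.2).1)
      (fun z hz => by rw [(hΦl x hx z hz.1).2.1, (hΦl x' hx' z hz.2).2.1]) ⟨hm1, hm2⟩
      ((hA x hx ⟨hm1, hmC⟩).trans (hA x' hx' ⟨hm2, hmC⟩).symm) hz
  have h2 : ∀ z ∈ thickening μ C, ∃ x ∈ C, z ∈ ball x μ := fun z hz => by
    obtain ⟨x, hx, hd⟩ := mem_thickening_iff.1 hz
    exact ⟨x, hx, hd⟩
  choose! c hcC hcb using h2
  have h3 : ∀ x ∈ C, ∀ z ∈ W ∩ ball x μ, Φ (c z) z = Φ x z := fun x hx z hz => by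
    have hz' : z ∈ thickening μ C := mem_thickening_iff.2 ⟨x, hx, hz.2⟩
    exact hB _ (hcC z hz') x hx ⟨⟨hz.1, hcb z hz'⟩, hz⟩
  refine ⟨fun z => Φ (c z) z, fun z hz => ?_, fun z hz => ?_, fun x hx z hz hzx => ?_⟩
  · have ho : W ∩ ball (c z) μ ∈ 𝓝 z := (hW.inter isOpen_ball).mem_nhds ⟨hz.1, hcb z hz.2⟩
    have h4 : ContinuousAt (Φ (c z)) z := (hΦc _ (hcC z hz.2)).continuousAt ho
    refine (h4.congr ?_).continuousWithinAt
    filter_upwards [ho] with w hw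
    exact (h3 _ (hcC z hz.2) w hw).symm
  · have := hΦl _ (hcC z hz.2) z ⟨hz.1, hcb z hz.2⟩
    exact ⟨this.1, this.2.1⟩
  · show ‖Φ (c z) z - γ x‖ ≤ _
    rw [h3 x hx z ⟨hz, hzx⟩]
    exact (hΦl x hx z ⟨hz, hzx⟩).2.2

end gen

variable {E : Type} [NormedAddCommGroup E] [InnerProductSpace ℂ E] {M : Type} [TopologicalSpace M]

/-- `M` with the leaf topology of the pseudogroup -/
def Lf (P : PG E M) : Type := M

/-- the identity into the leaf space -/
def toLf (P : PG E M) (ψ : E → M) : E → Lf P := ψ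

instance (P : PG E M) : TopologicalSpace (Lf P) where
  IsOpen U := ∀ ψ z, P.H ψ z → toLf P ψ z ∈ U → toLf P ψ ⁻¹' U ∈ 𝓝 z
  isOpen_univ := fun ψ z _ _ => by simp
  isOpen_inter := fun s t hs ht ψ z h hz => by
    rw [preimage_inter]; exact inter_mem (hs ψ z h hz.1) (ht ψ z h hz.2)
  isOpen_sUnion := fun S hS ψ z h hz => by
    obtain ⟨s, hs, hzs⟩ := hz
    exact mem_of_superset (hS s hs ψ z h hzs) (preimage_mono (subset_sUnion_of_mem hs))

theorem lf_isOpen {P : PG E M} {U : Set (Lf P)} :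
    IsOpen U ↔ ∀ ψ z, P.H ψ z → toLf P ψ z ∈ U → toLf P ψ ⁻¹' U ∈ 𝓝 z := Iff.rfl

instance (P : PG E M) [T2Space M] : T2Space (Lf P) := by
  refine T2Space.of_injective_continuous (f := fun x : Lf P => (show M from x))
    (fun _ _ h => h) ?_
  refine continuous_def.2 fun s hs => lf_isOpen.2 fun ψ z h hz => ?_
  exact P.cont h (hs.mem_nhds hz)

theorem lf_cont {P : PG E M} {ψ : E → M} {z : E} (h : P.H ψ z) : ContinuousAt (toLf P ψ) z := by
  intro s hs
  obtain ⟨t, hts, ht, hz⟩ := mem_nhds_iff.1 hs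
  exact mem_of_superset (lf_isOpen.1 ht ψ z h hz) (preimage_mono hts)

theorem lf_loc {P : PG E M} {ψ : E → M} {U : Set E} (h : ∀ z ∈ U, P.H ψ z) :
    IsLocalHomeomorphOn (toLf P ψ) U := by
  rw [isLocalHomeomorphOn_iff_isOpenEmbedding_restrict]
  intro x hx
  obtain ⟨s, hs, hinj⟩ := P.inj (h x hx)
  obtain ⟨t, hts, ht, hxt⟩ := _root_.mem_nhds_iff.1 (inter_mem hs (P.ev (h x hx)))
  refine ⟨t, ht.mem_nhds hxt, IsOpenEmbedding.of_continuous_injective_isOpenMap ?_ ?_ ?_⟩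
  · exact continuousOn_iff_continuous_domRestrict.1
      fun z hz => (lf_cont (hts hz).2).continuousWithinAt
  · intro a b hab
    exact Subtype.ext (hinj (hts a.2).1 (hts b.2).1 hab)
  · intro o ho
    refine lf_isOpen.2 fun φ w hφ hw => ?_
    obtain ⟨a, ha, hwa⟩ := hw
    obtain ⟨τ, h1, h2, -, h3⟩ := P.trans hφ (hts a.2).2 hwa.symm
    have ho' : IsOpen ((↑) '' o : Set E) := ht.isOpenMap_subtype_val o ho
    have h4 : ∀ᶠ y in 𝓝 w, τ y ∈ ((↑) '' o : Set E) :=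
      h1.self_of_nhds.continuousAt (ho'.mem_nhds (by rw [h2]; exact ⟨a, ha, rfl⟩))
    filter_upwards [h3, h4] with y hy hy'
    obtain ⟨b, hb, hby⟩ := hy'
    exact ⟨b, hb, by show ψ b = φ y; rw [hby, hy]⟩

/-- a continuous local lift agrees with any other local lift through the same point -/
theorem lift_eventuallyEq {P : PG E M} {φ ψ : E → M} {x : E} {Φ τ : E → E} (hφ : P.H φ (Φ x))
    (h1 : ContinuousAt Φ x) (h2 : ContinuousAt τ x) (h3 : τ x = Φ x)
    (h4 : ∀ᶠ c in 𝓝 x, φ (Φ c) = ψ c) (h5 : ∀ᶠ c in 𝓝 x, φ (τ c) = ψ c) : Φ =ᶠ[𝓝 x] τ := by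
  obtain ⟨s, hs, hinj⟩ := P.inj hφ
  filter_upwards [h4, h5, h1 hs, h2 (by rw [h3]; exact hs)] with c a b c1 c2
  exact hinj c1 c2 (a.trans b.symm)

theorem lg_of_good [FiniteDimensional ℂ E] {P : PG E M} {φ ψ : E → M} {V V' : Set E} {η : ℝ}
    (h0 : 0 ≤ η) (hη : η ≤ 1 / 2) (hψ : P.Good ψ V η) (hφ : P.Good φ V' η) :
    LG (4 * η) (toLf P ψ) V (toLf P φ) V' := by
  intro x hx Φ h1 h2 h3
  obtain ⟨τ, t1, t2, t3, t4⟩ := P.trans (hψ x hx).1 (hφ _ h2).1 h3.self_of_nhds.symm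
  have he := lift_eventuallyEq (hφ _ h2).1 h1 t1.self_of_nhds.continuousAt t2 h3 t4
  refine ⟨t1.self_of_nhds.congr_of_eventuallyEq he, ?_⟩
  rw [he.fderiv_eq]
  have hH : P.H φ (τ x) := by rw [t2]; exact (hφ _ h2).1
  obtain ⟨c1, c2⟩ := P.comp hH t1 t3
  have c3 := (P.congr c1 (ψ' := ψ) (t4.mono fun y hy => hy.symm)).2
  intro v
  have a1 := abs_le.1 ((hψ x hx).2 v)
  have a2 := abs_le.1 ((hφ _ h2).2 (fderiv ℂ τ x v))
  rw [c3, c2, t2] at a1
  have p1 := sq_nonneg ‖v‖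
  have p2 := sq_nonneg ‖fderiv ℂ τ x v‖
  set a := ‖fderiv ℂ τ x v‖ ^ 2
  set b := ‖v‖ ^ 2
  rw [abs_le]
  constructor
  · by_contra hc
    push Not at hc
    nlinarith [a1.1, a2.2, mul_nonneg h0 p1, mul_nonneg h0 (mul_nonneg h0 p1)]
  · have : a ≤ 3 * b := by nlinarith [a1.2, a2.1]
    nlinarith [a1.2, a2.1, mul_nonneg h0 p1]

theorem liftStmt [FiniteDimensional ℂ E] : LiftStmt E := by
  intro s Λ δ hs hδ
  set L := |Λ| + 1 with hL
  have hL0 : 0 < L := by positivity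
  set l := min (1 / 2) (δ / (4 * L)) with hl
  have hl0 : 0 < l := by positivity
  have hl1 : l ≤ 1 / 2 := min_le_left _ _
  have hlL : l * L ≤ δ / 4 := by
    have : l ≤ δ / (4 * L) := min_le_right _ _
    rw [le_div_iff₀ (by positivity)] at this
    linarith
  set d := min (l * s) δ with hd
  have hd0 : 0 < d := by positivity
  obtain ⟨η0, h0, h1, hsm⟩ := exists_small (δ := d) (L := L) (ε := δ / 4) hd0 hL0.le
    (by positivity)
  refine ⟨η0 / 4, by positivity, ?_⟩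
  intro M _ _ P ψ φ V V' z0 τ hVo hVc hsV hVΛ hV' hVV' hψ hφ t1 t2 t3 t4
  have hG := lg_of_good (by positivity) (by linarith) hψ hφ
  have h4 : 4 * (η0 / 4) = η0 := by ring
  rw [h4] at hG
  have hz0 : z0 ∈ V := hsV (mem_ball_self hs)
  have hφl : IsLocalHomeomorphOn (toLf P φ) V' := lf_loc fun z hz => (hφ z hz).1
  have hψc : ContinuousOn (toLf P ψ) V := fun z hz => (lf_cont (hψ z hz).1).continuousWithinAt
  have hVL : ∀ z ∈ V, ‖z - z0‖ < L := fun z hz => by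
    have := hVΛ hz
    rw [mem_ball, dist_eq_norm] at this
    linarith [le_abs_self Λ]
  set C : Set E := (fun z => z0 + (1 - l) • (z - z0)) '' V with hC
  have hCc : Convex ℝ C := by
    rintro _ ⟨x, hx, rfl⟩ _ ⟨y, hy, rfl⟩ a b ha hb hab
    refine ⟨a • x + b • y, hVc hx hy ha hb hab, ?_⟩
    have : z0 = a • z0 + b • z0 := by rw [← add_smul, hab, one_smul]
    simp only
    nth_rewrite 1 [this]
    nth_rewrite 3 [this]
    module
  have hCm : ∀ x ∈ C, ball x (l * s) ⊆ V := by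
    rintro _ ⟨x, hx, rfl⟩ w hw
    rw [mem_ball, dist_eq_norm] at hw
    have h5 : z0 + l⁻¹ • (w - (z0 + (1 - l) • (x - z0))) ∈ V := by
      apply hsV
      rw [mem_ball, dist_eq_norm, add_sub_cancel_left, norm_smul, norm_inv,
        Real.norm_of_nonneg hl0.le, inv_mul_lt_iff₀ hl0]
      exact hw
    have h6 := hVc hx h5 (show 0 ≤ 1 - l by linarith) hl0.le (by ring)
    convert h6 using 1
    rw [smul_add, smul_smul, mul_inv_cancel₀ hl0.ne', one_smul]
    module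
  have hCV : C ⊆ V := fun x hx => hCm x hx (mem_ball_self (by positivity))
  have hz0C : z0 ∈ C := ⟨z0, hz0, by simp⟩
  obtain ⟨b1, b2, b3⟩ := hsm η0 η0 le_rfl le_rfl
  obtain ⟨γ, g1, g2, g3, -, g5⟩ := lift_confined (a := η0) (L := L) (y0 := z0) h0 h1 hd0 hV' hφl
    hVo hψc hG hCc hz0C (fun x hx => (hVL x (hCV hx)).le)
    (fun x hx => (ball_subset_ball (min_le_left _ _)).trans (hCm x hx))
    (fun x hx => by
      rw [add_sub_cancel]
      exact (ball_subset_closedBall.trans (closedBall_subset_closedBall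
        ((min_le_right _ _).trans (by linarith)))).trans (hVV' x (hCV hx)))
    (by have := t4.self_of_nhds; rw [t2] at this; exact this)
    (fun Φ c1 c2 c3 => by
      have hH : P.H φ (Φ z0) := by
        rw [c2]; exact (hφ z0 (hVV' z0 hz0 (mem_closedBall_self (by positivity)))).1
      rw [(lift_eventuallyEq hH c1 t1.self_of_nhds.continuousAt (by rw [t2, c2]) c3 t4).fderiv_eq]
      linarith) b3
  have hC4 : C ⊆ thickening (d / 4) C := self_subset_thickening (by positivity) C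
  have hC8 : C ⊆ thickening (d / 8) C := self_subset_thickening (by positivity) C
  have hγx : ∀ x ∈ C, ‖γ x - x‖ ≤ δ / 4 := fun x hx => by
    have := (g5 x (hC8 hx)).2.trans b2
    rwa [add_sub_cancel] at this
  obtain ⟨γ', e1, e2, e3⟩ := lift_ext' (μ := l * L) h1 (by positivity) hV' hφl hVo hVc hψc hG hCc
    hCV (g1.continuousOn.mono hC4) (fun x hx => (g3 x (hC4 hx)).2)
    (fun x hx w hw => by
      apply hVV' x (hCV hx)
      rw [mem_closedBall, dist_eq_norm] at hw ⊢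
      calc ‖w - x‖ = ‖(w - γ x) + (γ x - x)‖ := by congr 1; abel
        _ ≤ ‖w - γ x‖ + ‖γ x - x‖ := norm_add_le _ _
        _ ≤ 2 * δ := by linarith [hγx x hx])
  have hnear : ∀ z ∈ V, ‖z - (z0 + (1 - l) • (z - z0))‖ < l * L := fun z hz => by
    have : z - (z0 + (1 - l) • (z - z0)) = l • (z - z0) := by module
    rw [this, norm_smul, Real.norm_of_nonneg hl0.le]
    exact mul_lt_mul_of_pos_left (hVL z hz) hl0
  have hVT : V ⊆ V ∩ thickening (l * L) C := fun z hz =>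
    ⟨hz, mem_thickening_iff.2 ⟨_, ⟨z, hz, rfl⟩, by rw [dist_eq_norm]; exact hnear z hz⟩⟩
  refine ⟨γ', (hG.of_lift hVo subset_rfl (e1.mono hVT) fun z hz => e2 z (hVT hz)).1,
    fun z hz => ⟨(e2 z (hVT hz)).2, ?_⟩⟩
  set x := z0 + (1 - l) • (z - z0) with hx
  have hxC : x ∈ C := ⟨z, hz, rfl⟩
  have h7 := hnear z hz
  have h8 := e3 x hxC z hz (by rw [mem_ball, dist_eq_norm]; exact h7)
  calc ‖γ' z - z‖ = ‖(γ' z - γ x) + (γ x - x) - (z - x)‖ := by congr 1; abel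
    _ ≤ ‖(γ' z - γ x) + (γ x - x)‖ + ‖z - x‖ := norm_sub_le _ _
    _ ≤ ‖γ' z - γ x‖ + ‖γ x - x‖ + ‖z - x‖ := by gcongr; exact norm_add_le _ _
    _ ≤ δ := by linarith [hγx x hxC]

end

end Crest.Agent.T223.Qc35
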