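import Crest.Agent.T223.Fr_38

/-!
# Row 223, module QC (helper35): the doubling statement
-/

set_option autoImplicit false

open Set

namespace Crest.Agent.T223.Qc35

open Crest.Agent.R275.Geo

/-- one doubling step: `1/2`-flat quasi-charts of radius `r` and small curvature give `ε`-flat
quasi-charts of radius `2 r` a little deeper -/
def DblStmt (n : ℕ) : Prop :=
  ∀ ε : ℝ, 0 < ε → ∃ ε0 N : ℝ, 0 < ε0 ∧ 0 < N ∧
    ∀ (M : Type) [TopologicalSpace M] [T2Space M] (A : Atl n M) (G : MF A) (U : Set M)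
      (ρ : M → ℝ) (c r σ σ' : ℝ), IsOpen U → KahOn G U → 0 < c → 0 < r → LipOn G U c ρ →
      (∀ i, ∀ y ∈ (A.e i).source, y ∈ U → ρ y ≤ σ →
        BKge (G i) (A.e i y) (ε0 / r ^ 2) ∧ BKle (G i) (A.e i y) (ε0 / r ^ 2)) →
      (∀ y ∈ U, ρ y ≤ σ' → ∃ ψ : Cn n → M, QC G {y | y ∈ U ∧ ρ y ≤ σ} y r (1 / 2) ψ) →
      ∀ x ∈ U, ρ x ≤ σ' - N * c * r →
        ∃ ψ : Cn n → M, QC G {y | y ∈ U ∧ ρ y ≤ σ} x (2 * r) ε ψ

end Crest.Agent.T223.Qc35
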