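import Crest.Agent.T223.QcSt_35
import Crest.Agent.T223.QcDbl_35

/-!
# Row 223, module QC (helper35): from one doubling step to `QCStmt`
-/

set_option autoImplicit false
set_option linter.unusedSectionVars false
set_option linter.unusedVariables false

open Set Filter Topology Metric
open scoped ComplexOrder

namespace Crest.Agent.T223.Qc35

open Crest.Agent.R275.Geo Crest.Agent.T223.Tr Crest.Agent.T223.Br

theorem bk_mono {n : ℕ} {g : Cn n → Mat n} {z : Cn n} (hg : (g z).PosDef) {a b : ℝ} (hab : a ≤ b)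
    (h : BKge g z a ∧ BKle g z a) : BKge g z b ∧ BKle g z b := by
  have h0 : ∀ v w, a * nq (g z) v * nq (g z) w ≤ b * nq (g z) v * nq (g z) w := fun v w => by
    have := nq_nonneg hg.posSemidef v
    have := nq_nonneg hg.posSemidef w
    gcongr
  exact ⟨fun v w => le_trans (neg_le_neg (h0 v w)) (h.1 v w), fun v w => (h.2 v w).trans (h0 v w)⟩

theorem qcStmt_of_dbl {n : ℕ} (hD : DblStmt n) : QCStmt n := by
  intro ε hε
  obtain ⟨ε0, N, hε0, hN, H⟩ := hD (min ε (1 / 2)) (by positivity)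
  refine ⟨ε0, 3 + N, hε0, by positivity, ?_⟩
  intro M _ _ A G U ρ c r σ hU hG hc hr hρ hK hB x hx hxσ
  obtain ⟨r0, hr0, hst⟩ := qc_start hU hG hρ hc hK
  have step : ∀ s : ℝ, 0 < s → s ≤ r →
      (∀ y ∈ U, ρ y ≤ σ - (3 + N) * c * s →
        ∃ ψ : Cn n → M, QC G {y | y ∈ U ∧ ρ y ≤ σ} y s (1 / 2) ψ) →
      ∀ y ∈ U, ρ y ≤ σ - (3 + N) * c * (2 * s) →
        ∃ ψ : Cn n → M, QC G {y | y ∈ U ∧ ρ y ≤ σ} y (2 * s) (min ε (1 / 2)) ψ := by
    intro s hs hsr h y hy hyσ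
    refine H M A G U ρ c s σ (σ - (3 + N) * c * s) hU hG hc hs hρ (fun i y hi hy hyσ => ?_) h y hy
      (by nlinarith [mul_pos hc hs])
    exact bk_mono (hG.kah i y hi hy).pos.self_of_nhds (by gcongr) (hB i y hi hy hyσ)
  have iter : ∀ t : ℝ, 0 < t → t ≤ r0 → ∀ j : ℕ, 2 ^ j * t ≤ r →
      ∀ y ∈ U, ρ y ≤ σ - (3 + N) * c * (2 ^ j * t) →
        ∃ ψ : Cn n → M, QC G {y | y ∈ U ∧ ρ y ≤ σ} y (2 ^ j * t) (1 / 2) ψ := by
    intro t ht htr j
    induction j with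
    | zero =>
      intro _ y hy hyσ
      rw [pow_zero, one_mul] at hyσ ⊢
      exact hst t ht htr y hy (by nlinarith [mul_pos hN (mul_pos hc ht)])
    | succ j ih =>
      intro hj y hy hyσ
      have e : (2 : ℝ) ^ (j + 1) * t = 2 * (2 ^ j * t) := by ring
      rw [e] at hj hyσ ⊢
      have hp : (0 : ℝ) < 2 ^ j * t := by positivity
      obtain ⟨ψ, hψ⟩ := step _ hp (by linarith) (ih (by linarith)) y hy hyσ
      exact ⟨ψ, QC.mono hψ hψ.maps (min_le_right _ _)⟩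
  obtain ⟨k, hk⟩ := pow_unbounded_of_one_lt (r / r0) (one_lt_two (α := ℝ))
  have hk0 : (0 : ℝ) < 2 ^ k := by positivity
  have e1 : (2 : ℝ) ^ k * (r / 2 / 2 ^ k) = r / 2 := by field_simp
  have h1 := iter (r / 2 / 2 ^ k) (by positivity) (by
    rw [div_lt_iff₀ hr0] at hk
    rw [div_le_iff₀ hk0]; nlinarith) k (by rw [e1]; linarith)
  rw [e1] at h1
  have e2 : 2 * (r / 2) = r := by ring
  obtain ⟨ψ, hψ⟩ := step (r / 2) (by positivity) (by linarith) h1 x hx (by rw [e2]; exact hxσ)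
  rw [e2] at hψ
  exact ⟨ψ, QC.mono hψ hψ.maps (min_le_left _ _)⟩

end Crest.Agent.T223.Qc35
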