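import Crest.Agent.T223.QcIf_47

/-!
# Row 223, module QC (helper35): the leaf POLAR
-/

set_option autoImplicit false
set_option linter.unusedSectionVars false
set_option linter.unusedVariables false

open Set Filter Topology Metric
open scoped InnerProductSpace ComplexConjugate

namespace Crest.Agent.T223.Qc35

open Crest.Agent.T223.Qc47

noncomputable section

variable {E : Type} [NormedAddCommGroup E] [InnerProductSpace ℂ E] [FiniteDimensional ℂ E]

theorem inv_sqrt_near {η m : ℝ} (h0 : 0 ≤ η) (h1 : η ≤ 1 / 2) (hm : |m - 1| ≤ η) :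
    0 < m ∧ |(√m)⁻¹ - 1| ≤ η := by
  obtain ⟨h2, h3⟩ := abs_le.1 hm
  have hp : 0 < m := by linarith
  refine ⟨hp, ?_⟩
  have hs : 0 < √m := Real.sqrt_pos.2 hp
  have hss : √m * √m = m := Real.mul_self_sqrt hp.le
  rw [abs_le]
  constructor
  · have h4 : √m ≤ 1 + η := by
      rw [Real.sqrt_le_left (by linarith)]; nlinarith
    have h5 : (1 - η) * √m ≤ 1 := by nlinarith
    have h6 : 1 - η ≤ (√m)⁻¹ := by
      rw [inv_eq_one_div, le_div_iff₀ hs]; exact h5
    linarith
  · have h4 : 1 ≤ ((1 + η) * √m) ^ 2 := by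
      have : ((1 + η) * √m) ^ 2 = (1 + η) ^ 2 * m := by rw [mul_pow, Real.sq_sqrt hp.le]
      rw [this]
      have h7 : (1 + η) ^ 2 * (1 - η) ≤ (1 + η) ^ 2 * m := by gcongr; linarith
      nlinarith [mul_nonneg h0 (show 0 ≤ 1 - η - η ^ 2 by nlinarith)]
    have h5 : 1 ≤ (1 + η) * √m := by
      by_contra hc
      push Not at hc
      have : 0 ≤ (1 + η) * √m := by positivity
      nlinarith
    have h6 : (√m)⁻¹ ≤ 1 + η := by
      rw [inv_eq_one_div, div_le_iff₀ hs]; exact h5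
    linarith

theorem polarStmt : PolarStmt E := by
  intro η B h0 h1 hB
  have : CompleteSpace E := FiniteDimensional.complete ℂ E
  set T : E →ₗ[ℂ] E := ((ContinuousLinearMap.adjoint B ∘L B : E →L[ℂ] E) : E →ₗ[ℂ] E) with hTdef
  have hTi : ∀ v w, ⟪T v, w⟫_ℂ = ⟪B v, B w⟫_ℂ := fun v w => by
    simp [hTdef, ContinuousLinearMap.adjoint_inner_left]
  have hT : T.IsSymmetric := fun v w => by
    rw [hTi, ← inner_conj_symm v (T w), hTi, inner_conj_symm]
  set b := hT.eigenvectorBasis (n := Module.finrank ℂ E) rfl with hb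
  set m := hT.eigenvalues (n := Module.finrank ℂ E) rfl with hm
  have hrep : ∀ v i, b.repr (T v) i = (m i : ℂ) * b.repr v i := fun v i =>
    hT.eigenvectorBasis_apply_self_apply rfl v i
  have hn : ∀ v : E, ‖v‖ ^ 2 = ∑ i, ‖b.repr v i‖ ^ 2 := fun v => by
    rw [← b.repr.norm_map v, EuclideanSpace.norm_sq_eq]
  have hq : ∀ v : E, ‖B v‖ ^ 2 = ∑ i, m i * ‖b.repr v i‖ ^ 2 := fun v => by
    have h2 : ((‖B v‖ ^ 2 : ℝ) : ℂ) = ((∑ i, m i * ‖b.repr v i‖ ^ 2 : ℝ) : ℂ) := by
      have h3 : ⟪B v, B v⟫_ℂ = ((‖B v‖ ^ 2 : ℝ) : ℂ) := by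
        rw [inner_self_eq_norm_sq_to_K]; simp
      rw [← h3, ← hTi, ← b.repr.inner_map_map, PiLp.inner_apply]
      push_cast
      refine Finset.sum_congr rfl fun i _ => ?_
      rw [hrep]
      simp only [RCLike.inner_apply, map_mul, Complex.conj_ofReal]
      rw [mul_left_comm, Complex.mul_conj, Complex.normSq_eq_norm_sq]; push_cast; ring
    exact_mod_cast h2
  have hmi : ∀ i, |m i - 1| ≤ η := fun i => by
    have h2 := hB (b i)
    rw [hq, b.orthonormal.1 i] at h2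
    have h3 : ∑ j, m j * ‖b.repr (b i) j‖ ^ 2 = m i := by
      rw [Finset.sum_eq_single i]
      · simp
      · intro j _ hj
        simp [OrthonormalBasis.repr_self, hj]
      · simp
    rw [h3] at h2
    simpa using h2
  let D : EuclideanSpace ℂ (Fin (Module.finrank ℂ E)) →ₗ[ℂ]
      EuclideanSpace ℂ (Fin (Module.finrank ℂ E)) :=
    { toFun := fun x => WithLp.toLp 2 fun i => (((√(m i))⁻¹ : ℝ) : ℂ) * x i
      map_add' := fun x y => by ext i; simp [mul_add]
      map_smul' := fun c x => by ext i; simp [mul_left_comm] }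
  let S0 : E →ₗ[ℂ] E :=
    (b.repr.symm.toLinearEquiv : _ →ₗ[ℂ] E) ∘ₗ D ∘ₗ (b.repr.toLinearEquiv : E →ₗ[ℂ] _)
  have hS0 : ∀ v i, b.repr (S0 v) i = (((√(m i))⁻¹ : ℝ) : ℂ) * b.repr v i := fun v i => by
    simp [S0, D]
  refine ⟨LinearMap.toContinuousLinearMap S0, ?_, fun v => ?_⟩
  · refine ContinuousLinearMap.opNorm_le_bound _ h0 fun v => ?_
    have h2 : ‖S0 v - v‖ ^ 2 ≤ (η * ‖v‖) ^ 2 := by
      rw [hn, mul_pow, hn v, Finset.mul_sum]
      refine Finset.sum_le_sum fun i _ => ?_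
      have h3 : b.repr (S0 v - v) i = ((((√(m i))⁻¹ - 1 : ℝ)) : ℂ) * b.repr v i := by
        rw [map_sub, PiLp.sub_apply, hS0]; push_cast; ring
      rw [h3, norm_mul, mul_pow, Complex.norm_real, Real.norm_eq_abs]
      gcongr
      exact (inv_sqrt_near h0 h1 (hmi i)).2
    exact (abs_le_of_sq_le_sq' h2 (by positivity)).2
  · have h2 : ‖B (S0 v)‖ ^ 2 = ‖v‖ ^ 2 := by
      rw [hq, hn v]
      refine Finset.sum_congr rfl fun i _ => ?_
      have hp := (inv_sqrt_near h0 h1 (hmi i)).1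
      rw [hS0, norm_mul, mul_pow, Complex.norm_real, Real.norm_eq_abs, sq_abs, inv_pow,
        Real.sq_sqrt hp.le]
      field_simp
    exact (sq_eq_sq₀ (norm_nonneg _) (norm_nonneg _)).1 h2

end

end Crest.Agent.T223.Qc35
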