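import Crest.Agent.T223.QcWrA_48
import Crest.Agent.T223.QcDbl_35

/-!
# Row 223, module QC / WRAPPER (helper48): `DblStmt` from `ImpStmt` and `ExtStmt`
-/

set_option autoImplicit false
set_option linter.unusedSectionVars false
set_option linter.unusedVariables false

open Set Filter Topology Metric
open scoped ContDiff InnerProductSpace ComplexConjugate Matrix ComplexOrder

namespace Crest.Agent.T223.Qc48

open Crest.Agent.R275.Geo Crest.Agent.R275.EDR890 Crest.Agent.T223.Br Crest.Agent.T223.Tr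
open Crest.Agent.T223.Qc47 Crest.Agent.T223.Qc35

noncomputable section

variable {n : ℕ} {M : Type} [TopologicalSpace M]

/-- improved charts are tangent to any seed -/
theorem tan_of_imp (P : PG (Cn n) M) {χ ψ : Cn n → M} (hχ : P.Seed χ) {r1 ε : ℝ} (hr1 : 0 < r1)
    (hε : ε < 1) (hψ : ∀ z ∈ ball (0 : Cn n) 1, P.H ψ z) (h0 : ψ 0 = χ 0)
    (hQ : ∀ v, P.Q ψ 0 v = ‖v‖ ^ 2) {g : Cn n → Cn n} (hg : DifferentiableOn ℂ g (ball 0 r1))
    (hm : MapsTo g (ball 0 r1) (ball 0 1)) (hg0 : g 0 = 0) (hg1 : fderiv ℂ g 0 = 1)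
    (hgQ : ∀ z ∈ ball (0 : Cn n) r1, ∀ v,
      |P.Q ψ (g z) (fderiv ℂ g z v) - ‖v‖ ^ 2| ≤ ε * ‖v‖ ^ 2) :
    ∃ φ, P.Good φ (ball 0 r1) ε ∧ Tan φ χ := by
  have hψ0 := hψ 0 (mem_ball_self one_pos)
  obtain ⟨τ, hτd, hτ0, hτi, hτe⟩ := P.trans hχ.1 hψ0 h0.symm
  set T := fderiv ℂ τ 0 with hT
  have hTn : ∀ v, ‖T v‖ = ‖v‖ := by
    intro v
    obtain ⟨k1, k2⟩ := P.comp (ψ := ψ) (γ := τ) (z := 0) (by rwa [hτ0]) hτd hτi
    have k3 := (P.congr k1 (ψ' := χ) (hτe.mono fun y hy => hy.symm)).2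
    have k4 := hχ.2 v
    rw [k3, k2, hτ0, hQ] at k4
    exact (pow_left_inj₀ (norm_nonneg _) (norm_nonneg _) two_ne_zero).1 k4
  have hTm : MapsTo T (ball 0 r1) (ball 0 r1) := by
    intro z hz
    rw [mem_ball_zero_iff] at hz ⊢
    rwa [hTn]
  set γ : Cn n → Cn n := fun z => g (T z) with hγ
  have hγd : ∀ z ∈ ball (0 : Cn n) r1, HasFDerivAt γ (fderiv ℂ g (T z) ∘L T) z := fun z hz =>
    (hg.differentiableAt (isOpen_ball.mem_nhds (hTm hz))).hasFDerivAt.comp z T.hasFDerivAt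
  have hγ0 : γ 0 = 0 := by simp [hγ, hg0]
  have hgood : P.Good (fun z => ψ (γ z)) (ball 0 r1) ε := by
    intro z hz
    have hH : P.H ψ (γ z) := hψ _ (hm (hTm hz))
    have hb : ∀ v, |P.Q ψ (γ z) (fderiv ℂ γ z v) - ‖v‖ ^ 2| ≤ ε * ‖v‖ ^ 2 := by
      intro v
      rw [(hγd z hz).fderiv, ← hTn v]
      exact hgQ _ (hTm hz) (T v)
    have hinj : Function.Injective (fderiv ℂ γ z) := by
      rw [injective_iff_map_eq_zero]
      intro v hv
      obtain ⟨B, hB⟩ := P.herm hH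
      have k1 := hb v
      rw [hv, hB] at k1
      simp only [map_zero, norm_zero, ne_eq, OfNat.ofNat_ne_zero, not_false_eq_true, zero_pow,
        zero_sub, abs_neg, abs_pow, abs_norm] at k1
      have k2 : ‖v‖ ^ 2 = 0 := le_antisymm (by nlinarith [sq_nonneg ‖v‖]) (sq_nonneg _)
      simpa using k2
    obtain ⟨k1, k2⟩ := P.comp hH (by
      filter_upwards [isOpen_ball.mem_nhds hz] with w hw using (hγd w hw).differentiableAt) hinj
    exact ⟨k1, fun v => by rw [k2]; exact hb v⟩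
  refine ⟨_, hgood, ?_⟩
  have h00 : (0 : Cn n) ∈ ball (0 : Cn n) r1 := mem_ball_self hr1
  obtain ⟨τ', hd', h0', hi', he'⟩ := P.trans (hgood 0 h00).1 hχ.1 (by simp only [hγ0, h0])
  refine ⟨τ', hd', h0', ?_, he'.mono fun y hy => hy.symm⟩
  obtain ⟨s, hs, hinj⟩ := P.inj hψ0
  have hc' : Tendsto τ' (𝓝 0) (𝓝 0) := by
    have := hd'.self_of_nhds.continuousAt.tendsto
    rwa [h0'] at this
  have hc : Tendsto τ (𝓝 0) (𝓝 0) := by
    have := hτd.self_of_nhds.continuousAt.tendsto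
    rwa [hτ0] at this
  have hcγ : Tendsto γ (𝓝 0) (𝓝 0) := by
    have := (hγd 0 h00).continuousAt.tendsto
    rwa [hγ0] at this
  have heq : (τ ∘ τ') =ᶠ[𝓝 0] γ := by
    filter_upwards [he', hc'.eventually hτe, (hc.comp hc').eventually hs, hcγ.eventually hs]
      with y k1 k2 k3 k4
    exact hinj k3 k4 (k2.trans k1)
  have hD := heq.fderiv_eq (𝕜 := ℂ)
  rw [fderiv_comp 0 (by rw [h0']; exact hτd.self_of_nhds) hd'.self_of_nhds, h0',
    (hγd 0 h00).fderiv, map_zero, hg1] at hD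
  ext v : 1
  refine hτi ?_
  have := congrArg (fun L : Cn n →L[ℂ] Cn n => L v) hD
  simpa using this

theorem Rm_smul {g : Cn n → Mat n} {z : Cn n} (hg : KahAt g z) {t : ℂ} (ht : t ≠ 0)
    (c d : Fin n) : Rm (fun w => t • g w) z c d = t • Rm g z c d := by
  have h1 : wdM (true, d) (fun w => t • g w) =ᶠ[𝓝 z] fun w => t • wdM (true, d) g w :=
    hg.smE.mono fun w hw => wdM_const_smul t hw _
  have hs : SmM g z := hg.sm
  unfold Rm
  rw [wdM_congr h1, wdM_const_smul t (hs.wdM _), wdM_const_smul t hs, wdM_const_smul t hs]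
  have : Invertible t := invertibleOfNonzero ht
  rw [Matrix.inv_smul _ t (isUnit_iff_ne_zero.2 hg.det_ne), invOf_eq_inv]
  simp only [Matrix.smul_mul, Matrix.mul_smul, smul_smul, smul_add, smul_neg]
  congr 2
  field_simp

theorem bis_smul {g : Cn n → Mat n} {z : Cn n} (hg : KahAt g z) {t : ℝ} (ht : t ≠ 0)
    (v w : Cn n) : bis (fun y => (t : ℂ) • g y) z v w = t * bis g z v w := by
  rw [bis_eq, bis_eq, ← Complex.re_ofReal_mul]
  congr 1
  simp only [Rm_smul hg (Complex.ofReal_ne_zero.2 ht), hC_smul, Finset.mul_sum, mul_assoc]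

variable {A : Atl n M} {U : Set M} {G : MF A}

theorem hi_of_qc {V : Set M} (hV : V ⊆ U) {x : M} {r ε : ℝ} {ψ : Cn n → M}
    (h : QC G V x r ε ψ) {z : Cn n} (hz : z ∈ ball (0 : Cn n) 1) : HI A U ψ z :=
  ⟨ball 0 1, isOpen_ball, hz, h.imm, fun _ hw => hV (h.maps hw)⟩

/-- the normalised metric of a `1/2`-flat quasi-chart -/
theorem kb_of_qc (hG : KahOn G U) {V : Set M} (hV : V ⊆ U) {x : M} {r ε0 : ℝ} (hr : 0 < r)
    {ψ : Cn n → M} (h : QC G V x r (1 / 2) ψ)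
    (hc : ∀ i, ∀ y ∈ (A.e i).source, y ∈ V →
      BKge (G i) (A.e i y) (ε0 / r ^ 2) ∧ BKle (G i) (A.e i y) (ε0 / r ^ 2)) :
    KB (fun z => (((r ^ 2)⁻¹ : ℝ) : ℂ) • pull G ψ z) 1 ε0 := by
  have hr2 : 0 < r ^ 2 := by positivity
  have hk : ∀ z ∈ ball (0 : Cn n) 1, KahAt (pull G ψ) z := fun z hz =>
    kahAt_pull hG (hi_of_qc hV h hz)
  have hw : ∀ z ∈ ball (0 : Cn n) 1, ∀ s a b,
      wd s (fun w => ((((r ^ 2)⁻¹ : ℝ) : ℂ) • pull G ψ w) a b) z =
        (((r ^ 2)⁻¹ : ℝ) : ℂ) * wd s (fun w => pull G ψ w a b) z := by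
    intro z hz s a b
    have := congrFun (congrFun (wdM_const_smul (((r ^ 2)⁻¹ : ℝ) : ℂ) (hk z hz).sm s) a) b
    exact this
  refine ⟨fun a b z hz => ?_, fun z hz => ?_, fun z hz a b c => ?_, fun z hz a b c => ?_,
    fun z hz v => ?_, fun z hz v => ?_, fun z hz v w => ?_⟩
  · exact (contDiffAt_const.mul ((hk z hz).sm a b)).contDiffWithinAt
  · have h1 := (hk z hz).posDef.isHermitian
    unfold Matrix.IsHermitian
    rw [Matrix.conjTranspose_smul, h1.eq]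
    simp
  · rw [hw z hz, hw z hz, (hk z hz).closed.self_of_nhds]
  · rw [hw z hz, hw z hz, (hk z hz).closed'.self_of_nhds]
  · rw [nq_smul, inv_mul_eq_div, le_div_iff₀ hr2]
    have := h.lo z hz v
    linarith
  · rw [nq_smul, inv_mul_eq_div, div_le_iff₀ hr2]
    have := h.hi z hz v
    have h1 : 0 ≤ r ^ 2 * ‖v‖ ^ 2 := by positivity
    nlinarith
  · obtain ⟨i, hi⟩ := A.cover (ψ z)
    have hR := rel_pull hG (hi_of_qc hV h hz) hi
    obtain ⟨k1, k2⟩ := hc i _ hi (h.maps hz)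
    have k3 := (hR.bkge _).2 k1 v w
    have k4 := (hR.bkle _).2 k2 v w
    rw [bis_smul (hk z hz) (by positivity), nq_smul, nq_smul, abs_mul,
      abs_of_pos (inv_pos.2 hr2)]
    have k5 : |bis (pull G ψ) z v w| ≤
        ε0 / r ^ 2 * nq (pull G ψ z) v * nq (pull G ψ z) w := abs_le.2 ⟨k3, k4⟩
    calc _ ≤ (r ^ 2)⁻¹ * (ε0 / r ^ 2 * nq (pull G ψ z) v * nq (pull G ψ z) w) := by gcongr
      _ = _ := by ring

/-- **one doubling step** -/
theorem dblStmt (hImp : ImpStmt n) (hExt : ExtStmt n) : DblStmt n := by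
  intro ε hε
  obtain ⟨r1, hr1, -, hImp⟩ := hImp
  obtain ⟨ε1, N, hε1, hN, hExt⟩ := hExt r1 2 (min ε 1) hr1 (lt_min hε one_pos)
  obtain ⟨ε0, hε0, hImp⟩ := hImp (min ε1 (1 / 2)) (lt_min hε1 (by norm_num))
  refine ⟨ε0, 2 * N + 4, hε0, by positivity, ?_⟩
  intro M _ _ A G U ρ c r σ σ' hU hG hc hr hρ hcur hqc x hx hxρ
  set P : PG (Cn n) M := pgOf hG hc hr hρ with hP
  set V : Set M := {y | y ∈ U ∧ ρ y ≤ σ} with hV
  have hVU : V ⊆ U := fun y hy => hy.1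
  have hr2 : 0 < r ^ 2 := by positivity
  have hQ : ∀ φ z v, P.Q φ z v = nq ((((r ^ 2)⁻¹ : ℝ) : ℂ) • pull G φ z) v := by
    intro φ z v
    rw [nq_smul, inv_mul_eq_div]
    rfl
  have hctr : ∀ {y ψ}, QC G V y r (1 / 2) ψ → ∀ v, P.Q ψ 0 v = ‖v‖ ^ 2 := by
    intro y ψ h v
    show nq (pull G ψ 0) v / r ^ 2 = _
    rw [h.ctr, nq_smul, nq_one]
    field_simp
  have hCh : P.Ch (ball 0 r1) ε1 σ' := by
    intro χ hχ hχρ
    obtain ⟨ψ, hψ⟩ := hqc (χ 0) (HI.mem hχ.1) hχρ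
    obtain ⟨g, g1, g2, g3, g4, g5⟩ := hImp _ (kb_of_qc hG hVU hr hψ
      fun i y hy hyV => hcur i y hy hyV.1 hyV.2)
    obtain ⟨φ, hφ, hT⟩ := tan_of_imp P hχ hr1 (ε := min ε1 (1 / 2))
      ((min_le_right _ _).trans_lt (by norm_num)) (fun z hz => hi_of_qc hVU hψ hz) hψ.zero
      (hctr hψ) g1 g2 g3 g4 (fun z hz v => by
        obtain ⟨k1, k2⟩ := g5 z hz v
        rw [← hQ, ← hQ, hctr hψ] at k1 k2
        exact abs_le.2 ⟨by linarith, by linarith⟩)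
    refine ⟨φ, fun z hz => ⟨(hφ z hz).1, fun v => ((hφ z hz).2 v).trans ?_⟩, hT⟩
    exact mul_le_mul_of_nonneg_right (min_le_left _ _) (sq_nonneg _)
  have hcr : 0 < c * r := by positivity
  obtain ⟨χ, hχ⟩ := hqc x hx (by nlinarith)
  have hseed : P.Seed χ := ⟨hi_of_qc hVU hχ (mem_ball_self one_pos), hctr hχ⟩
  obtain ⟨φ, hφ, τ, hτd, hτ0, hτ1, hτe⟩ := hExt M P σ' hCh χ hseed (by
    show ρ (χ 0) ≤ σ' - N * (2 * c * r)
    rw [hχ.zero]
    nlinarith)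
  have hφ0 : φ 0 = x := by rw [hτe.self_of_nhds, hτ0, hχ.zero]
  have hQ0 : ∀ v, P.Q φ 0 v = ‖v‖ ^ 2 := by
    intro v
    obtain ⟨k1, k2⟩ := P.comp (ψ := χ) (γ := τ) (z := 0) (by rw [hτ0]; exact hseed.1) hτd
      (by rw [hτ1]; exact fun a b hab => hab)
    rw [(P.congr k1 hτe).2, k2, hτ0, hτ1]
    exact hseed.2 v
  set S : Cn n →L[ℂ] Cn n := (2 : ℂ) • ContinuousLinearMap.id ℂ (Cn n) with hS
  have hSn : ∀ v, ‖S v‖ = 2 * ‖v‖ := fun v => by simp [hS, norm_smul]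
  have hSm : ∀ z ∈ ball (0 : Cn n) 1, S z ∈ ball (0 : Cn n) 2 := by
    intro z hz
    rw [mem_ball_zero_iff] at hz ⊢
    rw [hSn]
    linarith
  have hSi : Function.Injective S := by
    rw [injective_iff_map_eq_zero]
    intro v hv
    have := hSn v
    rw [hv, norm_zero] at this
    exact norm_eq_zero.1 (by linarith)
  have hH : ∀ z ∈ ball (0 : Cn n) 1, HI A U (fun w => φ (S w)) z := fun z hz =>
    HI.comp (hφ _ (hSm z hz)).1 (Eventually.of_forall fun w => S.differentiableAt)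
      (by rw [S.fderiv]; exact hSi)
  have hnq : ∀ z ∈ ball (0 : Cn n) 1, ∀ v,
      nq (pull G (fun w => φ (S w)) z) v = r ^ 2 * P.Q φ (S z) (S v) := by
    intro z hz v
    rw [nq_pull_comp (hφ _ (hSm z hz)).1 S.differentiableAt, S.fderiv]
    show _ = r ^ 2 * (nq (pull G φ (S z)) (S v) / r ^ 2)
    field_simp
  have hbd : ∀ z ∈ ball (0 : Cn n) 1, ∀ v,
      |P.Q φ (S z) (S v) - 4 * ‖v‖ ^ 2| ≤ ε * (4 * ‖v‖ ^ 2) := by
    intro z hz v
    have k1 := (hφ _ (hSm z hz)).2 (S v)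
    have k2 : ‖S v‖ ^ 2 = 4 * ‖v‖ ^ 2 := by rw [hSn]; ring
    rw [k2] at k1
    exact k1.trans (mul_le_mul_of_nonneg_right (min_le_left _ _) (by positivity))
  refine ⟨fun w => φ (S w), imm_of_HI hH, fun z hz => ⟨(hH z hz).mem, ?_⟩, ?_, ?_,
    fun z hz v => ?_, fun z hz v => ?_⟩
  · have k1 := P.lip (ψ := φ) (D := ball 0 2) (a := 1) zero_le_one isOpen_ball (convex_ball _ _)
      (fun y hy => ⟨(hφ y hy).1, fun v => by
        have k2 := (abs_le.1 ((hφ y hy).2 v)).2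
        have k3 := mul_le_mul_of_nonneg_right (min_le_right ε 1) (sq_nonneg ‖v‖)
        linarith⟩) (S z) (hSm z hz) 0 (mem_ball_self two_pos)
    have k2 : ρ (φ (S z)) ≤ ρ (φ 0) + 2 * c * r * 1 * ‖S z - 0‖ := k1
    rw [hφ0, sub_zero] at k2
    have k3 := mem_ball_zero_iff.1 (hSm z hz)
    obtain ⟨ψ', hψ'⟩ := hqc _ (hH z hz).mem (by nlinarith)
    have k4 := hψ'.maps (mem_ball_self one_pos)
    rw [hψ'.zero] at k4
    exact k4.2
  · simp only [map_zero, hφ0]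
  · refine eq_of_nq (kahAt_pull hG (hH 0 (mem_ball_self one_pos))).posDef.isHermitian ?_
      fun v => ?_
    · unfold Matrix.IsHermitian
      rw [Matrix.conjTranspose_smul, Matrix.conjTranspose_one]
      simp
    · rw [hnq 0 (mem_ball_self one_pos), map_zero, hQ0, nq_smul, nq_one, hSn]
      ring
  · rw [hnq z hz]
    have k1 := (abs_le.1 (hbd z hz v)).1
    nlinarith
  · rw [hnq z hz]
    have k1 := (abs_le.1 (hbd z hz v)).2
    nlinarith

end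

end Crest.Agent.T223.Qc48
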