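import Crest.Agent.T223.QcExt_47
import Crest.Agent.T223.QcWrB_48
import Crest.Agent.T223.QcOut_35
import Crest.Agent.T223.Gr4_44
import Crest.Agent.T223.QcImpC_48
import Crest.Agent.T223.QcPol_35
import Crest.Agent.T223.QcLiftS_35

/-!
# Row 223, quasi-charts: the static quasi-chart theorem
-/

set_option autoImplicit false

namespace Crest.Agent.T223.Qc47

/-- **QC** -/
theorem qcStmt (n : ℕ) : QCStmt n :=
  Qc35.qcStmt_of_dbl (Qc48.dblStmt (Qc48.impStmt (Gr.limStmt n))
    (extStmt Qc35.polarStmt Qc35.liftStmt))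

end Crest.Agent.T223.Qc47
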