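import Crest.Agent.T223.OsDef_21

/-!
# Row 223, RENEW (helper44): the two pieces of `Os.RenewStmt`

* `CoreStmt` : interior estimates in one chart at unit scale;
* `WrapStmt` : `QCStmt` at the end of the window, pull-back and parabolic rescaling.
-/

set_option autoImplicit false

open Set Filter Topology Metric
open scoped ContDiff

namespace Crest.Agent.T223.Rn

open Crest.Agent.R275.Geo Crest.Agent.T223.Tr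

/-- a Kaehler-Ricci flow on `[-θ, 0] × ball 0 R` with curvature `≤ ε`, `ε`-flat at time `0` -/
structure CF {n : ℕ} (R θ ε : ℝ) (G : ℝ → Cn n → Mat n) : Prop where
  krf : ∀ s ∈ Icc (-θ) 0, ∀ w ∈ ball (0 : Cn n) R, KRFat G s w
  bk : ∀ s ∈ Icc (-θ) 0, ∀ w ∈ ball (0 : Cn n) R, BKge (G s) w ε ∧ BKle (G s) w ε
  lo : ∀ w ∈ ball (0 : Cn n) R, ∀ v, (1 - ε) * ‖v‖ ^ 2 ≤ nq (G 0 w) v
  hi : ∀ w ∈ ball (0 : Cn n) R, ∀ v, nq (G 0 w) v ≤ (1 + ε) * ‖v‖ ^ 2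

/-- a solution of the heat equation on `[-θ, 0] × ball 0 R` with gradient `≤ κ` -/
structure HF {n : ℕ} (R θ κ : ℝ) (G : ℝ → Cn n → Mat n) (f : ℝ → Cn n → ℝ) : Prop where
  sm : ∀ s ∈ Icc (-θ) 0, ∀ w ∈ ball (0 : Cn n) R,
    ContDiffAt ℝ ∞ (fun q : ℝ × Cn n => f q.1 q.2) (s, w)
  eq : ∀ s ∈ Icc (-θ) 0, ∀ w ∈ ball (0 : Cn n) R, box G f s w = 0
  gr : ∀ s ∈ Icc (-θ) 0, ∀ w ∈ ball (0 : Cn n) R, gsq (G s) (f s) w ≤ κ ^ 2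

/-- CORE (44): interior estimates at unit scale -/
def CoreStmt (n : ℕ) : Prop :=
  ∀ θ : ℝ, 0 < θ → θ ≤ 1 → ∃ R ε C : ℝ, 1 ≤ R ∧ 0 < ε ∧ 0 < C ∧
    ∀ G : ℝ → Cn n → Mat n, CF R θ ε G →
      (∀ j, 1 ≤ j → j ≤ 8 → ∀ w ∈ ball (0 : Cn n) 1, ∀ a b,
        ‖iteratedFDeriv ℝ j (fun y => G 0 y a b) w‖ ≤ 1) ∧
      ∀ (κ : ℝ) (f : ℝ → Cn n → ℝ), 0 < κ → HF R θ κ G f →
        ∀ j, 1 ≤ j → j ≤ 4 → ∀ w ∈ ball (0 : Cn n) 1, ‖iteratedFDeriv ℝ j (f 0) w‖ ≤ C * κ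

/-- WRAP -/
def WrapStmt (n : ℕ) : Prop := QCStmt n → CoreStmt n → Os.RenewStmt n

end Crest.Agent.T223.Rn
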