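import Crest.Agent.T223.Rn1_44
import Crest.Agent.T223.RnDef_44
import Crest.Agent.T223.LxCB_60
import Crest.Agent.T223.LoCal_18
import Crest.Agent.T223.U0S_15
import Crest.Agent.T223.Bx_45

/-!
# Row 223, RENEW (helper44): `coreStmt : QlHB → LinHBi → CoreStmt`
-/

set_option autoImplicit false

open Set Filter Topology Metric
open scoped ContDiff ComplexConjugate Matrix ComplexOrder

namespace Crest.Agent.T223.Rn

open Crest.Agent.R275.Geo Crest.Agent.R275.EDR890 Crest.Agent.R273.Hess_333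
open Crest.Agent.T223.Br Crest.Agent.T223.Tr Crest.Agent.N207.P
open Crest.Agent.T223.Db (eR rm rm_pos lap_eR)
open Crest.Agent.T223.Lx

noncomputable section

variable {n : ℕ}

/-- two sided Gronwall -/
theorem gron {φ φ' : ℝ → ℝ} {a α β : ℝ} (hc : ContinuousOn φ (Icc α β))
    (hd : ∀ s ∈ Ioo α β, HasDerivAt φ (φ' s) s) (hb : ∀ s ∈ Ioo α β, |φ' s| ≤ a * φ s)
    {s : ℝ} (hs : s ∈ Icc α β) :
    Real.exp (a * (s - β)) * φ s ≤ φ β ∧ Real.exp (a * (s - β)) * φ β ≤ φ s := by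
  have hβ : β ∈ Icc α β := ⟨hs.1.trans hs.2, le_rfl⟩
  have he : ∀ c t : ℝ, HasDerivAt (fun t => Real.exp (c * (t - β))) (Real.exp (c * (t - β)) * c) t :=
    fun c t => by simpa using (((hasDerivAt_id t).sub_const β).const_mul c).exp
  have h1 := monotoneOn_of_hasDerivWithinAt_nonneg (convex_Icc α β)
    (f := fun t => Real.exp (a * (t - β)) * φ t)
    (f' := fun t => Real.exp (a * (t - β)) * a * φ t + Real.exp (a * (t - β)) * φ' t)
    (ContinuousOn.mul (by fun_prop) hc)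
    (fun t ht => ((he a t).mul (hd t (by simpa using ht))).hasDerivWithinAt) (fun t ht => by
      have := (abs_le.1 (hb t (by simpa using ht))).1
      have h0 := Real.exp_pos (a * (t - β))
      nlinarith) hs hβ hs.2
  have h2 := antitoneOn_of_hasDerivWithinAt_nonpos (convex_Icc α β)
    (f := fun t => Real.exp (-a * (t - β)) * φ t)
    (f' := fun t => Real.exp (-a * (t - β)) * -a * φ t + Real.exp (-a * (t - β)) * φ' t)
    (ContinuousOn.mul (by fun_prop) hc)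
    (fun t ht => ((he (-a) t).mul (hd t (by simpa using ht))).hasDerivWithinAt) (fun t ht => by
      have := (abs_le.1 (hb t (by simpa using ht))).2
      have h0 := Real.exp_pos (-a * (t - β))
      nlinarith) hs hβ hs.2
  simp only [sub_self, mul_zero, Real.exp_zero, one_mul] at h1 h2
  refine ⟨h1, ?_⟩
  have h3 := mul_le_mul_of_nonneg_left h2 (Real.exp_pos (a * (s - β))).le
  rwa [← mul_assoc, ← Real.exp_add, show a * (s - β) + -a * (s - β) = 0 by ring, Real.exp_zero,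
    one_mul] at h3

/-- `|dφ(v)| ≤ 2 |∂φ| |v|` -/
theorem fderiv_le_gsq {g : Cn n → Mat n} {φ : Cn n → ℝ} {z : Cn n} (hg : (g z).PosDef)
    (hd : DifferentiableAt ℝ φ z) (v : Cn n) :
    |fderiv ℝ φ z v| ≤ 2 * √(gsq g φ z * nq (g z) v) := by
  have h1 := Ev.nq_le_trg hg (Bx.op_herm (dz φ z)) (b := 0) (fun v => by
    rw [Bx.nq_op, zero_mul, add_zero]; positivity) v
  rw [Bx.nq_op, zero_mul, add_zero, mul_zero, add_zero] at h1
  have h2 : trg (g z) (Bx.op (dz φ z) (dz φ z)) = gsq g φ z := Bx.ipi_self _ _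
  rw [h2] at h1
  rw [U0.fderiv_eq_dz hd, abs_mul, abs_two]
  exact mul_le_mul_of_nonneg_left ((Complex.abs_re_le_norm _).trans (Real.le_sqrt_of_sq_le h1))
    zero_le_two

theorem norm_iter_eR {V : Type*} [NormedAddCommGroup V] [NormedSpace ℝ V] (F : En (2 * n) → V)
    (w : Cn n) (j : ℕ) : ‖iteratedFDeriv ℝ j (fun w => F (eR n w)) w‖ ≤
      ‖iteratedFDeriv ℝ j F (eR n w)‖ * ‖(eR n : Cn n →L[ℝ] En (2 * n))‖ ^ j := by
  have h := (eR n).iteratedFDerivWithin_comp_right F uniqueDiffOn_univ (mem_univ (eR n w)) j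
  rw [preimage_univ, iteratedFDerivWithin_univ, iteratedFDerivWithin_univ] at h
  have h2 := (iteratedFDeriv ℝ j F (eR n w)).norm_compContinuousLinearMap_le
    fun _ => (eR n : Cn n →L[ℝ] En (2 * n))
  rw [← h] at h2
  simpa [Function.comp_def] using h2

variable {R θ ε : ℝ} {G : ℝ → Cn n → Mat n} {s : ℝ} {w : Cn n}

theorem CF.pos (h : CF R θ ε G) (hs : s ∈ Icc (-θ) 0) (hw : w ∈ ball (0 : Cn n) R) :
    (G s w).PosDef := (h.krf s hs w hw).pos.self_of_nhds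

theorem CF.mono (h : CF R θ ε G) {ε' : ℝ} (hε : ε ≤ ε') : CF R θ ε' G := by
  refine ⟨h.krf, fun s hs w hw => ?_, fun w hw v => le_trans ?_ (h.lo w hw v),
    fun w hw v => (h.hi w hw v).trans ?_⟩
  · have h0 := fun v => Ev.nq_nonneg (h.pos hs hw).posSemidef v
    have h1 : ∀ v v', ε * nq (G s w) v * nq (G s w) v' ≤ ε' * nq (G s w) v * nq (G s w) v' :=
      fun v v' => mul_le_mul_of_nonneg_right (mul_le_mul_of_nonneg_right hε (h0 v)) (h0 v')
    exact ⟨fun v v' => (neg_le_neg (h1 v v')).trans ((h.bk s hs w hw).1 v v'),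
      fun v v' => ((h.bk s hs w hw).2 v v').trans (h1 v v')⟩
  · exact mul_le_mul_of_nonneg_right (by linarith) (sq_nonneg _)
  · exact mul_le_mul_of_nonneg_right (by linarith) (sq_nonneg _)

theorem CF.close (h : CF R θ ε G) (hθ : θ ≤ 1) (hε : 0 ≤ ε) (hε1 : (1 + 4 * n) * ε ≤ 1 / 2)
    (hs : s ∈ Icc (-θ) 0) (hw : w ∈ ball (0 : Cn n) R) (v : Cn n) :
    |nq (G s w) v - ‖v‖ ^ 2| ≤ (1 + 4 * n) * ε * ‖v‖ ^ 2 := by
  have hd : ∀ t ∈ Icc (-θ) 0, HasDerivAt (fun t => nq (G t w) v) (-nq (ric (G t) w) v) t :=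
    fun t ht => Lo.krf_nq (h.krf t ht w hw) v
  obtain ⟨h1, h2⟩ := gron (a := n * ε) (fun t ht => (hd t ht).continuousAt.continuousWithinAt)
    (fun t ht => hd t (Ioo_subset_Icc_self ht)) (fun t ht => by
      have ht' := Ioo_subset_Icc_self ht
      rw [abs_neg]
      exact abs_le.2 ⟨ric_ge_of_BKge (h.krf t ht' w hw).kahAt (h.bk t ht' w hw).1 v,
        ric_le_of_BKle (h.krf t ht' w hw).kahAt (h.bk t ht' w hw).2 v⟩) hs
  have ha : 0 ≤ (n : ℝ) * ε := by positivity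
  have h3 : 1 - n * ε ≤ Real.exp (n * ε * (s - 0)) := by
    have := Real.add_one_le_exp (n * ε * (s - 0))
    nlinarith [hs.1]
  have h4 := Ev.nq_nonneg (h.pos hs hw).posSemidef v
  have h5 := Ev.nq_nonneg (h.pos ⟨hs.1.trans hs.2, le_rfl⟩ hw).posSemidef v
  have h6 := h.lo w hw v
  have h7 := h.hi w hw v
  have h8 := (mul_le_mul_of_nonneg_right h3 h4).trans h1
  have h9 := (mul_le_mul_of_nonneg_right h3 h5).trans h2
  have hv := sq_nonneg ‖v‖
  have ha1 : (n : ℝ) * ε ≤ 1 / 8 := by nlinarith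
  have he1 : ε ≤ 1 / 2 := by nlinarith
  set x := nq (G s w) v
  set y := nq (G 0 w) v
  set q := ‖v‖ ^ 2
  have hy : y ≤ 2 * q := by nlinarith
  have hx : x ≤ 4 * q := by nlinarith
  rw [abs_le]
  constructor <;> nlinarith [mul_le_mul_of_nonneg_left hx ha, mul_le_mul_of_nonneg_left hy ha,
    mul_nonneg ha hv]

theorem CF.two (h : CF R θ ε G) (hθ : θ ≤ 1) (hε : 0 ≤ ε) (hε1 : (1 + 4 * n) * ε ≤ 1 / 2)
    (hs : s ∈ Icc (-θ) 0) (hw : w ∈ ball (0 : Cn n) R) (v : Cn n) :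
    ‖v‖ ^ 2 ≤ 2 * nq (G s w) v ∧ nq (G s w) v ≤ 2 * ‖v‖ ^ 2 := by
  have h1 := abs_le.1 (h.close hθ hε hε1 hs hw v)
  have h2 := mul_le_mul_of_nonneg_right hε1 (sq_nonneg ‖v‖)
  constructor <;> nlinarith [sq_nonneg ‖v‖]

theorem CF.ent (h : CF R θ ε G) (hθ : θ ≤ 1) (hε : 0 ≤ ε) (hε1 : (1 + 4 * n) * ε ≤ 1 / 2)
    (hs : s ∈ Icc (-θ) 0) (hw : w ∈ ball (0 : Cn n) R) (a b : Fin n) :
    ‖G s w a b - (1 : Mat n) a b‖ ≤ 4 * ((1 + 4 * n) * ε) :=
  Gr.entry_le (H := G s w - 1) ((h.pos hs hw).isHermitian.sub Matrix.isHermitian_one)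
    (fun v => by rw [Ev.nq_sub, nq_one]; exact h.close hθ hε hε1 hs hw v) a b

theorem CF.hb (h : CF R θ ε G) (hθ : θ ≤ 1) (hε : 0 ≤ ε) (hε1 : (1 + 4 * n) * ε ≤ 1 / 2)
    (hs : s ∈ Icc (-θ) 0) (hw : ball w 1 ⊆ ball (0 : Cn n) R) : Gr.HB (G s) w 1 2 ε :=
  ⟨fun a b z hz => ((h.krf s hs z (hw hz)).kahAt.sm a b).contDiffWithinAt,
    fun _ hz => (h.pos hs (hw hz)).isHermitian, fun _ hz v => (h.two hθ hε hε1 hs (hw hz) v).1,
    fun _ hz v => (h.two hθ hε hε1 hs (hw hz) v).2,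
    fun z hz v v' => abs_le.2 ⟨(h.bk s hs z (hw hz)).1 v v', (h.bk s hs z (hw hz)).2 v v'⟩,
    two_pos, hε⟩

/-- the norms of the real coordinates -/
def L1 (n : ℕ) : ℝ := ‖(eR n : Cn n →L[ℝ] En (2 * n))‖ + 1
def L2 (n : ℕ) : ℝ := ‖((eR n).symm : En (2 * n) →L[ℝ] Cn n)‖
def R0 (n : ℕ) : ℝ := L2 n * (L1 n + 2) + 1

theorem one_le_L1 : 1 ≤ L1 n := le_add_of_nonneg_left (norm_nonneg _)
theorem L2_nonneg : 0 ≤ L2 n := norm_nonneg _
theorem one_le_R0 : 1 ≤ R0 n :=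
  le_add_of_nonneg_left (mul_nonneg L2_nonneg (by linarith [one_le_L1 (n := n)]))

theorem norm_symm_le (y : En (2 * n)) : ‖(eR n).symm y‖ ≤ L2 n * ‖y‖ :=
  ((eR n).symm : En (2 * n) →L[ℝ] Cn n).le_opNorm y

theorem ball_symm {y : En (2 * n)} (hy : y ∈ ball (0 : En (2 * n)) (L1 n + 2)) :
    ball ((eR n).symm y) 1 ⊆ ball (0 : Cn n) (R0 n) := ball_subset_ball' (by
  rw [dist_zero_right, R0]
  linarith [norm_symm_le y, mul_le_mul_of_nonneg_left (mem_ball_zero_iff.1 hy).le (L2_nonneg (n := n))])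

theorem symm_mem {y : En (2 * n)} (hy : y ∈ ball (0 : En (2 * n)) (L1 n + 2)) :
    (eR n).symm y ∈ ball (0 : Cn n) (R0 n) := ball_symm hy (mem_ball_self one_pos)

theorem eR_mem (hw : w ∈ ball (0 : Cn n) 1) : eR n w ∈ ball (0 : En (2 * n)) (L1 n) := by
  rw [mem_ball_zero_iff] at *
  have h1 : ‖eR n w‖ ≤ _ := (eR n : Cn n →L[ℝ] En (2 * n)).le_opNorm w
  have h2 := mul_le_mul_of_nonneg_left hw.le (norm_nonneg (eR n : Cn n →L[ℝ] En (2 * n)))
  unfold L1; linarith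

theorem norm_iter_le {V : Type*} [NormedAddCommGroup V] [NormedSpace ℝ V] {F : Cn n → V} {j m : ℕ}
    (hj : j ≤ m) {K : ℝ} (h : ‖iteratedFDeriv ℝ j (fun y => F ((eR n).symm y)) (eR n w)‖ ≤ K) :
    ‖iteratedFDeriv ℝ j F w‖ ≤ K * L1 n ^ m := by
  have h1 := norm_iter_eR (fun y => F ((eR n).symm y)) w j
  simp only [ContinuousLinearEquiv.symm_apply_apply] at h1
  refine h1.trans (mul_le_mul h ?_ (by positivity) ((norm_nonneg _).trans h))
  exact (pow_le_pow_left₀ (norm_nonneg _) (le_add_of_nonneg_right zero_le_one) j).trans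
    (pow_le_pow_right₀ one_le_L1 hj)

theorem pd_symm_eq {V : Type*} [NormedAddCommGroup V] [NormedSpace ℝ V] {F : Cn n → V}
    {y : En (2 * n)} (h : DifferentiableAt ℝ F ((eR n).symm y)) (k : Fin (2 * n)) :
    pd k (fun y => F ((eR n).symm y)) y =
      fderiv ℝ F ((eR n).symm y) ((eR n).symm (EuclideanSpace.single k 1)) :=
  congrArg (fun D : En (2 * n) →L[ℝ] V => D (EuclideanSpace.single k 1))
    (h.hasFDerivAt.comp y (eR n).symm.hasFDerivAt).fderiv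

theorem norm_symm_single (k : Fin (2 * n)) : ‖(eR n).symm (EuclideanSpace.single k 1)‖ ≤ L2 n := by
  simpa using norm_symm_le (n := n) (EuclideanSpace.single k 1)

/-- the unit matrix -/
def e1 (n : ℕ) : VV n := fun a b => (1 : Mat n) a b

theorem exists_eta {δ : ℝ} (hδ : 0 < δ) : ∃ η : ℝ, 0 < η ∧ ∀ q ∈ closedBall (e1 n) η,
    q ∈ OO n ∧ ∀ k l, |rm (Matrix.of q) k l - rm (1 : Mat n) k l| ≤ δ := by
  have h0 : e1 n ∈ OO n := by
    change (1 : Mat n).det ≠ 0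
    simp
  have h1 := isOpen_OO.mem_nhds h0
  have h2 : ∀ k l, ∀ᶠ q in 𝓝 (e1 n), |rm (Matrix.of q) k l - rm (1 : Mat n) k l| ≤ δ := fun k l => by
    have := ((cd_rmV k l).continuousOn.continuousAt h1).eventually (closedBall_mem_nhds _ hδ)
    exact this
  exact nhds_basis_closedBall.eventually_iff.1
    ((show ∀ᶠ q in 𝓝 (e1 n), q ∈ OO n from h1).and
      (eventually_all.2 fun k => eventually_all.2 fun l => h2 k l))

theorem div_pos4 {η : ℝ} (hη : 0 < η) : 0 < η / (4 * (1 + 4 * (n : ℝ))) := by positivity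

theorem mul_le_of4 {η ε : ℝ} (h : ε ≤ η / (4 * (1 + 4 * (n : ℝ)))) : 4 * ((1 + 4 * n) * ε) ≤ η := by
  rw [le_div_iff₀ (by positivity)] at h; linarith

theorem CF.mem (h : CF (R0 n) θ ε G) (hθ : θ ≤ 1) (hε : 0 ≤ ε) (hε1 : (1 + 4 * n) * ε ≤ 1 / 2)
    (hs : s ∈ Icc (-θ) 0) {y : En (2 * n)} (hy : y ∈ ball (0 : En (2 * n)) (L1 n + 2)) {η : ℝ}
    (hη : 4 * ((1 + 4 * n) * ε) ≤ η) : uR (G s) y ∈ closedBall (e1 n) η := by
  have h0 : 0 ≤ η := le_trans (by positivity) hη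
  rw [mem_closedBall, dist_eq_norm]
  exact (pi_norm_le_iff_of_nonneg h0).2 fun a => (pi_norm_le_iff_of_nonneg h0).2 fun b =>
    (h.ent hθ hε hε1 hs (symm_mem hy) a b).trans hη

theorem CF.cdOn (h : CF (R0 n) θ ε G) : ContDiffOn ℝ ∞ (fun q : ℝ × En (2 * n) => uR (G q.1) q.2)
    (Icc (-θ) 0 ×ˢ ball 0 (L1 n + 2)) := fun q hq =>
  (cd_uRt (h.krf q.1 hq.1 _ (symm_mem hq.2))).contDiffWithinAt

/-- interior estimates for the metrics -/
theorem ub_metric (hQ : QlHB (2 * n) (VV n)) (hθ0 : 0 < θ) (hθ : θ ≤ 1) :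
    ∃ ε0 : ℝ, 0 < ε0 ∧ ∀ ε, 0 ≤ ε → ε ≤ ε0 → (1 + 4 * n) * ε ≤ 1 / 2 → ∀ m,
      UBt (fun _ : {G : ℝ → Cn n → Mat n // CF (R0 n) θ ε G} => Icc (-θ + θ / 2) 0) (L1 n + 1) m
        fun i t => uR (i.1 t) := by
  obtain ⟨δ, hδ, hQ⟩ := hQ (rm (1 : Mat n)) (rm_pos Matrix.PosDef.one)
  obtain ⟨η, hη, hK⟩ := exists_eta (n := n) hδ
  refine ⟨_, div_pos4 (n := n) hη, fun ε hε hε0 hε1 m => ?_⟩
  have hη' := mul_le_of4 hε0
  obtain ⟨C, hC0, hC⟩ := Gr.grad n 1 2 ε one_pos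
  have hl := one_le_L1 (n := n)
  refine hQ _ (OO n) (closedBall (e1 n) η) (fun q => rm (Matrix.of q)) Bq (L1 n + 2) (L1 n + 1)
    (θ / 2) m (fun _ => -θ) (fun _ => 0) _ (by linarith) (by linarith) (by positivity)
    ⟨isOpen_OO, isCompact_closedBall _ _, fun q hq => (hK q hq).1, cd_rmV, cd_Bq,
      fun _ => by linarith, fun _ => by linarith, fun i m => ?_, fun i t ht y hy => ?_,
      fun i t ht y hy => i.2.mem hθ hε hε1 ht hy hη', C * L2 n, fun i t ht y hy => ?_⟩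
    fun q hq => (hK q hq).2
  · exact yl_of_contDiffOn isCompact_Icc (uniqueDiffOn_Icc (by linarith)) isOpen_ball i.2.cdOn
  · exact (krf_ql (i.2.krf t ht _ (symm_mem hy))).hasDerivWithinAt
  · have h0 : 0 ≤ C * L2 n := mul_nonneg hC0 L2_nonneg
    have h1 := (i.2.krf t ht _ (symm_mem hy)).kahAt.sm
    refine (pi_norm_le_iff_of_nonneg h0).2 fun k => (pi_norm_le_iff_of_nonneg h0).2 fun a =>
      (pi_norm_le_iff_of_nonneg h0).2 fun b => ?_
    rw [d1, pd_ent ((cd_uR h1).differentiableAt (by simp))]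
    have h2 := pd_symm_eq ((h1 a b).differentiableAt (by simp)) k
    simp only [uR]
    rw [h2]
    exact (ContinuousLinearMap.le_opNorm _ _).trans (mul_le_mul
      ((hC _ _ (i.2.hb hθ hε hε1 ht (ball_symm hy))).2.1 a b) (norm_symm_single k) (norm_nonneg _)
      hC0)

/-- the data of the heat equation -/
abbrev HI (n : ℕ) (θ ε : ℝ) : Type :=
  {p : (ℝ → Cn n → Mat n) × (ℝ → Cn n → ℝ) × ℝ //
    CF (R0 n) θ ε p.1 ∧ 0 < p.2.2 ∧ HF (R0 n) θ p.2.2 p.1 p.2.1}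

/-- the normalised solution in real coordinates -/
def hu {θ ε : ℝ} (i : HI n θ ε) (t : ℝ) : En (2 * n) → ℝ :=
  i.1.2.2⁻¹ • fun y => i.1.2.1 t ((eR n).symm y)

theorem pd_csmul (c : ℝ) (u : En (2 * n) → ℝ) (k : Fin (2 * n)) : pd k (c • u) = c • pd k u := by
  funext y
  simp only [pd, fderiv_const_smul_field, Pi.smul_apply, smul_apply]

theorem lop_csmul (c : ℝ) (u : En (2 * n) → ℝ) (a : Matrix (Fin (2 * n)) (Fin (2 * n)) ℝ)
    (y : En (2 * n)) : Lop a (c • u) y = c * Lop a u y := by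
  simp only [Lop, pd_csmul, Pi.smul_apply, smul_eq_mul, Finset.mul_sum]
  exact Finset.sum_congr rfl fun k _ => Finset.sum_congr rfl fun l _ => by ring

theorem HF.cdR {κ : ℝ} {f : ℝ → Cn n → ℝ} (h : HF (R0 n) θ κ G f) (hs : s ∈ Icc (-θ) 0)
    {y : En (2 * n)} (hy : y ∈ ball (0 : En (2 * n)) (L1 n + 2)) :
    ContDiffAt ℝ ∞ (fun q : ℝ × En (2 * n) => f q.1 ((eR n).symm q.2)) (s, y) :=
  ContDiffAt.comp (g := fun q : ℝ × Cn n => f q.1 q.2)
    (f := fun q : ℝ × En (2 * n) => (q.1, (eR n).symm q.2)) (s, y) (h.sm s hs _ (symm_mem hy))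
    (by fun_prop)

theorem hu_cd (i : HI n θ ε) (hs : s ∈ Icc (-θ) 0) {y : En (2 * n)}
    (hy : y ∈ ball (0 : En (2 * n)) (L1 n + 2)) :
    ContDiffAt ℝ ∞ (fun q : ℝ × En (2 * n) => hu i q.1 q.2) (s, y) :=
  contDiffAt_const.mul (i.2.2.2.cdR hs hy)

theorem hu_ev (i : HI n θ ε) (hs : s ∈ Icc (-θ) 0) {y : En (2 * n)}
    (hy : y ∈ ball (0 : En (2 * n)) (L1 n + 2)) :
    HasDerivAt (fun t => hu i t y) (Lop (rm (Matrix.of (uR (i.1.1 s) y))) (hu i s) y) s := by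
  have h1 := i.2.2.2.cdR hs hy
  have h2 : DifferentiableAt ℝ (fun t => i.1.2.1 t ((eR n).symm y)) s :=
    (h1.comp s (contDiffAt_id.prodMk contDiffAt_const)).differentiableAt (by simp)
  have h3 : ContDiffAt ℝ ∞ (fun y => i.1.2.1 s ((eR n).symm y)) (eR n ((eR n).symm y)) := by
    rw [(eR n).apply_symm_apply]
    exact h1.comp y (contDiffAt_const.prodMk contDiffAt_id)
  have h4 := lap_eR (i.1.1 s ((eR n).symm y)) h3
  simp only [ContinuousLinearEquiv.symm_apply_apply, ContinuousLinearEquiv.apply_symm_apply] at h4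
  have h5 : deriv (fun t => i.1.2.1 t ((eR n).symm y)) s =
      Db.lap (i.1.1 s ((eR n).symm y)) (i.1.2.1 s) ((eR n).symm y) :=
    sub_eq_zero.1 (i.2.2.2.eq s hs _ (symm_mem hy))
  rw [hu, lop_csmul]
  exact (h2.hasDerivAt.const_mul _).congr_deriv (by rw [h5, h4]; rfl)

theorem hu_grad (i : HI n θ ε) (hθ : θ ≤ 1) (hε : 0 ≤ ε) (hε1 : (1 + 4 * n) * ε ≤ 1 / 2)
    (hs : s ∈ Icc (-θ) 0) {y : En (2 * n)} (hy : y ∈ ball (0 : En (2 * n)) (L1 n + 2)) :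
    ‖d1 (hu i s) y‖ ≤ 4 * L2 n := by
  have h0 := L2_nonneg (n := n)
  refine (pi_norm_le_iff_of_nonneg (by positivity)).2 fun k => ?_
  obtain ⟨⟨G, f, κ⟩, h1, hκ, h2⟩ := i
  have h3 : DifferentiableAt ℝ (f s) ((eR n).symm y) :=
    ((h2.sm s hs _ (symm_mem hy)).comp _ (contDiffAt_const.prodMk contDiffAt_id)).differentiableAt
      (by simp)
  simp only [d1, hu, pd_csmul, Pi.smul_apply, smul_eq_mul] at *
  rw [pd_symm_eq h3, Real.norm_eq_abs, abs_mul, abs_of_pos (inv_pos.2 hκ), inv_mul_le_iff₀ hκ]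
  refine (fderiv_le_gsq (g := G s) (h1.pos hs (symm_mem hy)) h3 _).trans ?_
  have h4 := (h1.two hθ hε hε1 hs (symm_mem hy) ((eR n).symm (EuclideanSpace.single k 1))).2
  have h5 := pow_le_pow_left₀ (norm_nonneg _) (norm_symm_single (n := n) k) 2
  have h6 : √(gsq (G s) (f s) ((eR n).symm y) *
      nq (G s ((eR n).symm y)) ((eR n).symm (EuclideanSpace.single k 1))) ≤ κ * (2 * L2 n) := by
    refine Real.sqrt_le_iff.2 ⟨by positivity, ?_⟩
    rw [mul_pow]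
    exact mul_le_mul (h2.gr s hs _ (symm_mem hy)) (by nlinarith)
      (Ev.nq_nonneg (h1.pos hs (symm_mem hy)).posSemidef _) (sq_nonneg _)
  linarith

theorem ubt_re {ι κ V : Type} [NormedAddCommGroup V] [NormedSpace ℝ V] {N m : ℕ} {I : ι → Set ℝ}
    {r : ℝ} {u : ι → ℝ → En N → V} (H : UBt I r m u) (σ : κ → ι) (τ : κ → ℝ)
    (h : ∀ k, τ k ∈ I (σ k)) : UB r m fun k => u (σ k) (τ k) :=
  UB.reindex (fun k => (⟨(σ k, τ k), h k⟩ : {p : ι × ℝ // p.2 ∈ I p.1})) H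

theorem ub_fderiv_of_d1 {ι : Type} {N m : ℕ} {r : ℝ} {h : ι → En N → ℝ}
    (H : UB r m fun i => d1 (h i)) : UB r m fun i => fderiv ℝ (h i) :=
  (UB.sum Finset.univ fun k _ => (H.apply k).clm
    (ContinuousLinearMap.smulRightL ℝ (En N) ℝ (EuclideanSpace.proj k))).congr
      fun i y _ => by ext v; simp [fderiv_eq_sum_pd, d1]

/-- interior estimates for the heat equation -/
theorem ub_heat (hQ : QlHB (2 * n) (VV n)) (hL : LinHBi (2 * n) ℝ) (hθ0 : 0 < θ) (hθ : θ ≤ 1) :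
    ∃ ε0 : ℝ, 0 < ε0 ∧ ∀ ε, 0 ≤ ε → ε ≤ ε0 → (1 + 4 * n) * ε ≤ 1 / 2 →
      UB (L1 n) 3 fun i : HI n θ ε => fderiv ℝ (hu i 0) := by
  obtain ⟨ε0, hε0, hQ⟩ := ub_metric hQ hθ0 hθ
  obtain ⟨δ, hδ, hL⟩ := hL (rm (1 : Mat n)) (rm_pos Matrix.PosDef.one)
  obtain ⟨η, hη, hK⟩ := exists_eta (n := n) hδ
  refine ⟨_, lt_min hε0 (div_pos4 (n := n) hη), fun ε hε hε0 hε1 => ?_⟩
  have hη' := mul_le_of4 (hε0.trans (min_le_right _ _))
  have hl := one_le_L1 (n := n)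
  have hI : Icc (-θ + θ / 2) 0 ⊆ Icc (-θ) 0 := Icc_subset_Icc_left (by linarith)
  have hB : ball (0 : En (2 * n)) (L1 n + 1) ⊆ ball 0 (L1 n + 2) := ball_subset_ball (by linarith)
  have hU : UniqueDiffOn ℝ (Icc (-θ + θ / 2) 0) := uniqueDiffOn_Icc (by linarith)
  have hm : ∀ i : HI n θ ε, ∀ t ∈ Icc (-θ + θ / 2) 0, ∀ y ∈ ball (0 : En (2 * n)) (L1 n + 1),
      uR (i.1.1 t) y ∈ closedBall (e1 n) η := fun i t ht y hy =>
    i.2.1.mem hθ hε hε1 (hI ht) (hB hy) hη'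
  have hu1 := ubt_re (hQ ε hε (hε0.trans (min_le_left _ _)) hε1 2)
    (fun p : {p : HI n θ ε × ℝ // p.2 ∈ Icc (-θ + θ / 2) 0} => ⟨p.1.1.1.1, p.1.1.2.1⟩)
    (fun p => p.1.2) fun p => p.2
  have hF : LinF (rm (1 : Mat n)) δ (L1 n + 1) 2 (fun _ : HI n θ ε => -θ + θ / 2) (fun _ => 0)
      (fun i t y => rm (Matrix.of (uR (i.1.1 t) y))) (fun _ _ _ => (0 : ℝ)) hu := by
    refine ⟨fun _ => by linarith, fun _ => by linarith, fun i => ?_, fun i k l => ?_, fun i => ?_,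
      fun i t ht y hy => ?_, fun i t ht y hy => (hK _ (hm i t ht y hy)).2, fun k l => ?_,
      ub_const' 0⟩
    · exact yl_of_contDiffOn isCompact_Icc hU isOpen_ball fun q hq =>
        (hu_cd i (hI hq.1) (hB hq.2)).contDiffWithinAt
    · have h1 := (cd_rmV k l).comp (i.2.1.cdOn.mono (prod_mono hI hB)) fun q hq =>
        (hK _ (hm i q.1 hq.1 q.2 hq.2)).1
      exact yl_of_contDiffOn isCompact_Icc hU isOpen_ball h1
    · exact yl_of_contDiffOn isCompact_Icc hU isOpen_ball contDiffOn_const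
    · exact ((hu_ev i (hI ht) (hB hy)).congr_deriv (add_zero _).symm).hasDerivWithinAt
    · have h1 := UB.comp isOpen_OO (isCompact_closedBall (e1 n) η) (fun q hq => (hK q hq).1)
        (fun (p : {p : HI n θ ε × ℝ // p.2 ∈ Icc (-θ + θ / 2) 0}) => hm p.1.1 p.1.2 p.2)
        (cd_rmV k l) hu1
      unfold UBt
      exact h1
  have H := hL _ _ (L1 n) (θ / 4) _ _ _ _ _ _ (by linarith) (by linarith) (by positivity) hF
    ⟨4 * L2 n, fun i t ht y hy => hu_grad i hθ hε hε1 (hI ht) (hB hy)⟩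
  exact ub_fderiv_of_d1 (ubt_re H id (fun _ => 0) fun _ => ⟨by linarith, le_rfl⟩)

theorem norm_iter_sub {E : Type*} [NormedAddCommGroup E] [NormedSpace ℝ E] (F : E → ℂ) (c : ℂ)
    (k : ℕ) (y : E) :
    ‖iteratedFDeriv ℝ (k + 1) (fun y => F y - c) y‖ = ‖iteratedFDeriv ℝ (k + 1) F y‖ := by
  have : fderiv ℝ (fun y => F y - c) = fderiv ℝ F := funext fun y => fderiv_sub_const c
  rw [← norm_iteratedFDeriv_fderiv, this, norm_iteratedFDeriv_fderiv]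

theorem norm_evE (a b : Fin n) : ‖evE a b‖ ≤ 1 :=
  ContinuousLinearMap.opNorm_le_bound _ zero_le_one fun q => by
    rw [one_mul]; exact (norm_le_pi_norm (q a) b).trans (norm_le_pi_norm q a)

/-- **CORE** -/
theorem coreStmt (hQ : QlHB (2 * n) (VV n)) (hL : LinHBi (2 * n) ℝ) : CoreStmt n := by
  intro θ hθ0 hθ
  obtain ⟨ε0, hε0, h0⟩ := ub_metric hQ hθ0 hθ
  obtain ⟨ε1, hε1, h1⟩ := ub_heat hQ hL hθ0 hθ
  have hl := one_le_L1 (n := n)
  have h00 : (0 : ℝ) ∈ Icc (-θ) 0 := ⟨by linarith, le_rfl⟩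
  obtain ⟨ε, hε, e0, e1, e2⟩ : ∃ ε : ℝ, 0 < ε ∧ ε ≤ ε0 ∧ ε ≤ ε1 ∧ (1 + 4 * n) * ε ≤ 1 / 2 := by
    refine ⟨_, lt_min hε0 (lt_min hε1 (div_pos4 (n := n) two_pos)), min_le_left _ _,
      (min_le_right _ _).trans (min_le_left _ _), ?_⟩
    linarith [mul_le_of4 (n := n) ((min_le_right ε0 _).trans (min_le_right ε1 (2 / _)))]
  have hB : ∀ c : ℝ, c ≤ 2 → ball (0 : En (2 * n)) (L1 n + c) ⊆ ball 0 (L1 n + 2) :=
    fun c hc => ball_subset_ball (by linarith)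
  -- the metrics
  have hs : ∀ G : ℝ → Cn n → Mat n, CF (R0 n) θ ε G → ∀ a b, ContDiffOn ℝ ∞
      (fun y => G 0 ((eR n).symm y) a b - (1 : Mat n) a b) (ball 0 (L1 n + 1)) :=
    fun G hG a b y hy => ((((hG.krf 0 h00 _ (symm_mem (hB 1 one_le_two hy))).kahAt.sm a b).comp y
      (eR n).symm.contDiff.contDiffAt).sub contDiffAt_const).contDiffWithinAt
  have H0 := ubt_re (h0 ε hε.le e0 e2 9) (fun p : {G // CF (R0 n) θ ε G} × Fin n × Fin n => p.1)
    (fun _ => 0) fun _ => ⟨by linarith, le_rfl⟩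
  have H1 : UB (L1 n + 1) 9 fun (p : {G // CF (R0 n) θ ε G} × Fin n × Fin n) y =>
      p.1.1 0 ((eR n).symm y) p.2.1 p.2.2 - (1 : Mat n) p.2.1 p.2.2 :=
    (H0.clm' (fun p : {G // CF (R0 n) θ ε G} × Fin n × Fin n => evE p.2.1 p.2.2)
      fun p => norm_evE _ _).sub
      (ub_const ⟨1, fun p : {G // CF (R0 n) θ ε G} × Fin n × Fin n =>
        (by rw [Matrix.one_apply]; split_ifs <;> simp : ‖(1 : Mat n) p.2.1 p.2.2‖ ≤ 1)⟩)
  obtain ⟨K1, hK1⟩ := (ubCb (2 * n) ℂ _ _ _ _ fun p : {G // CF (R0 n) θ ε G} × Fin n × Fin n =>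
    hs p.1.1 p.1.2 p.2.1 p.2.2).1 H1
  obtain ⟨η, hη, hI⟩ := cbInt (En (2 * n)) ℂ (L1 n + 1) (L1 n) K1 (1 / L1 n ^ 8) 8 (by linarith)
    (by positivity)
  -- the heat equation
  obtain ⟨K2, hK2⟩ := (ubCb (2 * n) (En (2 * n) →L[ℝ] ℝ) _ _ _
    (fun i : HI n θ ε => fderiv ℝ (hu i 0)) fun i y hy =>
    (((hu_cd i h00 (hB 0 zero_le_two (by simpa using hy))).comp y
      (contDiffAt_const.prodMk contDiffAt_id)).fderiv_right (m := ∞) le_rfl).contDiffWithinAt).1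
    (h1 ε hε.le e1 e2)
  have hm := lt_min hε (div_pos4 (n := n) hη)
  refine ⟨R0 n, _, (|K2| + 1) * L1 n ^ 4, one_le_R0, hm, by positivity, fun G hG => ⟨fun j hj1 hj w hw a b => ?_, fun κ f hκ hf j hj1 hj w hw => ?_⟩⟩
  · have hG' := hG.mono (min_le_left _ _)
    have h2 := hI _ (hs G hG' a b) (hK1 (⟨G, hG'⟩, a, b)) (cb_zero.2 fun y hy =>
      (hG.ent hθ hm.le ((mul_le_mul_of_nonneg_left (min_le_left _ _) (by positivity)).trans e2) h00
        (symm_mem (hB 1 one_le_two hy)) a b).trans (mul_le_of4 (min_le_right _ _))) j hj _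
        (eR_mem hw)
    obtain ⟨k, rfl⟩ : ∃ k, j = k + 1 := ⟨j - 1, by omega⟩
    rw [norm_iter_sub] at h2
    refine (norm_iter_le (F := fun y => G 0 y a b) hj h2).trans (le_of_eq ?_)
    field_simp
  · obtain ⟨k, rfl⟩ : ∃ k, j = k + 1 := ⟨j - 1, by omega⟩
    have h2 := hK2 ⟨(G, f, κ), hG.mono (min_le_left _ _), hκ, hf⟩ k (by omega) _ (eR_mem hw)
    have h3 : ‖iteratedFDeriv ℝ (k + 1) (fun y => f 0 ((eR n).symm y)) (eR n w)‖ ≤
        κ * (|K2| + 1) := by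
      have h4 : ContDiffAt ℝ ∞ (fun y => f 0 ((eR n).symm y)) (eR n w) :=
        (hf.cdR h00 (hB 0 zero_le_two (by simpa using eR_mem hw))).comp _
          (contDiffAt_const.prodMk contDiffAt_id)
      simp only [hu] at h2
      rw [norm_iteratedFDeriv_fderiv, iteratedFDeriv_const_smul_apply
        (h4.of_le (by exact_mod_cast le_top)), norm_smul, Real.norm_eq_abs,
        abs_of_pos (inv_pos.2 hκ), inv_mul_le_iff₀ hκ] at h2
      exact h2.trans (mul_le_mul_of_nonneg_left (by linarith [le_abs_self K2]) hκ.le)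
    exact (norm_iter_le (F := f 0) hj h3).trans (le_of_eq (by ring))

theorem renewStmt (hW : WrapStmt n) (hC : QCStmt n) (hQ : QlHB (2 * n) (VV n))
    (hL : LinHBi (2 * n) ℝ) : Os.RenewStmt n := hW hC (coreStmt hQ hL)

end

end Crest.Agent.T223.Rn
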