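import Crest.Agent.T223.StMAa_88

/-!
# Row 223, STEP (helper88): existence of the Monge-Ampere flow (`MAStmt`)
-/

set_option autoImplicit false
set_option linter.unusedVariables false
set_option linter.unusedSectionVars false

open Set Filter Topology Metric
open scoped ContDiff ComplexConjugate Matrix ComplexOrder

namespace Crest.Agent.T223.St

open Crest.Agent.R275.Geo Crest.Agent.R275.EDR890 Crest.Agent.R273.Hess_333
open Crest.Agent.R273.HessB_333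
open Crest.Agent.T223.Tr Crest.Agent.T223.Os
open Crest.Agent.T223.Db (eR zm rm dom SmST Adm Solves HFam)
open Crest.Agent.N207.P (En d1 pd Lop Yl)
open Crest.Agent.T223.Lx (d2 WH WS CB PicD PicO)

noncomputable section

variable {n : ℕ} {M : Type} [TopologicalSpace M] {A : Atl n M}

/-- the geometric data -/
structure Dat (G : MF A) (u0 ρ0 : M → ℝ) (W W' : Set M) (c Kρ ε : ℝ) (Ψ : M → Cn n → M) :
    Prop where
  hW : IsOpen W
  hG : KahOn G W
  hρ : SmOn A W ρ0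
  fl : ∀ x ∈ W, ρ0 x ≤ c → Fl G u0 ρ0 W ε Kρ x (Ψ x)
  hW' : IsOpen W'
  K0 : ∀ x ∈ W, ρ0 x ≤ c → x ∈ W'
  sub : W' ⊆ W
  ε1 : ε * RR n ≤ 1

/-- the support of the nonlinearity -/
def K1 (n : ℕ) (W : Set M) (ρ0 : M → ℝ) (c : ℝ) : Set M := {x | x ∈ W ∧ ρ0 x ≤ c - 4 * RR n}

/-- the cut-off function -/
def ζ1 (n : ℕ) (W : Set M) (ρ0 : M → ℝ) (c : ℝ) : M → ℝ :=
  W.indicator fun p => Real.smoothTransition (c - 4 * RR n - ρ0 p)

/-- the nonlinearity -/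
def Nl (G : MF A) (W : Set M) (ρ0 : M → ℝ) (c : ℝ) (u : ℝ → M → ℝ) (t : ℝ) (p : M) : ℝ :=
  ζ1 n W ρ0 c p * N0 G (u t) t p

variable {G : MF A} {u0 ρ0 : M → ℝ} {W W' : Set M} {c Kρ ε : ℝ} {Ψ : M → Cn n → M}

theorem ζ1_zero {p : M} (hp : p ∉ K1 n W ρ0 c) : ζ1 n W ρ0 c p = 0 := by
  by_cases h : p ∈ W
  · rw [ζ1, indicator_of_mem h]
    exact Real.smoothTransition.zero_of_nonpos (by linarith [not_le.1 fun h' => hp ⟨h, h'⟩])
  · exact indicator_of_notMem h _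

theorem ζ1_one {p : M} (h : p ∈ W) (hp : ρ0 p < c - (4 * RR n + 1)) : ζ1 n W ρ0 c p = 1 := by
  rw [ζ1, indicator_of_mem h]
  exact Real.smoothTransition.one_of_one_le (by linarith)

theorem abs_ζ1 (p : M) : |ζ1 n W ρ0 c p| ≤ 1 := by
  by_cases h : p ∈ W
  · rw [ζ1, indicator_of_mem h, abs_of_nonneg (Real.smoothTransition.nonneg _)]
    exact Real.smoothTransition.le_one _
  · rw [ζ1, indicator_of_notMem h, abs_zero]
    exact zero_le_one

theorem zz_le (z : ZZ n) (a b : Fin n) : ‖z a b‖ ≤ ‖z‖ :=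
  (norm_le_pi_norm (z a) b).trans (norm_le_pi_norm z a)

theorem le_of_K1 {x : M} (hx : x ∈ K1 n W ρ0 c) : ρ0 x ≤ c := by
  linarith [hx.2, one_le_RR n]

namespace Dat

variable (D : Dat G u0 ρ0 W W' c Kρ ε Ψ)
include D

theorem fl1 {x : M} (hx : x ∈ K1 n W ρ0 c) : Fl G u0 ρ0 W ε Kρ x (Ψ x) := D.fl x hx.1 (le_of_K1 hx)

theorem le_c {x : M} (hx : x ∈ K1 n W ρ0 c) {w : Cn n} (hw : w ∈ ball (0 : Cn n) (RR n)) :
    ρ0 (Ψ x w) ≤ c := by
  linarith [(abs_le.1 ((D.fl1 hx).osc D.hW D.hρ hw)).2, hx.2]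

theorem maps {x : M} (hx : x ∈ K1 n W ρ0 c) : MapsTo (Ψ x) (ball 0 (RR n)) W' :=
  fun w hw => D.K0 _ ((D.fl1 hx).maps hw) (D.le_c hx hw)

theorem hG' : KahOn G W' := D.hG.mono D.sub

theorem flG {x : M} (hx : x ∈ K1 n W ρ0 c) : FlG ε (pull G (Ψ x)) := (D.fl1 hx).flG D.hW D.hG

theorem cda {x : M} (hx : x ∈ K1 n W ρ0 c) {u : M → ℝ} (hu : SmOn A W' u) {w : Cn n}
    (hw : w ∈ ball (0 : Cn n) (RR n)) : ContDiffAt ℝ ∞ (fun w => u (Ψ x w)) w :=
  hu.cda_pull D.hW' (D.fl1 hx).imm.1 isOpen_ball hw (D.maps hx hw)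

/-- comparison of the Hessians in two charts -/
theorem cmp {x : M} (hx : x ∈ K1 n W ρ0 c) {u : M → ℝ} (hu : SmOn A W' u) {y : En (2 * n)}
    (hy : y ∈ ball (0 : En (2 * n)) 1) (hp : rr (Ψ x) y ∈ K1 n W ρ0 c) :
    ‖Pm n (d2 (rr fun w => u (Ψ x w)) y)‖ ≤
      2 * n ^ 2 * ‖Pm n‖ * ‖d2 (rr fun w => u (Ψ (rr (Ψ x) y) w)) 0‖ := by
  have hw := symm_mem1 hy
  have h0 : (eR n).symm 0 ∈ ball (0 : Cn n) (RR n) := by rw [map_zero]; exact zero_mem_RR
  refine (pi_norm_le_iff_of_nonneg (by positivity)).2 fun a =>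
    (pi_norm_le_iff_of_nonneg (by positivity)).2 fun b => ?_
  have h1 := congrFun (congrFun (of_Pm_d2 (D.cda hx hu hw)) a) b
  rw [Matrix.of_apply] at h1
  rw [h1, ← pull_hess D.hW' hu (D.fl1 hx).imm.1 isOpen_ball hw (D.maps hx hw), mul_assoc]
  refine cmp_pull D.hG'.tr (trOn_hess D.hW' hu) (D.fl1 hx).imm.1 (D.fl1 hp).imm.1 hw zero_mem_RR
    (D.fl1 hp).zero (D.maps hx hw) (D.fl1 hp).ctr (fun a => ?_) (fun a b => ?_) a b
  · have h2 := ((D.flG hx).near hw a a).trans D.ε1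
    rw [Matrix.one_apply_eq] at h2
    have h3 := norm_sub_norm_le (pull G (Ψ x) ((eR n).symm y) a a) 1
    rw [norm_one] at h3
    linarith
  · rw [pull_hess D.hW' hu (D.fl1 hp).imm.1 isOpen_ball zero_mem_RR (D.maps hp zero_mem_RR)]
    have h2 := congrFun (congrFun (of_Pm_d2 (D.cda hp hu h0)) a) b
    rw [Matrix.of_apply, map_zero] at h2
    rw [← h2]
    exact (zz_le _ a b).trans ((Pm n).le_opNorm _)

/-- positivity from the bounds at the centre of the chart -/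
theorem pos {η0 : ℝ} (h0 : ∀ X : Mat n, (∀ a b, ‖X a b - (1 : Mat n) a b‖ ≤ η0) → X.IsHermitian →
      X.PosDef) {x : M} (hx : x ∈ K1 n W ρ0 c) {U : Set M} (hU : IsOpen U) (hUW : U ⊆ W)
    (hxU : x ∈ U) {u : M → ℝ} (hu : SmOn A U u) {t : ℝ}
    (h1 : ∀ a b, |t| * ‖ric (pull G (Ψ x)) 0 a b‖ ≤ η0 / 2)
    (h2 : ‖Pm n (d2 (rr fun w => u (Ψ x w)) 0)‖ ≤ η0 / 2) {i : A.ι} (hi : x ∈ (A.e i).source) :
    (G i (A.e i x) - (t : ℂ) • ric (G i) (A.e i x) + hess (inC A i u) (A.e i x)).PosDef := by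
  have hF := D.fl1 hx
  have hz := hF.zero
  have h3 : ContDiffAt ℝ ∞ (fun w => u (Ψ x w)) 0 :=
    hu.cda_pull hU hF.imm.1 isOpen_ball zero_mem_RR (by rwa [hz])
  have h4 := of_Pm_d2 (F := fun w => u (Ψ x w)) (y := 0) (by rwa [map_zero])
  rw [map_zero] at h4
  have hk := (D.flG hx).kah 0 zero_mem_RR
  have h5 := pos_rel (rel_pull D.hG hF.imm isOpen_ball zero_mem_RR
    (D.hW.mem_nhds (hF.maps zero_mem_RR)) (i := i) (by rwa [hz])) (u2 := inC A i u)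
    (by rw [rd, hz]; exact hu.contDiffAt hU hi hxU)
    (comp_rd (hF.imm.1 0 zero_mem_RR).1 (by rwa [hz]) u) t (h0 _ (fun a b => ?_) ?_)
  · rwa [rd, hz] at h5
  · rw [hF.ctr, Matrix.add_apply, Matrix.sub_apply, Matrix.smul_apply, add_sub_right_comm,
      sub_sub_cancel_left, ← h4]
    refine (norm_add_le _ _).trans ?_
    rw [norm_neg, norm_smul, Complex.norm_real, Real.norm_eq_abs]
    rw [Matrix.of_apply]
    linarith [h1 a b, (zz_le _ a b).trans h2]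
  · refine (hk.posDef.isHermitian.sub ?_).add (hess_herm h3)
    have := hk.ric_herm
    rw [Matrix.IsHermitian, Matrix.conjTranspose_smul, this.eq]
    simp

/-- the nonlinearity is admissible -/
theorem adm {β : ℝ} (hβ : 0 < β) {u : ℝ → M → ℝ} (hu : SmST A (Icc 0 β) W' u)
    (hp : ∀ t ∈ Icc 0 β, ∀ x ∈ K1 n W ρ0 c, ∀ i, x ∈ (A.e i).source →
      (G i (A.e i x) - (t : ℂ) • ric (G i) (A.e i x) + hess (inC A i (u t)) (A.e i x)).PosDef) :
    Adm A (Icc 0 β) (K1 n W ρ0 c) W (Nl G W ρ0 c u) := by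
  refine ⟨?_, fun t ht x hx => by rw [Nl, ζ1_zero hx, zero_mul]⟩
  rintro i ⟨t, z⟩ ⟨ht, hz⟩
  have hs : Tendsto (fun q : ℝ × Cn n => q.2) (𝓝[Icc 0 β ×ˢ dom A i W] (t, z)) (𝓝 z) :=
    continuousAt_snd.continuousWithinAt
  have hρ : ContDiffAt ℝ ∞ (inC A i ρ0) z := (D.hρ i).contDiffAt ((isOpen_dom i D.hW).mem_nhds hz)
  by_cases hK : (A.e i).symm z ∈ K1 n W ρ0 c
  · have hz' : z ∈ dom A i W' := ⟨hz.1, D.K0 _ hK.1 (le_of_K1 hK)⟩
    have ho := isOpen_dom i D.hW'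
    have hk := kahAt_dom D.hG hz
    have hm : Icc 0 β ×ˢ dom A i W' ∈ 𝓝[Icc 0 β ×ˢ dom A i W] (t, z) := by
      filter_upwards [self_mem_nhdsWithin, hs.eventually (ho.mem_nhds hz')] with q h1 h2
      exact ⟨h1.1, h2⟩
    have h1 := hp t ht _ hK i (dom_src hz)
    rw [dom_inv hz] at h1
    have h2 : ContDiffWithinAt ℝ ∞ (fun q : ℝ × Cn n =>
        Real.smoothTransition (c - 4 * RR n - inC A i ρ0 q.2) *
          Ph0 (G i q.2) (ric (G i) q.2) q.1 (hess (inC A i (u q.1)) q.2))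
        (Icc 0 β ×ˢ dom A i W) (t, z) :=
      (Real.smoothTransition.contDiff.comp_contDiffWithinAt
        (contDiffAt_const.sub (cd_static t hρ)).contDiffWithinAt).mul
      (cdw_Ph0 (fun a b => (cd_static t (hk.sm a b)).contDiffWithinAt)
        (fun a b => (cd_static t (hk.smM_ric a b)).contDiffWithinAt) contDiffWithinAt_fst
        (fun a b => (cdo_hess hβ ho (f := fun s => inC A i (u s)) (hu i) a b (t, z)
          ⟨ht, hz'⟩).mono_of_mem_nhdsWithin hm) (det_re_pos hk.posDef).ne' (det_re_pos h1).ne')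
    refine h2.congr_of_eventuallyEq_of_mem ?_ ⟨ht, hz⟩
    filter_upwards [hm] with q hq
    rw [Nl, N0_chart D.hG' D.hW' (smOn_of_SmST hu hq.1) _ hq.2, ζ1, indicator_of_mem (D.sub hq.2.2)]
    rfl
  · have h1 : c - 4 * RR n < inC A i ρ0 z := not_le.1 fun h => hK ⟨hz.2, h⟩
    refine (contDiffWithinAt_const (c := (0 : ℝ))).congr_of_eventuallyEq_of_mem ?_ ⟨ht, hz⟩
    filter_upwards [hs.eventually (hρ.continuousAt.eventually_const_lt h1)] with q hq
    rw [Nl, ζ1_zero (p := (A.e i).symm q.2) (ρ0 := ρ0) fun h => absurd h.2 (not_le.2 hq), zero_mul]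

theorem hfam (I : Set ℝ) : HFam A I W fun i _ z => G i z :=
  ⟨fun i a b q hq => (cd_static q.1 ((kahAt_dom D.hG hq.2).sm a b)).contDiffWithinAt,
    fun i t _ z hz => (kahAt_dom D.hG hz).posDef,
    fun i j t _ x hx hi hj => D.hG.tr i j x ⟨hi, hj⟩ hx⟩

/-- the linear equation in the chart -/
theorem ev {β : ℝ} {f w : ℝ → M → ℝ} (h : Solves A 0 β W' (fun i _ z => G i z) f w) {x : M}
    (hx : x ∈ K1 n W ρ0 c) : N207.X.Ev (Icc 0 β) (ball 0 1) (fun t y => w t (rr (Ψ x) y))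
      fun t y => Lop (rm (rr (pull G (Ψ x)) y)) (fun z => w t (rr (Ψ x) z)) y + f t (rr (Ψ x) y) := by
  intro t ht y hy
  have hw := symm_mem1 hy
  have hp := D.maps hx hw
  have hi := ch_mem A (Ψ x ((eR n).symm y))
  have h1 := h.eqn _ t ht _ (mem_dom hi hp)
  have hs := smOn_of_SmST h.sm ht
  have h2 := lap_pull D.hG' D.hW' (D.fl1 hx).imm isOpen_ball hw hp hi hs
  rw [(A.e _).left_inv hi] at h1
  refine h1.congr_deriv ?_
  beta_reduce
  rw [lop_rm]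
  congr 1
  refine h2.trans ?_
  rw [lap, ← of_Pm_d2 (D.cda hx hs hw)]
  rfl

end Dat

theorem Adm.K0 {I : Set ℝ} {f : ℝ → M → ℝ} (h : Adm A I (K1 n W ρ0 c) W f) :
    Adm A I {x | x ∈ W ∧ ρ0 x ≤ c} W f :=
  ⟨h.sm, fun t ht x hx => h.supp t ht x fun h' => hx ⟨h'.1, le_of_K1 h'⟩⟩

theorem ws_mono {m : ℕ} {V : Type*} [NormedAddCommGroup V] {S : Set (En m)} {a b : ℝ}
    {g : En m → V} (h : WS S a g) (hab : a ≤ b) : WS S b g := fun s y hy => (h s y hy).trans hab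

theorem wh_mono {m : ℕ} {V : Type*} [NormedAddCommGroup V] {S : Set (En m)} {a b : ℝ}
    {g : En m → V} (h : WH S a g) (hab : a ≤ b) : WH S b g := fun s y y' hy hy' =>
  (h s y y' hy hy').trans (mul_le_mul_of_nonneg_right hab (Real.sqrt_nonneg _))

end

theorem maStmt {n : ℕ} (hP : Lx.PicStmt (2 * n)) (hL : Db.LinSolStmt n) (hN : NemStmt n)
    (hR : RegStmt n) (hT : TrfStmt n) : MAStmt n := by
  intro η hη
  obtain ⟨δ, hδ, hP⟩ := hP (rm (1 : Mat n)) (Db.rm_pos Matrix.PosDef.one)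
  obtain ⟨K0, hK0, hN⟩ := hN δ hδ
  obtain ⟨L, hL0, hLs⟩ := lip_sT
  obtain ⟨η0, hη0, h0⟩ := exists_η0 n
  obtain ⟨η2, hη2, hR⟩ := hR
  have hRR := one_le_RR n
  have hPm := norm_nonneg (Pm n)
  obtain ⟨K, hK⟩ : ∃ K : ℝ, K = K0 + ‖Pm n‖ + 2 * n ^ 2 * ‖Pm n‖ + L * (4 * (RR n * √(2 * 1))) :=
    ⟨_, rfl⟩
  have a1 : 0 ≤ 2 * (n : ℝ) ^ 2 * ‖Pm n‖ := by positivity
  have a2 : 0 ≤ L * (4 * (RR n * √(2 * 1))) := by positivity
  have k0 : K0 ≤ K := by linarith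
  have k1 : ‖Pm n‖ ≤ K := by linarith
  have k2 : 2 * (n : ℝ) ^ 2 * ‖Pm n‖ ≤ K := by linarith
  have k3 : L * (4 * (RR n * √(2 * 1))) ≤ K := by linarith
  obtain ⟨ε', hε', N, hN0, hP⟩ := hP K (hK0.trans k0)
  obtain ⟨η1, hη1, hN⟩ := hN ε' hε'
  obtain ⟨ρ, hρ0, r1, r2, r3, r4, r5, r6⟩ : ∃ ρ : ℝ, 0 < ρ ∧ ρ ≤ 1 ∧ ρ ≤ η ∧ ρ ≤ η1 ∧ ρ ≤ η2 ∧
      ρ * K0 ≤ η0 / 2 ∧ ρ * RR n ≤ 1 := by
    refine ⟨min (min (min 1 η) (min η1 η2)) (min (η0 / 2 / K0) (1 / RR n)), by positivity,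
      by simp, by simp, by simp, by simp, ?_, ?_⟩
    · rw [← le_div_iff₀ (by positivity)]; simp
    · rw [← le_div_iff₀ (by positivity)]; simp
  have r7 : ρ ≤ η0 / 2 := (le_mul_of_one_le_right hρ0.le hK0).trans r5
  obtain ⟨τ0, hτ0, hP⟩ := hP ρ hρ0 r1
  obtain ⟨β, hβ, b1, b2⟩ : ∃ β : ℝ, 0 < β ∧ β ≤ ρ ∧ β ≤ τ0 :=
    ⟨min ρ τ0, lt_min hρ0 hτ0, min_le_left _ _, min_le_right _ _⟩
  refine ⟨ρ, β, N + 1, 4 * RR n + 1, hρ0, r2, hβ, b1.trans r2, by positivity, ?_⟩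
  intro M _ _ _ A G u0 ρ0 W c Kρ Ψ hW hG hρ hK hF
  have hfam : HFam A (Icc 0 β) W fun i _ z => G i z :=
    Dat.hfam (W' := W) ⟨hW, hG, hρ, hF, hW, fun x hx _ => hx, Subset.rfl, r6⟩ _
  obtain ⟨W', hW', hKW, hWW, S, hS, hmx, hmx2⟩ :=
    hL M A _ W hK hW (fun x hx => hx.1) 0 β hβ _ hfam
  have D : Dat G u0 ρ0 W W' c Kρ ρ Ψ :=
    ⟨hW, hG, hρ, hF, hW', fun x hx hx' => hKW ⟨hx, hx'⟩, hWW, r6⟩
  have nem := fun x (hx : x ∈ K1 n W ρ0 c) => hN _ ((D.flG hx).mono r3)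
  have z1 : (0 : En (2 * n)) ∈ ball (0 : En (2 * n)) 1 := mem_ball_self one_pos
  have hric : ∀ t ∈ Icc 0 β, ∀ x ∈ K1 n W ρ0 c, ∀ a b,
      |t| * ‖ric (pull G (Ψ x)) 0 a b‖ ≤ η0 / 2 := fun t ht x hx a b => by
    have h1 := (nem x hx).2.2.1 0 z1 a b
    rw [rr_zero] at h1
    rw [abs_of_nonneg ht.1]
    exact (mul_le_mul (ht.2.trans b1) h1 (norm_nonneg _) hρ0.le).trans r5
  have tI : ∀ t ∈ Icc 0 β, t ∈ Icc 0 η1 := fun t ht => ⟨ht.1, ht.2.trans (b1.trans r3)⟩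
  have hpic : PicD (rm (1 : Mat n)) δ K ε' ρ 0 β (K1 n W ρ0 c) (fun x => rr (Ψ x)) (Pm n)
      (SmST A (Icc 0 β) W') (Adm A (Icc 0 β) (K1 n W ρ0 c) W) S (Nl G W ρ0 c)
      (fun x t y => rm (rr (pull G (Ψ x)) y)) (fun x y => ζ1 n W ρ0 c (rr (Ψ x) y))
      fun x => Ph (pull G (Ψ x)) :=
    { ctr := fun x hx => by rw [rr_zero, (D.fl1 hx).zero]
      nP := k1
      sm0 := fun i => contDiffOn_const
      smS := fun f hf => (hS f (Adm.K0 hf)).sm
      smY := fun u hu x hx => N207.P.yl_of_contDiffOn isCompact_Icc (uniqueDiffOn_Icc hβ)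
        isOpen_ball (cdo_rr2 (F := fun t w => u t (Ψ x w))
          ((hT M A _ u).1 W' _ _ hW' isOpen_ball (D.fl1 hx).imm (D.maps hx) hu))
      adC := fun f hf x hx => (cdo_rr2 (F := fun t w => f t (Ψ x w))
        ((hT M A _ f).1 W _ _ hW isOpen_ball (D.fl1 hx).imm (D.fl1 hx).maps hf.sm)).continuousOn.mono
          (prod_mono Subset.rfl (ball_subset_ball one_le_two))
      init := fun f hf x hx y hy => (hS f (Adm.K0 hf)).init _ (D.maps hx (symm_mem1 hy))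
      ev := fun f hf x hx => D.ev (hS f (Adm.K0 hf)) hx
      mx := fun f hf C hC h t ht x hx y hy => by
        refine (hmx f (Adm.K0 hf) C hC t ht (fun s hs p _ => ?_) _ (D.maps hx (symm_mem1 hy))).trans
          (mul_le_mul_of_nonneg_right (by linarith [ht.2]) hC)
        have hs' : s ∈ Icc 0 β := ⟨hs.1, hs.2.trans ht.2⟩
        by_cases hp : p ∈ K1 n W ρ0 c
        · exact h s hs' p hp
        · rwa [hf.supp s hs' p hp, abs_zero]
      mx2 := fun f f' hf hf' C hC h t ht x hx y hy => by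
        have h1 : ∀ s ∈ Icc 0 t, ∀ p, |f s p - f' s p| ≤ C := fun s hs p => by
          have hs' : s ∈ Icc 0 β := ⟨hs.1, hs.2.trans ht.2⟩
          by_cases hp : p ∈ K1 n W ρ0 c
          · exact h s hs' p hp
          · rwa [hf.supp s hs' p hp, hf'.supp s hs' p hp, sub_zero, abs_zero]
        have h2 := hmx2 f f' (Adm.K0 hf) (Adm.K0 hf') C hC t ht
          (fun s hs p _ => (abs_le.1 (h1 s hs p)).2) _ (D.maps hx (symm_mem1 hy))
        have h3 := hmx2 f' f (Adm.K0 hf') (Adm.K0 hf) C hC t ht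
          (fun s hs p _ => by linarith [(abs_le.1 (h1 s hs p)).1]) _ (D.maps hx (symm_mem1 hy))
        have h4 : (t - 0) * C ≤ (β - 0) * C := mul_le_mul_of_nonneg_right (by linarith [ht.2]) hC
        exact abs_le.2 ⟨by simp only [rr]; linarith, h2.trans h4⟩
      ac := fun x hx k l q hq => by
        have hk := (D.flG hx).kah _ (symm_mem1 hq.2)
        exact (Db.cd_rm (G := fun q : ℝ × En (2 * n) => rr (pull G (Ψ x)) q.2)
          (fun a b => ((cda_rr (F := fun w => pull G (Ψ x) w a b) (hk.sm a b)).comp q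
            contDiffAt_snd).contDiffWithinAt) hk.det_ne k l).continuousWithinAt
      cl := fun x hx t ht => (nem x hx).1
      ah := fun x hx t ht y hy y' hy' k l => ((nem x hx).2.1 y hy y' hy' k l).trans
        (mul_le_mul_of_nonneg_right k0 (Real.sqrt_nonneg _))
      cmp := fun u u' hu hu' t ht x hx y hy hp =>
        (D.cmp hx (u := fun p => u t p - u' t p) (fun i => (smOn_of_SmST hu ht i).sub
          (smOn_of_SmST hu' ht i)) hy hp).trans (mul_le_mul_of_nonneg_right k2 (norm_nonneg _))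
      nlA := fun u hu h => D.adm hβ hu fun t ht x hx i hi =>
        D.pos (fun X hX => (h0 X hX).2.2) hx hW' hWW (hKW ⟨hx.1, le_of_K1 hx⟩) (smOn_of_SmST hu ht)
          (hric t ht x hx) (((Pm n).le_of_opNorm_le_of_le k1 (h t ht x hx)).trans (by
            rw [mul_div_cancel₀ _ (by linarith)]; exact r7)) hi
      nlE := fun u hu t ht x hx y hy => by
        have hw := symm_mem1 hy
        have hs := smOn_of_SmST hu ht
        have h1 := N0_pull D.hG' hW' hs t (D.fl1 hx).imm isOpen_ball hw (D.maps hx hw)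
        rw [← of_Pm_d2 (D.cda hx hs hw)] at h1
        exact congrArg (ζ1 n W ρ0 c (rr (Ψ x) y) * ·) h1
      z0 := fun x hx y hy h => ζ1_zero h
      z1 := fun x hx y hy => abs_ζ1 _
      zL := fun x hx y hy y' hy' => by
        have hw := symm_mem1 hy
        have hw' := symm_mem1 hy'
        have h1 := (D.fl1 hx).lip hW hρ hw hw'
        have h2 := norm_symm_le (y - y')
        rw [map_sub, ← dist_eq_norm y] at h2
        have h3 := Lx.dist_le_sqrt hy hy'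
        simp only [ζ1, rr, indicator_of_mem ((D.fl1 hx).maps hw),
          indicator_of_mem ((D.fl1 hx).maps hw')]
        refine (hLs _ _).trans (le_trans ?_ (mul_le_mul_of_nonneg_right k3 (Real.sqrt_nonneg _)))
        rw [sub_sub_sub_cancel_left, abs_sub_comm, mul_assoc L, mul_assoc 4, mul_assoc (RR n)]
        exact mul_le_mul_of_nonneg_left (h1.trans (mul_le_mul_of_nonneg_left (h2.trans
          (mul_le_mul_of_nonneg_left h3 (by linarith))) (by norm_num))) hL0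
      p0 := fun x hx t ht y hy => ((nem x hx).2.2.2 t (tI t ht) y hy).1.trans k0
      p0h := fun x hx t ht y hy y' hy' => (((nem x hx).2.2.2 t (tI t ht) y hy).2.1 y' hy').trans
        (mul_le_mul_of_nonneg_right k0 (Real.sqrt_nonneg _))
      lip := fun x hx t ht y hy z z' hz hz' => (((nem x hx).2.2.2 t (tI t ht) y hy).2.2.1 z z'
        (hz.trans r3) (hz'.trans r3)).trans (mul_le_mul_of_nonneg_right k0 (norm_nonneg _))
      sec := fun x hx t ht y hy y' hy' z z' e e' hz hz' he he' =>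
        (((nem x hx).2.2.2 t (tI t ht) y hy).2.2.2 y' hy' z z' e e' (hz.trans r3) (hz'.trans r3)
          (he.trans r3) (he'.trans r3)).trans (by gcongr) }
  obtain ⟨v, hv⟩ := hP M (ZZ n) 0 β _ _ _ _ _ _ _ _ _ _ hβ (by linarith) hpic
  have hV := isOpen_sub hW hρ (c - (4 * RR n + 1))
  have vK : ∀ x ∈ W, ρ0 x < c - (4 * RR n + 1) → x ∈ K1 n W ρ0 c := fun x hx h => ⟨hx, by linarith⟩
  have hsm : SmST A (Icc 0 β) {x | x ∈ W ∧ ρ0 x < c - (4 * RR n + 1)} v := by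
    refine (hT M A _ v).2 _ fun x hx => ?_
    have hx' := vK x hx.1 hx.2
    have hF := D.fl1 hx'
    have hU : IsOpen (ball (0 : En (2 * n)) 1 ∩
        rr (Ψ x) ⁻¹' {x | x ∈ W ∧ ρ0 x < c - (4 * RR n + 1)}) :=
      (hF.imm.1.continuousOn.comp (eR n).symm.continuous.continuousOn
        fun y hy => symm_mem1 hy).isOpen_inter_preimage isOpen_ball hV
    have h1 := hR β _ _ (fun t y => v t (rr (Ψ x) y)) hβ (b1.trans r4) ((D.flG hx').mono r4) hU
      inter_subset_left ((hv.yl x hx').mono Subset.rfl inter_subset_left)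
      (fun y hy => hv.init x hx' y hy.1)
      (fun t ht y hy => (hv.sP x hx' t ht y hy.1 (vK _ hy.2.1 hy.2.2)).trans r4)
      fun t ht y hy => (hv.ev x hx' t ht y hy.1).congr_deriv (by
        beta_reduce; rw [ζ1_one hy.2.1 hy.2.2, one_mul])
    refine ⟨Ψ x, eR n ⁻¹' _, hU.preimage (eR n).continuous, hF.imm.mono fun w hw => ?_,
      ⟨0, ⟨by rwa [map_zero], ?_⟩, hF.zero⟩, ?_⟩
    · simpa using symm_mem1 hw.1
    · rw [mem_preimage, rr_eR, hF.zero]; exact hx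
    · exact (h1.comp (contDiff_fst.prodMk ((eR n).contDiff.comp contDiff_snd)).contDiffOn
        fun q hq => ⟨hq.1, hq.2⟩).congr fun q hq => by simp
  have hsP : ∀ t ∈ Icc 0 β, ∀ x ∈ K1 n W ρ0 c, ‖Pm n (d2 (rr fun w => v t (Ψ x w)) 0)‖ ≤ ρ :=
    fun t ht x hx => hv.sP x hx t ht 0 z1 (by rw [rr_zero, (D.fl1 hx).zero]; exact hx)
  have hpos : ∀ t ∈ Icc 0 β, ∀ i, ∀ z ∈ dom A i {x | x ∈ W ∧ ρ0 x < c - (4 * RR n + 1)},
      (gM G v t i z).PosDef := fun t ht i z hz => by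
    have hx := vK _ hz.2.1 hz.2.2
    have h1 := D.pos (fun X hX => (h0 X hX).2.2) hx hV (fun _ h => h.1) hz.2 (smOn_of_SmST hsm ht)
      (hric t ht _ hx) ((hsP t ht _ hx).trans r7) (dom_src hz)
    rwa [dom_inv hz] at h1
  have hcd : ∀ t ∈ Icc 0 β, ∀ x ∈ W, ρ0 x < c - (4 * RR n + 1) →
      ContDiffAt ℝ ∞ (fun w => v t (Ψ x w)) ((eR n).symm 0) := fun t ht x hx hx' => by
    rw [map_zero]
    exact (smOn_of_SmST hsm ht).cda_pull hV (D.fl1 (vK x hx hx')).imm.1 isOpen_ball zero_mem_RR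
      (by rw [(D.fl1 (vK x hx hx')).zero]; exact ⟨hx, hx'⟩)
  refine ⟨v, ⟨hsm, fun x hx => ?_, hpos, fun t ht i z hz => ?_⟩, fun x hx hx' s hs =>
    ⟨fun a b => ?_, fun y hy => ?_, wh_mono (hv.wh x (vK x hx hx') s hs) (by linarith),
      ws_mono (hv.s2 x (vK x hx hx') s hs) (by linarith),
      ws_mono (hv.s1 x (vK x hx hx') s hs) (by linarith)⟩⟩
  · have h1 := hv.init x (vK x hx.1 hx.2) 0 z1
    rwa [rr_zero, (D.fl1 (vK x hx.1 hx.2)).zero] at h1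
  · have hx := vK _ hz.2.1 hz.2.2
    have hF := D.fl1 hx
    have hs := smOn_of_SmST hsm ht
    have hGV : KahOn G {x | x ∈ W ∧ ρ0 x < c - (4 * RR n + 1)} := hG.mono fun _ h => h.1
    have hx0 : Ψ ((A.e i).symm z) 0 ∈ {x | x ∈ W ∧ ρ0 x < c - (4 * RR n + 1)} := by
      rw [hF.zero]; exact hz.2
    have h1 := hv.ev _ hx t ht 0 z1
    have h2 := of_Pm_d2 (hcd t ht _ hz.2.1 hz.2.2)
    have h3 := N0_pull hGV hV hs t hF.imm isOpen_ball zero_mem_RR hx0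
    have h4 := lap_pull hGV hV hF.imm isOpen_ball zero_mem_RR hx0 (by rw [hF.zero]; exact dom_src hz) hs
    rw [hF.zero, N0_chart hGV hV hs t hz] at h3
    rw [hF.zero, dom_inv hz, lap, lap] at h4
    simp only [rr_zero, hF.zero, lop_rm, Ph, ζ1_one hz.2.1 hz.2.2, one_mul] at h1
    rw [map_zero] at h2
    refine h1.congr_deriv ?_
    erw [h2]
    rw [← h3, ← h4, Ph0, add_sub_cancel]
    exact Real.log_div (det_re_pos (hpos t ht i z hz)).ne'
      (det_re_pos (kahAt_dom hGV hz).posDef).ne'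
  · have h2 := of_Pm_d2 (hcd s hs x hx hx')
    rw [map_zero] at h2
    rw [← h2]
    exact (zz_le _ a b).trans ((hsP s hs x (vK x hx hx')).trans r2)
  · refine (hv.sup x (vK x hx hx') s hs y hy).trans ?_
    nlinarith [b1.trans r1]

end Crest.Agent.T223.St
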