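import Crest.Agent.T223.OsInt_21
import Crest.Agent.T223.OsLb_43
import Crest.Agent.T223.OsLl_45
import Crest.Agent.T223.OsInitG_81
import Crest.Agent.T223.Rn2_44
import Crest.Agent.T223.RnWr_17
import Crest.Agent.T223.QcFin_47
import Crest.Agent.T223.LxHB4_25
import Crest.Agent.T223.LxIS_83
import Crest.Agent.T223.LxReg_54
import Crest.Agent.T223.LxPic_83
import Crest.Agent.T223.DbSol_88
import Crest.Agent.T223.StChK_51
import Crest.Agent.T223.StCru_66
import Crest.Agent.T223.StFlow_33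
import Crest.Agent.T223.StHeat_25
import Crest.Agent.T223.StMA_88
import Crest.Agent.T223.StReg_54
import Crest.Agent.T223.StSc_54
import Crest.Agent.T223.StTrf_33

/-!
# Row 223, module OSG (helper21): more leaves are plugged in
-/

set_option autoImplicit false

namespace Crest.Agent.T223.Os

theorem renewStmt21 (n : ℕ) : RenewStmt n :=
  Rn.renewStmt (Rn.wrapStmt n) (Qc47.qcStmt n) (Lx.qlHB (Lx.isStep _ _) (Lx.intStmt _ _))
    (Lx.linHBi (Lx.isStep _ _) (Lx.intStmt _ _))

theorem stepStmt21 {n : ℕ} (hA : St.AsmStmt n) (hN : St.NemStmt n) (hH : St.ChHStmt n) :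
    StepStmt n :=
  St.scaleStmt n (hA (St.trfStmt n) (St.flowStmt n) (St.heatStmt (Db.linSol n))
    (St.maStmt (Lx.picStmt _) (Db.linSol n) hN (St.regStmt (Lx.fnReg (Lx.isStmt _ _)))
      (St.trfStmt n))
    (St.chKStmt (Lx.fnHB (Lx.isStep _ _) (Lx.intStmt _ _))) hH (St.cruStmt n))

theorem osgStmt2 {n : ℕ} (hn : 1 ≤ n) (ha : LaStmt n) (hStep : StepStmt n) : OsgStmt n :=
  osgStmt1 hn ha (Lb43.lbStmt n) (llStmt n) hStep (renewStmt21 n) (initGStmt n)

end Crest.Agent.T223.Os
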