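import Crest.Agent.T223.OsInt2_21
import Crest.Agent.T223.OsLa_10
import Crest.Agent.T223.CnW_87
import Crest.Agent.T223.StNem_16
import Crest.Agent.T223.StInt_88

/-!
# Row 223, module OSG (helper21): only the assembly of STEP is left
-/

set_option autoImplicit false

namespace Crest.Agent.T223.Os

theorem osgStmt3 {n : ℕ} (hn : 1 ≤ n) (hA : St.AsmStmt n) : OsgStmt n :=
  osgStmt2 hn (laStmt (Cn.lyhPtStmt n)) (St.stepStmt_of2 (St.nemStmt n) hA)

end Crest.Agent.T223.Os
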