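import Crest.Agent.T223.OsBas_21
import Crest.Agent.T223.Bx_45
import Crest.Agent.T223.EvC_41

/-!
# Row 223, module OSG, leaf (g) (helper41), part A: the contact point in one chart
-/

set_option autoImplicit false
set_option linter.unusedVariables false
set_option linter.unusedSectionVars false

open Set Filter Topology Metric
open scoped ContDiff ComplexConjugate Matrix ComplexOrder

namespace Crest.Agent.T223.Os.Lg41

open Crest.Agent.R275.Geo Crest.Agent.R273.Hess_333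
open Crest.Agent.T223.Br Crest.Agent.T223.Bx
open Crest.Agent.T223.Tr (nq)
open Crest.Agent.T223.Ev (HeatAt)

noncomputable section

variable {n : ℕ} {P : Par}

/-! ### calculus of `Ψ` -/

theorem hasDerivAt_ell_x {y s : ℝ} (hX : 0 < y + P.ρs s) :
    HasDerivAt (fun y => P.ell y s) (y + P.ρs s)⁻¹ y := by
  have := ((((hasDerivAt_id y).add_const (P.ρs s)).log hX.ne').add_const P.B).add_const
    (Real.log (1 + 1 / P.τ s))
  simpa [Par.ell] using this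

theorem hasDerivAt_Ψ_x {y s : ℝ} (hX : 0 < y + P.ρs s) :
    HasDerivAt (fun y => P.Ψ y s)
      (2 * (y + P.ρs s) * P.ell y s ^ 2 + 2 * (y + P.ρs s) * P.ell y s) y := by
  have := (((hasDerivAt_id y).add_const (P.ρs s)).pow 2).mul ((hasDerivAt_ell_x hX).pow 2)
  refine this.congr_deriv ?_
  simp only [id, Pi.pow_apply]
  field_simp
  ring

theorem hasDerivAt_Ψ_xx {y s : ℝ} (hX : 0 < y + P.ρs s) :
    HasDerivAt (fun y => 2 * (y + P.ρs s) * P.ell y s ^ 2 + 2 * (y + P.ρs s) * P.ell y s)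
      (2 * P.ell y s ^ 2 + 6 * P.ell y s + 2) y := by
  have h1 := ((hasDerivAt_id y).add_const (P.ρs s)).const_mul 2
  have := (h1.mul ((hasDerivAt_ell_x hX).pow 2)).add (h1.mul (hasDerivAt_ell_x hX))
  refine this.congr_deriv ?_
  simp only [id, Pi.pow_apply]
  field_simp
  ring

theorem hasDerivAt_ρs (s : ℝ) : HasDerivAt P.ρs (2 * P.B * (1 + s)) s := by
  have := ((((hasDerivAt_id s).const_add 1).pow 2).const_mul P.B)
  refine this.congr_deriv ?_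
  simp only [id]
  ring

theorem hasDerivAt_ell_s {y s : ℝ} (hX : 0 < y + P.ρs s) (hτ : 0 < P.τ s) :
    HasDerivAt (fun s => P.ell y s)
      (2 * P.B * (1 + s) / (y + P.ρs s) - 1 / (P.τ s * (P.τ s + 1))) s := by
  have h1 : HasDerivAt P.τ 1 s := (hasDerivAt_id s).add_const P.tA
  have h2 : HasDerivAt (fun s => 1 + 1 / P.τ s) (-1 / P.τ s ^ 2) s := by
    have := (h1.inv hτ.ne').const_add 1
    simpa only [one_div, Pi.inv_apply] using this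
  have h3 : 0 < 1 + 1 / P.τ s := by positivity
  have := (((((hasDerivAt_ρs s).const_add y).log hX.ne').add_const P.B)).add (h2.log h3.ne')
  refine this.congr_deriv ?_
  field_simp
  ring

theorem exists_Ψ_s (h : P.Ok) {y s : ℝ} (hy : 0 ≤ y) (hs : 0 ≤ s) :
    ∃ D, HasDerivAt (fun s => P.Ψ y s) D s ∧ -(2 / P.B * P.Ψ y s) ≤ P.τ s * D := by
  have hX : 0 < y + P.ρs s := by linarith [h.one_le_ρs hs]
  have hτ := h.τ_pos hs
  have h1 := (((hasDerivAt_ρs (P := P) s).const_add y).pow 2).mul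
    ((hasDerivAt_ell_s hX hτ).pow 2)
  refine ⟨_, h1, ?_⟩
  simp only [Pi.pow_apply]
  have hl := h.B_le_ell hy hs
  have hB := h.B0
  have hl0 := h.ell_pos hy hs
  set X := y + P.ρs s
  set l := P.ell y s
  set τ := P.τ s
  have e : τ * (((2 : ℕ) : ℝ) * X ^ (2 - 1) * (2 * P.B * (1 + s)) * l ^ 2 +
      X ^ 2 * (((2 : ℕ) : ℝ) * l ^ (2 - 1) * (2 * P.B * (1 + s) / X - 1 / (τ * (τ + 1))))) =
      τ * (4 * X * P.B * (1 + s) * l ^ 2 + 4 * X * l * P.B * (1 + s)) - 2 * X ^ 2 * l / (τ + 1) := by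
    push_cast
    field_simp
    ring
  rw [e]
  have h2 : 0 ≤ τ * (4 * X * P.B * (1 + s) * l ^ 2 + 4 * X * l * P.B * (1 + s)) := by positivity
  have h3 : 2 * X ^ 2 * l / (τ + 1) ≤ 2 * X ^ 2 * l :=
    div_le_self (by positivity) (by linarith)
  have h4 : 2 * X ^ 2 * l ≤ 2 / P.B * P.Ψ y s := by
    change _ ≤ 2 / P.B * (X ^ 2 * l ^ 2)
    rw [div_mul_eq_mul_div, le_div_iff₀ hB]
    have : 0 ≤ X ^ 2 * l := by positivity
    nlinarith
  linarith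

theorem τ_Ψ_xx (h : P.Ok) {y s : ℝ} (hy : 0 ≤ y) (hs : 0 ≤ s) :
    P.τ s * (2 * P.ell y s ^ 2 + 6 * P.ell y s + 2) ≤ 10 / P.B * P.Ψ y s := by
  have hl := h.B1.trans (h.B_le_ell hy hs)
  have hB := h.B0
  have hB1 := h.B1
  have h1 := h.lin_le_ρs hs
  have h2 := h.τ_le (s := s)
  have hτ := h.τ_pos hs
  have h3 := h.one_le_ρs hs
  change _ ≤ 10 / P.B * ((y + P.ρs s) ^ 2 * P.ell y s ^ 2)
  set X := y + P.ρs s
  set l := P.ell y s
  have h4 : P.τ s * P.B ≤ X ^ 2 := by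
    have : P.τ s * P.B ≤ X := by nlinarith
    have : 1 ≤ X := by linarith
    nlinarith
  rw [div_mul_eq_mul_div, le_div_iff₀ hB]
  have h5 : 2 * l ^ 2 + 6 * l + 2 ≤ 10 * l ^ 2 := by nlinarith
  calc P.τ s * (2 * l ^ 2 + 6 * l + 2) * P.B = (P.τ s * P.B) * (2 * l ^ 2 + 6 * l + 2) := by ring
    _ ≤ X ^ 2 * (10 * l ^ 2) := mul_le_mul h4 h5 (by positivity) (by positivity)
    _ = _ := by ring

theorem cd_Ψ {y s : ℝ} (hX : 0 < y + P.ρs s) (hτ : 0 < P.τ s) :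
    ContDiffAt ℝ ∞ (fun q : ℝ × ℝ => P.Ψ q.2 q.1) (s, y) := by
  have h1 : ContDiffAt ℝ ∞ (fun q : ℝ × ℝ => q.2 + P.ρs q.1) (s, y) := by
    unfold Par.ρs; fun_prop
  have h2 : ContDiffAt ℝ ∞ (fun q : ℝ × ℝ => P.τ q.1) (s, y) := by
    unfold Par.τ; fun_prop
  have h3 : 0 < 1 + 1 / P.τ s := by positivity
  exact (h1.pow 2).mul ((((h1.log hX.ne').add contDiffAt_const).add
    ((contDiffAt_const.add (contDiffAt_const.div h2 hτ.ne')).log h3.ne')).pow 2)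

variable {g : ℝ → Cn n → Mat n} {u ρ : ℝ → Cn n → ℝ} {s : ℝ} {z : Cn n}

theorem rg_Ψ (h : P.Ok) (hρ : Rg ρ s z) (h0 : 0 ≤ ρ s z) (hs : 0 ≤ s) :
    Rg (fun s w => P.Ψ (ρ s w) s) s z :=
  Rg.comp₂ (F := fun s y => P.Ψ y s)
    (cd_Ψ (by linarith [h.one_le_ρs hs]) (h.τ_pos hs)) hρ

/-- `Ψ (ρ, s)` is almost a supersolution -/
theorem box_Ψ_ge (h : P.Ok) (hg : (g s z).PosDef) (hρ : Rg ρ s z) (hb : box g ρ s z = 0)
    (h0 : 0 ≤ ρ s z) (hs : 0 ≤ s) (hK : gsq (g s) (ρ s) z ≤ P.K) :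
    -(12 * P.K / P.B * P.Ψ (ρ s z) s) ≤ P.τ s * box g (fun s w => P.Ψ (ρ s w) s) s z := by
  have hX : 0 < ρ s z + P.ρs s := by linarith [h.one_le_ρs hs]
  obtain ⟨D, hD, hD'⟩ := exists_Ψ_s h h0 hs
  have hev : ∀ᶠ y in 𝓝 (ρ s z), 0 < y + P.ρs s :=
    (continuous_id.add continuous_const).continuousAt.eventually (lt_mem_nhds hX)
  rw [box_chain₂ (F := fun s y => P.Ψ y s)
    ((cd_Ψ hX (h.τ_pos hs)).differentiableAt (by simp)) hD
    (hev.mono fun y hy => hasDerivAt_Ψ_x hy) (hasDerivAt_Ψ_xx hX) hρ, hb]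
  have h1 := τ_Ψ_xx h h0 hs
  have h2 := gsq_nonneg (g := g s) (u := ρ s) hg
  have hl := h.ell_pos h0 hs
  have hτ := h.τ_pos hs
  have hΨ := h.Ψ_pos h0 hs
  have hB := h.B0
  have h3 : P.τ s * (2 * P.ell (ρ s z) s ^ 2 + 6 * P.ell (ρ s z) s + 2) * gsq (g s) (ρ s) z ≤
      10 / P.B * P.Ψ (ρ s z) s * P.K := mul_le_mul h1 hK h2 (by positivity)
  have h4 : 2 / P.B * P.Ψ (ρ s z) s ≤ 2 / P.B * P.Ψ (ρ s z) s * P.K :=
    le_mul_of_one_le_right (by positivity) h.K_1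
  have h5 : 12 * P.K / P.B * P.Ψ (ρ s z) s =
      10 / P.B * P.Ψ (ρ s z) s * P.K + 2 / P.B * P.Ψ (ρ s z) s * P.K := by ring
  nlinarith

/-! ### the Bernstein quantity in a chart -/

/-- `Os.Phi` in a chart -/
def PhiC (P : Par) (g : ℝ → Cn n → Mat n) (u : ℝ → Cn n → ℝ) (s : ℝ) (z : Cn n) : ℝ :=
  P.τ s * scal (g s) z + 16 * n * (P.τ s * gsq (g s) (u s) z + u s z ^ 2)

theorem hasDerivAt_τ (s : ℝ) : HasDerivAt P.τ 1 s := (hasDerivAt_id s).add_const P.tA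

theorem rg_scal (hk : KRFat g s z) : Rg (fun s w => scal (g s) w) s z :=
  Rg.of_joint (Cn.cda_scal (g := g) (p := (s, z)) hk.sm hk.pos.self_of_nhds)

theorem rg_gsq (hk : KRFat g s z) (hu : HeatAt g u s z) :
    Rg (fun s w => gsq (g s) (u s) w) s z :=
  Rg.of_joint (Cn.cda_gsq (g := g) (p := (s, z)) hk.sm hk.pos.self_of_nhds hu.sm)

theorem rg_PhiC (hk : KRFat g s z) (hu : HeatAt g u s z) : Rg (PhiC P g u) s z := by
  have hτ : Rg (fun s (_ : Cn n) => P.τ s) s z := Rg.time (hasDerivAt_τ s).differentiableAt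
  exact (hτ.mul (rg_scal hk)).add (Rg.const_mul _ ((hτ.mul (rg_gsq hk hu)).add
    (Rg.of_joint (φ := fun s w => u s w ^ 2) (hu.sm.pow 2))))

theorem box_PhiC (hk : KRFat g s z) (hu : HeatAt g u s z) {l e : ℝ} (hτ : 0 ≤ P.τ s) (h0 : 0 ≤ l)
    (hl : BKge (g s) z l)
    (he : ∀ v, -(e * nq (g s z) v) ≤ nq (hess (u s) z) v - nq (ric (g s) z) v) :
    box g (PhiC P g u) s z ≤ scal (g s) z - 6 * P.τ s * scal (g s) z ^ 2
      - 16 * n * gsq (g s) (u s) z + P.τ s * (19 * n ^ 4 * l ^ 2 + 16 * n ^ 2 * e ^ 2) := by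
  have r0 : Rg (fun s (_ : Cn n) => P.τ s) s z := Rg.time (hasDerivAt_τ s).differentiableAt
  have r1 := rg_scal hk
  have r2 := rg_gsq hk hu
  have r3 : Rg (fun s w => u s w ^ 2) s z := Rg.of_joint (φ := fun s w => u s w ^ 2) (hu.sm.pow 2)
  have e1 := box_add (g := g) (r0.mul r1) (Rg.const_mul (16 * n) ((r0.mul r2).add r3))
  rw [box_const_mul _ ((r0.mul r2).add r3), box_add (r0.mul r2) r3,
    box_time_mul (hasDerivAt_τ s) r1, box_time_mul (hasDerivAt_τ s) r2, Ev.box_scal hk,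
    Ev.box_sq hk hu] at e1
  change box g (PhiC P g u) s z = _ at e1
  rw [e1]
  have b1 := Ev.box_gsq hk hu
  have b2 := Ev.nrm_ric_le hk.kahAt h0 hl
  have b3 := Ev.nrm_hess_ge hk.kahAt hl (e := e) (Rg.of_joint hu.sm).sp fun v => by
    linarith [he v]
  have b4 : (n : ℝ) * box g (fun t z => gsq (g t) (u t) z) s z ≤
      -(scal (g s) z ^ 2 / 2 - n ^ 2 * e ^ 2 - n ^ 4 * l ^ 2) := by
    have := mul_le_mul_of_nonneg_left b1 (Nat.cast_nonneg (α := ℝ) n)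
    linarith
  have b5 := mul_le_mul_of_nonneg_left b4 hτ
  have b6 := mul_le_mul_of_nonneg_left b2 hτ
  nlinarith

theorem num_contact {n K K1 B V E Ψ τ R G U bE bΨ bΦ q r Λ' : ℝ} (hn : 0 ≤ n) (hK0 : 0 < K)
    (hK10 : 0 < K1) (hB0 : 0 < B) (hV : K + 1 ≤ V) (hτ : 0 < τ) (hr : 0 < r) (hq : q = 1 / r ^ 2)
    (hE0 : 0 < E) (hE : E ≤ 1) (hΨ : 1 ≤ Ψ) (hΛ : 1 ≤ Λ')
    (hK1 : 35 * (n + 1) ^ 4 * K ^ 2 ≤ K1) (hB : 24 * K ≤ B)
    (t1 : K1 * 1 * q * E + K1 * τ * q * bE + Λ' * bΨ ≤ bΦ)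
    (t2 : bΦ ≤ R - 6 * τ * R ^ 2 - 16 * n * G +
      τ * (19 * n ^ 4 * (K * q * E) ^ 2 + 16 * n ^ 2 * ((n + 1) * K * q * E) ^ 2))
    (t3 : (V - K) / r ^ 2 * E ≤ bE) (t4 : -(12 * K / B * Ψ) ≤ τ * bΨ)
    (heq : τ * R + 16 * n * (τ * G + U) = K1 * τ * q * E + Λ' * Ψ)
    (hu2 : 64 * n * U ≤ Λ' * Ψ) : False := by
  have hq0 : 0 < q := by rw [hq]; positivity
  have t5 : q * E ≤ bE := by
    refine le_trans ?_ t3
    refine mul_le_mul_of_nonneg_right ?_ hE0.le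
    rw [hq]
    exact div_le_div_of_nonneg_right (by linarith) (by positivity)
  have t6 : 19 * n ^ 4 * (K * q * E) ^ 2 + 16 * n ^ 2 * ((n + 1) * K * q * E) ^ 2 ≤
      K1 * q * (q * E) := by
    have a1 : n ^ 4 ≤ (n + 1) ^ 4 := pow_le_pow_left₀ hn (by linarith) 4
    have a2 : n ^ 2 ≤ (n + 1) ^ 2 := pow_le_pow_left₀ hn (by linarith) 2
    have a3 : 19 * n ^ 4 + 16 * n ^ 2 * (n + 1) ^ 2 ≤ 35 * (n + 1) ^ 4 := by
      nlinarith [mul_le_mul_of_nonneg_right a2 (sq_nonneg (n + 1))]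
    have a4 : (19 * n ^ 4 + 16 * n ^ 2 * (n + 1) ^ 2) * K ^ 2 ≤ K1 :=
      (mul_le_mul_of_nonneg_right a3 (sq_nonneg _)).trans hK1
    have a5 : E ^ 2 ≤ E := by nlinarith
    calc _ = ((19 * n ^ 4 + 16 * n ^ 2 * (n + 1) ^ 2) * K ^ 2) * (q ^ 2 * E ^ 2) := by ring
      _ ≤ K1 * (q ^ 2 * E) :=
          mul_le_mul a4 (mul_le_mul_of_nonneg_left a5 (sq_nonneg _)) (by positivity) hK10.le
      _ = _ := by ring
  have t7 : τ * (K1 * q * (q * E)) ≤ K1 * τ * q * bE := by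
    have := mul_le_mul_of_nonneg_left t5 (show 0 ≤ K1 * τ * q by positivity)
    linarith
  have t8 : Λ' * bΨ ≤ R - 6 * τ * R ^ 2 - 16 * n * G := by
    have a1 := mul_le_mul_of_nonneg_left t6 hτ.le
    have a2 : 0 ≤ K1 * 1 * q * E := by positivity
    linarith
  have t9 : 12 * K / B ≤ 1 / 2 := by
    rw [div_le_div_iff₀ hB0 (by norm_num)]; linarith
  have t10 : -(1 / 2 * (Λ' * Ψ)) ≤ τ * (Λ' * bΨ) := by
    have a1 : 12 * K / B * Ψ ≤ 1 / 2 * Ψ := mul_le_mul_of_nonneg_right t9 (by linarith)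
    have a2 : -(1 / 2 * Ψ) ≤ τ * bΨ := by linarith
    have a3 := mul_le_mul_of_nonneg_left a2 (show 0 ≤ Λ' by linarith)
    linarith
  have t11 := mul_le_mul_of_nonneg_left t8 hτ.le
  have t12 : 1 ≤ Λ' * Ψ := one_le_mul_of_one_le_of_one_le hΛ hΨ
  have t13 : 0 ≤ K1 * τ * q * E := by positivity
  nlinarith [sq_nonneg (τ * R - 1 / 6)]

/-- **no contact** -/
theorem no_contact (h : P.Ok) (hk : KRFat g s z) (hu : HeatAt g u s z) (hρ : HeatAt g ρ s z)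
    {σ t r q Λ' : ℝ} (hs : 0 ≤ s) (hr : 0 < r) (hq : q = 1 / r ^ 2) (h0 : 0 ≤ ρ s z)
    (hK : gsq (g s) (ρ s) z ≤ P.K) (hE : Eb σ P.V t r ρ s z ≤ 1)
    (hl : BKge (g s) z (P.K * q * Eb σ P.V t r ρ s z))
    (he : ∀ v, -((n + 1) * P.K * q * Eb σ P.V t r ρ s z * nq (g s z) v) ≤
      nq (hess (u s) z) v - nq (ric (g s) z) v)
    (hm : ∀ᶠ w in past s z, PhiC P g u w.1 w.2 ≤
      P.K1 * P.τ w.1 * q * Eb σ P.V t r ρ w.1 w.2 + Λ' * P.Ψ (ρ w.1 w.2) w.1)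
    (heq : PhiC P g u s z = P.K1 * P.τ s * q * Eb σ P.V t r ρ s z + Λ' * P.Ψ (ρ s z) s)
    (hu2 : 64 * n * u s z ^ 2 ≤ Λ' * P.Ψ (ρ s z) s) (hΛ : 1 ≤ Λ')
    (hK1 : 35 * (n + 1) ^ 4 * P.K ^ 2 ≤ P.K1) (hB : 24 * P.K ≤ P.B) : False := by
  have hg : (g s z).PosDef := hk.pos.self_of_nhds
  have hτ := h.τ_pos hs
  have hq0 : 0 < q := by rw [hq]; positivity
  have hK0 := h.K0
  have hK10 := h.K10
  have hn : (0 : ℝ) ≤ n := Nat.cast_nonneg n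
  have rρ : Rg ρ s z := Rg.of_joint hρ.sm
  have bρ : box g ρ s z = 0 := hρ.eq.self_of_nhds
  have rE : Rg (Eb σ P.V t r ρ) s z := rρ.Eb
  have rΨ := rg_Ψ h rρ h0 hs
  have d1 : HasDerivAt (fun s => P.K1 * P.τ s * q) (P.K1 * 1 * q) s :=
    ((hasDerivAt_τ s).const_mul P.K1).mul_const q
  have rW : Rg (fun s w => P.K1 * P.τ s * q * Eb σ P.V t r ρ s w) s z :=
    (Rg.time d1.differentiableAt).mul rE
  have t1 := box_le_of_touch hg (rg_PhiC hk hu) (rW.add (rΨ.const_mul Λ')) hm heq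
  rw [box_add rW (rΨ.const_mul Λ'), box_const_mul _ rΨ, box_time_mul d1 rE] at t1
  have hE0 := Eb_pos σ P.V t r ρ s z
  have t2 := box_PhiC (P := P) hk hu hτ.le (by positivity) hl he
  have t3 := box_Eb_ge (g := g) (σ := σ) (V := P.V) (t₀ := t) hr rρ bρ.ge hK
  have t4 := box_Ψ_ge h hg rρ bρ h0 hs hK
  have hΨ := h.one_le_Ψ h0 hs
  have hG := gsq_nonneg (g := g s) (u := u s) hg
  exact num_contact hn hK0 hK10 h.B0 h.KV hτ hr hq hE0 hE hΨ hΛ hK1 hB t1 t2 t3 t4 heq hu2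

end

end Crest.Agent.T223.Os.Lg41
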