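import Crest.Agent.T223.QcHi_47

/-!
# Row 223, quasi-charts (helper47), part 2: additive splitting, bounded on fixed domains
-/

set_option autoImplicit false
set_option linter.unusedSectionVars false
set_option linter.unusedVariables false

open Set Filter Topology Metric Complex MeasureTheory
open scoped Real Interval

noncomputable section

namespace Crest.Agent.T223.Qc47

variable {E : Type} [NormedAddCommGroup E] [NormedSpace ℂ E] [FiniteDimensional ℂ E]
variable {F : Type} [NormedAddCommGroup F] [NormedSpace ℂ F] [CompleteSpace F]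

/-- a complex direction and a cylinder over it -/
structure Cyl (E : Type) [NormedAddCommGroup E] [NormedSpace ℂ E] where
  u : E
  ℓ : E →L[ℂ] ℂ
  W : Set E
  one : ℓ u = 1
  opn : IsOpen W
  inv : ∀ z ∈ W, ∀ ζ : ℂ, z + ζ • u ∈ W

namespace Cyl

variable (C : Cyl E)

/-- the point on the line through `z` with coordinate `ζ` -/
def pt (z : E) (ζ : ℂ) : E := z + (ζ - C.ℓ z) • C.u

theorem ℓ_pt (z : E) (ζ : ℂ) : C.ℓ (C.pt z ζ) = ζ := by
  simp [pt, C.one]

theorem pt_self (z : E) : C.pt z (C.ℓ z) = z := by simp [pt]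

/-- a box over the rectangle `(x0,x1) × (c,d)` -/
def bx (x0 x1 c d : ℝ) : Set E :=
  {z | z ∈ C.W ∧ (C.ℓ z).re ∈ Ioo x0 x1 ∧ (C.ℓ z).im ∈ Ioo c d}

theorem isOpen_bx (x0 x1 c d : ℝ) : IsOpen (C.bx x0 x1 c d) := by
  have h1 : Continuous fun z => (C.ℓ z).re := continuous_re.comp C.ℓ.continuous
  have h2 : Continuous fun z => (C.ℓ z).im := continuous_im.comp C.ℓ.continuous
  exact C.opn.inter ((isOpen_Ioo.preimage h1).inter (isOpen_Ioo.preimage h2))

theorem pt_mem {z : E} (hz : z ∈ C.W) {ζ : ℂ} {x0 x1 c d : ℝ} (h1 : ζ.re ∈ Ioo x0 x1)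
    (h2 : ζ.im ∈ Ioo c d) : C.pt z ζ ∈ C.bx x0 x1 c d :=
  ⟨C.inv z hz _, by rwa [ℓ_pt], by rwa [ℓ_pt]⟩

theorem diff_pt (ζ : ℂ) : Differentiable ℂ fun z => C.pt z ζ := by
  unfold pt
  fun_prop

theorem diff_pt' (z : E) : Differentiable ℂ fun ζ => C.pt z ζ := by
  unfold pt
  fun_prop

/-- the Cauchy kernel along the line -/
def kr (h : E → F) (z : E) (ζ : ℂ) : F := (ζ - C.ℓ z)⁻¹ • h (C.pt z ζ)

variable {C}

/-- integrals of the kernel over a curve that stays away from the pole -/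
theorem seg {h : E → F} {O U : Set E} (hh : DifferentiableOn ℂ h O) {M δ : ℝ}
    (hM : ∀ z ∈ O, ‖h z‖ ≤ M) (hM0 : 0 ≤ M) (hδ : 0 < δ) (hU : IsOpen U) {γ : ℝ → ℂ}
    (hγ : Continuous γ) {α β : ℝ} (hαβ : α ≤ β)
    (hin : ∀ z ∈ U, ∀ s ∈ Ioo α β, C.pt z (γ s) ∈ O ∧ δ ≤ ‖γ s - C.ℓ z‖) :
    DifferentiableOn ℂ (fun z => ∫ s in α..β, C.kr h z (γ s)) U ∧
      ∀ z ∈ U, ‖∫ s in α..β, C.kr h z (γ s)‖ ≤ M / δ * (β - α) := by
  have hb : ∀ z ∈ U, ∀ s ∈ Ioo α β, ‖C.kr h z (γ s)‖ ≤ M / δ := by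
    intro z hz s hs
    obtain ⟨h1, h2⟩ := hin z hz s hs
    rw [kr, norm_smul, norm_inv, div_eq_inv_mul]
    exact mul_le_mul (inv_anti₀ hδ h2) (hM _ h1) (norm_nonneg _) (by positivity)
  have e : ∀ z, (∫ s in α..β, C.kr h z (γ s)) = ∫ s in Ioo α β, C.kr h z (γ s) := fun z => by
    rw [intervalIntegral.integral_of_le hαβ, integral_Ioc_eq_integral_Ioo]
  simp only [e]
  constructor
  · refine hi (g := fun _ => M / δ) hU (by simp) (fun z hz => ?_) ?_ ?_
    · refine ContinuousOn.aestronglyMeasurable ?_ measurableSet_Ioo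
      refine ContinuousOn.smul ((hγ.continuousOn.sub continuousOn_const).inv₀ fun s hs h0 => ?_) ?_
      · have := (hin z hz s hs).2
        simp only [Pi.sub_apply] at h0
        rw [h0, norm_zero] at this
        linarith
      · exact hh.continuousOn.comp ((C.diff_pt' z).continuous.comp hγ).continuousOn
          fun s hs => (hin z hz s hs).1
    · refine (ae_restrict_mem measurableSet_Ioo).mono fun s hs => ?_
      refine DifferentiableOn.smul ?_ (hh.comp (C.diff_pt _).differentiableOn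
        fun z hz => (hin z hz s hs).1)
      refine (differentiableOn_const _ |>.sub C.ℓ.differentiable.differentiableOn).inv
        fun z hz h0 => ?_
      have := (hin z hz s hs).2
      simp only [Pi.sub_apply] at h0
      rw [h0, norm_zero] at this
      linarith
    · exact (ae_restrict_mem measurableSet_Ioo).mono fun s hs z hz => hb z hz s hs
  · intro z hz
    have := norm_setIntegral_le_of_norm_le_const (μ := volume) (s := Ioo α β)
      (f := fun s => C.kr h z (γ s)) (C := M / δ) (by simp) (hb z hz)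
    rwa [Real.volume_real_Ioo_of_le hαβ] at this

/-- the measure on the cut rectangle -/
def μc (p q c d : ℝ) : Measure (ℝ × ℝ) :=
  (volume.restrict (Ioo p q)).prod (volume.restrict (Ioo c d))

variable (C) in
/-- the averaged Cauchy integral over vertical cuts -/
def cf (p q c d : ℝ) (h : E → F) (z : E) : F :=
  ((2 * π * (q - p) : ℝ) : ℂ)⁻¹ • ∫ w, C.kr h z (w.1 + w.2 * I) ∂(μc p q c d)

/-- the averaged jump -/
def ch (p q x : ℝ) : ℝ := (volume (Ioo p q ∩ Iio x)).toReal / (q - p)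

theorem ch_nonneg {p q : ℝ} (hpq : p < q) (x : ℝ) : 0 ≤ ch p q x :=
  div_nonneg ENNReal.toReal_nonneg (by linarith)

theorem ch_le_one {p q : ℝ} (hpq : p < q) (x : ℝ) : ch p q x ≤ 1 := by
  unfold ch
  rw [div_le_one (by linarith)]
  have := measureReal_mono (μ := volume) (inter_subset_left (s := Ioo p q) (t := Iio x)) (by simp)
  rwa [Real.volume_real_Ioo_of_le hpq.le] at this

theorem ch_left {p q x : ℝ} (hx : x ≤ p) : ch p q x = 0 := by
  have : Ioo p q ∩ Iio x = ∅ := by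
    ext t
    simp only [mem_inter_iff, mem_Ioo, mem_Iio, mem_empty_iff_false, iff_false]
    rintro ⟨⟨h1, _⟩, h2⟩
    linarith
  simp [ch, this]

theorem ch_right {p q x : ℝ} (hpq : p < q) (hx : q ≤ x) : ch p q x = 1 := by
  have : Ioo p q ∩ Iio x = Ioo p q := inter_eq_left.2 fun t ht => lt_of_lt_of_le ht.2 hx
  have h2 : (volume (Ioo p q)).toReal = q - p := Real.volume_real_Ioo_of_le hpq.le
  rw [ch, this, h2, div_self (by linarith)]

section main

variable {x0 x1 p q c d : ℝ} {h : E → F} {M : ℝ}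

theorem ae_mem_μc : ∀ᵐ w ∂(μc p q c d), w.1 ∈ Ioo p q ∧ w.2 ∈ Ioo c d :=
  (Measure.quasiMeasurePreserving_fst.ae (ae_restrict_mem measurableSet_Ioo)).and
    (Measure.quasiMeasurePreserving_snd.ae (ae_restrict_mem measurableSet_Ioo))

theorem ae_ne_vol (s : Set ℝ) (x : ℝ) : ∀ᵐ t ∂(volume.restrict s), t ≠ x :=
  ae_restrict_of_ae (by simp [ae_iff])

theorem kr_bound (h0 : x0 < p) (h1 : q < x1) (hM : ∀ z ∈ C.bx x0 x1 c d, ‖h z‖ ≤ M) {z : E}
    (hz : z ∈ C.W) : ∀ᵐ w ∂(μc p q c d), ‖C.kr h z (w.1 + w.2 * I)‖ ≤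
      M * (mj (w.1 - (C.ℓ z).re) * mj (w.2 - (C.ℓ z).im)) := by
  filter_upwards [ae_mem_μc,
    Measure.quasiMeasurePreserving_fst.ae (ae_ne_vol (Ioo p q) (C.ℓ z).re),
    Measure.quasiMeasurePreserving_snd.ae (ae_ne_vol (Ioo c d) (C.ℓ z).im)] with w hw hw1 hw2
  have hin : C.pt z (w.1 + w.2 * I) ∈ C.bx x0 x1 c d :=
    C.pt_mem hz (by simpa using ⟨h0.trans hw.1.1, hw.1.2.trans h1⟩) (by simpa using hw.2)
  have hb := inv_norm_le (w := (w.1 + w.2 * I : ℂ) - C.ℓ z)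
    (by simpa using sub_ne_zero.2 hw1) (by simpa using sub_ne_zero.2 hw2)
  rw [kr, norm_smul, mul_comm]
  refine mul_le_mul (hM _ hin) ?_ (norm_nonneg _) ((norm_nonneg _).trans (hM _ hin))
  simpa using hb

theorem maj_integrable (x y : ℝ) :
    Integrable (fun w : ℝ × ℝ => mj (w.1 - x) * mj (w.2 - y)) (μc p q c d) :=
  Integrable.mul_prod (mj_integrableOn p q x) (mj_integrableOn c d y)

theorem kr_integrable (h0 : x0 < p) (h1 : q < x1) (hh : DifferentiableOn ℂ h (C.bx x0 x1 c d))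
    (hM : ∀ z ∈ C.bx x0 x1 c d, ‖h z‖ ≤ M) {z : E} (hz : z ∈ C.W) :
    Integrable (fun w : ℝ × ℝ => C.kr h z (w.1 + w.2 * I)) (μc p q c d) := by
  refine ((maj_integrable (C.ℓ z).re (C.ℓ z).im).const_mul M).mono' ?_ (kr_bound h0 h1 hM hz)
  refine AEStronglyMeasurable.smul ?_ ?_
  · exact (Measurable.inv (by fun_prop)).aestronglyMeasurable
  · rw [μc, Measure.prod_restrict]
    refine ContinuousOn.aestronglyMeasurable ?_ (measurableSet_Ioo.prod measurableSet_Ioo)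
    refine hh.continuousOn.comp ((C.diff_pt' z).continuous.comp (by fun_prop)).continuousOn ?_
    intro w hw
    exact C.pt_mem hz (by simpa using ⟨h0.trans hw.1.1, hw.1.2.trans h1⟩) (by simpa using hw.2)

theorem cf_bound (h0 : x0 < p) (hpq : p < q) (h1 : q < x1) (hcd : c ≤ d)
    (hM : ∀ z ∈ C.bx x0 x1 c d, ‖h z‖ ≤ M) (hM0 : 0 ≤ M) {z : E} (hz : z ∈ C.W) {R : ℝ}
    (hR : 0 ≤ R) (r1 : -R ≤ p - (C.ℓ z).re) (r2 : q - (C.ℓ z).re ≤ R) (r3 : -R ≤ c - (C.ℓ z).im)
    (r4 : d - (C.ℓ z).im ≤ R) :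
    ‖C.cf p q c d h z‖ ≤ Jc R ^ 2 / (q - p) * M := by
  have hb := norm_integral_le_of_norm_le
    ((maj_integrable (p := p) (q := q) (c := c) (d := d) (C.ℓ z).re (C.ℓ z).im).const_mul M)
    (kr_bound h0 h1 hM hz)
  rw [integral_const_mul, μc, integral_prod_mul (fun t => mj (t - (C.ℓ z).re))
    (fun y => mj (y - (C.ℓ z).im))] at hb
  have j1 := mj_int_le hpq.le r1 r2
  have j2 := mj_int_le hcd r3 r4
  have j0 := Jc_nonneg hR
  have n2 : 0 ≤ ∫ s in Ioo c d, mj (s - (C.ℓ z).im) := integral_nonneg fun s => mj_nonneg _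
  have hb2 : ‖∫ w, C.kr h z (w.1 + w.2 * I) ∂(μc p q c d)‖ ≤ M * (Jc R * Jc R) :=
    hb.trans (mul_le_mul_of_nonneg_left (mul_le_mul j1 j2 n2 j0) hM0)
  have hqp : 0 < q - p := by linarith
  have hpi : (1 : ℝ) ≤ 2 * π := by linarith [Real.pi_gt_three]
  rw [cf, norm_smul, norm_inv, norm_real, Real.norm_of_nonneg (by positivity)]
  calc (2 * π * (q - p))⁻¹ * ‖∫ w, C.kr h z (w.1 + w.2 * I) ∂(μc p q c d)‖
      ≤ (q - p)⁻¹ * (M * (Jc R * Jc R)) := by
        refine mul_le_mul (inv_anti₀ hqp (by nlinarith)) hb2 (norm_nonneg _) (by positivity)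
    _ = _ := by field_simp

theorem cf_sub {h' : E → F} {M' : ℝ} (h0 : x0 < p) (h1 : q < x1)
    (hh : DifferentiableOn ℂ h (C.bx x0 x1 c d)) (hM : ∀ z ∈ C.bx x0 x1 c d, ‖h z‖ ≤ M)
    (hh' : DifferentiableOn ℂ h' (C.bx x0 x1 c d)) (hM' : ∀ z ∈ C.bx x0 x1 c d, ‖h' z‖ ≤ M')
    {z : E} (hz : z ∈ C.W) :
    C.cf p q c d (fun w => h w - h' w) z = C.cf p q c d h z - C.cf p q c d h' z := by
  unfold cf
  rw [← smul_sub, ← integral_sub (kr_integrable h0 h1 hh hM hz) (kr_integrable h0 h1 hh' hM' hz)]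
  simp only [kr, smul_sub]

/-- to the right of the cuts the averaged integral is holomorphic -/
theorem cf_hol_right (h0 : x0 < p) (h1 : q < x1) (hh : DifferentiableOn ℂ h (C.bx x0 x1 c d))
    (hM : ∀ z ∈ C.bx x0 x1 c d, ‖h z‖ ≤ M) (hM0 : 0 ≤ M) {z0 : E} (hz0 : z0 ∈ C.W)
    (hq : q < (C.ℓ z0).re) : DifferentiableAt ℂ (C.cf p q c d h) z0 := by
  set δ : ℝ := ((C.ℓ z0).re - q) / 2 with hδ
  have hδ0 : 0 < δ := by rw [hδ]; linarith
  set U : Set E := C.bx (q + δ) ((C.ℓ z0).re + 1) ((C.ℓ z0).im - 1) ((C.ℓ z0).im + 1) with hU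
  have hz0U : z0 ∈ U := ⟨hz0, ⟨by rw [hδ]; linarith, by linarith⟩, by constructor <;> linarith⟩
  have hin : ∀ z ∈ U, ∀ w : ℝ × ℝ, w.1 ∈ Ioo p q ∧ w.2 ∈ Ioo c d →
      C.pt z (w.1 + w.2 * I) ∈ C.bx x0 x1 c d ∧ δ ≤ ‖(w.1 + w.2 * I : ℂ) - C.ℓ z‖ := by
    intro z hz w hw
    refine ⟨C.pt_mem hz.1 (by simpa using ⟨h0.trans hw.1.1, hw.1.2.trans h1⟩)
      (by simpa using hw.2), le_trans ?_ (abs_re_le_norm _)⟩
    have := hz.2.1.1
    have := hw.1.2
    simp only [sub_re, add_re, ofReal_re, mul_re, I_re, mul_zero, ofReal_im, I_im, mul_one,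
      sub_self, add_zero]
    rw [abs_sub_comm]
    exact le_trans (by linarith) (le_abs_self _)
  have hfin : IsFiniteMeasure (μc p q c d) := by
    unfold μc
    have : IsFiniteMeasure (volume.restrict (Ioo p q)) := ⟨by simp⟩
    have : IsFiniteMeasure (volume.restrict (Ioo c d)) := ⟨by simp⟩
    infer_instance
  have key := hi (μ := μc p q c d) (f := fun z w => C.kr h z (w.1 + w.2 * I)) (U := U)
    (g := fun _ => M / δ) (C.isOpen_bx _ _ _ _) (integrable_const _)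
    (fun z hz => (kr_integrable h0 h1 hh hM hz.1).aestronglyMeasurable) ?_ ?_
  · exact (key.differentiableAt ((C.isOpen_bx _ _ _ _).mem_nhds hz0U)).const_smul _
  · refine ae_mem_μc.mono fun w hw => ?_
    refine DifferentiableOn.smul ?_ (hh.comp (C.diff_pt _).differentiableOn
      fun z hz => (hin z hz w hw).1)
    refine (differentiableOn_const _ |>.sub C.ℓ.differentiable.differentiableOn).inv
      fun z hz h0 => ?_
    have := (hin z hz w hw).2
    simp only [Pi.sub_apply] at h0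
    rw [h0, norm_zero] at this
    linarith
  · refine ae_mem_μc.mono fun w hw z hz => ?_
    obtain ⟨h1, h2⟩ := hin z hz w hw
    rw [kr, norm_smul, norm_inv, div_eq_inv_mul]
    exact mul_le_mul (inv_anti₀ hδ0 h2) (hM _ h1) (norm_nonneg _) (by positivity)

variable (C) in
/-- the deformed contour -/
def df (h : E → F) (c c' d' d x' : ℝ) (z : E) (t : ℝ) : F :=
  (∫ y in c..c', C.kr h z (t + y * I)) + (∫ y in d'..d, C.kr h z (t + y * I)) +
    (-I) • ((∫ s in t..x', C.kr h z (s + c' * I)) + I • (∫ y in c'..d', C.kr h z (x' + y * I))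
      - ∫ s in t..x', C.kr h z (s + d' * I))

theorem df_eq {c' d' x' : ℝ} (h0 : x0 < p) (hh : DifferentiableOn ℂ h (C.bx x0 x1 c d))
    (hc : c < c') (hd : d' < d) (hx : x' < x1) (hq : q < x') {z : E} (hz : z ∈ C.W)
    (hre : (C.ℓ z).re < x') (him : (C.ℓ z).im ∈ Ioo c' d') {t : ℝ} (ht : t ∈ Ioo p q)
    (htx : t ≠ (C.ℓ z).re)
    (hint : Integrable (fun y : ℝ => C.kr h z (t + y * I)) (volume.restrict (Ioo c d))) :
    C.df h c c' d' d x' z t = (∫ y in Ioo c d, C.kr h z (t + y * I)) +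
      (Iio (C.ℓ z).re).indicator (fun _ => ((2 * π : ℝ) : ℂ) • h z) t := by
  have hcd' : c' < d' := him.1.trans him.2
  have hcd : c ≤ d := by linarith
  have hII : IntervalIntegrable (fun y : ℝ => C.kr h z (t + y * I)) volume c d :=
    (intervalIntegrable_iff_integrableOn_Ioo_of_le hcd).2 hint
  have i1 := hII.mono_set (c := c) (d := c') (uIcc_subset_uIcc left_mem_uIcc
    (by rw [uIcc_of_le hcd]; exact ⟨hc.le, by linarith⟩))
  have i2 := hII.mono_set (c := c') (d := d') (uIcc_subset_uIcc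
    (by rw [uIcc_of_le hcd]; exact ⟨hc.le, by linarith⟩)
    (by rw [uIcc_of_le hcd]; exact ⟨by linarith, hd.le⟩))
  have i3 := hII.mono_set (c := d') (d := d) (uIcc_subset_uIcc
    (by rw [uIcc_of_le hcd]; exact ⟨by linarith, hd.le⟩) right_mem_uIcc)
  have s1 := intervalIntegral.integral_add_adjacent_intervals i1 i2
  have s2 := intervalIntegral.integral_add_adjacent_intervals (i1.trans i2) i3
  rw [← integral_Ioc_eq_integral_Ioo, ← intervalIntegral.integral_of_le hcd, ← s2, ← s1]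
  set f : ℂ → F := fun ζ => h (C.pt z ζ) with hf
  have hV : IsOpen ((fun ζ => C.pt z ζ) ⁻¹' C.bx x0 x1 c d) :=
    (C.isOpen_bx _ _ _ _).preimage (C.diff_pt' z).continuous
  have hfd : DifferentiableOn ℂ f ((fun ζ => C.pt z ζ) ⁻¹' C.bx x0 x1 c d) :=
    hh.comp (C.diff_pt' z).differentiableOn fun ζ hζ => hζ
  have hsub : Icc t x' ×ℂ Icc c' d' ⊆ (fun ζ => C.pt z ζ) ⁻¹' C.bx x0 x1 c d := by
    intro ζ hζ
    exact C.pt_mem hz ⟨by linarith [hζ.1.1, ht.1], by linarith [hζ.1.2]⟩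
      ⟨by linarith [hζ.2.1], by linarith [hζ.2.2]⟩
  have hI : ∀ v : F, (-I) • (I • v) = v := fun v => by rw [smul_smul]; simp
  have e1 : (∫ s in t..x', C.kr h z (s + c' * I)) = hS f c' t x' (C.ℓ z) := rfl
  have e2 : (∫ s in t..x', C.kr h z (s + d' * I)) = hS f d' t x' (C.ℓ z) := rfl
  have e3 : (∫ y in c'..d', C.kr h z (x' + y * I)) = vS f x' c' d' (C.ℓ z) := rfl
  have e4 : (∫ y in c'..d', C.kr h z (t + y * I)) = vS f t c' d' (C.ℓ z) := rfl
  unfold df
  rw [e1, e2, e3, e4]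
  rcases lt_or_gt_of_ne htx with hlt | hgt
  · have k := rect_in hV hfd hsub (z := C.ℓ z) ⟨hlt, hre⟩ him
    have k2 : f (C.ℓ z) = h z := by simp only [hf, pt_self]
    rw [k2, sub_eq_iff_eq_add] at k
    rw [indicator_of_mem (show t ∈ Iio (C.ℓ z).re from hlt), k, smul_add, hI, mul_comm _ I,
      mul_smul, hI]
    push_cast
    abel
  · have k := rect_out hfd (by linarith [ht.2]) hcd'.le hsub (z := C.ℓ z) hgt
    rw [sub_eq_zero] at k
    rw [indicator_of_notMem (show t ∉ Iio (C.ℓ z).re from not_lt.2 hgt.le), k, hI]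
    abel

/-- the left part is holomorphic to the left of `x1` -/
theorem cf_hol_left (h0 : x0 < p) (hpq : p < q) (h1 : q < x1)
    (hh : DifferentiableOn ℂ h (C.bx x0 x1 c d))
    (hM : ∀ z ∈ C.bx x0 x1 c d, ‖h z‖ ≤ M) (hM0 : 0 ≤ M) {z0 : E} (hz0 : z0 ∈ C.W)
    (hre : (C.ℓ z0).re < x1) (him : (C.ℓ z0).im ∈ Ioo c d) :
    DifferentiableAt ℂ (fun z => C.cf p q c d h z + (ch p q (C.ℓ z).re : ℂ) • h z) z0 := by
  set m : ℝ := max q (C.ℓ z0).re with hm
  have hm1 : m < x1 := max_lt h1 hre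
  have hm2 : q ≤ m := le_max_left _ _
  have hm3 : (C.ℓ z0).re ≤ m := le_max_right _ _
  set y0 : ℝ := (C.ℓ z0).im with hy0
  obtain ⟨δ, hδ0, hδ1, hδ2, hδ3⟩ : ∃ δ : ℝ, 0 < δ ∧ 3 * δ ≤ x1 - m ∧ 3 * δ ≤ y0 - c ∧
      3 * δ ≤ d - y0 := by
    refine ⟨min (x1 - m) (min (y0 - c) (d - y0)) / 3, ?_, ?_, ?_, ?_⟩
    · have : 0 < min (x1 - m) (min (y0 - c) (d - y0)) :=
        lt_min (by linarith) (lt_min (by linarith [him.1]) (by linarith [him.2]))
      linarith
    · linarith [min_le_left (x1 - m) (min (y0 - c) (d - y0))]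
    · linarith [min_le_right (x1 - m) (min (y0 - c) (d - y0)), min_le_left (y0 - c) (d - y0)]
    · linarith [min_le_right (x1 - m) (min (y0 - c) (d - y0)), min_le_right (y0 - c) (d - y0)]
  set U : Set E := C.bx ((C.ℓ z0).re - 1) (m + δ) (y0 - δ) (y0 + δ) with hU
  have hUo : IsOpen U := C.isOpen_bx _ _ _ _
  have hz0U : z0 ∈ U := ⟨hz0, ⟨by linarith, by linarith⟩, by constructor <;> linarith⟩
  set c' : ℝ := y0 - 2 * δ with hc'
  set d' : ℝ := y0 + 2 * δ with hd'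
  set x' : ℝ := m + 2 * δ with hx'
  have hIm : ∀ z ∈ U, ∀ s y : ℝ, (y ≤ c' ∨ d' ≤ y) → δ ≤ ‖(s + y * I : ℂ) - C.ℓ z‖ := by
    intro z hz s y hy
    refine le_trans ?_ (abs_im_le_norm _)
    have a1 := hz.2.2.1
    have a2 := hz.2.2.2
    simp only [sub_im, add_im, ofReal_im, mul_im, I_im, mul_one, ofReal_re, I_re, mul_zero,
      add_zero, zero_add]
    rcases hy with hy | hy
    · rw [abs_sub_comm]; exact le_trans (by linarith) (le_abs_self _)
    · exact le_trans (by linarith) (le_abs_self _)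
  have hRe : ∀ z ∈ U, ∀ y : ℝ, δ ≤ ‖(x' + y * I : ℂ) - C.ℓ z‖ := by
    intro z hz y
    refine le_trans ?_ (abs_re_le_norm _)
    have a1 := hz.2.1.2
    simp only [sub_re, add_re, ofReal_re, mul_re, I_re, mul_zero, ofReal_im, I_im, mul_one,
      sub_self, add_zero]
    exact le_trans (by linarith) (le_abs_self _)
  have hmem : ∀ z ∈ U, ∀ s y : ℝ, s ∈ Ioo x0 x1 → y ∈ Ioo c d →
      C.pt z (s + y * I) ∈ C.bx x0 x1 c d := fun z hz s y hs hy =>
    C.pt_mem hz.1 (by simpa using hs) (by simpa using hy)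
  have hseg : ∀ t ∈ Ioo p q, DifferentiableOn ℂ (fun z => C.df h c c' d' d x' z t) U ∧
      ∀ z ∈ U, ‖C.df h c c' d' d x' z t‖ ≤ M / δ * (3 * (d - c) + 2 * (x' - p)) := by
    intro t ht
    have ht' : t ∈ Ioo x0 x1 := ⟨h0.trans ht.1, ht.2.trans h1⟩
    have htx : t ≤ x' := by linarith [ht.2]
    obtain ⟨a1, b1⟩ := seg (C := C) hh hM hM0 hδ0 hUo (γ := fun y : ℝ => (t + y * I : ℂ))
      (by fun_prop) (α := c) (β := c') (by linarith) fun z hz y hy =>
      ⟨hmem z hz t y ht' ⟨hy.1, by linarith [hy.2]⟩, hIm z hz t y (Or.inl hy.2.le)⟩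
    obtain ⟨a2, b2⟩ := seg (C := C) hh hM hM0 hδ0 hUo (γ := fun y : ℝ => (t + y * I : ℂ))
      (by fun_prop) (α := d') (β := d) (by linarith) fun z hz y hy =>
      ⟨hmem z hz t y ht' ⟨by linarith [hy.1], hy.2⟩, hIm z hz t y (Or.inr hy.1.le)⟩
    obtain ⟨a3, b3⟩ := seg (C := C) hh hM hM0 hδ0 hUo (γ := fun s : ℝ => (s + c' * I : ℂ))
      (by fun_prop) (α := t) (β := x') htx fun z hz s hs =>
      ⟨hmem z hz s c' ⟨by linarith [hs.1, ht'.1], by linarith [hs.2]⟩ ⟨by linarith, by linarith⟩,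
        hIm z hz s c' (Or.inl le_rfl)⟩
    obtain ⟨a4, b4⟩ := seg (C := C) hh hM hM0 hδ0 hUo (γ := fun y : ℝ => (x' + y * I : ℂ))
      (by fun_prop) (α := c') (β := d') (by linarith) fun z hz y hy =>
      ⟨hmem z hz x' y ⟨by linarith, by linarith⟩ ⟨by linarith [hy.1], by linarith [hy.2]⟩,
        hRe z hz y⟩
    obtain ⟨a5, b5⟩ := seg (C := C) hh hM hM0 hδ0 hUo (γ := fun s : ℝ => (s + d' * I : ℂ))
      (by fun_prop) (α := t) (β := x') htx fun z hz s hs =>
      ⟨hmem z hz s d' ⟨by linarith [hs.1, ht'.1], by linarith [hs.2]⟩ ⟨by linarith, by linarith⟩,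
        hIm z hz s d' (Or.inr le_rfl)⟩
    refine ⟨(a1.add a2).add (((a3.add (a4.const_smul I)).sub a5).const_smul (-I)), fun z hz => ?_⟩
    have hMδ : 0 ≤ M / δ := by positivity
    unfold df
    refine (norm_add_le _ _).trans ?_
    rw [norm_smul, norm_neg, norm_I, one_mul]
    have n1 := (norm_add_le _ _).trans (add_le_add (b1 z hz) (b2 z hz))
    have n4 : ‖I • ∫ y in c'..d', C.kr h z (x' + y * I)‖ ≤ M / δ * (d' - c') := by
      rw [norm_smul, norm_I, one_mul]; exact b4 z hz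
    have n2 := (norm_sub_le _ _).trans (add_le_add ((norm_add_le _ _).trans
      (add_le_add (b3 z hz) n4)) (b5 z hz))
    refine (add_le_add n1 n2).trans ?_
    have : c' - c + (d - d') + (x' - t + (d' - c') + (x' - t)) ≤ 3 * (d - c) + 2 * (x' - p) := by
      linarith [ht.1]
    nlinarith [mul_le_mul_of_nonneg_left this hMδ]
  have hae : ∀ z ∈ U, (fun t => C.df h c c' d' d x' z t) =ᵐ[volume.restrict (Ioo p q)]
      fun t => (∫ y in Ioo c d, C.kr h z (t + y * I)) +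
        (Iio (C.ℓ z).re).indicator (fun _ => ((2 * π : ℝ) : ℂ) • h z) t := by
    intro z hz
    filter_upwards [ae_restrict_mem measurableSet_Ioo, ae_ne_vol (Ioo p q) (C.ℓ z).re,
      (kr_integrable h0 h1 hh hM hz.1).prod_right_ae] with t ht htx hint
    exact df_eq h0 hh (by linarith) (by linarith) (by linarith) (by linarith) hz.1
      (by linarith [hz.2.1.2]) ⟨by linarith [hz.2.2.1], by linarith [hz.2.2.2]⟩ ht htx hint
  have hfin : IsFiniteMeasure (volume.restrict (Ioo p q)) := ⟨by simp⟩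
  have hi1 : ∀ z ∈ U, Integrable (fun t : ℝ => ∫ y in Ioo c d, C.kr h z (t + y * I))
      (volume.restrict (Ioo p q)) := fun z hz =>
    (kr_integrable h0 h1 hh hM hz.1).integral_prod_left
  have hi2 : ∀ z : E, Integrable ((Iio (C.ℓ z).re).indicator fun _ => ((2 * π : ℝ) : ℂ) • h z)
      (volume.restrict (Ioo p q)) := fun z => (integrable_const _).indicator measurableSet_Iio
  have key := hi (μ := volume.restrict (Ioo p q)) (f := fun z t => C.df h c c' d' d x' z t)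
    (U := U) (g := fun _ => M / δ * (3 * (d - c) + 2 * (x' - p))) hUo (integrable_const _)
    (fun z hz => (((hi1 z hz).add (hi2 z)).aestronglyMeasurable).congr (hae z hz).symm)
    ((ae_restrict_mem measurableSet_Ioo).mono fun t ht => (hseg t ht).1)
    ((ae_restrict_mem measurableSet_Ioo).mono fun t ht => (hseg t ht).2)
  refine ((key.differentiableAt (hUo.mem_nhds hz0U)).const_smul
    ((2 * π * (q - p) : ℝ) : ℂ)⁻¹).congr_of_eventuallyEq ?_
  filter_upwards [hUo.mem_nhds hz0U] with z hz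
  simp only [Pi.smul_apply]
  rw [integral_congr_ae (hae z hz), integral_add (hi1 z hz) (hi2 z), smul_add, cf, μc,
    integral_prod _ (kr_integrable h0 h1 hh hM hz.1), integral_indicator measurableSet_Iio,
    setIntegral_const, Measure.real, Measure.restrict_apply measurableSet_Iio, inter_comm]
  congr 1
  rw [← Complex.coe_smul, smul_smul, smul_smul, ch]
  congr 1
  have : (q - p : ℂ) ≠ 0 := by
    have : (q - p : ℝ) ≠ 0 := by linarith
    exact_mod_cast this
  have hπ : (π : ℂ) ≠ 0 := by exact_mod_cast Real.pi_ne_zero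
  push_cast
  field_simp

end main

/-- **additive splitting** with a sup-norm bound on fixed domains -/
theorem add_split (C : Cyl E) {xl x0 x1 xr c d R : ℝ} (h01 : x0 < x1) (hcd : c ≤ d)
    (hR : 0 ≤ R) (hl : xr - xl ≤ R) (hl1 : xl ≤ x0) (hr1 : x1 ≤ xr) (hRd : d - c ≤ R) :
    ∃ T : (E → F) → E → F,
      (∀ (h : E → F) (M : ℝ), 0 ≤ M → DifferentiableOn ℂ h (C.bx x0 x1 c d) →
        (∀ z ∈ C.bx x0 x1 c d, ‖h z‖ ≤ M) →
        DifferentiableOn ℂ (T h) (C.bx xl x1 c d) ∧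
        (∀ z ∈ C.bx xl x1 c d, ‖T h z‖ ≤ (3 * Jc R ^ 2 / (x1 - x0) + 1) * M) ∧
        ∃ b : E → F, DifferentiableOn ℂ b (C.bx x0 xr c d) ∧
          (∀ z ∈ C.bx x0 xr c d, ‖b z‖ ≤ (3 * Jc R ^ 2 / (x1 - x0) + 1) * M) ∧
          ∀ z, b z = T h z + h z) ∧
      ∀ (h h' : E → F) (M M' : ℝ), DifferentiableOn ℂ h (C.bx x0 x1 c d) →
        (∀ z ∈ C.bx x0 x1 c d, ‖h z‖ ≤ M) → DifferentiableOn ℂ h' (C.bx x0 x1 c d) →
        (∀ z ∈ C.bx x0 x1 c d, ‖h' z‖ ≤ M') →
        ∀ z ∈ C.W, T (fun w => h w - h' w) z = T h z - T h' z := by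
  set p : ℝ := x0 + (x1 - x0) / 3 with hp
  set q : ℝ := x0 + 2 * (x1 - x0) / 3 with hq
  have h0 : x0 < p := by rw [hp]; linarith
  have hpq : p < q := by rw [hp, hq]; linarith
  have h1 : q < x1 := by rw [hq]; linarith
  have hK : Jc R ^ 2 / (q - p) = 3 * Jc R ^ 2 / (x1 - x0) := by
    have : q - p = (x1 - x0) / 3 := by rw [hp, hq]; ring
    rw [this]
    field_simp
  refine ⟨fun h z => -(C.cf p q c d h z + (ch p q (C.ℓ z).re : ℂ) • h z), ?_, ?_⟩
  · intro h M hM0 hh hM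
    have hcf : ∀ z ∈ C.bx xl xr c d, ‖C.cf p q c d h z‖ ≤ 3 * Jc R ^ 2 / (x1 - x0) * M := by
      intro z hz
      rw [← hK]
      exact cf_bound h0 hpq h1 hcd hM hM0 hz.1 hR (by linarith [hz.2.1.2]) (by linarith [hz.2.1.1])
        (by linarith [hz.2.2.2]) (by linarith [hz.2.2.1])
    have hA : ∀ z ∈ C.bx xl x1 c d, DifferentiableAt ℂ
        (fun z => -(C.cf p q c d h z + (ch p q (C.ℓ z).re : ℂ) • h z)) z := fun z hz =>
      (cf_hol_left h0 hpq h1 hh hM hM0 hz.1 hz.2.1.2 hz.2.2).neg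
    refine ⟨fun z hz => (hA z hz).differentiableWithinAt, fun z hz => ?_,
      fun z => -(C.cf p q c d h z + (ch p q (C.ℓ z).re : ℂ) • h z) + h z, fun z hz => ?_,
      fun z hz => ?_, fun z => rfl⟩
    · rw [norm_neg, add_mul, one_mul]
      refine (norm_add_le _ _).trans (add_le_add (hcf z ⟨hz.1, ⟨hz.2.1.1, by linarith [hz.2.1.2]⟩,
        hz.2.2⟩) ?_)
      rcases le_or_gt (C.ℓ z).re p with hx | hx
      · rw [ch_left hx]; simpa using hM0
      · rw [norm_smul, norm_real, Real.norm_of_nonneg (ch_nonneg hpq _)]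
        have := hM z ⟨hz.1, ⟨h0.trans hx, hz.2.1.2⟩, hz.2.2⟩
        nlinarith [ch_le_one hpq (C.ℓ z).re, ch_nonneg hpq (C.ℓ z).re, norm_nonneg (h z)]
    · refine DifferentiableAt.differentiableWithinAt ?_
      rcases lt_or_ge (C.ℓ z).re x1 with hx | hx
      · exact (hA z ⟨hz.1, ⟨by linarith [hz.2.1.1], hx⟩, hz.2.2⟩).add
          (hh.differentiableAt ((C.isOpen_bx _ _ _ _).mem_nhds ⟨hz.1, ⟨hz.2.1.1, hx⟩, hz.2.2⟩))
      · have hqz : q < (C.ℓ z).re := by linarith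
        refine (cf_hol_right (p := p) h0 h1 hh hM hM0 hz.1 hqz).neg.congr_of_eventuallyEq ?_
        have hc : Continuous fun z => (C.ℓ z).re := continuous_re.comp C.ℓ.continuous
        filter_upwards [(isOpen_Ioi.preimage hc).mem_nhds hqz] with w hw
        rw [ch_right hpq (le_of_lt hw)]
        simp
    · have e : -(C.cf p q c d h z + (ch p q (C.ℓ z).re : ℂ) • h z) + h z =
          -C.cf p q c d h z + ((1 - ch p q (C.ℓ z).re : ℝ) : ℂ) • h z := by
        push_cast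
        rw [sub_smul, one_smul]
        abel
      beta_reduce
      rw [e, add_mul, one_mul]
      refine (norm_add_le _ _).trans (add_le_add ?_ ?_)
      · rw [norm_neg]
        exact hcf z ⟨hz.1, ⟨by linarith [hz.2.1.1], hz.2.1.2⟩, hz.2.2⟩
      · rcases le_or_gt q (C.ℓ z).re with hx | hx
        · rw [ch_right hpq hx]; simpa using hM0
        · rw [norm_smul, norm_real, Real.norm_of_nonneg (by linarith [ch_le_one hpq (C.ℓ z).re])]
          have := hM z ⟨hz.1, ⟨hz.2.1.1, hx.trans h1⟩, hz.2.2⟩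
          nlinarith [ch_le_one hpq (C.ℓ z).re, ch_nonneg hpq (C.ℓ z).re, norm_nonneg (h z)]
  · intro h h' M M' hh hM hh' hM' z hz
    simp only
    rw [cf_sub h0 h1 hh hM hh' hM' hz, smul_sub]
    abel

end Cyl

end Crest.Agent.T223.Qc47
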