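import Crest.Agent.T223.QcStep_47

/-!
# Row 223, quasi-charts (helper47), part 5: boxes in `ℂⁿ`, `ExtStmt`
-/

set_option autoImplicit false
set_option linter.unusedSectionVars false
set_option linter.unusedVariables false

open Set Filter Topology Metric Complex

noncomputable section

namespace Crest.Agent.T223.Qc47

variable {n : ℕ}

local notation "En" => EuclideanSpace ℂ (Fin n)

/-- the fourth roots of unity -/
def om (m : Fin 4) : ℂ := I ^ (m : ℕ)

theorem norm_om (m : Fin 4) : ‖om m‖ = 1 := by simp [om]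

theorem om_ne (m : Fin 4) : om m ≠ 0 := fun h => by simpa [h] using norm_om m

theorem om_add (m i : Fin 4) : om (m + i) = om m * om i := by
  fin_cases m <;> fin_cases i <;> simp [om, pow_succ] <;> rfl

/-- the `4 n` real functionals -/
def lam (k : Fin n × Fin 4) (z : En) : ℝ := (om k.2 * z k.1).re

theorem lam_le (k : Fin n × Fin 4) (z : En) : lam k z ≤ ‖z‖ := by
  refine (re_le_norm _).trans ?_
  rw [norm_mul, norm_om, one_mul]
  exact PiLp.norm_apply_le z k.1

theorem lam_sub (k : Fin n × Fin 4) (z w : En) : lam k (w - z) = lam k w - lam k z := by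
  simp [lam, mul_sub]

/-- boxes -/
def Box (h : Fin n × Fin 4 → ℝ) : Set En := {z | ∀ k, lam k z < h k}

theorem Box_mono {h h' : Fin n × Fin 4 → ℝ} (hh : ∀ k, h' k ≤ h k) : (Box h' : Set En) ⊆ Box h :=
  fun z hz k => (hz k).trans_le (hh k)

theorem ball_sub_Box {h : Fin n × Fin 4 → ℝ} {r : ℝ} (hh : ∀ k, r ≤ h k) :
    ball (0 : En) r ⊆ Box h := fun z hz k =>
  (lam_le k z).trans_lt ((mem_ball_zero_iff.1 hz).trans_le (hh k))

theorem Box_sub_ball {h : Fin n × Fin 4 → ℝ} {Λ : ℝ} (hΛ : 0 < Λ) (hh : ∀ k, h k ≤ Λ) :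
    (Box h : Set En) ⊆ ball 0 ((2 * n + 1) * Λ) := by
  intro z hz
  have hj : ∀ j, ‖z j‖ ≤ 2 * Λ := by
    intro j
    have a0 := (hz (j, 0)).trans_le (hh _)
    have a1 := (hz (j, 1)).trans_le (hh _)
    have a2 := (hz (j, 2)).trans_le (hh _)
    have a3 := (hz (j, 3)).trans_le (hh _)
    simp [lam, om, pow_succ] at a0 a1 a2 a3
    have b1 : |(z j).re| ≤ Λ := abs_le.2 ⟨by linarith, by linarith⟩
    have b2 : |(z j).im| ≤ Λ := abs_le.2 ⟨by linarith, by linarith⟩
    linarith [norm_le_abs_re_add_abs_im (z j)]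
  rw [mem_ball_zero_iff, EuclideanSpace.norm_eq, Real.sqrt_lt' (by positivity)]
  have h1 : ∑ j, ‖z j‖ ^ 2 ≤ ∑ _j : Fin n, (2 * Λ) ^ 2 :=
    Finset.sum_le_sum fun j _ => pow_le_pow_left₀ (norm_nonneg _) (hj j) 2
  rw [Finset.sum_const, Finset.card_univ, Fintype.card_fin, nsmul_eq_mul] at h1
  have hn : (0 : ℝ) ≤ n := Nat.cast_nonneg n
  have : (n : ℝ) * (2 * Λ) ^ 2 < ((2 * n + 1) * Λ) ^ 2 := by
    have hΛ2 : 0 < Λ ^ 2 := by positivity
    nlinarith [mul_nonneg (mul_nonneg hn hn) hΛ2.le]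
  linarith

/-- the family of cylinders for the face `k0` of the box -/
def fam (h : Fin n × Fin 4 → ℝ) (k0 : Fin n × Fin 4) : Fam En where
  u := EuclideanSpace.single k0.1 (-(om k0.2)⁻¹)
  ℓ := (-om k0.2) • EuclideanSpace.proj k0.1
  W := fun κ => {z | ∀ k : Fin n × Fin 4, k.1 ≠ k0.1 → lam k z < h k - κ}
  one := by simp [om_ne]
  nu := by simp [norm_om]
  nℓ := fun v => by
    simpa [norm_om] using PiLp.norm_apply_le v k0.1
  opn := fun κ => by
    simp only [setOf_forall]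
    refine isOpen_iInter_of_finite fun k => isOpen_iInter_of_finite fun _ => ?_
    refine isOpen_lt ?_ continuous_const
    unfold lam
    fun_prop
  cvx := fun κ x hx y hy a b ha hb hab k hk => by
    have e : lam k (a • x + b • y) = a * lam k x + b * lam k y := by
      simp [lam]
      ring
    rw [e]
    have h1 := hx k hk
    have h2 := hy k hk
    rcases eq_or_lt_of_le ha with h0 | h0
    · subst h0
      have : b = 1 := by linarith
      subst this
      linarith
    · have h3 := mul_lt_mul_of_pos_left h1 h0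
      have h4 := mul_le_mul_of_nonneg_left h2.le hb
      have h5 : a * (h k - κ) + b * (h k - κ) = h k - κ := by rw [← add_mul, hab, one_mul]
      linarith
  inv := fun κ z hz ζ k hk => by
    have := hz k hk
    simpa [lam, hk] using this
  mar := fun κ κ' z w hz hw k hk => by
    have h1 := hz k hk
    have h2 := lam_le k (w - z)
    rw [lam_sub] at h2
    linarith

theorem lam_line (h : Fin n × Fin 4 → ℝ) (k0 : Fin n × Fin 4) (z : En) :
    lam (k0.1, k0.2 + 0) z = -((fam h k0).ℓ z).re ∧ lam (k0.1, k0.2 + 1) z = ((fam h k0).ℓ z).im ∧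
    lam (k0.1, k0.2 + 2) z = ((fam h k0).ℓ z).re ∧ lam (k0.1, k0.2 + 3) z = -((fam h k0).ℓ z).im := by
  have e : (fam h k0).ℓ z = -(om k0.2 * z k0.1) := by simp [fam]
  simp only [lam, om_add, e]
  have o0 : om 0 = 1 := by simp [om]
  have o1 : om 1 = I := by simp [om]
  have o2 : om 2 = -1 := by simp [om]
  have o3 : om 3 = -I := by simp [om, pow_succ]
  rw [o0, o1, o2, o3]
  refine ⟨?_, ?_, ?_, ?_⟩ <;> simp <;> ring

theorem B_sub_Box (h : Fin n × Fin 4 → ℝ) (k0 : Fin n × Fin 4) :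
    (fam h k0).B 0 (-h (k0.1, k0.2 + 0)) (h (k0.1, k0.2 + 2)) (-h (k0.1, k0.2 + 3))
      (h (k0.1, k0.2 + 1)) ⊆ Box h := by
  intro z hz k
  obtain ⟨a, ⟨b1, b2⟩, c1, c2⟩ := (fam h k0).mem_B.1 hz
  obtain ⟨l0, l1, l2, l3⟩ := lam_line h k0 z
  by_cases hk : k.1 = k0.1
  · obtain ⟨i, hi⟩ : ∃ i, k = (k0.1, k0.2 + i) := ⟨k.2 - k0.2, Prod.ext hk (by simp)⟩
    subst hi
    fin_cases i
    · show lam (k0.1, k0.2 + 0) z < h (k0.1, k0.2 + 0)
      linarith
    · show lam (k0.1, k0.2 + 1) z < h (k0.1, k0.2 + 1)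
      linarith
    · show lam (k0.1, k0.2 + 2) z < h (k0.1, k0.2 + 2)
      linarith
    · show lam (k0.1, k0.2 + 3) z < h (k0.1, k0.2 + 3)
      linarith
  · simpa using a k hk

/-- one face of the box is pushed out -/
theorem im_face (hP : PolarStmt En) (hL : LiftStmt En) {h h' : Fin n × Fin 4 → ℝ}
    (k0 : Fin n × Fin 4) {s κ : ℝ} (hs : 0 < s) (hκ : 0 < κ) (hκs : 2 * κ ≤ s)
    (hh : ∀ k, s + 6 * κ ≤ h k) (h1 : h' k0 ≤ h k0 + s / 2 - 6 * κ)
    (h2 : ∀ k, k ≠ k0 → h' k ≤ h k - 6 * κ) : Im (Box h : Set En) (Box h') (s / 2) := by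
  obtain ⟨Λ, hΛ⟩ := (Set.finite_range h).bddAbove
  have hΛ' : ∀ k, h k ≤ Λ := fun k => hΛ ⟨k, rfl⟩
  have hΛ0 : 0 < Λ := by linarith [hh k0, hΛ' k0]
  have key := im_step hP hL (fam h k0) (xl := -h (k0.1, k0.2 + 0)) (xr := h (k0.1, k0.2 + 2))
    (c := -h (k0.1, k0.2 + 3)) (d := h (k0.1, k0.2 + 1)) hs hκ hκs
    (fun z hz k _ => by linarith [lam_le k z, mem_ball_zero_iff.1 hz, hh k])
    (by linarith [hh (k0.1, k0.2 + 0)]) (by linarith [hh (k0.1, k0.2 + 2)])
    (by linarith [hh (k0.1, k0.2 + 3)]) (by linarith [hh (k0.1, k0.2 + 1)])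
    ((B_sub_Box h k0).trans (Box_sub_ball hΛ0 hΛ'))
  have hsub : (Box h' : Set En) ⊆ (fam h k0).B (6 * κ) (-h (k0.1, k0.2 + 0) - s / 2)
      (h (k0.1, k0.2 + 2)) (-h (k0.1, k0.2 + 3)) (h (k0.1, k0.2 + 1)) := by
    intro z hz
    obtain ⟨l0, l1, l2, l3⟩ := lam_line h k0 z
    have e0 : (k0.1, k0.2 + 0) = k0 := by simp
    have ne : ∀ i : Fin 4, i ≠ 0 → (k0.1, k0.2 + i) ≠ k0 := fun i hi he => by
      have := congrArg Prod.snd he
      simp only [add_eq_left] at this
      exact hi this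
    have a0 := hz (k0.1, k0.2 + 0)
    have a1 := (hz (k0.1, k0.2 + 1)).trans_le (h2 _ (ne 1 (by decide)))
    have a2 := (hz (k0.1, k0.2 + 2)).trans_le (h2 _ (ne 2 (by decide)))
    have a3 := (hz (k0.1, k0.2 + 3)).trans_le (h2 _ (ne 3 (by decide)))
    rw [← e0] at h1
    refine (fam h k0).mem_B.2 ⟨fun k hk => (hz k).trans_le (h2 k fun he => hk (by rw [he])),
      ⟨by linarith, by linarith⟩, by linarith, by linarith⟩
  have := ((Im.of_subset (B_sub_Box h k0)).trans key).trans (Im.of_subset hsub)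
  simpa using this

/-- all faces are pushed out -/
theorem im_round (hP : PolarStmt En) (hL : LiftStmt En) {s κ a : ℝ} (hs : 0 < s) (hκ : 0 < κ)
    (hκs : 2 * κ ≤ s) (ha : s + 6 * κ + (4 * n) * (6 * κ) ≤ a) :
    ∃ N : ℝ, 0 ≤ N ∧ Im (Box fun _ => a : Set En)
      (Box fun _ => a + s / 2 - (4 * n) * (6 * κ)) N := by
  classical
  have key : ∀ S : Finset (Fin n × Fin 4), ∃ N : ℝ, 0 ≤ N ∧ Im (Box fun _ => a : Set En)
      (Box fun k => a - S.card * (6 * κ) + if k ∈ S then s / 2 else 0) N := by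
    intro S
    induction S using Finset.induction_on with
    | empty => exact ⟨0, le_rfl, Im.of_subset (Box_mono fun k => by simp)⟩
    | insert k0 S hk0 ih =>
      obtain ⟨N, hN, ih⟩ := ih
      have hc : (S.card : ℝ) ≤ 4 * n := by
        have := S.card_le_univ
        rw [Fintype.card_prod, Fintype.card_fin, Fintype.card_fin] at this
        have h2 : (S.card : ℝ) ≤ (n * 4 : ℕ) := by exact_mod_cast this
        push_cast at h2
        linarith
      have hc2 : (S.card : ℝ) * (6 * κ) ≤ 4 * n * (6 * κ) := by gcongr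
      refine ⟨N + s / 2, by linarith, ih.trans (im_face hP hL k0 hs hκ hκs (fun k => ?_) ?_
        fun k hk => ?_)⟩
      · split_ifs <;> linarith
      · simp only [Finset.card_insert_of_notMem hk0, Finset.mem_insert_self, if_true, if_neg hk0]
        push_cast
        linarith
      · simp only [Finset.card_insert_of_notMem hk0, Finset.mem_insert, hk, false_or]
        push_cast
        linarith
  obtain ⟨N, hN, h⟩ := key Finset.univ
  refine ⟨N + 0, by linarith, h.trans (Im.of_subset (Box_mono fun k => ?_))⟩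
  simp only [Finset.card_univ, Fintype.card_prod, Fintype.card_fin, Finset.mem_univ, if_true]
  push_cast
  linarith

/-- **EXT** -/
theorem extStmt (hP : PolarStmt En) (hL : LiftStmt En) : ExtStmt n := by
  intro s0 R ε' hs0 hε'
  have hn : (0 : ℝ) ≤ n := Nat.cast_nonneg n
  set a0 : ℝ := s0 / (2 * n + 1) with ha0
  have ha00 : 0 < a0 := by positivity
  set s : ℝ := a0 / 2 with hs
  have hs' : 0 < s := by positivity
  set κ : ℝ := s / (24 * (4 * n + 1)) with hκ
  have hκ0 : 0 < κ := by positivity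
  have hκ1 : 6 * κ + (4 * n) * (6 * κ) = s / 4 := by rw [hκ]; field_simp; ring
  have hκ2 : 0 ≤ (4 * n) * (6 * κ) := by positivity
  have key : ∀ m : ℕ, ∃ N : ℝ, 0 ≤ N ∧ Im (ball (0 : En) s0) (Box fun _ => a0 + m * (s / 4)) N := by
    intro m
    induction m with
    | zero =>
      refine ⟨0, le_rfl, Im.of_subset ?_⟩
      have := Box_sub_ball (n := n) (h := fun _ => a0 + (0 : ℕ) * (s / 4)) ha00 (fun k => by simp)
      rwa [show (2 * (n : ℝ) + 1) * a0 = s0 by rw [ha0]; field_simp] at this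
    | succ m ih =>
      obtain ⟨N, hN, ih⟩ := ih
      have hm : 0 ≤ (m : ℝ) * (s / 4) := by positivity
      obtain ⟨N', hN', h⟩ := im_round hP hL (a := a0 + m * (s / 4)) hs' hκ0 (by linarith)
        (by linarith)
      refine ⟨N + N' + 0, by linarith, (ih.trans h).trans (Im.of_subset (Box_mono fun k => ?_))⟩
      push_cast
      linarith
  obtain ⟨m, hm⟩ := exists_nat_ge (R / (s / 4))
  rw [div_le_iff₀ (by positivity)] at hm
  obtain ⟨N, hN, h⟩ := key m
  obtain ⟨ε, hε, h2⟩ := (h.trans (Im.of_subset (ball_sub_Box (r := R) fun k => by linarith))) ε' hε'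
  exact ⟨ε, N + 0, hε, by linarith, h2⟩

end Crest.Agent.T223.Qc47
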