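import Crest.Agent.R275.Cz1_632

/-!
# Row 223, quasi-charts (helper47), part 1: holomorphic parameter integrals, vector valued
rectangle formula, the integrable majorant
-/

set_option autoImplicit false
set_option linter.unusedSectionVars false

open Set Filter Topology Metric Complex MeasureTheory
open scoped Real Interval

noncomputable section

namespace Crest.Agent.T223.Qc47

open Crest.Agent.R266 Crest.Agent.R266.SCV Crest.Agent.R275.Cz1632

section HI

variable {E : Type} [NormedAddCommGroup E] [NormedSpace ℂ E] [FiniteDimensional ℂ E]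
variable {F : Type} [NormedAddCommGroup F] [NormedSpace ℂ F] [CompleteSpace F]
variable {X : Type} [MeasurableSpace X] {μ : Measure X}

/-- Lipschitz bound from the Cauchy estimate -/
theorem lip_of_bound {G : Type} [NormedAddCommGroup G] [NormedSpace ℂ G] {f : G → F} {x : G}
    {r M : ℝ} (hr : 0 < r) (hf : DifferentiableOn ℂ f (ball x (2 * r)))
    (hM : ∀ y ∈ ball x (2 * r), ‖f y‖ ≤ M) {y z : G} (hy : y ∈ ball x r) (hz : z ∈ ball x r) :
    ‖f y - f z‖ ≤ M / r * ‖y - z‖ := by
  have hsub : ∀ w ∈ ball x r, ball w r ⊆ ball x (2 * r) := by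
    intro w hw v hv
    rw [mem_ball] at *
    linarith [dist_triangle v w x]
  refine Convex.norm_image_sub_le_of_norm_fderiv_le (𝕜 := ℂ) (s := ball x r) ?_ ?_
    (convex_ball x r) hz hy
  · intro w hw
    exact hf.differentiableAt (isOpen_ball.mem_nhds (hsub w hw (mem_ball_self hr)))
  · intro w hw
    exact norm_fderiv_le_of_ball hr (hf.mono (hsub w hw)) (fun v hv => hM v (hsub w hw hv))

/-- one variable version -/
theorem hi_one {f : ℂ → X → F} {r : ℝ} (hr : 0 < r) {g : X → ℝ} (hg : Integrable g μ)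
    (hm : ∀ z ∈ ball (0 : ℂ) (2 * r), AEStronglyMeasurable (f z) μ)
    (hd : ∀ᵐ a ∂μ, DifferentiableOn ℂ (fun z => f z a) (ball 0 (2 * r)))
    (hb : ∀ᵐ a ∂μ, ∀ z ∈ ball (0 : ℂ) (2 * r), ‖f z a‖ ≤ g a) :
    DifferentiableAt ℂ (fun z => ∫ a, f z a ∂μ) 0 := by
  have h0 : (0 : ℂ) ∈ ball (0 : ℂ) (2 * r) := mem_ball_self (by linarith)
  have hn : ball (0 : ℂ) (2 * r) ∈ 𝓝 (0 : ℂ) := isOpen_ball.mem_nhds h0
  have hder : ∀ᵐ a ∂μ, HasDerivAt (fun z => f z a) (deriv (fun z => f z a) 0) 0 :=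
    hd.mono fun a ha => (ha.differentiableAt hn).hasDerivAt
  set s : ℕ → ℂ := fun k => ((r / ((k : ℝ) + 1) : ℝ) : ℂ) with hs
  have hs0 : ∀ k, s k ≠ 0 := by
    intro k
    have : (0 : ℝ) < r / ((k : ℝ) + 1) := by positivity
    exact ofReal_ne_zero.2 this.ne'
  have hsb : ∀ k, s k ∈ ball (0 : ℂ) (2 * r) := by
    intro k
    have h1 : (0 : ℝ) < r / ((k : ℝ) + 1) := by positivity
    have h2 : r / ((k : ℝ) + 1) ≤ r := div_le_self hr.le (by linarith [Nat.cast_nonneg (α := ℝ) k])
    rw [mem_ball_zero_iff, hs, norm_real, Real.norm_of_nonneg h1.le]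
    linarith
  have hst : Tendsto s atTop (𝓝[≠] 0) := by
    refine tendsto_nhdsWithin_iff.2 ⟨?_, Eventually.of_forall hs0⟩
    have h1 : Tendsto (fun k : ℕ => r / ((k : ℝ) + 1)) atTop (𝓝 0) := by
      have := (tendsto_one_div_add_atTop_nhds_zero_nat (𝕜 := ℝ)).const_mul r
      simpa [div_eq_mul_inv] using this
    have := (continuous_ofReal.tendsto 0).comp h1
    rw [ofReal_zero] at this
    exact this
  have hF'm : AEStronglyMeasurable (fun a => deriv (fun z => f z a) 0) μ := by
    refine aestronglyMeasurable_of_tendsto_ae (u := atTop)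
      (f := fun k a => (s k)⁻¹ • (f (s k) a - f 0 a)) (fun k => ?_) ?_
    · exact ((hm _ (hsb k)).sub (hm _ h0)).const_smul _
    · refine hder.mono fun a ha => ?_
      have := (hasDerivAt_iff_tendsto_slope_zero.1 ha).comp hst
      simpa [Function.comp_def] using this
  have hint : Integrable (f 0) μ := hg.mono' (hm 0 h0) (hb.mono fun a ha => ha 0 h0)
  have := hasDerivAt_integral_of_dominated_loc_of_lip (μ := μ) (F := f) (x₀ := (0 : ℂ))
    (s := ball 0 r) (bound := fun a => g a / r) (ball_mem_nhds _ hr)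
    (Filter.mem_of_superset hn hm) hint hF'm ?_ (hg.div_const r) hder
  · exact this.2.differentiableAt
  · filter_upwards [hd, hb] with a ha1 ha2
    refine LipschitzOnWith.of_dist_le_mul fun y hy z hz => ?_
    rw [dist_eq_norm, dist_eq_norm]
    refine (lip_of_bound hr ha1 ha2 hy hz).trans ?_
    gcongr
    rw [Real.coe_nnabs]
    exact le_abs_self _

/-- holomorphic parameter integrals with an integrable majorant -/
theorem hi {f : E → X → F} {U : Set E} (hU : IsOpen U) {g : X → ℝ} (hg : Integrable g μ)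
    (hm : ∀ z ∈ U, AEStronglyMeasurable (f z) μ)
    (hd : ∀ᵐ a ∂μ, DifferentiableOn ℂ (fun z => f z a) U)
    (hb : ∀ᵐ a ∂μ, ∀ z ∈ U, ‖f z a‖ ≤ g a) :
    DifferentiableOn ℂ (fun z => ∫ a, f z a ∂μ) U := by
  refine (analyticOnNhd_of_gateaux hU ?_ ?_).differentiableOn
  · intro x hx
    refine (continuousAt_of_dominated (bound := g) (Filter.mem_of_superset (hU.mem_nhds hx) hm)
      ?_ hg ?_).continuousWithinAt
    · filter_upwards [hU.mem_nhds hx] with z hz
      exact hb.mono fun a ha => ha z hz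
    · exact hd.mono fun a ha => (ha.differentiableAt (hU.mem_nhds hx)).continuousAt
  · intro x hx v
    have hcont : Continuous (fun z : ℂ => x + z • v) := by fun_prop
    have h0 : (fun z : ℂ => x + z • v) ⁻¹' U ∈ 𝓝 (0 : ℂ) :=
      (hU.preimage hcont).mem_nhds (by simpa using hx)
    obtain ⟨ρ, hρ, hρU⟩ := Metric.mem_nhds_iff.1 h0
    have e : ρ = 2 * (ρ / 2) := by ring
    rw [e] at hρU
    refine hi_one (μ := μ) (f := fun z a => f (x + z • v) a) (r := ρ / 2) (by linarith) hg
      (fun z hz => hm _ (hρU hz)) ?_ ?_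
    · refine hd.mono fun a ha => ?_
      exact ha.comp (by fun_prop : Differentiable ℂ (fun z : ℂ => x + z • v)).differentiableOn
        (fun z hz => hρU hz)
    · exact hb.mono fun a ha z hz => ha _ (hρU hz)

end HI

section rect

variable {F : Type} [NormedAddCommGroup F] [NormedSpace ℂ F] [CompleteSpace F]

/-- horizontal segment -/
def hS (f : ℂ → F) (c a b : ℝ) (z : ℂ) : F :=
  ∫ x in a..b, ((x + c * I : ℂ) - z)⁻¹ • f (x + c * I)

/-- vertical segment -/
def vS (f : ℂ → F) (a c d : ℝ) (z : ℂ) : F :=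
  ∫ y in c..d, ((a + y * I : ℂ) - z)⁻¹ • f (a + y * I)

theorem seg_eq {f : ℂ → F} {γ : ℝ → ℂ} (hγ : Continuous γ) {α β : ℝ} {z : ℂ}
    (hf : ContinuousOn f (γ '' [[α, β]])) (hz : ∀ x ∈ [[α, β]], γ x ≠ z) :
    (∫ x in α..β, (γ x - z)⁻¹ • f (γ x)) =
      (∫ x in α..β, dslope f z (γ x)) + (∫ x in α..β, 1 / (γ x - z)) • f z := by
  have hf' : ContinuousOn (fun x : ℝ => f (γ x)) [[α, β]] :=
    hf.comp hγ.continuousOn (mapsTo_image _ _)
  have hne : ∀ x ∈ [[α, β]], γ x - z ≠ 0 := fun x hx => sub_ne_zero.2 (hz x hx)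
  have hinv : ContinuousOn (fun x : ℝ => (γ x - z)⁻¹) [[α, β]] :=
    (hγ.continuousOn.sub continuousOn_const).inv₀ hne
  have i1 : IntervalIntegrable (fun x : ℝ => (γ x - z)⁻¹ • f (γ x)) volume α β :=
    (hinv.smul hf').intervalIntegrable
  have i2 : IntervalIntegrable (fun x : ℝ => (γ x - z)⁻¹ • f z) volume α β :=
    (hinv.smul continuousOn_const).intervalIntegrable
  have e : (∫ x in α..β, dslope f z (γ x)) =
      ∫ x in α..β, ((γ x - z)⁻¹ • f (γ x) - (γ x - z)⁻¹ • f z) := by
    refine intervalIntegral.integral_congr fun x hx => ?_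
    show dslope f z (γ x) = _
    rw [dslope_of_ne _ (hz x hx), slope_def_module, smul_sub]
  rw [e, intervalIntegral.integral_sub i1 i2, intervalIntegral.integral_smul_const]
  simp only [one_div]
  abel

/-- Cauchy's formula on a rectangle, vector valued -/
theorem rect_in {f : ℂ → F} {U : Set ℂ} (hU : IsOpen U) (hf : DifferentiableOn ℂ f U)
    {a b c d : ℝ} (hsub : Icc a b ×ℂ Icc c d ⊆ U) {z : ℂ} (hz1 : z.re ∈ Ioo a b)
    (hz2 : z.im ∈ Ioo c d) :
    hS f c a b z + I • vS f b c d z - hS f d a b z - I • vS f a c d z = (2 * π * I : ℂ) • f z := by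
  have hab : a ≤ b := (hz1.1.trans hz1.2).le
  have hcd : c ≤ d := (hz2.1.trans hz2.2).le
  have hzU : U ∈ 𝓝 z := hU.mem_nhds (hsub ⟨⟨hz1.1.le, hz1.2.le⟩, ⟨hz2.1.le, hz2.2.le⟩⟩)
  have hG := integral_boundary_rect_eq_zero_of_differentiableOn (dslope f z) (a + c * I) (b + d * I)
    (((differentiableOn_dslope hzU).2 hf).mono (by
      simpa [uIcc_of_le hab, uIcc_of_le hcd] using hsub))
  simp only [add_re, ofReal_re, mul_re, I_re, mul_zero, ofReal_im, I_im, mul_one, sub_self,
    add_zero, add_im, mul_im, zero_add] at hG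
  have mh : ∀ h ∈ Icc c d, ∀ x ∈ Icc a b, (x + h * I : ℂ) ∈ U := by
    intro h hh x hx
    exact hsub ⟨by simpa using hx, by simpa using hh⟩
  have key_h : ∀ h ∈ Icc c d, h ≠ z.im →
      hS f h a b z = (∫ x in a..b, dslope f z (x + h * I)) + hs (fun _ => 1) h a b z • f z := by
    intro h hh hne
    refine seg_eq (γ := fun x : ℝ => (x + h * I : ℂ)) (by fun_prop) (hf.continuousOn.mono ?_) ?_
    · rintro _ ⟨x, hx, rfl⟩
      rw [uIcc_of_le hab] at hx
      exact mh h hh x hx
    · intro x _ h0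
      apply hne
      have := congrArg Complex.im h0
      simpa using this
  have key_v : ∀ h ∈ Icc a b, h ≠ z.re →
      vS f h c d z = (∫ y in c..d, dslope f z (h + y * I)) + vs (fun _ => 1) h c d z • f z := by
    intro h hh hne
    refine seg_eq (γ := fun y : ℝ => (h + y * I : ℂ)) (by fun_prop) (hf.continuousOn.mono ?_) ?_
    · rintro _ ⟨y, hy, rfl⟩
      rw [uIcc_of_le hcd] at hy
      exact mh y hy h hh
    · intro y _ h0
      apply hne
      have := congrArg Complex.re h0
      simpa using this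
  have hw := wind (t := a) hz1 hz2
  have z1 : ∀ h : ℝ, hs (fun _ => (1 : ℂ)) h a a z = 0 := fun h => by simp [hs]
  unfold oR oL at hw
  rw [z1, z1] at hw
  rw [key_h c ⟨le_refl _, hcd⟩ hz2.1.ne, key_h d ⟨hcd, le_refl _⟩ hz2.2.ne',
    key_v b ⟨hab, le_refl _⟩ hz1.2.ne', key_v a ⟨le_refl _, hab⟩ hz1.1.ne, ← hw]
  simp only [smul_add, add_smul, sub_smul, mul_smul, zero_smul]
  rw [← sub_eq_zero]
  rw [← hG]
  abel

/-- Cauchy-Goursat on a rectangle to the right of the pole -/
theorem rect_out {f : ℂ → F} {U : Set ℂ} (hf : DifferentiableOn ℂ f U)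
    {a b c d : ℝ} (hab : a ≤ b) (hcd : c ≤ d) (hsub : Icc a b ×ℂ Icc c d ⊆ U) {z : ℂ}
    (hz1 : z.re < a) :
    hS f c a b z + I • vS f b c d z - hS f d a b z - I • vS f a c d z = 0 := by
  have hG := integral_boundary_rect_eq_zero_of_differentiableOn
    (fun w => (w - z)⁻¹ • f w) (a + c * I) (b + d * I) (by
      have e : [[((a : ℂ) + c * I).re, ((b : ℂ) + d * I).re]] ×ℂ
          [[((a : ℂ) + c * I).im, ((b : ℂ) + d * I).im]] = Icc a b ×ℂ Icc c d := by
        simp [uIcc_of_le hab, uIcc_of_le hcd]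
      rw [e]
      refine DifferentiableOn.smul ?_ (hf.mono hsub)
      refine (differentiableOn_id.sub_const z).inv fun w hw h0 => ?_
      have h1 : w = z := sub_eq_zero.1 h0
      have h2 : a ≤ w.re := hw.1.1
      rw [h1] at h2
      linarith)
  simp only [add_re, ofReal_re, mul_re, I_re, mul_zero, ofReal_im, I_im, mul_one, sub_self,
    add_zero, add_im, mul_im, zero_add] at hG
  unfold hS vS
  rw [← hG]
  abel

end rect

section maj

/-- the majorant `|s|^(-1/2)` -/
def mj (s : ℝ) : ℝ := |s| ^ (-(1 / 2 : ℝ))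

theorem mj_nonneg (s : ℝ) : 0 ≤ mj s := Real.rpow_nonneg (abs_nonneg s) _

theorem mj_ii (a b : ℝ) : IntervalIntegrable mj volume a b := by
  have h1 : ∀ b : ℝ, 0 ≤ b → IntervalIntegrable mj volume 0 b := by
    intro b hb
    have := intervalIntegral.intervalIntegrable_rpow' (r := -(1 / 2 : ℝ)) (a := 0) (b := b)
      (by norm_num)
    refine this.congr fun x hx => ?_
    rw [uIoc_of_le hb] at hx
    simp only [mj, abs_of_pos hx.1]
  have h2 : ∀ b : ℝ, IntervalIntegrable mj volume 0 b := by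
    intro b
    rcases le_total 0 b with hb | hb
    · exact h1 b hb
    · have := (h1 (-b) (by linarith)).comp_sub_left 0
      simp only [sub_zero, zero_sub, neg_neg] at this
      refine this.congr fun x _ => ?_
      simp [mj]
  exact (h2 a).symm.trans (h2 b)

/-- the constant -/
def Jc (R : ℝ) : ℝ := ∫ s in (-R)..R, mj s

theorem Jc_nonneg {R : ℝ} (hR : 0 ≤ R) : 0 ≤ Jc R :=
  intervalIntegral.integral_nonneg (by linarith) fun s _ => mj_nonneg s

theorem mj_integrableOn (a b p : ℝ) : IntegrableOn (fun s => mj (s - p)) (Ioo a b) := by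
  rcases le_total a b with hab | hab
  · have := (mj_ii (a - p) (b - p)).comp_sub_right p
    simp only [sub_add_cancel] at this
    exact ((intervalIntegrable_iff_integrableOn_Ioo_of_le hab).1 this)
  · rw [Ioo_eq_empty (not_lt.2 hab)]
    exact integrableOn_empty

theorem mj_int_le {a b p R : ℝ} (hab : a ≤ b) (ha : -R ≤ a - p) (hb : b - p ≤ R) :
    ∫ s in Ioo a b, mj (s - p) ≤ Jc R := by
  rw [← integral_Ioc_eq_integral_Ioo, ← intervalIntegral.integral_of_le hab,
    intervalIntegral.integral_comp_sub_right mj p]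
  exact intervalIntegral.integral_mono_interval ha (by linarith) hb
    (Eventually.of_forall fun s => mj_nonneg s) (mj_ii _ _)

theorem inv_norm_le {w : ℂ} (h1 : w.re ≠ 0) (h2 : w.im ≠ 0) : ‖w⁻¹‖ ≤ mj w.re * mj w.im := by
  have a1 : 0 < |w.re| := abs_pos.2 h1
  have a2 : 0 < |w.im| := abs_pos.2 h2
  have hw : 0 < ‖w‖ := lt_of_lt_of_le a1 (abs_re_le_norm w)
  have e : ‖w‖⁻¹ = ‖w‖ ^ (-(1 / 2 : ℝ)) * ‖w‖ ^ (-(1 / 2 : ℝ)) := by
    rw [← Real.rpow_add hw, ← Real.rpow_neg_one]
    norm_num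
  rw [norm_inv, e]
  unfold mj
  refine mul_le_mul ?_ ?_ (Real.rpow_nonneg hw.le _) (Real.rpow_nonneg a1.le _)
  · exact Real.rpow_le_rpow_of_nonpos a1 (abs_re_le_norm w) (by norm_num)
  · exact Real.rpow_le_rpow_of_nonpos a2 (abs_im_le_norm w) (by norm_num)

end maj

end Crest.Agent.T223.Qc47
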