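import Crest.Agent.T223.QcRig_35

/-!
# Row 223, module QC (helper47): the abstract interface and the exact leaf statements

`PG E M` : a class of "good germs" of maps `E → M` (holomorphic immersions into the region) with
their pulled back quadratic forms and a Lipschitz function `ρ`.
-/

set_option autoImplicit false
set_option linter.unusedSectionVars false
set_option linter.unusedVariables false

open Set Filter Topology Metric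

noncomputable section

namespace Crest.Agent.T223.Qc47

open Crest.Agent.T223.Qc35

/-- abstract pseudogroup data.  Instance: `H ψ z` := `ψ` is a holomorphic immersion near `z` and
`ψ z ∈ U`; `Q ψ z v := nq (pull G ψ z) v / r ^ 2`; `L := 2 c r`. -/
structure PG (E : Type) [NormedAddCommGroup E] [InnerProductSpace ℂ E] (M : Type)
    [TopologicalSpace M] where
  H : (E → M) → E → Prop
  Q : (E → M) → E → E → ℝ
  ρ : M → ℝ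
  L : ℝ
  L_nonneg : 0 ≤ L
  ev : ∀ {ψ z}, H ψ z → ∀ᶠ w in 𝓝 z, H ψ w
  cont : ∀ {ψ z}, H ψ z → ContinuousAt ψ z
  congr : ∀ {ψ ψ' z}, H ψ z → ψ' =ᶠ[𝓝 z] ψ → H ψ' z ∧ Q ψ' z = Q ψ z
  comp : ∀ {ψ : E → M} {γ : E → E} {z : E}, H ψ (γ z) → (∀ᶠ w in 𝓝 z, DifferentiableAt ℂ γ w) →
    Function.Injective (fderiv ℂ γ z) →
    H (fun w => ψ (γ w)) z ∧ ∀ v, Q (fun w => ψ (γ w)) z v = Q ψ (γ z) (fderiv ℂ γ z v)
  trans : ∀ {ψ φ : E → M} {z w : E}, H ψ z → H φ w → ψ z = φ w →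
    ∃ τ : E → E, (∀ᶠ y in 𝓝 z, DifferentiableAt ℂ τ y) ∧ τ z = w ∧
      Function.Injective (fderiv ℂ τ z) ∧ ∀ᶠ y in 𝓝 z, φ (τ y) = ψ y
  inj : ∀ {ψ z}, H ψ z → ∃ s ∈ 𝓝 z, InjOn ψ s
  herm : ∀ {ψ z}, H ψ z → ∃ B : E →L[ℂ] E, ∀ v, Q ψ z v = ‖B v‖ ^ 2
  lip : ∀ {ψ : E → M} {D : Set E} {a : ℝ}, 0 ≤ a → IsOpen D → Convex ℝ D →
    (∀ z ∈ D, H ψ z ∧ ∀ v, Q ψ z v ≤ 2 * a ^ 2 * ‖v‖ ^ 2) →
    ∀ z ∈ D, ∀ w ∈ D, ρ (ψ z) ≤ ρ (ψ w) + L * a * ‖z - w‖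

variable {E : Type} [NormedAddCommGroup E] [InnerProductSpace ℂ E] {M : Type} [TopologicalSpace M]

/-- `ψ` is an `ε`-flat quasi-chart on `D` -/
def PG.Good (P : PG E M) (ψ : E → M) (D : Set E) (ε : ℝ) : Prop :=
  ∀ z ∈ D, P.H ψ z ∧ ∀ v, |P.Q ψ z v - ‖v‖ ^ 2| ≤ ε * ‖v‖ ^ 2

/-- a germ at `0` which is isometric at `0` -/
def PG.Seed (P : PG E M) (χ : E → M) : Prop := P.H χ 0 ∧ ∀ v, P.Q χ 0 v = ‖v‖ ^ 2

/-- `ψ` is tangent to `χ` at `0` -/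
def Tan (ψ χ : E → M) : Prop :=
  ∃ τ : E → E, (∀ᶠ y in 𝓝 0, DifferentiableAt ℂ τ y) ∧ τ 0 = 0 ∧ fderiv ℂ τ 0 = 1 ∧
    ∀ᶠ y in 𝓝 0, ψ y = χ (τ y)

/-- every seed in `{ρ ≤ σ}` is tangent to an `ε`-flat quasi-chart on `D` -/
def PG.Ch (P : PG E M) (D : Set E) (ε σ : ℝ) : Prop :=
  ∀ χ, P.Seed χ → P.ρ (χ 0) ≤ σ → ∃ ψ, P.Good ψ D ε ∧ Tan ψ χ

/-- the same data at the scale `t` (metric divided by `t ^ 2`) -/
def PG.sc (P : PG E M) (t : ℝ) (ht : 0 < t) : PG E M where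
  H := P.H
  Q := fun ψ z v => P.Q ψ z v / t ^ 2
  ρ := P.ρ
  L := P.L * t
  L_nonneg := mul_nonneg P.L_nonneg ht.le
  ev := P.ev
  cont := P.cont
  congr := fun h he => ⟨(P.congr h he).1, by funext v; rw [(P.congr h he).2]⟩
  comp := fun h hd hi => ⟨(P.comp h hd hi).1, fun v => by rw [(P.comp h hd hi).2]⟩
  trans := P.trans
  inj := P.inj
  herm := fun h => by
    obtain ⟨B, hB⟩ := P.herm h
    refine ⟨((t⁻¹ : ℝ) : ℂ) • B, fun v => ?_⟩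
    rw [hB, smul_apply, norm_smul, Complex.norm_real,
      Real.norm_of_nonneg (inv_nonneg.2 ht.le)]
    field_simp
  lip := fun {ψ D a} ha hD hc h z hz w hw => by
    have := P.lip (a := a * t) (mul_nonneg ha ht.le) hD hc (fun y hy => ⟨(h y hy).1, fun v => by
      have h1 := (h y hy).2 v
      rw [div_le_iff₀ (by positivity)] at h1
      calc _ ≤ _ := h1
        _ = _ := by ring⟩) z hz w hw
    calc _ ≤ _ := this
      _ = _ := by ring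

/-- leaf POLAR: an almost isometry becomes an isometry after a small linear change -/
def PolarStmt (E : Type) [NormedAddCommGroup E] [InnerProductSpace ℂ E] : Prop :=
  ∀ (η : ℝ) (B : E →L[ℂ] E), 0 ≤ η → η ≤ 1 / 2 → NIL η B →
    ∃ S : E →L[ℂ] E, ‖S - 1‖ ≤ η ∧ ∀ v, ‖B (S v)‖ = ‖v‖

/-- leaf LIFT (35): the transition between two flat quasi-charts on a convex set -/
def LiftStmt (E : Type) [NormedAddCommGroup E] [InnerProductSpace ℂ E] : Prop :=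
  ∀ s Λ δ : ℝ, 0 < s → 0 < δ → ∃ η : ℝ, 0 < η ∧
    ∀ (M : Type) [TopologicalSpace M] [T2Space M] (P : PG E M) (ψ φ : E → M) (V V' : Set E)
      (z0 : E) (τ : E → E), IsOpen V → Convex ℝ V → ball z0 s ⊆ V → V ⊆ ball z0 Λ → IsOpen V' →
      (∀ z ∈ V, closedBall z (2 * δ) ⊆ V') → P.Good ψ V η → P.Good φ V' η →
      (∀ᶠ y in 𝓝 z0, DifferentiableAt ℂ τ y) → τ z0 = z0 → ‖fderiv ℂ τ z0 - 1‖ ≤ η →
      (∀ᶠ y in 𝓝 z0, φ (τ y) = ψ y) →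
      ∃ γ : E → E, DifferentiableOn ℂ γ V ∧ ∀ z ∈ V, φ (γ z) = ψ z ∧ ‖γ z - z‖ ≤ δ

/-- EXT (47): small flat quasi-charts everywhere give large flat quasi-charts -/
def ExtStmt (n : ℕ) : Prop :=
  ∀ s R ε' : ℝ, 0 < s → 0 < ε' → ∃ ε N : ℝ, 0 < ε ∧ 0 ≤ N ∧
    ∀ (M : Type) [TopologicalSpace M] [T2Space M] (P : PG (EuclideanSpace ℂ (Fin n)) M) (σ : ℝ),
      P.Ch (ball 0 s) ε σ → P.Ch (ball 0 R) ε' (σ - N * P.L)

/-- improvement of every `1/2`-flat unit chart inside `{ρ ≤ σ}` (from `ImpStmt`, small curvature) -/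
def PG.Imp (P : PG E M) (r1 ε σ : ℝ) : Prop :=
  ∀ ψ, P.Good ψ (ball 0 1) (1 / 2) → (∀ z ∈ ball (0 : E) 1, P.ρ (ψ z) ≤ σ) →
    (∀ v, P.Q ψ 0 v = ‖v‖ ^ 2) →
    ∃ g : E → E, DifferentiableOn ℂ g (ball 0 r1) ∧ MapsTo g (ball 0 r1) (ball 0 1) ∧ g 0 = 0 ∧
      fderiv ℂ g 0 = 1 ∧ ∀ z ∈ ball (0 : E) r1, ∀ v,
        |P.Q ψ (g z) (fderiv ℂ g z v) - ‖v‖ ^ 2| ≤ ε * ‖v‖ ^ 2

/-- ITER (47): the static quasi-chart theorem in abstract form; the wrapper (48) supplies `P`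
at the scale `r`, `Imp` at all smaller scales and the charts at tiny scales (compactness) -/
def IterStmt (n : ℕ) : Prop :=
  ∀ r1 ε' : ℝ, 0 < r1 → 0 < ε' → ∃ ε N : ℝ, 0 < ε ∧ 0 < N ∧
    ∀ (M : Type) [TopologicalSpace M] [T2Space M] (P : PG (EuclideanSpace ℂ (Fin n)) M) (σ : ℝ),
      (∀ (t : ℝ) (ht : 0 < t), t ≤ 1 → (P.sc t ht).Imp r1 ε σ) →
      (∃ t0 : ℝ, 0 < t0 ∧ ∀ (t : ℝ) (ht : 0 < t), t ≤ t0 → (P.sc t ht).Ch (ball 0 1) (1 / 2) σ) →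
      ∀ χ, P.Seed χ → P.ρ (χ 0) ≤ σ - N * P.L →
        ∃ ψ, P.Good ψ (ball 0 1) ε' ∧ Tan ψ χ ∧ ∀ z ∈ ball (0 : EuclideanSpace ℂ (Fin n)) 1,
          P.ρ (ψ z) ≤ σ

end Crest.Agent.T223.Qc47
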