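import Crest.Agent.R266.SCV

/-!
# Row 223, module QC / IMP (helper48): holomorphic Picard iteration along rays

`exists_ray_sol` : for a bounded holomorphic `A : E → E →L[ℂ] B` on a small ball there is a
holomorphic `P` with `P 0 = 1` and `d/ds P (s z) = P (s z) * A (s z) z`.
-/

set_option autoImplicit false
set_option linter.unusedSectionVars false
set_option linter.unusedVariables false

open Set Filter Topology Metric MeasureTheory
open scoped ContDiff

namespace Crest.Agent.T223.Qc48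

open Crest.Agent.R266.SCV

noncomputable section

variable {E : Type} [NormedAddCommGroup E] [NormedSpace ℂ E] [FiniteDimensional ℂ E]
variable {B : Type} [NormedRing B] [NormedAlgebra ℂ B] [CompleteSpace B]

/-- the terms of the Dyson series -/
def dy (A : E → E →L[ℂ] B) : ℕ → E → B
  | 0 => fun _ => 1
  | k + 1 => fun z => ∫ s in (0 : ℝ)..1, dy A k ((s : ℂ) • z) * A ((s : ℂ) • z) z

theorem smul_mem_ball {r : ℝ} {z : E} (hz : z ∈ ball (0 : E) r) {s : ℝ} (hs : s ∈ Icc (0 : ℝ) 1) :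
    (s : ℂ) • z ∈ ball (0 : E) r := by
  rw [mem_ball_zero_iff] at hz ⊢
  rw [norm_smul, Complex.norm_real, Real.norm_of_nonneg hs.1]
  calc s * ‖z‖ ≤ 1 * ‖z‖ := by gcongr; exact hs.2
    _ < r := by rwa [one_mul]

/-- the integral operator preserves holomorphy -/
theorem hol_step {A : E → E →L[ℂ] B} {r : ℝ} (hA : DifferentiableOn ℂ A (ball 0 r)) {Q : E → B}
    (hQ : DifferentiableOn ℂ Q (ball 0 r)) :
    DifferentiableOn ℂ (fun z => ∫ s in (0 : ℝ)..1, Q ((s : ℂ) • z) * A ((s : ℂ) • z) z)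
      (ball 0 r) := by
  have hm : MapsTo (fun p : E × ℝ => (p.2 : ℂ) • p.1) (ball (0 : E) r ×ˢ uIcc (0 : ℝ) 1)
      (ball 0 r) := by
    intro p hp
    refine smul_mem_ball hp.1 ?_
    have := hp.2
    rwa [uIcc_of_le zero_le_one] at this
  have hc : Continuous (fun p : E × ℝ => (p.2 : ℂ) • p.1) := by fun_prop
  have h := analyticOnNhd_intervalIntegral
    (f := fun p : E × ℝ => Q ((p.2 : ℂ) • p.1) * A ((p.2 : ℂ) • p.1) p.1) (a := 0) (b := 1)
    (U := ball (0 : E) r) isOpen_ball ?_ ?_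
  · exact h.differentiableOn
  · refine (hQ.continuousOn.comp hc.continuousOn hm).mul ?_
    exact (hA.continuousOn.comp hc.continuousOn hm).clm_apply continuous_fst.continuousOn
  · intro t ht
    have hm' : MapsTo (fun z : E => (t : ℂ) • z) (ball (0 : E) r) (ball 0 r) :=
      fun z hz => hm (show (z, t) ∈ ball (0 : E) r ×ˢ uIcc (0 : ℝ) 1 from ⟨hz, ht⟩)
    have hd : DifferentiableOn ℂ (fun z : E => (t : ℂ) • z) (ball (0 : E) r) := by fun_prop
    exact (hQ.comp hd hm').mul ((hA.comp hd hm').clm_apply differentiableOn_id)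

theorem norm_step {A : E → E →L[ℂ] B} {r C m : ℝ} (hC : ∀ z ∈ ball (0 : E) r, ‖A z‖ ≤ C)
    {Q : E → B} (hQ : ∀ z ∈ ball (0 : E) r, ‖Q z‖ ≤ m) {z : E} (hz : z ∈ ball (0 : E) r) :
    ‖∫ s in (0 : ℝ)..1, Q ((s : ℂ) • z) * A ((s : ℂ) • z) z‖ ≤ m * (C * r) := by
  have h := intervalIntegral.norm_integral_le_of_norm_le_const (a := (0 : ℝ)) (b := 1)
    (C := m * (C * r)) (f := fun s : ℝ => Q ((s : ℂ) • z) * A ((s : ℂ) • z) z) ?_
  · simpa using h
  · intro s hs
    rw [uIoc_of_le zero_le_one] at hs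
    have hs' := smul_mem_ball hz ⟨hs.1.le, hs.2⟩
    have hm : 0 ≤ m := (norm_nonneg _).trans (hQ _ hs')
    have hC0 : 0 ≤ C := (norm_nonneg _).trans (hC _ hs')
    refine (norm_mul_le _ _).trans (mul_le_mul (hQ _ hs') ?_ (norm_nonneg _) hm)
    refine ((A _).le_opNorm z).trans (mul_le_mul (hC _ hs') ?_ (norm_nonneg _) hC0)
    exact (mem_ball_zero_iff.1 hz).le

theorem dy_hol {A : E → E →L[ℂ] B} {r : ℝ} (hA : DifferentiableOn ℂ A (ball 0 r)) (k : ℕ) :
    DifferentiableOn ℂ (dy A k) (ball 0 r) := by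
  induction k with
  | zero => exact differentiableOn_const _
  | succ k ih => exact hol_step hA ih

theorem dy_norm {A : E → E →L[ℂ] B} {r C : ℝ} (hC : ∀ z ∈ ball (0 : E) r, ‖A z‖ ≤ C) (k : ℕ) :
    ∀ z ∈ ball (0 : E) r, ‖dy A k z‖ ≤ ‖(1 : B)‖ * (C * r) ^ k := by
  induction k with
  | zero => intro z hz; simp [dy]
  | succ k ih =>
    intro z hz
    refine (norm_step hC ih hz).trans (le_of_eq ?_)
    ring

/-- the fixed point equation -/
theorem exists_fix (h1B : ‖(1 : B)‖ ≤ 1) {A : E → E →L[ℂ] B} {r C : ℝ} (hr : 0 < r)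
    (hA : DifferentiableOn ℂ A (ball 0 r)) (hC : ∀ z ∈ ball (0 : E) r, ‖A z‖ ≤ C)
    (hCr : C * r ≤ 1 / 4) :
    ∃ P : E → B, DifferentiableOn ℂ P (ball 0 r) ∧ (∀ z ∈ ball (0 : E) r, ‖P z - 1‖ ≤ 1 / 2) ∧
      ∀ z ∈ ball (0 : E) r, P z = 1 + ∫ s in (0 : ℝ)..1, P ((s : ℂ) • z) * A ((s : ℂ) • z) z := by
  have hC0 : 0 ≤ C := (norm_nonneg _).trans (hC 0 (mem_ball_self hr))
  set q : ℝ := C * r with hq
  have hq0 : 0 ≤ q := by positivity
  have hq1 : q < 1 := by linarith
  have hsum : Summable (fun k : ℕ => q ^ k) := summable_geometric_of_lt_one hq0 hq1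
  have hb : ∀ k, ∀ z ∈ ball (0 : E) r, ‖dy A k z‖ ≤ q ^ k := by
    intro k z hz
    refine (dy_norm hC k z hz).trans ?_
    have := pow_nonneg hq0 k
    nlinarith
  have hU : TendstoUniformlyOn (fun N z => ∑ k ∈ Finset.range N, dy A k z)
      (fun z => ∑' k, dy A k z) atTop (ball 0 r) := tendstoUniformlyOn_tsum_nat hsum hb
  set P : E → B := fun z => ∑' k, dy A k z with hP
  have hPd : DifferentiableOn ℂ P (ball 0 r) := by
    refine (analyticOnNhd_of_tendstoLocallyUniformlyOn isOpen_ball hU.tendstoLocallyUniformlyOn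
      (Eventually.of_forall fun N => ?_)).differentiableOn
    exact DifferentiableOn.fun_sum fun k _ => dy_hol hA k
  have hs : ∀ z ∈ ball (0 : E) r, Summable fun k => dy A k z := fun z hz =>
    Summable.of_norm_bounded hsum (fun k => hb k z hz)
  have hP1 : ∀ z ∈ ball (0 : E) r, P z = 1 + ∑' k, dy A (k + 1) z := by
    intro z hz
    simp only [hP]
    rw [(hs z hz).tsum_eq_zero_add]
    rfl
  have hPb : ∀ z ∈ ball (0 : E) r, ‖P z‖ ≤ 2 := by
    intro z hz
    refine (tsum_of_norm_bounded hsum.hasSum (fun k => hb k z hz)).trans ?_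
    rw [tsum_geometric_of_lt_one hq0 hq1, inv_le_comm₀ (by linarith) (by norm_num)]
    linarith
  have hfix : ∀ z ∈ ball (0 : E) r,
      P z = 1 + ∫ s in (0 : ℝ)..1, P ((s : ℂ) • z) * A ((s : ℂ) • z) z := by
    intro z hz
    rw [hP1 z hz]
    congr 1
    -- partial sums converge on both sides
    have hcz : Continuous (fun s : ℝ => (s : ℂ) • z) := by fun_prop
    have hmz : MapsTo (fun s : ℝ => (s : ℂ) • z) (uIcc (0 : ℝ) 1) (ball 0 r) := by
      intro s hs'
      rw [uIcc_of_le zero_le_one] at hs'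
      exact smul_mem_ball hz hs'
    have hint : ∀ Q : E → B, DifferentiableOn ℂ Q (ball 0 r) →
        IntervalIntegrable (fun s : ℝ => Q ((s : ℂ) • z) * A ((s : ℂ) • z) z) volume 0 1 := by
      intro Q hQ
      refine ContinuousOn.intervalIntegrable ?_
      exact (hQ.continuousOn.comp hcz.continuousOn hmz).mul
        ((hA.continuousOn.comp hcz.continuousOn hmz).clm_apply continuousOn_const)
    have h1 : Tendsto (fun N => ∑ k ∈ Finset.range N, dy A (k + 1) z) atTop
        (𝓝 (∑' k, dy A (k + 1) z)) :=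
      ((summable_nat_add_iff 1).2 (hs z hz)).hasSum.tendsto_sum_nat
    refine tendsto_nhds_unique h1 ?_
    rw [Metric.tendsto_atTop]
    intro ε hε
    obtain ⟨N0, hN0⟩ := eventually_atTop.1 ((Metric.tendstoUniformlyOn_iff.1 hU) ε hε)
    refine ⟨N0, fun N hN => ?_⟩
    have hSd : DifferentiableOn ℂ (fun y => ∑ k ∈ Finset.range N, dy A k y) (ball 0 r) :=
      DifferentiableOn.fun_sum fun k _ => dy_hol hA k
    have h2 : ∑ k ∈ Finset.range N, dy A (k + 1) z = ∫ s in (0 : ℝ)..1,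
        (∑ k ∈ Finset.range N, dy A k ((s : ℂ) • z)) * A ((s : ℂ) • z) z := by
      simp only [Finset.sum_mul]
      rw [intervalIntegral.integral_finsetSum (fun k _ => hint _ (dy_hol hA k))]
      rfl
    rw [h2, dist_eq_norm, ← intervalIntegral.integral_sub (hint _ hSd) (hint _ hPd)]
    simp only [← sub_mul]
    have h3 := norm_step (Q := fun y => (∑ k ∈ Finset.range N, dy A k y) - P y) (m := ε) hC
      (fun y hy => by
        have := hN0 N hN y hy
        rw [dist_comm, dist_eq_norm] at this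
        exact this.le) hz
    refine h3.trans_lt ?_
    nlinarith
  refine ⟨P, hPd, fun z hz => ?_, hfix⟩
  rw [hfix z hz, add_sub_cancel_left]
  refine (norm_step hC hPb hz).trans ?_
  linarith

/-- the solution along rays -/
theorem exists_ray_sol (h1B : ‖(1 : B)‖ ≤ 1) {A : E → E →L[ℂ] B} {r C : ℝ} (hr : 0 < r)
    (hA : DifferentiableOn ℂ A (ball 0 r)) (hC : ∀ z ∈ ball (0 : E) r, ‖A z‖ ≤ C)
    (hCr : C * r ≤ 1 / 4) :
    ∃ P : E → B, DifferentiableOn ℂ P (ball 0 r) ∧ P 0 = 1 ∧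
      (∀ z ∈ ball (0 : E) r, ‖P z - 1‖ ≤ 1 / 2) ∧
      ∀ z ∈ ball (0 : E) r, ∀ t ∈ Icc (0 : ℝ) 1,
        P ((t : ℂ) • z) = 1 + ∫ s in (0 : ℝ)..t, P ((s : ℂ) • z) * A ((s : ℂ) • z) z := by
  obtain ⟨P, hPd, hP1, hfix⟩ := exists_fix h1B hr hA hC hCr
  refine ⟨P, hPd, ?_, hP1, fun z hz t ht => ?_⟩
  · rw [hfix 0 (mem_ball_self hr)]
    simp
  · rw [hfix _ (smul_mem_ball hz ht)]
    congr 1
    have h1 : ∀ s : ℝ, P ((s : ℂ) • (t : ℂ) • z) * A ((s : ℂ) • (t : ℂ) • z) ((t : ℂ) • z) =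
        t • (fun u : ℝ => P ((u : ℂ) • z) * A ((u : ℂ) • z) z) (t * s) := by
      intro s
      simp only [map_smul, smul_smul, mul_smul_comm, Complex.ofReal_mul, mul_comm (s : ℂ) (t : ℂ)]
      rfl
    simp only [h1]
    rw [intervalIntegral.integral_smul]
    have h2 := intervalIntegral.smul_integral_comp_mul_left (a := (0 : ℝ)) (b := 1)
      (fun u : ℝ => P ((u : ℂ) • z) * A ((u : ℂ) • z) z) t
    simpa using h2

end

end Crest.Agent.T223.Qc48
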