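import Crest.Agent.T223.QcImpA_48
import Crest.Agent.R275.Geo_509

/-!
# Row 223, module QC / IMP (helper48): flat metrics are pull-backs (operator form)

`flat_op` : `dH = H A + A* H`, `A` holomorphic ⇒ `H = P* H(0) P`, `dP = P A`, `P` holomorphic.
`exists_flat_chart` : with the symmetry `A z x y = A z y x`, `P = D w`; the inverse `σ` of `w`
is defined on a definite ball and `σ^* H = H 0`.
-/

set_option autoImplicit false
set_option linter.unusedSectionVars false
set_option linter.unusedVariables false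

open Set Filter Topology Metric MeasureTheory
open scoped ContDiff NNReal InnerProductSpace

namespace Crest.Agent.T223.Qc48

open Crest.Agent.R266.SCV Crest.Agent.R275.Geo

noncomputable section

variable {n : ℕ}

/-- operators on the model space -/
abbrev Op (n : ℕ) : Type := Cn n →L[ℂ] Cn n

theorem hasDerivAt_ray (z : Cn n) (t : ℝ) : HasDerivAt (fun s : ℝ => (s : ℂ) • z) z t := by
  have h := (Complex.ofRealCLM.hasDerivAt (x := t)).smul_const z
  simpa using h

section alg

variable {B : Type} [CStarAlgebra B]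

theorem isUnit_of_close {P : B} (h : ‖P - 1‖ ≤ 1 / 2) : IsUnit P := by
  have h1 : ‖1 - P‖ < 1 := by rw [norm_sub_rev]; linarith
  have := (Units.oneSub (1 - P) h1).isUnit
  simpa using this

theorem hasDerivAt_star {f : ℝ → B} {f' : B} {t : ℝ} {s : Set ℝ}
    (h : HasDerivWithinAt f f' s t) : HasDerivWithinAt (fun u => star (f u)) (star f') s t := by
  have h1 := ((starL' ℝ : B ≃L[ℝ] B).toContinuousLinearMap.hasFDerivAt
    (x := f t)).comp_hasDerivWithinAt t h
  exact h1

theorem hasFDerivAt_star {f : Cn n → B} {f' : Cn n →L[ℝ] B} {z : Cn n}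
    (h : HasFDerivAt f f' z) : HasFDerivAt (fun u => star (f u))
      ((starL' ℝ : B ≃L[ℝ] B).toContinuousLinearMap.comp f') z :=
  ((starL' ℝ : B ≃L[ℝ] B).toContinuousLinearMap.hasFDerivAt (x := f z)).comp z h

theorem flat_op (h1B : ‖(1 : B)‖ ≤ 1) {A : Cn n → Cn n →L[ℂ] B} {H : Cn n → B} {r C : ℝ} (hr : 0 < r)
    (hA : DifferentiableOn ℂ A (ball 0 r)) (hC : ∀ z ∈ ball (0 : Cn n) r, ‖A z‖ ≤ C)
    (hCr : C * r ≤ 1 / 4) (hH : DifferentiableOn ℝ H (ball 0 r))
    (hdH : ∀ z ∈ ball (0 : Cn n) r, ∀ x, fderiv ℝ H z x = H z * A z x + star (A z x) * H z)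
    (hsa : star (H 0) = H 0) (hu : IsUnit (H 0)) :
    ∃ P : Cn n → B, DifferentiableOn ℂ P (ball 0 r) ∧ P 0 = 1 ∧
      (∀ z ∈ ball (0 : Cn n) r, ‖P z - 1‖ ≤ 1 / 2) ∧
      (∀ z ∈ ball (0 : Cn n) r, H z = star (P z) * H 0 * P z) ∧
      ∀ z ∈ ball (0 : Cn n) r, ∀ x, fderiv ℂ P z x = P z * A z x := by
  obtain ⟨P, hPd, hP0, hP1, hray⟩ :=
    exists_ray_sol (B := B) h1B hr hA hC hCr
  have hC0 : 0 ≤ C := ((A 0).opNorm_nonneg).trans (hC 0 (mem_ball_self hr))
  have hfac : ∀ z ∈ ball (0 : Cn n) r, H z = star (P z) * H 0 * P z := by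
    intro z hz
    have hcz : Continuous (fun s : ℝ => (s : ℂ) • z) := by fun_prop
    have hmz : MapsTo (fun s : ℝ => (s : ℂ) • z) (Icc (0 : ℝ) 1) (ball 0 r) :=
      fun s hs => smul_mem_ball hz hs
    set a : ℝ → B := fun s => A ((s : ℂ) • z) z with ha
    set p : ℝ → B := fun s => P ((s : ℂ) • z) with hp
    set h : ℝ → B := fun s => H ((s : ℂ) • z) with hh
    have hac : ContinuousOn a (Icc 0 1) :=
      (hA.continuousOn.comp hcz.continuousOn hmz).clm_apply continuousOn_const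
    have hpc : ContinuousOn p (Icc 0 1) := hPd.continuousOn.comp hcz.continuousOn hmz
    have hhc : ContinuousOn h (Icc 0 1) := hH.continuousOn.comp hcz.continuousOn hmz
    have hab : ∀ s ∈ Icc (0 : ℝ) 1, ‖a s‖ ≤ 1 / 4 := by
      intro s hs
      refine ((A _).le_opNorm z).trans (le_trans ?_ hCr)
      exact mul_le_mul (hC _ (hmz hs)) (mem_ball_zero_iff.1 hz).le (norm_nonneg _) hC0
    have hpd : ∀ s ∈ Ico (0 : ℝ) 1, HasDerivWithinAt p (p s * a s) (Ici s) s := by
      intro s hs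
      have hc : ContinuousOn (fun u => p u * a u) (Icc 0 1) := hpc.mul hac
      have hI : Icc s 1 ∈ 𝓝[Ici s] s := Icc_mem_nhdsGE hs.2
      have hI0 : Icc (0 : ℝ) 1 ∈ 𝓝[Ici s] s := mem_of_superset hI (Icc_subset_Icc_left hs.1)
      have hI0' : Icc (0 : ℝ) 1 ∈ 𝓝[Ioi s] s := nhdsWithin_mono _ Ioi_subset_Ici_self hI0
      have h1 : HasDerivWithinAt (fun t => ∫ u in (0 : ℝ)..t, p u * a u) (p s * a s) (Ici s) s := by
        refine intervalIntegral.integral_hasDerivWithinAt_right (t := Ioi s) ?_ ?_ ?_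
        · refine ContinuousOn.intervalIntegrable (hc.mono ?_)
          rw [uIcc_of_le hs.1]
          exact Icc_subset_Icc_right hs.2.le
        · exact ⟨Icc 0 1, hI0', hc.aestronglyMeasurable measurableSet_Icc⟩
        · exact (hc s ⟨hs.1, hs.2.le⟩).mono_of_mem_nhdsWithin hI0'
      refine (h1.const_add 1).congr_of_eventuallyEq ?_ ?_
      · filter_upwards [hI0] with t ht
        exact hray z hz t ht
      · exact hray z hz s ⟨hs.1, hs.2.le⟩
    have hhd : ∀ s ∈ Ico (0 : ℝ) 1,
        HasDerivWithinAt h (h s * a s + star (a s) * h s) (Ici s) s := by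
      intro s hs
      have hs' := hmz ⟨hs.1, hs.2.le⟩
      have h1 := ((hH.differentiableAt (isOpen_ball.mem_nhds hs')).hasFDerivAt).comp_hasDerivAt s
        (hasDerivAt_ray z s)
      rw [hdH _ hs'] at h1
      exact h1.hasDerivWithinAt
    set D : ℝ → B := fun s => h s - star (p s) * H 0 * p s with hD
    have hDc : ContinuousOn D (Icc 0 1) :=
      hhc.sub ((hpc.star.mul continuousOn_const).mul hpc)
    have hDd : ∀ s ∈ Ico (0 : ℝ) 1,
        HasDerivWithinAt D (D s * a s + star (a s) * D s) (Ici s) s := by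
      intro s hs
      have h1 := (hhd s hs).sub (((hasDerivAt_star (hpd s hs)).mul_const (H 0)).mul (hpd s hs))
      refine h1.congr_deriv ?_
      simp only [hD, star_mul, sub_mul, mul_sub, mul_assoc]
      abel
    have hD0 : ‖D 0‖ ≤ 0 := by
      simp [hD, hh, hp, hP0]
    have hG := norm_le_gronwallBound_of_norm_deriv_right_le (δ := 0) (K := 1 / 2) (ε := 0) hDc hDd
      hD0 (fun s hs => by
        have h1 := hab s ⟨hs.1, hs.2.le⟩
        have h2 := norm_mul_le (D s) (a s)
        have h3 := norm_mul_le (star (a s)) (D s)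
        rw [norm_star] at h3
        have h4 := norm_add_le (D s * a s) (star (a s) * D s)
        have h5 := norm_nonneg (D s)
        nlinarith) 1 ⟨zero_le_one, le_rfl⟩
    rw [gronwallBound_ε0_δ0] at hG
    have h6 : D 1 = 0 := norm_le_zero_iff.1 hG
    simp only [hD, hh, hp, Complex.ofReal_one, one_smul] at h6
    exact sub_eq_zero.1 h6
  refine ⟨P, hPd, hP0, hP1, hfac, fun z hz x => ?_⟩
  have hzn := isOpen_ball.mem_nhds hz
  have hPz : HasFDerivAt P (fderiv ℂ P z) z := (hPd.differentiableAt hzn).hasFDerivAt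
  have hPr := hPz.restrictScalars ℝ
  have h1 := ((hasFDerivAt_star hPr).mul_const' (H 0)).mul' hPr
  have h2 : H =ᶠ[𝓝 z] fun y => star (P y) * H 0 * P y := by
    filter_upwards [hzn] with y hy using hfac y hy
  have h3 := (h1.congr_of_eventuallyEq h2).fderiv
  set S : B := star (P z) * H 0 with hS
  set Δ : Cn n → B := fun y => S * (fderiv ℂ P z y - P z * A z y) with hΔ
  have key : ∀ y, Δ y + star (Δ y) = 0 := by
    intro y
    have h4 := hdH z hz y
    rw [h3] at h4
    have h5 : star (P z) * H 0 * fderiv ℂ P z y + star (fderiv ℂ P z y) * H 0 * P z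
        = H z * A z y + star (A z y) * H z := by
      rw [← h4]
      simp [hS]
    rw [hfac z hz] at h5
    simp only [hΔ, hS, star_mul, star_sub, star_star, hsa]
    have : star (P z) * H 0 * (fderiv ℂ P z y - P z * A z y) +
        (star (fderiv ℂ P z y) - star (A z y) * star (P z)) * (H 0 * P z) =
        (star (P z) * H 0 * fderiv ℂ P z y + star (fderiv ℂ P z y) * H 0 * P z) -
        (star (P z) * H 0 * P z * A z y + star (A z y) * (star (P z) * H 0 * P z)) := by
      noncomm_ring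
    rw [this, h5, sub_self]
  have hI : Δ (Complex.I • x) = Complex.I • Δ x := by
    simp only [hΔ, map_smul, mul_smul_comm, ← smul_sub]
  have h6 := key (Complex.I • x)
  rw [hI, star_smul, Complex.star_def, Complex.conj_I, neg_smul, ← sub_eq_add_neg, ← smul_sub] at h6
  have h7 : Δ x - star (Δ x) = 0 := (smul_eq_zero.1 h6).resolve_left Complex.I_ne_zero
  have h8 : (2 : ℂ) • Δ x = 0 := by
    rw [two_smul]
    have := key x
    rw [← sub_eq_zero.1 h7] at this
    exact this
  have h9 : Δ x = 0 := (smul_eq_zero.1 h8).resolve_left two_ne_zero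
  have hSu : IsUnit S := ((isUnit_of_close (hP1 z hz)).star).mul hu
  exact sub_eq_zero.1 (hSu.mul_right_eq_zero.1 h9)

end alg

theorem half_le_of_close {P : Op n} (h : ‖P - 1‖ ≤ 1 / 2) (u : Cn n) : ‖u‖ ≤ 2 * ‖P u‖ := by
  have h1 : ‖(P - 1) u‖ ≤ 1 / 2 * ‖u‖ :=
    ((P - 1).le_opNorm u).trans (mul_le_mul_of_nonneg_right h (norm_nonneg _))
  have h2 : u = P u - (P - 1) u := by simp
  have h3 : ‖u‖ ≤ ‖P u‖ + ‖(P - 1) u‖ := by
    conv_lhs => rw [h2]
    exact norm_sub_le _ _
  linarith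

theorem exists_flat_chart {A : Cn n → Cn n →L[ℂ] Op n} {H : Cn n → Op n} {r C : ℝ} (hr : 0 < r)
    (hA : DifferentiableOn ℂ A (ball 0 r)) (hC : ∀ z ∈ ball (0 : Cn n) r, ‖A z‖ ≤ C)
    (hCr : C * r ≤ 1 / 4) (hH : DifferentiableOn ℝ H (ball 0 r))
    (hdH : ∀ z ∈ ball (0 : Cn n) r, ∀ x, fderiv ℝ H z x = H z * A z x + star (A z x) * H z)
    (hsa : star (H 0) = H 0) (hu : IsUnit (H 0))
    (hsym : ∀ z ∈ ball (0 : Cn n) r, ∀ x y, A z x y = A z y x) :
    ∃ σ : Cn n → Cn n, DifferentiableOn ℂ σ (ball 0 (r / 4)) ∧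
      MapsTo σ (ball 0 (r / 4)) (ball 0 r) ∧ σ 0 = 0 ∧
      fderiv ℂ σ 0 = ContinuousLinearMap.id ℂ (Cn n) ∧
      ∀ z ∈ ball (0 : Cn n) (r / 4), ∀ v, ‖fderiv ℂ σ z v‖ ≤ 2 * ‖v‖ ∧
        ⟪fderiv ℂ σ z v, H (σ z) (fderiv ℂ σ z v)⟫_ℂ = ⟪v, H 0 v⟫_ℂ := by
  obtain ⟨P, hPd, hP0, hP1, hfac, hdP⟩ := flat_op (B := Op n) ContinuousLinearMap.norm_id_le hr hA hC hCr hH hdH hsa hu
  obtain ⟨w0, hw0⟩ : ∃ f : Cn n → Cn n, ∀ a ∈ ball (0 : Cn n) r, HasFDerivAt f (P a) a := by
    refine (convex_ball (0 : Cn n) r).exists_forall_hasFDerivAt_of_fderiv_symmetric isOpen_ball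
      (hPd.restrictScalars ℝ) (fun a ha x y => ?_)
    have hd := hPd.differentiableAt (isOpen_ball.mem_nhds ha)
    rw [fderiv_real_eq hd, fderiv_real_eq hd, hdP a ha, hdP a ha]
    simp only [mul_apply_eq_comp, hsym a ha x y]
  set w : Cn n → Cn n := fun z => w0 z - w0 0 with hw
  have hwd : ∀ a ∈ ball (0 : Cn n) r, HasFDerivAt w (P a) a := fun a ha => (hw0 a ha).sub_const _
  have hwz : w 0 = 0 := by simp [hw]
  set f' : Cn n ≃L[ℂ] Cn n := ContinuousLinearEquiv.refl ℂ (Cn n) with hf'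
  have happ : ApproximatesLinearOn w (f' : Cn n →L[ℂ] Cn n) (ball 0 r) (1 / 2 : ℝ≥0) := by
    intro x hx y hy
    have h1 := (convex_ball (0 : Cn n) r).norm_image_sub_le_of_norm_hasFDerivWithin_le'
      (f := w) (f' := P) (φ := (f' : Cn n →L[ℂ] Cn n)) (C := 1 / 2)
      (fun a ha => (hwd a ha).hasFDerivWithinAt) (fun a ha => hP1 a ha) hy hx
    simpa using h1
  have hc : Subsingleton (Cn n) ∨ (1 / 2 : ℝ≥0) < ‖(f'.symm : Cn n →L[ℂ] Cn n)‖₊⁻¹ := by
    rcases subsingleton_or_nontrivial (Cn n) with h | h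
    · exact Or.inl h
    · right
      have : ‖(f'.symm : Cn n →L[ℂ] Cn n)‖₊ = 1 := by
        simp [hf']
      rw [this]
      norm_num
  set e := happ.toOpenPartialHomeomorph w _ hc isOpen_ball with he
  have hes : e.source = ball 0 r := rfl
  have hef : ∀ y, e y = w y := fun y => rfl
  have htar : ball (0 : Cn n) (r / 4) ⊆ e.target := by
    intro y hy
    rcases subsingleton_or_nontrivial (Cn n) with h | h
    · have : y = e 0 := Subsingleton.elim _ _
      rw [this]
      exact e.map_source (mem_ball_self hr)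
    · have h1 := happ.surjOn_closedBall_of_nonlinearRightInverse f'.toNonlinearRightInverse
        (ε := r / 2) (b := 0) (by positivity) (closedBall_subset_ball (by linarith))
      have h2 : (f'.toNonlinearRightInverse.nnnorm : ℝ) = 1 := by
        have : f'.toNonlinearRightInverse.nnnorm = ‖(f'.symm : Cn n →L[ℂ] Cn n)‖₊ := rfl
        rw [this]
        simp [hf']
      rw [h2, hwz] at h1
      obtain ⟨x, hx, hxy⟩ := h1 (show y ∈ closedBall (0 : Cn n) _ from by
        rw [mem_closedBall_zero_iff]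
        have := mem_ball_zero_iff.1 hy
        push_cast
        linarith)
      rw [← hxy, ← hef]
      exact e.map_source (closedBall_subset_ball (by linarith) hx)
  have hder : ∀ y ∈ ball (0 : Cn n) (r / 4), ∃ L : Op n, HasFDerivAt e.symm L y ∧
      ∀ v, P (e.symm y) (L v) = v := by
    intro y hy
    have hx : e.symm y ∈ ball (0 : Cn n) r := e.map_target (htar hy)
    obtain ⟨u, hu'⟩ := isUnit_of_close (hP1 _ hx)
    set T : Cn n ≃L[ℂ] Cn n := ContinuousLinearEquiv.unitsEquiv ℂ (Cn n) u with hT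
    have hTP : (T : Cn n →L[ℂ] Cn n) = P (e.symm y) := by
      rw [← hu']
      ext v : 1
      simp [hT]
    have h1 : HasFDerivAt e (T : Cn n →L[ℂ] Cn n) (e.symm y) := by
      rw [hTP]
      exact hwd _ hx
    refine ⟨_, e.hasFDerivAt_symm (htar hy) h1, fun v => ?_⟩
    rw [← hTP]
    simp
  have h00 : e.symm 0 = 0 := by
    have := e.left_inv (x := 0) (mem_ball_self hr)
    rwa [hef, hwz] at this
  refine ⟨e.symm, fun y hy => ?_, fun y hy => e.map_target (htar hy), h00, ?_, fun y hy v => ?_⟩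
  · obtain ⟨L, hL, -⟩ := hder y hy
    exact hL.differentiableAt.differentiableWithinAt
  · obtain ⟨L, hL, hLP⟩ := hder 0 (mem_ball_self (by positivity))
    rw [hL.fderiv]
    ext v : 1
    have := hLP v
    rw [h00, hP0] at this
    simpa using this
  · obtain ⟨L, hL, hLP⟩ := hder y hy
    have hx : e.symm y ∈ ball (0 : Cn n) r := e.map_target (htar hy)
    rw [hL.fderiv]
    refine ⟨by simpa [hLP] using half_le_of_close (hP1 _ hx) (L v), ?_⟩
    rw [hfac _ hx]
    simp only [mul_apply_eq_comp, hLP, ContinuousLinearMap.star_eq_adjoint]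
    rw [ContinuousLinearMap.adjoint_inner_right, hLP]

end

end Crest.Agent.T223.Qc48
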