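import Crest.Agent.R266.Osgood

/-!
# Row 223, module QC (helper35): rigidity of almost isometric holomorphic maps

`NI η γ W` : the derivative of `γ` is `η`-isometric on `W`.
* `rig_ball`   : `‖Dγ x - Dγ z‖ ≤ √(6η)` on the half ball
* `rig_lip`    : `‖Dγ x - Dγ y‖ ≤ (2√(6η)/μ) ‖x - y‖` on a convex set with margin `μ`
* `rig_affine` : closeness to the identity / to a translation
-/

set_option autoImplicit false
set_option linter.unusedSectionVars false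
set_option linter.unusedVariables false

open Set Filter Topology Metric
open scoped ContDiff InnerProductSpace

namespace Crest.Agent.T223.Qc35

noncomputable section

variable {E : Type*} [NormedAddCommGroup E] [InnerProductSpace ℂ E] [FiniteDimensional ℂ E]

/-- the linear map `L` is `η`-isometric -/
def NIL (η : ℝ) (L : E →L[ℂ] E) : Prop := ∀ v, |‖L v‖ ^ 2 - ‖v‖ ^ 2| ≤ η * ‖v‖ ^ 2

/-- the derivative of `γ` is `η`-isometric on `W` -/
def NI (η : ℝ) (γ : E → E) (W : Set E) : Prop := ∀ z ∈ W, NIL η (fderiv ℂ γ z)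

theorem NI.mono {η : ℝ} {γ : E → E} {W W' : Set E} (h : NI η γ W) (hW : W' ⊆ W) : NI η γ W' :=
  fun z hz => h z (hW hz)

theorem NIL.mono {η η' : ℝ} {L : E →L[ℂ] E} (h : NIL η L) (hη : η ≤ η') : NIL η' L :=
  fun v => (h v).trans (mul_le_mul_of_nonneg_right hη (sq_nonneg _))

theorem NIL.norm_le {η : ℝ} {L : E →L[ℂ] E} (h : NIL η L) (hη : η ≤ 1) (v : E) :
    ‖L v‖ ≤ 3 / 2 * ‖v‖ := by
  have h1 := (abs_le.1 (h v)).2
  have h2 : ‖L v‖ ^ 2 ≤ (3 / 2 * ‖v‖) ^ 2 := by nlinarith [sq_nonneg ‖v‖]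
  exact abs_le_of_sq_le_sq' h2 (by positivity) |>.2

theorem differentiableOn_fderiv {γ : E → E} {W : Set E} (hW : IsOpen W)
    (hγ : DifferentiableOn ℂ γ W) : DifferentiableOn ℂ (fderiv ℂ γ) W := by
  have : CompleteSpace E := FiniteDimensional.complete ℂ E
  have h := Crest.Agent.R266.SCV.analyticOnNhd_of_differentiableOn hW hγ
  exact h.fderiv.differentiableOn

/-- one variable rigidity -/
theorem rig_disc {η c R : ℝ} (hη : 0 < η) (hc : 0 < c) (hR : 0 < R) {φ : ℂ → E}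
    (hφ : DifferentiableOn ℂ φ (ball 0 R))
    (hb : ∀ s ∈ ball (0 : ℂ) R, |‖φ s‖ ^ 2 - c| ≤ η * c) {s : ℂ} (hs : ‖s‖ ≤ R / 2) :
    ‖φ s - φ 0‖ ^ 2 ≤ 6 * η * c := by
  set f : ℂ → ℂ := fun s => ⟪φ 0, φ s - φ 0⟫_ℂ with hf
  have hfd : DifferentiableOn ℂ f (ball 0 R) := by
    have : f = fun s => innerSL ℂ (φ 0) (φ s - φ 0) := by funext s; rfl
    rw [this]
    exact (innerSL ℂ (φ 0)).differentiable.comp_differentiableOn (hφ.sub_const _)
  have key : ∀ s, ‖φ s - φ 0‖ ^ 2 = ‖φ s‖ ^ 2 - ‖φ 0‖ ^ 2 - 2 * (f s).re := by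
    intro s
    have h1 : φ s = φ 0 + (φ s - φ 0) := by abel
    have h2 := @norm_add_sq ℂ E _ _ _ (φ 0) (φ s - φ 0)
    rw [← h1] at h2
    simp only [hf]
    have h3 : RCLike.re ⟪φ 0, φ s - φ 0⟫_ℂ = (⟪φ 0, φ s - φ 0⟫_ℂ).re := rfl
    rw [h3] at h2
    linarith
  have h0 : (0 : ℂ) ∈ ball (0 : ℂ) R := mem_ball_self hR
  have hb0 := abs_le.1 (hb 0 h0)
  have hre : MapsTo f (ball 0 R) {z | z.re ≤ η * c} := by
    intro s hs
    have h1 := abs_le.1 (hb s hs)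
    have h2 := key s
    have h3 := sq_nonneg ‖φ s - φ 0‖
    show (f s).re ≤ η * c
    linarith [h1.2, hb0.1]
  have hsR : s ∈ ball (0 : ℂ) R := mem_ball_zero_iff.2 (by linarith)
  have h4 := Complex.borelCaratheodory_zero (mul_pos hη hc) hfd hre hR hsR (by simp [hf])
  have h5 : 2 * (η * c) * ‖s‖ / (R - ‖s‖) ≤ 2 * (η * c) := by
    rw [div_le_iff₀ (by linarith)]
    have := mul_pos hη hc
    nlinarith [norm_nonneg s]
  have h6 : -(f s).re ≤ 2 * (η * c) := by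
    have := (abs_le.1 (Complex.abs_re_le_norm (f s))).1
    linarith
  have h7 := abs_le.1 (hb s hsR)
  rw [key s]
  linarith [h7.2, hb0.1]

theorem rig_ball {η r : ℝ} (hη : 0 < η) (hr : 0 < r) {γ : E → E} {z : E}
    (hγ : DifferentiableOn ℂ γ (ball z r)) (hN : NI η γ (ball z r)) {x : E}
    (hx : x ∈ ball z (r / 2)) : ‖fderiv ℂ γ x - fderiv ℂ γ z‖ ≤ √(6 * η) := by
  refine ContinuousLinearMap.opNorm_le_bound _ (Real.sqrt_nonneg _) fun v => ?_
  by_cases hv : v = 0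
  · simp [hv]
  by_cases hxz : x = z
  · simp only [hxz, sub_self, zero_apply, norm_zero]; positivity
  have hd : 0 < ‖x - z‖ := norm_pos_iff.2 (sub_ne_zero.2 hxz)
  have hx' : ‖x - z‖ < r / 2 := by rwa [mem_ball, dist_eq_norm] at hx
  have hmem : ∀ s ∈ ball (0 : ℂ) 2, z + s • (x - z) ∈ ball z r := by
    intro s hs
    rw [mem_ball_zero_iff] at hs
    rw [mem_ball, dist_eq_norm, add_sub_cancel_left, norm_smul]
    nlinarith [norm_nonneg s]
  have hD := differentiableOn_fderiv isOpen_ball hγ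
  have hφ : DifferentiableOn ℂ (fun s : ℂ => fderiv ℂ γ (z + s • (x - z)) v) (ball 0 2) := by
    have h1 : DifferentiableOn ℂ (fun s : ℂ => fderiv ℂ γ (z + s • (x - z))) (ball 0 2) :=
      hD.comp (by fun_prop) hmem
    exact h1.clm_apply (differentiableOn_const v)
  have hvp : 0 < ‖v‖ ^ 2 := by positivity
  have h2 := rig_disc hη hvp two_pos hφ (fun s hs => hN _ (hmem s hs) v) (s := 1) (by simp)
  simp only [one_smul, zero_smul, add_zero, add_sub_cancel] at h2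
  rw [sub_apply]
  have h3 : (√(6 * η) * ‖v‖) ^ 2 = 6 * η * ‖v‖ ^ 2 := by
    rw [mul_pow, Real.sq_sqrt (by positivity)]
  exact abs_le_of_sq_le_sq' (by rw [h3]; exact h2) (by positivity) |>.2

/-- the second derivative of an almost isometric holomorphic map is small -/
theorem rig_second {η r : ℝ} (hη : 0 < η) (hr : 0 < r) {γ : E → E} {z : E}
    (hγ : DifferentiableOn ℂ γ (ball z r)) (hN : NI η γ (ball z r)) :
    ‖fderiv ℂ (fderiv ℂ γ) z‖ ≤ √(6 * η) / (r / 2) := by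
  have hD := (differentiableOn_fderiv isOpen_ball hγ).mono
    (ball_subset_ball (show r / 2 ≤ r by linarith))
  refine Complex.norm_fderiv_le_div_of_mapsTo_ball hD (fun x hx => ?_) (by positivity)
  rw [mem_closedBall, dist_eq_norm]
  exact rig_ball hη hr hγ hN hx

theorem rig_lip {η μ : ℝ} (hη : 0 < η) (hμ : 0 < μ) {γ : E → E} {V W : Set E} (hV : Convex ℝ V)
    (hW : IsOpen W) (hVW : ∀ z ∈ V, ball z μ ⊆ W) (hγ : DifferentiableOn ℂ γ W) (hN : NI η γ W)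
    {x y : E} (hx : x ∈ V) (hy : y ∈ V) :
    ‖fderiv ℂ γ x - fderiv ℂ γ y‖ ≤ √(6 * η) / (μ / 2) * ‖x - y‖ := by
  have hD := differentiableOn_fderiv hW hγ
  refine hV.norm_image_sub_le_of_norm_fderiv_le (𝕜 := ℂ) (fun z hz => ?_) (fun z hz => ?_) hy hx
  · exact hD.differentiableAt (hW.mem_nhds (hVW z hz (mem_ball_self hμ)))
  · exact rig_second hη hμ (hγ.mono (hVW z hz)) (hN.mono (hVW z hz))

/-- closeness to a translation on a convex set of size `L` with margin `μ` -/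
theorem rig_affine {η μ L a : ℝ} (hη : 0 < η) (hμ : 0 < μ) {γ : E → E} {V W : Set E}
    (hV : Convex ℝ V) (hW : IsOpen W) (hVW : ∀ z ∈ V, ball z μ ⊆ W)
    (hγ : DifferentiableOn ℂ γ W) (hN : NI η γ W) {x0 : E} (h0 : x0 ∈ V)
    (hL : ∀ x ∈ V, ‖x - x0‖ ≤ L) (ha : ‖fderiv ℂ γ x0 - 1‖ ≤ a) :
    ∀ x ∈ V, ‖fderiv ℂ γ x - 1‖ ≤ a + √(6 * η) / (μ / 2) * L ∧
      ‖γ x - (γ x0 + (x - x0))‖ ≤ (a + √(6 * η) / (μ / 2) * L) * L := by
  have h1 : ∀ x ∈ V, ‖fderiv ℂ γ x - 1‖ ≤ a + √(6 * η) / (μ / 2) * L := by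
    intro x hx
    have h2 := rig_lip hη hμ hV hW hVW hγ hN hx h0
    have h3 : √(6 * η) / (μ / 2) * ‖x - x0‖ ≤ √(6 * η) / (μ / 2) * L := by
      gcongr; exact hL x hx
    calc ‖fderiv ℂ γ x - 1‖ = ‖(fderiv ℂ γ x0 - 1) + (fderiv ℂ γ x - fderiv ℂ γ x0)‖ := by
          congr 1; abel
      _ ≤ ‖fderiv ℂ γ x0 - 1‖ + ‖fderiv ℂ γ x - fderiv ℂ γ x0‖ := norm_add_le _ _
      _ ≤ _ := by linarith
  intro x hx
  refine ⟨h1 x hx, ?_⟩
  have hdiff : ∀ z ∈ V, DifferentiableAt ℂ γ z := fun z hz =>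
    hγ.differentiableAt (hW.mem_nhds (hVW z hz (mem_ball_self hμ)))
  have h4 := hV.norm_image_sub_le_of_norm_fderiv_le' (𝕜 := ℂ) (φ := (1 : E →L[ℂ] E)) hdiff h1 h0 hx
  have h5 : 0 ≤ a + √(6 * η) / (μ / 2) * L := (norm_nonneg _).trans (h1 x hx)
  calc ‖γ x - (γ x0 + (x - x0))‖ = ‖γ x - γ x0 - (1 : E →L[ℂ] E) (x - x0)‖ := by
        congr 1; simp only [one_apply_eq_self]; abel
    _ ≤ _ := h4
    _ ≤ _ := by gcongr; exact hL x hx

end

end Crest.Agent.T223.Qc35
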