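import Crest.Agent.T223.QcAdd_47

/-!
# Row 223, quasi-charts (helper47), part 3: the nonlinear splitting (Cartan's lemma on boxes)
-/

set_option autoImplicit false
set_option linter.unusedSectionVars false
set_option linter.unusedVariables false

open Set Filter Topology Metric Complex MeasureTheory
open scoped Real Interval

noncomputable section

namespace Crest.Agent.T223.Qc47

open Crest.Agent.R266.SCV

variable {E : Type} [NormedAddCommGroup E] [NormedSpace ℂ E] [FiniteDimensional ℂ E]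

/-- the iteration -/
def itA (T : (E → E) → E → E) (k : E → E) : ℕ → E → E
  | 0 => fun _ => 0
  | m + 1 => T fun z => k (z + itA T k m z)

/-- **nonlinear splitting**: `(id + k) ∘ (id + a) = id + b` on the overlap -/
theorem nl_split (C : Cyl E) {xl x0 x1 xr c d R : ℝ} (h01 : x0 < x1) (hcd : c ≤ d)
    (hR : 0 ≤ R) (hl : xr - xl ≤ R) (hl1 : xl ≤ x0) (hr1 : x1 ≤ xr) (hRd : d - c ≤ R)
    {k : E → E} {O' : Set E} {δ ε : ℝ} (hδ : 0 < δ) (hε : 0 ≤ ε) (hO' : IsOpen O')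
    (hk : DifferentiableOn ℂ k O') (hkb : ∀ z ∈ O', ‖k z‖ ≤ ε)
    (hO : ∀ z ∈ C.bx x0 x1 c d, ball z (2 * δ) ⊆ O')
    (hsm : (3 * Jc R ^ 2 / (x1 - x0) + 1) * ε ≤ δ / 2) :
    ∃ a b : E → E, DifferentiableOn ℂ a (C.bx xl x1 c d) ∧ DifferentiableOn ℂ b (C.bx x0 xr c d) ∧
      (∀ z ∈ C.bx xl x1 c d, ‖a z‖ ≤ (3 * Jc R ^ 2 / (x1 - x0) + 1) * ε) ∧
      (∀ z ∈ C.bx x0 xr c d, ‖b z‖ ≤ (3 * Jc R ^ 2 / (x1 - x0) + 1) * ε) ∧
      ∀ z ∈ C.bx x0 x1 c d, z + a z + k (z + a z) = z + b z := by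
  have : CompleteSpace E := FiniteDimensional.complete ℂ E
  obtain ⟨T, hT, hTs⟩ := Cyl.add_split (F := E) C h01 hcd hR hl hl1 hr1 hRd
  set K : ℝ := 3 * Jc R ^ 2 / (x1 - x0) + 1 with hK
  have hK0 : 0 ≤ K := by
    have : 0 < x1 - x0 := by linarith
    positivity
  set O : Set E := C.bx x0 x1 c d with hOd
  set D : Set E := C.bx xl x1 c d with hD
  have hOD : O ⊆ D := fun z hz => ⟨hz.1, ⟨lt_of_le_of_lt hl1 hz.2.1.1, hz.2.1.2⟩, hz.2.2⟩
  -- composition with a small map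
  have hcomp : ∀ a : E → E, DifferentiableOn ℂ a D → (∀ z ∈ D, ‖a z‖ ≤ K * ε) →
      (∀ z ∈ O, z + a z ∈ ball z δ) ∧ DifferentiableOn ℂ (fun z => k (z + a z)) O ∧
        ∀ z ∈ O, ‖k (z + a z)‖ ≤ ε := by
    intro a ha hb
    have h1 : ∀ z ∈ O, z + a z ∈ ball z δ := fun z hz => by
      rw [mem_ball, dist_eq_norm, add_sub_cancel_left]
      linarith [hb z (hOD hz)]
    have h2 : ∀ z ∈ O, z + a z ∈ O' := fun z hz =>
      hO z hz (ball_subset_ball (by linarith) (h1 z hz))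
    exact ⟨h1, hk.comp (differentiableOn_id.add (ha.mono hOD)) h2, fun z hz => hkb _ (h2 z hz)⟩
  -- the contraction estimate
  have hcon : ∀ (a a' : E → E) (s : ℝ), 0 ≤ s → DifferentiableOn ℂ a D →
      (∀ z ∈ D, ‖a z‖ ≤ K * ε) → DifferentiableOn ℂ a' D → (∀ z ∈ D, ‖a' z‖ ≤ K * ε) →
      (∀ z ∈ D, ‖a z - a' z‖ ≤ s) →
      ∀ z ∈ D, ‖T (fun w => k (w + a w)) z - T (fun w => k (w + a' w)) z‖ ≤ s / 2 := by
    intro a a' s hs ha hb ha' hb' hd z hz
    obtain ⟨m1, d1, b1⟩ := hcomp a ha hb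
    obtain ⟨m2, d2, b2⟩ := hcomp a' ha' hb'
    rw [← hTs _ _ ε ε d1 b1 d2 b2 z hz.1]
    have hlip : ∀ w ∈ O, ‖k (w + a w) - k (w + a' w)‖ ≤ ε / δ * s := by
      intro w hw
      refine (lip_of_bound hδ (hk.mono (hO w hw)) (fun y hy => hkb y (hO w hw hy)) (m1 w hw)
        (m2 w hw)).trans ?_
      rw [add_sub_add_left_eq_sub]
      exact mul_le_mul_of_nonneg_left (hd w (hOD hw)) (by positivity)
    refine ((hT _ (ε / δ * s) (by positivity) (d1.sub d2) hlip).2.1 z hz).trans ?_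
    have : K * (ε / δ) ≤ 1 / 2 := by
      rw [← mul_div_assoc, div_le_iff₀ hδ]
      linarith
    nlinarith
  have hit : ∀ m, DifferentiableOn ℂ (itA T k m) D ∧ ∀ z ∈ D, ‖itA T k m z‖ ≤ K * ε := by
    intro m
    induction m with
    | zero => exact ⟨differentiableOn_const _, fun z _ => by simp [itA]; positivity⟩
    | succ m ih =>
      obtain ⟨_, d1, b1⟩ := hcomp _ ih.1 ih.2
      exact ⟨(hT _ ε hε d1 b1).1, (hT _ ε hε d1 b1).2.1⟩
  have hgeo : ∀ m, ∀ z ∈ D, ‖itA T k (m + 1) z - itA T k m z‖ ≤ K * ε * (1 / 2) ^ m := by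
    intro m
    induction m with
    | zero => intro z hz; simpa [show itA T k 0 z = 0 from rfl] using (hit 1).2 z hz
    | succ m ih =>
      intro z hz
      refine (hcon _ _ _ (by positivity) (hit (m + 1)).1 (hit (m + 1)).2 (hit m).1 (hit m).2 ih
        z hz).trans (le_of_eq ?_)
      ring
  have hcau : ∀ z ∈ D, ∃ w, Tendsto (fun m => itA T k m z) atTop (𝓝 w) := fun z hz =>
    cauchySeq_tendsto_of_complete (cauchySeq_of_le_geometric (1 / 2) (K * ε) (by norm_num)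
      fun m => by rw [dist_comm, dist_eq_norm]; exact hgeo m z hz)
  choose! a ha using hcau
  have hdist : ∀ m, ∀ z ∈ D, ‖itA T k m z - a z‖ ≤ 2 * (K * ε) * (1 / 2) ^ m := by
    intro m z hz
    have := dist_le_of_le_geometric_of_tendsto (1 / 2) (K * ε) (by norm_num)
      (fun m => by rw [dist_comm, dist_eq_norm]; exact hgeo m z hz) (ha z hz) m
    rw [dist_eq_norm] at this
    refine this.trans (le_of_eq ?_)
    ring
  have hlim0 : Tendsto (fun m : ℕ => 2 * (K * ε) * (1 / 2 : ℝ) ^ m) atTop (𝓝 0) := by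
    simpa using (tendsto_pow_atTop_nhds_zero_of_lt_one (r := (1 / 2 : ℝ)) (by norm_num)
      (by norm_num)).const_mul (2 * (K * ε))
  have hunif : TendstoUniformlyOn (itA T k) a atTop D := by
    refine Metric.tendstoUniformlyOn_iff.2 fun η hη => ?_
    filter_upwards [hlim0.eventually (gt_mem_nhds hη)] with m hm z hz
    rw [dist_comm, dist_eq_norm]
    exact lt_of_le_of_lt (hdist m z hz) hm
  have had : DifferentiableOn ℂ a D :=
    (analyticOnNhd_of_tendstoLocallyUniformlyOn (C.isOpen_bx _ _ _ _)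
      hunif.tendstoLocallyUniformlyOn (Eventually.of_forall fun m => (hit m).1)).differentiableOn
  have hab : ∀ z ∈ D, ‖a z‖ ≤ K * ε := fun z hz =>
    le_of_tendsto' (ha z hz).norm fun m => (hit m).2 z hz
  obtain ⟨_, d1, b1⟩ := hcomp a had hab
  have hfix : ∀ z ∈ D, T (fun w => k (w + a w)) z = a z := by
    intro z hz
    refine tendsto_nhds_unique ?_ ((ha z hz).comp (tendsto_add_atTop_nat 1))
    rw [tendsto_iff_norm_sub_tendsto_zero]
    refine squeeze_zero (fun m => norm_nonneg _) (fun m => ?_) hlim0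
    refine (hcon _ _ _ (by positivity) (hit m).1 (hit m).2 had hab (hdist m) z hz).trans ?_
    have : 0 ≤ 2 * (K * ε) * (1 / 2 : ℝ) ^ m := by positivity
    linarith
  obtain ⟨-, -, b, hb1, hb2, hb3⟩ := hT _ ε hε d1 b1
  refine ⟨a, b, had, hb1, hab, hb2, fun z hz => ?_⟩
  rw [hb3, hfix z (hOD hz), add_assoc]

end Crest.Agent.T223.Qc47
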