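import Crest.Agent.T223.Fr_38
import Crest.Agent.T223.TrPb_90

/-!
# Row 223, module QC (helper35): basic API and quasi-charts of tiny radius on a compact set
-/

set_option autoImplicit false
set_option linter.unusedSectionVars false
set_option linter.unusedVariables false

open Set Filter Topology Metric
open scoped ContDiff ComplexConjugate Matrix ComplexOrder MatrixOrder

namespace Crest.Agent.T223.Qc35

open Crest.Agent.R275.Geo Crest.Agent.T223.Tr Crest.Agent.T223.Br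
open Crest.Agent.R275.Core144 (Jm)

noncomputable section

variable {n : ℕ} {M : Type} [TopologicalSpace M] {A : Atl n M}

/-- the pull-back can be computed in any chart -/
theorem pull_eq {G : MF A} {U : Set M} (hG : TrOn G U) {f : Cn n → M} {z : Cn n}
    (hc : ContinuousAt f z) (hU : f z ∈ U) {i : A.ι} (hi : f z ∈ (A.e i).source)
    (hd : DifferentiableAt ℂ (rd A i f) z) : pull G f z = pbF G i f z := by
  have hj := (A.cover (f z)).choose_spec
  unfold pull pbF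
  rw [(rd_trans hc hi hj hd).2, hG i _ (f z) ⟨hi, hj⟩ hU, Matrix.transpose_mul, Matrix.map_mul]
  simp only [Matrix.mul_assoc]

theorem nq_pull_eq {G : MF A} {U : Set M} (hG : TrOn G U) {f : Cn n → M} {z : Cn n}
    (hc : ContinuousAt f z) (hU : f z ∈ U) {i : A.ι} (hi : f z ∈ (A.e i).source)
    (hd : DifferentiableAt ℂ (rd A i f) z) (v : Cn n) :
    nq (pull G f z) v = nq (G i (A.e i (f z))) (fderiv ℂ (rd A i f) z v) := by
  rw [pull_eq hG hc hU hi hd]
  exact nq_pull _ _ _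

/-- a positive definite matrix is the identity in suitable linear coordinates -/
theorem exists_normalise {g : Mat n} (hg : g.PosDef) :
    ∃ S : Cn n →L[ℂ] Cn n, (mat S)ᵀ * g * (mat S).map conj = 1 := by
  obtain ⟨B, hB, rfl⟩ := CStarAlgebra.isStrictlyPositive_iff_eq_star_mul_self.mp
    hg.isStrictlyPositive
  have hdet : IsUnit B.det := (Matrix.isUnit_iff_isUnit_det B).1 hB
  refine ⟨Matrix.toEuclideanCLM (n := Fin n) (𝕜 := ℂ) ((B⁻¹).map conj), ?_⟩
  have h1 : mat (Matrix.toEuclideanCLM (n := Fin n) (𝕜 := ℂ) ((B⁻¹).map conj)) =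
      (B⁻¹).map conj := by
    ext a b
    simp only [mat, Matrix.of_apply]
    rw [Matrix.ofLp_toEuclideanCLM]
    simp
  have h2 : ((B⁻¹).map conj).map conj = B⁻¹ := by ext a b; simp
  have h3 : ((B⁻¹).map conj)ᵀ = star B⁻¹ := by ext a b; simp [Matrix.star_apply]
  rw [h1, h2, h3, Matrix.mul_assoc, Matrix.mul_assoc, Matrix.mul_nonsing_inv _ hdet,
    Matrix.mul_one, ← star_mul, Matrix.mul_nonsing_inv _ hdet, star_one]

theorem nq_smul_vec (g : Mat n) (c : ℝ) (v : Cn n) : nq g ((c : ℂ) • v) = c ^ 2 * nq g v := by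
  unfold nq
  rw [← Complex.re_ofReal_mul, Finset.mul_sum]
  congr 1
  refine Finset.sum_congr rfl fun a _ => ?_
  rw [Finset.mul_sum]
  refine Finset.sum_congr rfl fun b _ => ?_
  simp only [PiLp.smul_apply, smul_eq_mul, map_mul, Complex.conj_ofReal]
  push_cast; ring

theorem abs_nq_le {g : Mat n} {κ : ℝ} (h : ∀ a b, ‖g a b‖ ≤ κ) (v : Cn n) :
    |nq g v| ≤ κ * n ^ 2 * ‖v‖ ^ 2 := by
  unfold nq
  refine (Complex.abs_re_le_norm _).trans ((norm_sum_le _ _).trans ?_)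
  have h1 : ∀ a, ‖∑ b, g a b * v a * conj (v b)‖ ≤ n * (κ * ‖v‖ ^ 2) := fun a => by
    refine (norm_sum_le _ _).trans ?_
    have h2 : ∀ b, ‖g a b * v a * conj (v b)‖ ≤ κ * ‖v‖ ^ 2 := fun b => by
      rw [norm_mul, norm_mul, Complex.norm_conj, mul_assoc, sq]
      have := PiLp.norm_apply_le v a
      have := PiLp.norm_apply_le v b
      have := (norm_nonneg _).trans (h a b)
      gcongr
      exact h a b
    simpa using Finset.sum_le_sum (s := Finset.univ) fun b _ => h2 b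
  have h3 := Finset.sum_le_sum (s := Finset.univ) fun a _ => h1 a
  simp only [Finset.sum_const, Finset.card_univ, Fintype.card_fin, nsmul_eq_mul] at h3
  linarith [h3]

theorem exists_lower {g : Mat n} (hg : g.PosDef) : ∃ l : ℝ, 0 < l ∧ ∀ v, l * ‖v‖ ^ 2 ≤ nq g v := by
  obtain ⟨S, hS⟩ := exists_normalise hg
  have h1 : ∀ v, nq g (S v) = ‖v‖ ^ 2 := fun v => by rw [← nq_pull, hS, nq_one]
  have hinj : Function.Injective S := by
    refine (injective_iff_map_eq_zero S).2 fun v hv => ?_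
    have := h1 v
    rw [hv, show (0 : Cn n) = ((0 : ℝ) : ℂ) • (0 : Cn n) by simp, nq_smul_vec] at this
    simpa using this.symm
  set T := eqvOf S hinj with hT
  refine ⟨1 / (‖S‖ + 1) ^ 2, by positivity, fun v => ?_⟩
  have h2 : S (T.symm v) = v := T.apply_symm_apply v
  have h3 := h1 (T.symm v)
  rw [h2] at h3
  have h4 : ‖v‖ ≤ (‖S‖ + 1) * ‖T.symm v‖ := by
    calc ‖v‖ = ‖S (T.symm v)‖ := by rw [h2]
      _ ≤ ‖S‖ * ‖T.symm v‖ := S.le_opNorm _
      _ ≤ _ := by gcongr; linarith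
  rw [h3, div_mul_eq_mul_div, one_mul, div_le_iff₀ (by positivity), ← mul_pow, mul_comm]
  gcongr

/-- pointwise Lipschitz bound on a segment -/
theorem seg_lip {f : ℝ → ℝ} {K : ℝ}
    (h : ∀ t ∈ Icc (0 : ℝ) 1, ∀ᶠ s in 𝓝 t, |f s - f t| ≤ K * |s - t|) : f 1 ≤ f 0 + K := by
  have hc : ContinuousOn f (Icc 0 1) := fun t ht => by
    refine ContinuousAt.continuousWithinAt ?_
    rw [ContinuousAt, tendsto_iff_norm_sub_tendsto_zero]
    have h1 : Tendsto (fun s : ℝ => K * |s - t|) (𝓝 t) (𝓝 (K * |t - t|)) :=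
      (by fun_prop : Continuous fun s : ℝ => K * |s - t|).tendsto t
    rw [sub_self, abs_zero, mul_zero] at h1
    exact squeeze_zero' (Eventually.of_forall fun _ => norm_nonneg _) (h t ht) h1
  have h2 := image_le_of_liminf_slope_right_le_deriv_boundary (B := fun s => f 0 + K * s)
    (B' := fun _ => K) hc (by simp) (by fun_prop)
    (fun x _ => by simpa using ((hasDerivWithinAt_id x (Ici x)).const_mul K).const_add (f 0))
    (fun x hx r hr => by
      refine Eventually.frequently ?_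
      filter_upwards [nhdsWithin_le_nhds (h x (Ico_subset_Icc_self hx)), self_mem_nhdsWithin]
        with s hs hxs
      have hp : 0 < s - x := sub_pos.2 hxs
      rw [slope_def_field, div_lt_iff₀ hp]
      rw [abs_of_pos hp] at hs
      have := (abs_le.1 hs).2
      nlinarith) (x := 1) ⟨zero_le_one, le_rfl⟩
  simpa using h2

/-- an immersion can be tested in one chart -/
theorem imm_of_chart {f : Cn n → M} {D : Set (Cn n)} {i : A.ι}
    (h : ∀ z ∈ D, ContinuousAt f z ∧ f z ∈ (A.e i).source ∧ DifferentiableAt ℂ (rd A i f) z ∧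
      Function.Injective (fderiv ℂ (rd A i f) z)) : Imm A f D := by
  refine ⟨fun z hz => ⟨(h z hz).1, fun j hj => (rd_trans (h z hz).1 (h z hz).2.1 hj
    (h z hz).2.2.1).1⟩, fun z hz j hj => ?_⟩
  obtain ⟨h1, h2, h3, h4⟩ := h z hz
  have h5 := (rd_trans h1 hj h2 (rd_trans h1 h2 hj h3).1).2
  rw [← det_ne_zero_iff, ← det_mat, ← jac_eq] at h4 ⊢
  rw [h5, Matrix.det_mul] at h4
  exact right_ne_zero_of_mul h4

theorem QC.mono {G : MF A} {U U' : Set M} {x : M} {r ε ε' : ℝ} {ψ : Cn n → M}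
    (h : QC G U x r ε ψ) (hU : MapsTo ψ (ball 0 1) U') (hε : ε ≤ ε') : QC G U' x r ε' ψ :=
  ⟨h.imm, hU, h.zero, h.ctr,
    fun w hw v => le_trans (by gcongr) (h.lo w hw v),
    fun w hw v => (h.hi w hw v).trans (by gcongr)⟩

theorem qc_local {G : MF A} {U : Set M} {ρ : M → ℝ} {c : ℝ} (hU : IsOpen U) (hG : KahOn G U)
    (hρ : LipOn G U c ρ) (hc : 0 < c) {y0 : M} (h0 : y0 ∈ U) :
    ∃ r0 : ℝ, 0 < r0 ∧ ∀ᶠ y in 𝓝 y0, ∀ r : ℝ, 0 < r → r ≤ r0 → ∃ ψ : Cn n → M,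
      QC G U y r (1 / 2) ψ ∧ ∀ w ∈ ball (0 : Cn n) 1, ρ (ψ w) ≤ ρ y + 3 * c * r := by
  obtain ⟨i, hi⟩ := A.cover y0
  set z0 := A.e i y0 with hz0
  have hK := hG.kah i y0 hi h0
  obtain ⟨l, hl, hlow⟩ := exists_lower hK.pos.self_of_nhds
  set κ := l / (8 * ((n : ℝ) ^ 2 + 1)) with hκ
  have hκ0 : 0 < κ := by positivity
  have hκl : κ * n ^ 2 ≤ l / 8 := by
    rw [hκ, div_mul_eq_mul_div, div_le_div_iff₀ (by positivity) (by positivity)]
    nlinarith
  have e1 : ∀ᶠ z in 𝓝 z0, z ∈ (A.e i).target := (A.e i).open_target.mem_nhds ((A.e i).map_source hi)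
  have e2 : ∀ᶠ z in 𝓝 z0, (A.e i).symm z ∈ U :=
    ((A.e i).continuousAt_symm ((A.e i).map_source hi)) (hU.mem_nhds (by
      rw [(A.e i).left_inv hi]; exact h0))
  have e3 : ∀ᶠ z in 𝓝 z0, ∀ a b, ‖(G i z - G i z0) a b‖ ≤ κ := by
    refine eventually_all.2 fun a => eventually_all.2 fun b => ?_
    filter_upwards [(hK.sm a b).continuousAt (closedBall_mem_nhds _ hκ0)] with z hz
    rw [mem_preimage, mem_closedBall, dist_eq_norm] at hz
    exact hz
  obtain ⟨δ, hδ, hb⟩ := Metric.eventually_nhds_iff_ball.1 (e1.and (e2.and (e3.and hK.pos)))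
  have hcmp : ∀ z ∈ ball z0 δ, ∀ v, 7 / 8 * nq (G i z0) v ≤ nq (G i z) v ∧
      nq (G i z) v ≤ 9 / 8 * nq (G i z0) v := by
    intro z hz v
    have h1 := abs_nq_le (hb z hz).2.2.1 v
    rw [nq_sub] at h1
    have h2 : κ * n ^ 2 * ‖v‖ ^ 2 ≤ l / 8 * ‖v‖ ^ 2 := by gcongr
    have h3 := hlow v
    obtain ⟨h4, h5⟩ := abs_le.1 h1
    constructor <;> linarith
  set b := √(2 / l) with hbdef
  have hb0 : 0 < b := Real.sqrt_pos.2 (by positivity)
  have hbb : b ^ 2 = 2 / l := Real.sq_sqrt (by positivity)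
  refine ⟨δ / (2 * b), by positivity, ?_⟩
  have e4 : ∀ᶠ y in 𝓝 y0, A.e i y ∈ ball z0 (δ / 2) :=
    ((A.e i).continuousAt hi) (ball_mem_nhds _ (by positivity))
  filter_upwards [(A.e i).open_source.mem_nhds hi, e4] with y hy hyz r hr hr0
  set zy := A.e i y with hzy
  have hzyb : zy ∈ ball z0 δ := ball_subset_ball (by linarith) hyz
  obtain ⟨S, hS⟩ := exists_normalise (hb zy hzyb).2.2.2
  have hS1 : ∀ v, nq (G i zy) (S v) = ‖v‖ ^ 2 := fun v => by rw [← nq_pull, hS, nq_one]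
  have hSb : ∀ v, ‖S v‖ ≤ b * ‖v‖ := fun v => by
    have h1 := (hcmp zy hzyb (S v)).1
    have h2 := hlow (S v)
    rw [hS1] at h1
    have h3 : ‖S v‖ ^ 2 ≤ (b * ‖v‖) ^ 2 := by
      rw [mul_pow, hbb, div_mul_eq_mul_div, le_div_iff₀ hl]
      nlinarith [sq_nonneg ‖v‖]
    exact (abs_le_of_sq_le_sq' h3 (by positivity)).2
  have hSq : ∀ z ∈ ball z0 δ, ∀ v, 1 / 2 * ‖v‖ ^ 2 ≤ nq (G i z) (S v) ∧
      nq (G i z) (S v) ≤ 3 / 2 * ‖v‖ ^ 2 := fun z hz v => by
    have h1 := hcmp zy hzyb (S v)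
    have h2 := hcmp z hz (S v)
    rw [hS1] at h1
    have := sq_nonneg ‖v‖
    constructor <;> linarith [h1.1, h1.2, h2.1, h2.2]
  set T : Cn n → Cn n := fun w => zy + (r : ℂ) • S w with hT
  have hTb : ∀ w ∈ ball (0 : Cn n) 1, T w ∈ ball z0 δ := fun w hw => by
    rw [mem_ball_zero_iff] at hw
    have h1 : r * b ≤ δ / 2 := by
      rw [le_div_iff₀ (by positivity)] at hr0; linarith
    have h2 : ‖(r : ℂ) • S w‖ ≤ δ / 2 := by
      rw [norm_smul, Complex.norm_real, Real.norm_of_nonneg hr.le]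
      calc r * ‖S w‖ ≤ r * (b * ‖w‖) := by gcongr; exact hSb w
        _ ≤ r * (b * 1) := by gcongr
        _ ≤ δ / 2 := by linarith
    rw [mem_ball, dist_eq_norm] at hyz ⊢
    calc ‖T w - z0‖ = ‖(zy - z0) + (r : ℂ) • S w‖ := by congr 1; simp only [hT]; abel
      _ ≤ ‖zy - z0‖ + ‖(r : ℂ) • S w‖ := norm_add_le _ _
      _ < δ := by linarith
  have hTd : ∀ w, HasFDerivAt T ((r : ℂ) • S) w := fun w =>
    (S.hasFDerivAt.const_smul (r : ℂ)).const_add zy
  set ψ : Cn n → M := fun w => (A.e i).symm (T w) with hψ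
  have hψs : ∀ w ∈ ball (0 : Cn n) 1, ψ w ∈ (A.e i).source := fun w hw =>
    (A.e i).map_target (hb _ (hTb w hw)).1
  have hψU : ∀ w ∈ ball (0 : Cn n) 1, ψ w ∈ U := fun w hw => (hb _ (hTb w hw)).2.1
  have hψe : ∀ w ∈ ball (0 : Cn n) 1, A.e i (ψ w) = T w := fun w hw =>
    (A.e i).right_inv (hb _ (hTb w hw)).1
  have hψc : ∀ w ∈ ball (0 : Cn n) 1, ContinuousAt ψ w := fun w hw =>
    ((A.e i).continuousAt_symm (hb _ (hTb w hw)).1).comp (hTd w).continuousAt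
  have hψd : ∀ w ∈ ball (0 : Cn n) 1, HasFDerivAt (rd A i ψ) ((r : ℂ) • S) w := fun w hw =>
    (hTd w).congr_of_eventuallyEq (by
      filter_upwards [isOpen_ball.mem_nhds hw] with w' hw' using hψe w' hw')
  have hq : ∀ w ∈ ball (0 : Cn n) 1, ∀ v, nq (pull G ψ w) v = r ^ 2 * nq (G i (T w)) (S v) :=
    fun w hw v => by
      rw [nq_pull_eq hG.tr (hψc w hw) (hψU w hw) (hψs w hw) (hψd w hw).differentiableAt,
        (hψd w hw).fderiv, hψe w hw, smul_apply, nq_smul_vec]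
  have h01 : (0 : Cn n) ∈ ball (0 : Cn n) 1 := mem_ball_self one_pos
  have hT0 : T 0 = zy := by simp [hT]
  have hψ0 : ψ 0 = y := by simp only [hψ, hT0]; exact (A.e i).left_inv hy
  refine ⟨ψ, ⟨imm_of_chart (i := i) fun w hw => ⟨hψc w hw, hψs w hw, (hψd w hw).differentiableAt,
    ?_⟩, hψU, hψ0, ?_, fun w hw v => ?_, fun w hw v => ?_⟩, fun w hw => ?_⟩
  · rw [(hψd w hw).fderiv]
    refine (injective_iff_map_eq_zero _).2 fun v hv => ?_
    rw [smul_apply, smul_eq_zero] at hv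
    rcases hv with hv | hv
    · exact absurd (Complex.ofReal_eq_zero.1 hv) hr.ne'
    · have h1 := hS1 v
      rw [hv, show (0 : Cn n) = ((0 : ℝ) : ℂ) • (0 : Cn n) by simp, nq_smul_vec] at h1
      simpa using h1.symm
  · rw [pull_eq hG.tr (hψc 0 h01) (hψU 0 h01) (hψs 0 h01) (hψd 0 h01).differentiableAt, pbF,
      jac_eq, (hψd 0 h01).fderiv, hψe 0 h01, hT0, ← hS]
    have h1 : mat ((r : ℂ) • S) = (r : ℂ) • mat S := by ext a b; simp [mat]
    have h2 : ((r : ℂ) • mat S).map conj = (r : ℂ) • (mat S).map conj := by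
      ext a b; simp
    rw [h1, h2, Matrix.transpose_smul, Matrix.smul_mul, Matrix.smul_mul, Matrix.mul_smul,
      smul_smul]
    congr 1; push_cast; ring
  · rw [hq w hw]
    have := (hSq _ (hTb w hw) v).1
    nlinarith [sq_nonneg r]
  · rw [hq w hw]
    have := (hSq _ (hTb w hw) v).2
    nlinarith [sq_nonneg r]
  · have hw1 : ‖w‖ < 1 := mem_ball_zero_iff.1 hw
    have hseg : ∀ t ∈ Icc (0 : ℝ) 1, (t : ℂ) • w ∈ ball (0 : Cn n) 1 := fun t ht => by
      rw [mem_ball_zero_iff, norm_smul, Complex.norm_real, Real.norm_of_nonneg ht.1]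
      nlinarith [ht.1, ht.2, norm_nonneg w]
    have h1 := seg_lip (f := fun t : ℝ => ρ (ψ ((t : ℂ) • w))) (K := 3 * c * r) fun t ht => by
      have h2 := hρ i _ (hψs _ (hseg t ht)) (hψU _ (hseg t ht)) c hc
      rw [hψe _ (hseg t ht)] at h2
      have h3 : Tendsto (fun s : ℝ => T ((s : ℂ) • w)) (𝓝 t) (𝓝 (T ((t : ℂ) • w))) :=
        (hTd _).continuousAt.tendsto.comp
          ((by fun_prop : Continuous fun s : ℝ => (s : ℂ) • w).tendsto t)
      filter_upwards [h3 h2] with s hs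
      refine le_trans hs ?_
      have h4 : T ((s : ℂ) • w) - T ((t : ℂ) • w) = (((s - t) * r : ℝ) : ℂ) • S w := by
        simp only [hT, map_smul]; push_cast; module
      have h5 : nq (G i (T ((t : ℂ) • w))) (T ((s : ℂ) • w) - T ((t : ℂ) • w)) ≤
          (3 / 2 * r * |s - t|) ^ 2 := by
        rw [h4, nq_smul_vec]
        have h6 := (hSq _ (hTb _ (hseg t ht)) w).2
        have h7 : ‖w‖ ^ 2 ≤ 1 := by nlinarith [norm_nonneg w]
        rw [mul_pow (3 / 2 * r), sq_abs, mul_pow, mul_pow]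
        nlinarith [mul_nonneg (sq_nonneg (s - t)) (sq_nonneg r)]
      have h8 : √(nq (G i (T ((t : ℂ) • w))) (T ((s : ℂ) • w) - T ((t : ℂ) • w))) ≤
          3 / 2 * r * |s - t| := Real.sqrt_le_iff.2 ⟨by positivity, h5⟩
      calc _ ≤ (c + c) * (3 / 2 * r * |s - t|) := by gcongr
        _ = _ := by ring
    simpa [hψ0] using h1

/-- quasi-charts of uniformly tiny radius on a compact sublevel set -/
theorem qc_start {G : MF A} {U : Set M} {ρ : M → ℝ} {c σ : ℝ} (hU : IsOpen U) (hG : KahOn G U)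
    (hρ : LipOn G U c ρ) (hc : 0 < c) (hK : IsCompact {y | y ∈ U ∧ ρ y ≤ σ}) :
    ∃ r0 : ℝ, 0 < r0 ∧ ∀ r : ℝ, 0 < r → r ≤ r0 → ∀ y ∈ U, ρ y ≤ σ - 3 * c * r →
      ∃ ψ : Cn n → M, QC G {y | y ∈ U ∧ ρ y ≤ σ} y r (1 / 2) ψ := by
  have h1 : ∃ r0 : ℝ, 0 < r0 ∧ ∀ y ∈ {y | y ∈ U ∧ ρ y ≤ σ}, ∀ r : ℝ, 0 < r → r ≤ r0 →
      ∃ ψ : Cn n → M, QC G U y r (1 / 2) ψ ∧
        ∀ w ∈ ball (0 : Cn n) 1, ρ (ψ w) ≤ ρ y + 3 * c * r := by
    refine hK.induction_on (p := fun s => ∃ r0 : ℝ, 0 < r0 ∧ ∀ y ∈ s, ∀ r : ℝ, 0 < r → r ≤ r0 →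
      ∃ ψ : Cn n → M, QC G U y r (1 / 2) ψ ∧
        ∀ w ∈ ball (0 : Cn n) 1, ρ (ψ w) ≤ ρ y + 3 * c * r) ⟨1, one_pos, by simp⟩ ?_ ?_ ?_
    · rintro s t hst ⟨r0, h0, h⟩
      exact ⟨r0, h0, fun y hy => h y (hst hy)⟩
    · rintro s t ⟨r1, h1, h⟩ ⟨r2, h2, h'⟩
      refine ⟨min r1 r2, lt_min h1 h2, fun y hy r hr hr' => ?_⟩
      rcases hy with hy | hy
      · exact h y hy r hr (hr'.trans (min_le_left _ _))
      · exact h' y hy r hr (hr'.trans (min_le_right _ _))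
    · intro x hx
      obtain ⟨r0, h0, h⟩ := qc_local hU hG hρ hc hx.1
      exact ⟨_, nhdsWithin_le_nhds h, r0, h0, fun y hy => hy⟩
  obtain ⟨r0, h0, h⟩ := h1
  refine ⟨r0, h0, fun r hr hr0 y hy hyσ => ?_⟩
  have : 0 < 3 * c * r := by positivity
  obtain ⟨ψ, h2, h3⟩ := h y ⟨hy, by linarith⟩ r hr hr0
  exact ⟨ψ, QC.mono h2 (fun w hw => ⟨h2.maps hw, by linarith [h3 w hw]⟩) le_rfl⟩

end

end Crest.Agent.T223.Qc35
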