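import Crest.Agent.T223.QcSplit_47
import Crest.Agent.T223.QcIf_47

/-!
# Row 223, quasi-charts (helper47), part 4: one gluing step
-/

set_option autoImplicit false
set_option linter.unusedSectionVars false
set_option linter.unusedVariables false

open Set Filter Topology Metric Complex
open scoped Real

noncomputable section

namespace Crest.Agent.T223.Qc47

open Crest.Agent.R266.SCV Crest.Agent.T223.Qc35

variable {E : Type} [NormedAddCommGroup E] [InnerProductSpace ℂ E] [FiniteDimensional ℂ E]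

section general

variable {M : Type} [TopologicalSpace M] {P : PG E M}

theorem PG.Good.mono {ψ : E → M} {D D' : Set E} {ε ε' : ℝ} (h : P.Good ψ D ε) (hD : D' ⊆ D)
    (hε : ε ≤ ε') : P.Good ψ D' ε' := fun z hz =>
  ⟨(h z (hD hz)).1, fun v => ((h z (hD hz)).2 v).trans
    (mul_le_mul_of_nonneg_right hε (sq_nonneg _))⟩

theorem inj_of_near {T : E →L[ℂ] E} {ν : ℝ} (hT : ‖T - 1‖ ≤ ν) (hν : ν ≤ 1 / 2) (v : E) :
    |‖T v‖ - ‖v‖| ≤ ν * ‖v‖ := by
  have h1 : ‖T v - v‖ ≤ ν * ‖v‖ := by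
    have := (T - 1).le_of_opNorm_le hT v
    simpa using this
  exact (abs_norm_sub_norm_le _ _).trans h1

/-- composition of a flat chart with a map whose derivative is near the identity -/
theorem good_comp {ψ : E → M} {D : Set E} {ε ν : ℝ} (hε : 0 ≤ ε) (h : P.Good ψ D ε) {g : E → E}
    {z : E} (hg : ∀ᶠ w in 𝓝 z, DifferentiableAt ℂ g w) (hz : g z ∈ D)
    (hν : ‖fderiv ℂ g z - 1‖ ≤ ν) (hν2 : ν ≤ 1 / 2) {φ : E → M}
    (hφ : φ =ᶠ[𝓝 z] fun w => ψ (g w)) :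
    P.H φ z ∧ ∀ v, |P.Q φ z v - ‖v‖ ^ 2| ≤ (3 * ε + 3 * ν) * ‖v‖ ^ 2 := by
  have hν0 : 0 ≤ ν := (norm_nonneg _).trans hν
  have hn := inj_of_near hν hν2
  have hinj : Function.Injective (fderiv ℂ g z) := by
    refine (injective_iff_map_eq_zero _).2 fun v hv => ?_
    have := hn v
    rw [hv, norm_zero, zero_sub, abs_neg, abs_norm] at this
    exact norm_eq_zero.1 (by nlinarith [norm_nonneg v])
  obtain ⟨h1, h2⟩ := P.comp (h _ hz).1 hg hinj
  obtain ⟨h3, h4⟩ := P.congr h1 hφ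
  refine ⟨h3, fun v => ?_⟩
  rw [h4, h2]
  have a1 := abs_le.1 ((h _ hz).2 (fderiv ℂ g z v))
  have a2 := abs_le.1 (hn v)
  set A := ‖fderiv ℂ g z v‖
  set b := ‖v‖
  have hb : 0 ≤ b := norm_nonneg _
  have hA : 0 ≤ A := norm_nonneg _
  have hνb : 0 ≤ ν * b := mul_nonneg hν0 hb
  have hνb2 : ν * b ≤ b / 2 := by nlinarith
  have b1 : A ^ 2 ≤ 3 * b ^ 2 := by nlinarith
  have b2 : A ^ 2 - b ^ 2 ≤ 3 * ν * b ^ 2 := by nlinarith
  have b3 : b ^ 2 - A ^ 2 ≤ 3 * ν * b ^ 2 := by nlinarith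
  have b4 : ε * A ^ 2 ≤ 3 * ε * b ^ 2 := by nlinarith
  rw [abs_le]
  constructor <;> nlinarith

theorem Tan.comp {ψ χ φ : E → M} (h : Tan ψ χ) {g : E → E}
    (hg : ∀ᶠ w in 𝓝 0, DifferentiableAt ℂ g w) (g0 : g 0 = 0) (g1 : fderiv ℂ g 0 = 1)
    (hφ : φ =ᶠ[𝓝 0] fun w => ψ (g w)) : Tan φ χ := by
  obtain ⟨τ, t1, t2, t3, t4⟩ := h
  have hc : Tendsto g (𝓝 0) (𝓝 0) := by
    have := hg.self_of_nhds.continuousAt.tendsto
    rwa [g0] at this
  refine ⟨fun w => τ (g w), ?_, by simp [g0, t2], ?_, ?_⟩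
  · filter_upwards [hg, hc.eventually t1] with w h1 h2
    exact h2.comp w h1
  · have h1 : DifferentiableAt ℂ τ (g 0) := by rw [g0]; exact t1.self_of_nhds
    have := fderiv_comp (𝕜 := ℂ) 0 h1 hg.self_of_nhds
    rw [g0, t3, g1] at this
    exact this
  · filter_upwards [hφ, hc.eventually t4] with w h1 h2
    rw [h1, h2]

theorem PG.Ch.mono {D D' : Set E} {ε ε' σ σ' : ℝ} (h : P.Ch D ε σ) (hD : D' ⊆ D) (hε : ε ≤ ε')
    (hσ : σ' ≤ σ) : P.Ch D' ε' σ' := fun χ h1 h2 => by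
  obtain ⟨ψ, a, b⟩ := h χ h1 (h2.trans hσ)
  exact ⟨ψ, a.mono hD hε, b⟩

end general

theorem exists_zero {b : E → E} {κ μ : ℝ} (hκ : 0 < κ) (hμ0 : 0 ≤ μ) (hμ : μ ≤ κ / 2)
    (hb : DifferentiableOn ℂ b (ball 0 (2 * κ))) (hbb : ∀ z ∈ ball (0 : E) (2 * κ), ‖b z‖ ≤ μ) :
    ∃ w : E, ‖w‖ ≤ μ ∧ w + b w = 0 := by
  have : CompleteSpace E := FiniteDimensional.complete ℂ E
  have hsub : closedBall (0 : E) μ ⊆ ball 0 κ := closedBall_subset_ball (by linarith)
  have hsub2 : closedBall (0 : E) μ ⊆ ball 0 (2 * κ) := closedBall_subset_ball (by linarith)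
  have hmaps : MapsTo (fun w => -b w) (closedBall (0 : E) μ) (closedBall 0 μ) := fun w hw => by
    rw [mem_closedBall_zero_iff, norm_neg]
    exact hbb w (hsub2 hw)
  have hc : ContractingWith (1 / 2) (hmaps.restrict (fun w => -b w) _ _) := by
    refine ⟨by norm_num, LipschitzWith.of_dist_le_mul fun x y => ?_⟩
    show dist (-b x) (-b y) ≤ _
    rw [dist_neg_neg, dist_eq_norm, Subtype.dist_eq, dist_eq_norm]
    refine (lip_of_bound hκ hb hbb (hsub x.2) (hsub y.2)).trans ?_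
    refine mul_le_mul_of_nonneg_right ?_ (norm_nonneg _)
    rw [div_le_iff₀ hκ]
    push_cast
    linarith
  obtain ⟨w, hw, hfix, -⟩ := hc.exists_fixedPoint' isClosed_closedBall.isComplete hmaps
    (x := 0) (mem_closedBall_self hμ0) (edist_ne_top _ _)
  refine ⟨w, mem_closedBall_zero_iff.1 hw, ?_⟩
  have : -b w = w := hfix
  rw [add_eq_zero_iff_eq_neg]
  exact this.symm

theorem exists_inv {D : E →L[ℂ] E} {ν : ℝ} (hD : ‖D‖ ≤ ν) (hν : ν ≤ 1 / 2) :
    ∃ T : E →L[ℂ] E, ‖T - 1‖ ≤ 2 * ν ∧ (1 + D).comp T = 1 := by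
  have : CompleteSpace E := FiniteDimensional.complete ℂ E
  have h1 : ‖-D‖ < 1 := by rw [norm_neg]; linarith
  set u := Units.oneSub (-D) h1 with hu
  have hu1 : (u : E →L[ℂ] E) = 1 + D := by simp [hu]
  have h2 : (1 + D) * (↑u⁻¹ : E →L[ℂ] E) = 1 := by rw [← hu1]; exact u.mul_inv
  refine ⟨↑u⁻¹, ?_, h2⟩
  set T : E →L[ℂ] E := ↑u⁻¹
  have h3 : T - 1 = -(D * (T - 1)) - D := by
    have : T = 1 - D * T := by rw [← h2]; noncomm_ring
    calc T - 1 = (1 - D * T) - 1 := by rw [← this]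
      _ = _ := by noncomm_ring
  have h4 : ‖T - 1‖ ≤ ν * ‖T - 1‖ + ν := by
    calc ‖T - 1‖ = ‖-(D * (T - 1)) - D‖ := by rw [← h3]
      _ ≤ ‖-(D * (T - 1))‖ + ‖D‖ := norm_sub_le _ _
      _ ≤ ν * ‖T - 1‖ + ν := by
        rw [norm_neg]
        exact add_le_add ((norm_mul_le _ _).trans
          (mul_le_mul_of_nonneg_right hD (norm_nonneg _))) hD
  nlinarith [norm_nonneg (T - 1), (norm_nonneg D).trans hD]

/-- a direction and a family of shrinking convex cylinders -/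
structure Fam (E : Type) [NormedAddCommGroup E] [InnerProductSpace ℂ E] where
  u : E
  ℓ : E →L[ℂ] ℂ
  W : ℝ → Set E
  one : ℓ u = 1
  nu : ‖u‖ = 1
  nℓ : ∀ v, ‖ℓ v‖ ≤ ‖v‖
  opn : ∀ κ, IsOpen (W κ)
  cvx : ∀ κ, Convex ℝ (W κ)
  inv : ∀ κ, ∀ z ∈ W κ, ∀ ζ : ℂ, z + ζ • u ∈ W κ
  mar : ∀ κ κ' z w, z ∈ W κ' → ‖w - z‖ ≤ κ' - κ → w ∈ W κ

namespace Fam

variable (F : Fam E)

/-- the cylinder with margin `κ` -/
def cyl (κ : ℝ) : Cyl E := ⟨F.u, F.ℓ, F.W κ, F.one, F.opn κ, F.inv κ⟩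

/-- the box with margin `κ` -/
def B (κ xl xr c d : ℝ) : Set E := (F.cyl κ).bx (xl + κ) (xr - κ) (c + κ) (d - κ)

theorem mem_B {κ xl xr c d : ℝ} {z : E} : z ∈ F.B κ xl xr c d ↔ z ∈ F.W κ ∧
    (xl + κ < (F.ℓ z).re ∧ (F.ℓ z).re < xr - κ) ∧ (c + κ < (F.ℓ z).im ∧ (F.ℓ z).im < d - κ) :=
  Iff.rfl

theorem isOpen_B (κ xl xr c d : ℝ) : IsOpen (F.B κ xl xr c d) := Cyl.isOpen_bx _ _ _ _ _

theorem convex_B (κ xl xr c d : ℝ) : Convex ℝ (F.B κ xl xr c d) := by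
  have h1 := (convex_Ioo (xl + κ) (xr - κ)).linear_preimage
    (reLm ∘ₗ (F.ℓ : E →ₗ[ℂ] ℂ).restrictScalars ℝ)
  have h2 := (convex_Ioo (c + κ) (d - κ)).linear_preimage
    (imLm ∘ₗ (F.ℓ : E →ₗ[ℂ] ℂ).restrictScalars ℝ)
  exact (F.cvx κ).inter (h1.inter h2)

theorem re_le (v : E) : |(F.ℓ v).re| ≤ ‖v‖ := (abs_re_le_norm _).trans (F.nℓ v)

theorem im_le (v : E) : |(F.ℓ v).im| ≤ ‖v‖ := (abs_im_le_norm _).trans (F.nℓ v)

variable {F}

theorem B_mar {κ κ' xl xr c d xl' xr' : ℝ} {z w : E} (hz : z ∈ F.B κ' xl' xr' c d)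
    (hw : ‖w - z‖ ≤ κ' - κ) (hl : xl ≤ xl') (hr : xr' ≤ xr) : w ∈ F.B κ xl xr c d := by
  have h1 := abs_le.1 ((F.re_le (w - z)).trans hw)
  have h2 := abs_le.1 ((F.im_le (w - z)).trans hw)
  rw [map_sub, sub_re] at h1
  rw [map_sub, sub_im] at h2
  obtain ⟨a, ⟨b1, b2⟩, c1, c2⟩ := F.mem_B.1 hz
  exact F.mem_B.2 ⟨F.mar κ κ' z w a hw, ⟨by linarith, by linarith⟩, by linarith, by linarith⟩

theorem B_mono {κ κ' xl xr c d xl' xr' : ℝ} (hκ : κ ≤ κ') (hl : xl ≤ xl') (hr : xr' ≤ xr) :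
    F.B κ' xl' xr' c d ⊆ F.B κ xl xr c d := fun z hz =>
  B_mar hz (by simpa using hκ) hl hr

theorem B_shift {κ xl xr c d t : ℝ} {z : E} (hz : z ∈ F.B κ (xl - t) (xr - t) c d) :
    z + (t : ℂ) • F.u ∈ F.B κ xl xr c d := by
  obtain ⟨a, ⟨b1, b2⟩, c1, c2⟩ := F.mem_B.1 hz
  have e : F.ℓ (z + (t : ℂ) • F.u) = F.ℓ z + t := by simp [F.one]
  refine F.mem_B.2 ⟨F.inv κ z a _, ?_⟩
  rw [e, add_re, add_im, ofReal_re, ofReal_im]
  exact ⟨⟨by linarith, by linarith⟩, by linarith, by linarith⟩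

end Fam

/-- `D`-charts give `D'`-charts at depth `N` -/
def Im (D D' : Set E) (N : ℝ) : Prop :=
  ∀ ε' : ℝ, 0 < ε' → ∃ ε : ℝ, 0 < ε ∧
    ∀ (M : Type) [TopologicalSpace M] [T2Space M] (P : PG E M) (σ : ℝ),
      P.Ch D ε σ → P.Ch D' ε' (σ - N * P.L)

theorem Im.of_subset {D D' : Set E} (h : D' ⊆ D) : Im D D' 0 := fun ε' hε' =>
  ⟨ε', hε', fun M _ _ P σ hc => hc.mono h le_rfl (by simp)⟩

theorem Im.trans {D D' D'' : Set E} {N N' : ℝ} (h : Im D D' N) (h' : Im D' D'' N') :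
    Im D D'' (N + N') := fun ε'' hε'' => by
  obtain ⟨ε', hε', h1⟩ := h' ε'' hε''
  obtain ⟨ε, hε, h2⟩ := h ε' hε'
  refine ⟨ε, hε, fun M _ _ P σ hc => ?_⟩
  have := h1 M P _ (h2 M P σ hc)
  exact this.mono subset_rfl le_rfl (le_of_eq (by ring))

/-- **one gluing step**: the box grows to the left by `s / 2` and shrinks by `6 κ` -/
theorem im_step (hP : PolarStmt E) (hL : LiftStmt E) (F : Fam E) {s κ Λ xl xr c d : ℝ}
    (hs : 0 < s) (hκ : 0 < κ) (hκs : 2 * κ ≤ s) (hW : ball 0 s ⊆ F.W (6 * κ))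
    (hl : xl + 6 * κ ≤ -s) (hr : s ≤ xr - 6 * κ) (hc : c + 6 * κ ≤ -s) (hd : s ≤ d - 6 * κ)
    (hΛ : F.B 0 xl xr c d ⊆ ball 0 Λ) :
    Im (F.B 0 xl xr c d) (F.B (6 * κ) (xl - s / 2) xr c d) (s / 2) := by
  intro ε' hε'
  set t : ℝ := s / 2 with ht
  have ht0 : 0 < t := by rw [ht]; linarith
  set R : ℝ := (xr - xl + t) + (d - c) with hR
  have hR0 : 0 ≤ R := by rw [hR]; linarith
  set x0 : ℝ := xl + 4 * κ with hx0
  set x1 : ℝ := xr - t - 4 * κ with hx1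
  have h01 : x0 < x1 := by rw [hx0, hx1]; linarith
  set K : ℝ := 3 * Jc R ^ 2 / (x1 - x0) + 1 with hK
  have hK0 : 0 < K := by
    have : 0 < x1 - x0 := by linarith
    positivity
  have hK1 : 1 ≤ K := by
    have : 0 < x1 - x0 := by linarith
    have : 0 ≤ 3 * Jc R ^ 2 / (x1 - x0) := by positivity
    linarith
  have hball : ball (0 : E) s ⊆ F.B (6 * κ) xl xr c d := by
    intro z hz
    have h0 := mem_ball_zero_iff.1 hz
    have h1 := abs_lt.1 (lt_of_le_of_lt (F.re_le z) h0)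
    have h2 := abs_lt.1 (lt_of_le_of_lt (F.im_le z) h0)
    exact F.mem_B.2 ⟨hW hz, ⟨by linarith, by linarith⟩, by linarith, by linarith⟩
  have hΛ0 : 0 < Λ := by
    have := hΛ (Fam.B_mono (by linarith) le_rfl le_rfl (hball (mem_ball_self hs)))
    simpa using this
  -- the small number `ν = μ / κ`
  obtain ⟨ν, hν0, hν1, hν2, hν3⟩ : ∃ ν : ℝ, 0 < ν ∧ ν ≤ 1 / 4 ∧ 30 * ν ≤ ε' ∧
      ν * (2 * (Λ + t)) ≤ κ / 2 := by
    have hp : 0 < 2 * (Λ + t) := by positivity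
    refine ⟨min (1 / 4) (min (ε' / 30) (κ / 2 / (2 * (Λ + t)))), by positivity, min_le_left _ _,
      ?_, ?_⟩
    · linarith [min_le_right (1 / 4) (min (ε' / 30) (κ / 2 / (2 * (Λ + t)))),
        min_le_left (ε' / 30) (κ / 2 / (2 * (Λ + t)))]
    · rw [← le_div_iff₀ hp]
      exact (min_le_right _ _).trans (min_le_right _ _)
  set δL : ℝ := ν * κ / K with hδL
  have hδL0 : 0 < δL := by positivity
  have hKδ : K * δL = ν * κ := by rw [hδL]; field_simp
  have hνκ : ν * κ ≤ κ / 4 := by nlinarith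
  have hδLκ : δL ≤ κ / 4 := by nlinarith
  obtain ⟨η, hη0, hη⟩ := hL t (Λ + t) δL ht0 hδL0
  refine ⟨min η (min (1 / 2) (ε' / 18)), by positivity, ?_⟩
  set ε : ℝ := min η (min (1 / 2) (ε' / 18)) with hε
  have hε0 : 0 < ε := by positivity
  have hεη : ε ≤ η := min_le_left _ _
  have hε1 : ε ≤ 1 / 2 := (min_le_right _ _).trans (min_le_left _ _)
  have hε2 : ε ≤ ε' / 18 := (min_le_right _ _).trans (min_le_right _ _)
  intro M _ _ P σ hCh χ hχ hχσ
  have hLt : 0 ≤ t * P.L := mul_nonneg ht0.le P.L_nonneg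
  set D0 : Set E := F.B 0 xl xr c d with hD0
  obtain ⟨ψ0, hψ0, hT0⟩ := hCh χ hχ (by linarith)
  set z0 : E := -((t : ℂ) • F.u) with hz0
  have hz0n : ‖z0‖ = t := by
    rw [hz0, norm_neg, norm_smul, F.nu, norm_real, Real.norm_of_nonneg ht0.le, mul_one]
  have hsD0 : ball (0 : E) s ⊆ D0 := hball.trans (Fam.B_mono (by linarith) le_rfl le_rfl)
  have hz0s : z0 ∈ ball (0 : E) s := by rw [mem_ball_zero_iff, hz0n, ht]; linarith
  have hz0D : z0 ∈ D0 := hsD0 hz0s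
  have h00 : ψ0 0 = χ 0 := by
    obtain ⟨τ, -, t2, -, t4⟩ := hT0
    rw [t4.self_of_nhds, t2]
  -- the new seed
  obtain ⟨Bm, hBm⟩ := P.herm (hψ0 z0 hz0D).1
  obtain ⟨S, hS1, hS2⟩ := hP ε Bm hε0.le hε1 fun v => by
    rw [← hBm]; exact (hψ0 z0 hz0D).2 v
  have hSd : ∀ w, HasFDerivAt (fun w => z0 + S w) S w := fun w => S.hasFDerivAt.const_add z0
  have hSinj : Function.Injective S := by
    refine (injective_iff_map_eq_zero _).2 fun v hv => ?_
    have := hS2 v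
    rw [hv, map_zero, norm_zero] at this
    exact norm_eq_zero.1 this.symm
  have hseed : P.Seed fun w => ψ0 (z0 + S w) := by
    have h1 : P.H ψ0 ((fun w => z0 + S w) 0) := by simpa using (hψ0 z0 hz0D).1
    obtain ⟨a1, a2⟩ := P.comp (γ := fun w => z0 + S w) (z := 0) h1
      (Eventually.of_forall fun w => (hSd w).differentiableAt)
      (by rw [(hSd 0).fderiv]; exact hSinj)
    refine ⟨a1, fun v => ?_⟩
    rw [a2, (hSd 0).fderiv, map_zero, add_zero, hBm, hS2]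
  have hρ : P.ρ (ψ0 z0) ≤ σ := by
    have := P.lip (ψ := ψ0) (D := D0) (a := 1) zero_le_one (F.isOpen_B _ _ _ _ _)
      (F.convex_B _ _ _ _ _) (fun z hz => ⟨(hψ0 z hz).1, fun v => by
        have := (abs_le.1 ((hψ0 z hz).2 v)).2
        nlinarith [sq_nonneg ‖v‖]⟩) z0 hz0D 0 (hsD0 (mem_ball_self hs))
    rw [h00, sub_zero, hz0n] at this
    linarith
  obtain ⟨ψp, hψp, τp, tp1, tp2, tp3, tp4⟩ := hCh _ hseed (by simpa using hρ)
  set φ : E → M := fun z => ψp (z - z0) with hφ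
  have hshift : ∀ {k : ℝ} {z : E}, z ∈ F.B k (xl - t) (xr - t) c d → z - z0 ∈ F.B k xl xr c d :=
    fun hz => by rw [hz0, sub_neg_eq_add]; exact Fam.B_shift hz
  have hφG : P.Good φ (F.B 0 (xl - t) (xr - t) c d) ε := by
    intro z hz
    have hd : ∀ w : E, HasFDerivAt (fun w => w - z0) (ContinuousLinearMap.id ℂ E) w :=
      fun w => (hasFDerivAt_id w).sub_const z0
    obtain ⟨a1, a2⟩ := P.comp (γ := fun w => w - z0) (z := z) (hψp _ (hshift hz)).1
      (Eventually.of_forall fun w => (hd w).differentiableAt)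
      (by rw [(hd z).fderiv]; exact fun _ _ h => h)
    refine ⟨a1, fun v => ?_⟩
    rw [a2, (hd z).fderiv]
    exact (hψp _ (hshift hz)).2 v
  -- the transition
  set V : Set E := F.B (2 * κ) xl (xr - t) c d with hV
  have hsub0 : Tendsto (fun y => y - z0) (𝓝 z0) (𝓝 0) := by
    have : Continuous fun y : E => y - z0 := by fun_prop
    simpa using this.tendsto z0
  obtain ⟨γ, hγ, hγ2⟩ := hη M P φ ψ0 V D0 z0 (fun y => z0 + S (τp (y - z0)))
    (F.isOpen_B _ _ _ _ _) (F.convex_B _ _ _ _ _)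
    (fun z hz => by
      have h1 : ‖z - z0‖ < t := by rwa [mem_ball, dist_eq_norm] at hz
      have h2 : z ∈ ball (0 : E) s := by
        rw [mem_ball_zero_iff]
        linarith [norm_le_norm_sub_add z z0]
      have h3 : z - z0 ∈ ball (0 : E) s := by rw [mem_ball_zero_iff]; linarith
      obtain ⟨a, ⟨b1, b2⟩, c1, c2⟩ := F.mem_B.1 (hball h2)
      obtain ⟨-, ⟨-, b3⟩, -⟩ := F.mem_B.1 (hball h3)
      have e : F.ℓ (z - z0) = F.ℓ z + t := by simp [hz0, F.one]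
      rw [e, add_re, ofReal_re] at b3
      exact F.mem_B.2 ⟨F.mar _ _ z z a (by simp; linarith), ⟨by linarith, by linarith⟩,
        by linarith, by linarith⟩)
    (fun z hz => by
      have h1 := mem_ball_zero_iff.1 (hΛ (Fam.B_mono (by linarith) le_rfl (by linarith) hz))
      rw [mem_ball, dist_eq_norm]
      linarith [norm_sub_le z z0])
    (F.isOpen_B _ _ _ _ _)
    (fun z hz w hw => Fam.B_mar hz (by
      rw [mem_closedBall, dist_eq_norm] at hw
      linarith) le_rfl (by linarith))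
    (hφG.mono (Fam.B_mono (by linarith) (by linarith) le_rfl) hεη) (hψ0.mono subset_rfl hεη)
    (by
      filter_upwards [hsub0.eventually tp1] with y hy
      exact (S.differentiableAt.comp y (hy.comp y (differentiableAt_id.sub_const z0))).const_add z0)
    (by simp [tp2])
    (by
      have h1 : HasFDerivAt τp (1 : E →L[ℂ] E) (z0 - z0) := by
        rw [sub_self, ← tp3]; exact tp1.self_of_nhds.hasFDerivAt
      have h0 : HasFDerivAt (fun x : E => x - z0) (ContinuousLinearMap.id ℂ E) z0 :=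
        (hasFDerivAt_id z0).sub_const z0
      have h2 := (S.hasFDerivAt.comp z0 (h1.comp (f := fun x : E => x - z0) z0 h0)).const_add z0
      have h3 : fderiv ℂ (fun y => z0 + S (τp (y - z0))) z0 = S := by
        rw [show (fun y => z0 + S (τp (y - z0))) =
          fun y => z0 + (S ∘ τp ∘ fun x => x - z0) y from rfl, h2.fderiv]
        ext v
        simp
      rw [h3]
      exact hS1.trans hεη)
    (by
      filter_upwards [hsub0.eventually tp4] with y hy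
      exact hy.symm)
  -- the splitting
  obtain ⟨a, b, ha, hb, hab, hbb, hsp⟩ := nl_split (F.cyl (4 * κ)) (xl := xl - t + 4 * κ)
    (x0 := x0) (x1 := x1) (xr := xr - 4 * κ) (c := c + 4 * κ) (d := d - 4 * κ) (R := R) h01
    (by linarith) hR0 (by rw [hR]; linarith) (by rw [hx0]; linarith) (by rw [hx1]; linarith)
    (by rw [hR]; linarith) (k := fun z => γ z - z) (O' := V) (δ := κ) (ε := δL) hκ hδL0.le
    (F.isOpen_B _ _ _ _ _) (hγ.sub differentiableOn_id) (fun z hz => (hγ2 z hz).2)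
    (fun z hz w hw => Fam.B_mar (κ' := 4 * κ) (xl' := xl) (xr' := xr - t) hz (by
      rw [mem_ball, dist_eq_norm] at hw
      linarith) le_rfl le_rfl) (by rw [← hK, hKδ]; linarith)
  rw [← hK, hKδ] at hab hbb
  change DifferentiableOn ℂ a (F.B (4 * κ) (xl - t) (xr - t) c d) at ha
  change DifferentiableOn ℂ b (F.B (4 * κ) xl xr c d) at hb
  change ∀ z ∈ F.B (4 * κ) (xl - t) (xr - t) c d, _ at hab
  change ∀ z ∈ F.B (4 * κ) xl xr c d, _ at hbb
  change ∀ z ∈ F.B (4 * κ) xl (xr - t) c d, _ at hsp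
  classical
  set ψ1 : E → M := fun z => if (F.ℓ z).re < x1 then φ (z + a z) else ψ0 (z + b z) with hψ1
  have hleft : ∀ z ∈ F.B (4 * κ) (xl - t) (xr - t) c d, ψ1 z = φ (z + a z) := fun z hz =>
    if_pos (F.mem_B.1 hz).2.1.2
  have hright : ∀ z ∈ F.B (4 * κ) xl xr c d, ψ1 z = ψ0 (z + b z) := by
    intro z hz
    by_cases hx : (F.ℓ z).re < x1
    · have hzO : z ∈ F.B (4 * κ) xl (xr - t) c d :=
        F.mem_B.2 ⟨(F.mem_B.1 hz).1, ⟨(F.mem_B.1 hz).2.1.1, hx⟩, (F.mem_B.1 hz).2.2⟩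
      have hzV : z + a z ∈ V := Fam.B_mar hzO (by
        rw [add_sub_cancel_left]
        linarith [hab z (Fam.B_mono le_rfl (by linarith) le_rfl hzO)]) le_rfl le_rfl
      have h1 := hsp z hzO
      simp only [add_sub_cancel] at h1
      simp only [hψ1, if_pos hx]
      rw [← (hγ2 _ hzV).1, h1]
    · exact if_neg hx
  have hpiece : ∀ {ψ : E → M} {e : E → E} {yl yr : ℝ}, P.Good ψ (F.B 0 yl yr c d) ε →
      DifferentiableOn ℂ e (F.B (4 * κ) yl yr c d) →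
      (∀ z ∈ F.B (4 * κ) yl yr c d, ‖e z‖ ≤ ν * κ) →
      (∀ z ∈ F.B (4 * κ) yl yr c d, ψ1 z = ψ (z + e z)) →
      ∀ z ∈ F.B (5 * κ) yl yr c d, ‖fderiv ℂ e z‖ ≤ ν ∧
        P.H ψ1 z ∧ ∀ v, |P.Q ψ1 z v - ‖v‖ ^ 2| ≤ (3 * ε + 3 * ν) * ‖v‖ ^ 2 := by
    intro ψ e yl yr hψ he heb hψe z hz
    have hbz : ball z κ ⊆ F.B (4 * κ) yl yr c d := fun w hw => Fam.B_mar hz (by
      rw [mem_ball, dist_eq_norm] at hw
      linarith) le_rfl le_rfl
    have hn : F.B (4 * κ) yl yr c d ∈ 𝓝 z := mem_of_superset (ball_mem_nhds z hκ) hbz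
    have hz4 := hbz (mem_ball_self hκ)
    have hD : ‖fderiv ℂ e z‖ ≤ ν := by
      have := norm_fderiv_le_of_ball hκ (he.mono hbz) fun w hw => heb w (hbz hw)
      rwa [mul_div_cancel_right₀ _ hκ.ne'] at this
    refine ⟨hD, good_comp hε0.le hψ (g := fun w => w + e w) ?_ ?_ ?_ (by linarith) ?_⟩
    · filter_upwards [(F.isOpen_B _ _ _ _ _).eventually_mem hz4] with w hw
      exact differentiableAt_id.add (he.differentiableAt ((F.isOpen_B _ _ _ _ _).mem_nhds hw))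
    · exact Fam.B_mar hz4 (by rw [add_sub_cancel_left]; linarith [heb z hz4]) le_rfl le_rfl
    · have h1 := ((hasFDerivAt_id z).add (he.differentiableAt hn).hasFDerivAt).fderiv
      rw [show (fun w => w + e w) = id + e from rfl, h1]
      refine le_trans (le_of_eq ?_) hD
      congr 1
      ext v
      simp
    · filter_upwards [hn] with w hw
      exact hψe w hw
  have hG1 : P.Good ψ1 (F.B (5 * κ) (xl - t) xr c d) (3 * ε + 3 * ν) := by
    intro z hz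
    obtain ⟨a1, ⟨b1, b2⟩, c1⟩ := F.mem_B.1 hz
    by_cases hx : (F.ℓ z).re < xr - t - 5 * κ
    · exact (hpiece hφG ha hab hleft z (F.mem_B.2 ⟨a1, ⟨b1, hx⟩, c1⟩)).2
    · exact (hpiece hψ0 hb hbb hright z (F.mem_B.2 ⟨a1, ⟨by linarith [not_lt.1 hx], b2⟩, c1⟩)).2
  -- normalisation
  have hs4 : ball (0 : E) (2 * κ) ⊆ F.B (5 * κ) xl xr c d :=
    (ball_subset_ball hκs).trans (hball.trans (Fam.B_mono (by linarith) le_rfl le_rfl))
  have hs5 : ball (0 : E) (2 * κ) ⊆ F.B (4 * κ) xl xr c d :=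
    hs4.trans (Fam.B_mono (by linarith) le_rfl le_rfl)
  obtain ⟨w, hw1, hw2⟩ := exists_zero (b := b) (μ := ν * κ) hκ (by positivity) (by linarith)
    (hb.mono hs5) fun z hz => hbb z (hs5 hz)
  have hwb : w ∈ ball (0 : E) (2 * κ) := by rw [mem_ball_zero_iff]; linarith
  obtain ⟨T, hT1, hT2⟩ := exists_inv (hpiece hψ0 hb hbb hright w (hs4 hwb)).1 (by linarith)
  have hTd : ∀ z, HasFDerivAt (fun z => w + T z) T z := fun z => T.hasFDerivAt.const_add w
  refine ⟨fun z => ψ1 (w + T z), fun z hz => ?_, ?_⟩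
  · have hzn : ‖z‖ ≤ Λ + t := by
      obtain ⟨a1, ⟨b1, b2⟩, c1⟩ := F.mem_B.1 hz
      by_cases hx : (F.ℓ z).re < xr - t - 6 * κ
      · have h1 := mem_ball_zero_iff.1 (hΛ (Fam.B_mono (by linarith) le_rfl le_rfl
          (hshift (F.mem_B.2 ⟨a1, ⟨b1, hx⟩, c1⟩))))
        linarith [norm_le_norm_sub_add z z0]
      · have h1 := mem_ball_zero_iff.1 (hΛ (Fam.B_mono (κ' := 6 * κ) (by linarith) le_rfl le_rfl
          (F.mem_B.2 ⟨a1, ⟨by linarith [not_lt.1 hx], b2⟩, c1⟩)))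
        linarith
    have hmem : w + T z ∈ F.B (5 * κ) (xl - t) xr c d := by
      refine Fam.B_mar hz ?_ le_rfl le_rfl
      have h1 : ‖T z - z‖ ≤ 2 * ν * ‖z‖ := by
        simpa using (T - 1).le_of_opNorm_le hT1 z
      have h2 : 2 * ν * ‖z‖ ≤ 2 * ν * (Λ + t) := by gcongr
      rw [add_sub_assoc]
      linarith [norm_add_le w (T z - z)]
    obtain ⟨a1, a2⟩ := good_comp (by positivity) hG1 (g := fun z => w + T z) (z := z) (ν := 2 * ν)
      (Eventually.of_forall fun y => (hTd y).differentiableAt) hmem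
      (by rw [(hTd z).fderiv]; exact hT1) (by linarith) EventuallyEq.rfl
    refine ⟨a1, fun v => (a2 v).trans ?_⟩
    exact mul_le_mul_of_nonneg_right (by linarith) (sq_nonneg _)
  · have hcw : Tendsto (fun z => w + T z) (𝓝 0) (𝓝 w) := by
      simpa using (hTd 0).continuousAt.tendsto
    have hnw : ∀ᶠ z in 𝓝 (0 : E), w + T z ∈ F.B (4 * κ) xl xr c d :=
      hcw.eventually ((F.isOpen_B _ _ _ _ _).eventually_mem (hs5 hwb))
    refine hT0.comp (g := fun z => (w + T z) + b (w + T z)) ?_ (by simpa using hw2) ?_ ?_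
    · filter_upwards [hnw] with z hz
      exact (hTd z).differentiableAt.add ((hb.differentiableAt
        ((F.isOpen_B _ _ _ _ _).mem_nhds hz)).comp z (hTd z).differentiableAt)
    · have h1 : HasFDerivAt b (fderiv ℂ b w) (w + T 0) := by
        rw [map_zero, add_zero]
        exact (hb.differentiableAt ((F.isOpen_B _ _ _ _ _).mem_nhds (hs5 hwb))).hasFDerivAt
      have h2 := ((hTd 0).add (h1.comp 0 (hTd 0))).fderiv
      rw [show (fun z => (w + T z) + b (w + T z)) =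
        (fun z => w + T z) + b ∘ fun z => w + T z from rfl, h2, ← hT2]
      ext v
      simp
    · filter_upwards [hnw] with z hz
      exact hright _ hz

end Crest.Agent.T223.Qc47
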