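import Crest.Agent.T223.QcImpC_48
import Crest.Agent.T223.QcIf_47
import Crest.Agent.T223.FrA_38

/-!
# Row 223, module QC / WRAPPER (helper48): the pseudogroup data of a local Kaehler metric

* `HI A U ψ z` : `ψ` is a holomorphic immersion into `U` near `z`
* `pull_eq_pbk`, `rel_pull`, `pull_comp`, `lip_seg`, `lip_pull`
* `pgOf` : the instance of `Qc47.PG`
-/

set_option autoImplicit false
set_option linter.unusedSectionVars false
set_option linter.unusedVariables false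

open Set Filter Topology Metric
open scoped ContDiff InnerProductSpace ComplexConjugate Matrix ComplexOrder

namespace Crest.Agent.T223.Qc48

open Crest.Agent.R275.Geo Crest.Agent.R275.EDR890 Crest.Agent.T223.Br Crest.Agent.T223.Tr
open Crest.Agent.T223.Qc47

noncomputable section

variable {n : ℕ} {M : Type} [TopologicalSpace M] {A : Atl n M}

/-- `ψ` is a holomorphic immersion with values in `U` near `z` -/
def HI (A : Atl n M) (U : Set M) (ψ : Cn n → M) (z : Cn n) : Prop :=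
  ∃ W, IsOpen W ∧ z ∈ W ∧ Imm A ψ W ∧ MapsTo ψ W U

variable {U : Set M} {G : MF A} {ψ : Cn n → M} {z : Cn n}

theorem HI.ev (h : HI A U ψ z) : ∀ᶠ w in 𝓝 z, HI A U ψ w := by
  obtain ⟨W, h1, h2, h3, h4⟩ := h
  filter_upwards [h1.mem_nhds h2] with w hw using ⟨W, h1, hw, h3, h4⟩

theorem HI.cont (h : HI A U ψ z) : ContinuousAt ψ z := by
  obtain ⟨W, h1, h2, h3, h4⟩ := h
  exact (h3.1 z h2).1

theorem HI.mem (h : HI A U ψ z) : ψ z ∈ U := by
  obtain ⟨W, h1, h2, h3, h4⟩ := h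
  exact h4 h2

theorem HI.diff (h : HI A U ψ z) {i : A.ι} (hi : ψ z ∈ (A.e i).source) :
    DifferentiableAt ℂ (rd A i ψ) z := by
  obtain ⟨W, h1, h2, h3, h4⟩ := h
  exact (h3.1 z h2).2 i hi

theorem HI.inj (h : HI A U ψ z) {i : A.ι} (hi : ψ z ∈ (A.e i).source) :
    Function.Injective (fderiv ℂ (rd A i ψ) z) := by
  obtain ⟨W, h1, h2, h3, h4⟩ := h
  exact h3.2 z h2 i hi

theorem HI.src (h : HI A U ψ z) {i : A.ι} (hi : ψ z ∈ (A.e i).source) :
    ∀ᶠ w in 𝓝 z, ψ w ∈ (A.e i).source := h.cont ((A.e i).open_source.mem_nhds hi)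

theorem HI.holAt (h : HI A U ψ z) {i : A.ι} (hi : ψ z ∈ (A.e i).source) :
    HolAt (rd A i ψ) z := by
  filter_upwards [h.ev, h.src hi] with w hw hw' using hw.diff hw'

theorem imm_of_HI {D : Set (Cn n)} (h : ∀ z ∈ D, HI A U ψ z) : Imm A ψ D :=
  ⟨fun z hz => ⟨(h z hz).cont, fun _ hi => (h z hz).diff hi⟩, fun z hz _ hi => (h z hz).inj hi⟩

theorem HI.of_ev (h : ∀ᶠ w in 𝓝 z, ψ w ∈ U ∧ ContinuousAt ψ w ∧ ∀ i, ψ w ∈ (A.e i).source →
    DifferentiableAt ℂ (rd A i ψ) w ∧ Function.Injective (fderiv ℂ (rd A i ψ) w)) :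
    HI A U ψ z := by
  obtain ⟨W, hW, hWo, hz⟩ := _root_.eventually_nhds_iff.1 h
  exact ⟨W, hWo, hz, ⟨fun w hw => ⟨(hW w hw).2.1, fun i hi => ((hW w hw).2.2 i hi).1⟩,
    fun w hw i hi => ((hW w hw).2.2 i hi).2⟩, fun w hw => (hW w hw).1⟩

theorem pull_eq_pbk (hG : TrOn G U) (h : HI A U ψ z) {i : A.ι} (hi : ψ z ∈ (A.e i).source) :
    pull G ψ z = pbk (rd A i ψ) (G i) z := by
  have hj := (A.cover (ψ z)).choose_spec
  unfold pull pbF pbk
  rw [(rd_trans h.cont hi hj (h.diff hi)).2]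
  have h1 : G i (rd A i ψ z) = _ := hG i _ (ψ z) ⟨hi, hj⟩ h.mem
  rw [h1, Matrix.transpose_mul, Matrix.map_mul]
  simp only [Matrix.mul_assoc]

theorem rel_pull (hG : KahOn G U) (h : HI A U ψ z) {i : A.ι} (hi : ψ z ∈ (A.e i).source) :
    Rel (rd A i ψ) z (pull G ψ) (G i) := by
  refine ⟨h.holAt hi, ?_, hG.kah i _ hi h.mem, ?_⟩
  · rw [jac_eq, det_mat, det_ne_zero_iff]
    exact h.inj hi
  · filter_upwards [h.ev, h.src hi] with w hw hw' using pull_eq_pbk hG.tr hw hw'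

theorem kahAt_pull (hG : KahOn G U) (h : HI A U ψ z) : KahAt (pull G ψ) z :=
  (rel_pull hG h (A.cover (ψ z)).choose_spec).kahAt

theorem HI.congr (h : HI A U ψ z) {ψ' : Cn n → M} (e : ψ' =ᶠ[𝓝 z] ψ) : HI A U ψ' z := by
  refine HI.of_ev ?_
  filter_upwards [h.ev, e.eventuallyEq_nhds] with w hw he
  have h0 : ψ' w = ψ w := he.self_of_nhds
  refine ⟨h0 ▸ hw.mem, hw.cont.congr he.symm, fun i hi => ?_⟩
  have he' : rd A i ψ' =ᶠ[𝓝 w] rd A i ψ := he.mono fun y hy => by simp only [rd, hy]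
  rw [h0] at hi
  exact ⟨(hw.diff hi).congr_of_eventuallyEq he', by rw [he'.fderiv_eq]; exact hw.inj hi⟩

theorem pull_congr {ψ' : Cn n → M} (e : ψ' =ᶠ[𝓝 z] ψ) : pull G ψ' z = pull G ψ z := by
  have h0 : ψ' z = ψ z := e.self_of_nhds
  have he' : ∀ i, rd A i ψ' =ᶠ[𝓝 z] rd A i ψ := fun i => e.mono fun y hy => by simp only [rd, hy]
  unfold pull pbF
  simp only [h0, jac_eq, (he' _).fderiv_eq]

theorem HI.comp {γ : Cn n → Cn n} (h : HI A U ψ (γ z)) (hγ : HolAt γ z)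
    (hi : Function.Injective (fderiv ℂ γ z)) : HI A U (fun w => ψ (γ w)) z := by
  have hdet : (jac γ z).det ≠ 0 := by rwa [jac_eq, det_mat, det_ne_zero_iff]
  refine HI.of_ev ?_
  filter_upwards [hγ.tendsto.eventually h.ev, hγ, hγ.det_ne hdet] with w hw hd hdet'
  refine ⟨hw.mem, hw.cont.comp hd.continuousAt, fun i hi' => ?_⟩
  have h1 : rd A i (fun w => ψ (γ w)) = rd A i ψ ∘ γ := rfl
  rw [h1]
  refine ⟨(hw.diff hi').comp w hd, ?_⟩
  rw [fderiv_comp w (hw.diff hi') hd]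
  rw [jac_eq, det_mat, det_ne_zero_iff] at hdet'
  exact (hw.inj hi').comp hdet'

theorem nq_pull_comp {γ : Cn n → Cn n} (h : HI A U ψ (γ z)) (hγ : DifferentiableAt ℂ γ z)
    (v : Cn n) :
    nq (pull G (fun w => ψ (γ w)) z) v = nq (pull G ψ (γ z)) (fderiv ℂ γ z v) := by
  have hj := (A.cover (ψ (γ z))).choose_spec
  unfold pull pbF
  have h1 : ∀ i, rd A i (fun w => ψ (γ w)) = rd A i ψ ∘ γ := fun i => rfl
  rw [jac_eq, jac_eq, nq_pull, nq_pull, h1, fderiv_comp z (h.diff hj) hγ]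
  rfl

theorem HI.trans {φ : Cn n → M} {w : Cn n} (h : HI A U ψ z) (h' : HI A U φ w) (e : ψ z = φ w) :
    ∃ τ : Cn n → Cn n, (∀ᶠ y in 𝓝 z, DifferentiableAt ℂ τ y) ∧ τ z = w ∧
      Function.Injective (fderiv ℂ τ z) ∧ ∀ᶠ y in 𝓝 z, φ (τ y) = ψ y := by
  obtain ⟨W, hWo, hw, hφ, hm⟩ := h'
  obtain ⟨q, hq, hqe⟩ := hφ.isLocalHomeomorphOn hWo w hw
  have hqf : ∀ y, q y = φ y := fun y => by rw [hqe]
  have htar : ψ z ∈ q.target := by rw [e, ← hqf]; exact q.map_source hq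
  set τ : Cn n → Cn n := fun y => q.symm (ψ y) with hτ
  have hτz : τ z = w := by
    simp only [hτ]
    rw [e, ← hqf, q.left_inv hq]
  have h1 : ∀ᶠ y in 𝓝 z, ψ y ∈ q.target := h.cont (q.open_target.mem_nhds htar)
  have h2 : ∀ᶠ y in 𝓝 z, φ (τ y) = ψ y := by
    filter_upwards [h1] with y hy
    rw [← hqf]
    exact q.right_inv hy
  have h3 : ∀ᶠ y in 𝓝 z, ContinuousAt τ y := by
    filter_upwards [h1, h.ev] with y hy hy'
    exact (q.continuousAt_symm hy).comp hy'.cont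
  have h4 : ∀ᶠ y in 𝓝 z, τ y ∈ W := h3.self_of_nhds (by rw [hτz]; exact hWo.mem_nhds hw)
  have h5 : ∀ᶠ y in 𝓝 z, DifferentiableAt ℂ τ y ∧ Function.Injective (fderiv ℂ τ y) := by
    filter_upwards [h2.eventually_nhds, h3, h4, h.ev] with y k2 k3 k4 k5
    obtain ⟨i, hi⟩ := A.cover (ψ y)
    obtain ⟨d1, d2⟩ := lift_differentiableAt hφ hWo k3 k4 k2 hi (k5.diff hi)
    refine ⟨d1, fun v v' hv => k5.inj hi ?_⟩
    rw [← d2, ← d2, hv]
  exact ⟨τ, h5.mono fun y hy => hy.1, hτz, h5.self_of_nhds.2, h2⟩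

theorem HI.injOn (h : HI A U ψ z) : ∃ s ∈ 𝓝 z, InjOn ψ s := by
  obtain ⟨W, hWo, hw, hφ, hm⟩ := h
  obtain ⟨q, hq, hqe⟩ := hφ.isLocalHomeomorphOn hWo z hw
  refine ⟨q.source, q.open_source.mem_nhds hq, ?_⟩
  rw [hqe]
  exact q.injOn

theorem exists_sqrt {g : Mat n} (hg : g.PosSemidef) :
    ∃ B : Cn n →L[ℂ] Cn n, ∀ v, nq g v = ‖B v‖ ^ 2 := by
  obtain ⟨C, hC⟩ : ∃ C : Mat n, g = Cᴴ * C := by
    open scoped MatrixOrder in
    exact CStarAlgebra.nonneg_iff_eq_star_mul_self.1 hg.nonneg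
  refine ⟨star (opT C), fun v => ?_⟩
  rw [← re_inner_opT, hC, opT_mul, opT_star, mul_apply_eq_comp,
    ← ContinuousLinearMap.adjoint_inner_left, ← ContinuousLinearMap.star_eq_adjoint,
    inner_self_eq_norm_sq_to_K]
  norm_cast

theorem eq_of_nq {g h : Mat n} (hg : g.IsHermitian) (hh : h.IsHermitian)
    (e : ∀ v, nq g v = nq h v) : g = h := by
  have h1 : (g - h).PosSemidef :=
    posSemidef_of_nq (hg.sub hh) fun v => by rw [nq_sub, e, sub_self]
  have h2 : (h - g).PosSemidef :=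
    posSemidef_of_nq (hh.sub hg) fun v => by rw [nq_sub, e, sub_self]
  have h3 : ∀ x, (g - h) *ᵥ x = 0 := by
    intro x
    rw [← h1.dotProduct_mulVec_zero_iff]
    refine le_antisymm ?_ (h1.dotProduct_mulVec_nonneg x)
    have := h2.dotProduct_mulVec_nonneg x
    rw [← neg_sub, Matrix.neg_mulVec, dotProduct_neg] at this
    exact neg_nonneg.1 this
  refine sub_eq_zero.1 ?_
  ext a b
  have := congrFun (h3 (Pi.single b 1)) a
  simpa using this

/-- pointwise Lipschitz bounds integrate along segments -/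
theorem lip_seg {f : Cn n → ℝ} {D : Set (Cn n)} (hD : Convex ℝ D) {K : ℝ}
    (h : ∀ y ∈ D, ∀ η : ℝ, 0 < η → ∀ᶠ y' in 𝓝 y, |f y' - f y| ≤ (K + η) * ‖y' - y‖)
    {z w : Cn n} (hz : z ∈ D) (hw : w ∈ D) : f z ≤ f w + K * ‖z - w‖ := by
  set γ : ℝ → Cn n := fun t => w + t • (z - w) with hγ
  have hγc : Continuous γ := by fun_prop
  have hγD : ∀ t ∈ Icc (0 : ℝ) 1, γ t ∈ D := fun t ht => hD.add_smul_sub_mem hw hz ht
  have hγs : ∀ s t : ℝ, ‖γ s - γ t‖ = |s - t| * ‖z - w‖ := by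
    intro s t
    have : γ s - γ t = (s - t) • (z - w) := by simp only [hγ, sub_smul]; abel
    rw [this, norm_smul, Real.norm_eq_abs]
  have hfc : ∀ y ∈ D, ContinuousAt f y := by
    intro y hy
    rw [ContinuousAt, tendsto_iff_norm_sub_tendsto_zero]
    have h1 : Tendsto (fun y' => (K + 1) * ‖y' - y‖) (𝓝 y) (𝓝 ((K + 1) * ‖y - y‖)) :=
      (by fun_prop : Continuous fun y' : Cn n => (K + 1) * ‖y' - y‖).tendsto y
    rw [sub_self, norm_zero, mul_zero] at h1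
    exact squeeze_zero' (Eventually.of_forall fun _ => norm_nonneg _) (h y hy 1 one_pos) h1
  have key := image_le_of_liminf_slope_right_le_deriv_boundary (f := fun t => f (γ t)) (a := 0)
    (b := 1) (fun t ht => ((hfc _ (hγD t ht)).comp hγc.continuousAt).continuousWithinAt)
    (B := fun t => f w + K * ‖z - w‖ * t) (B' := fun _ => K * ‖z - w‖) (by simp [hγ])
    (by fun_prop) (fun t _ => by
      simpa using (((hasDerivAt_id t).const_mul (K * ‖z - w‖)).const_add (f w)).hasDerivWithinAt)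
    (fun t ht ρ hρ => by
      set η : ℝ := (ρ - K * ‖z - w‖) / (‖z - w‖ + 1) with hη
      have hη0 : 0 < η := div_pos (by linarith) (by positivity)
      have hη1 : η * ‖z - w‖ < ρ - K * ‖z - w‖ := by
        rw [hη, div_mul_eq_mul_div, div_lt_iff₀ (by positivity)]
        nlinarith
      have h1 := (hγc.tendsto t).eventually (h _ (hγD t ⟨ht.1, ht.2.le⟩) η hη0)
      refine Eventually.frequently ?_
      filter_upwards [nhdsWithin_le_nhds h1, self_mem_nhdsWithin] with s hs hst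
      have hst' : 0 < s - t := sub_pos.2 hst
      rw [slope_def_field, div_lt_iff₀ hst']
      rw [hγs, abs_of_pos hst'] at hs
      have := (abs_le.1 hs).2
      nlinarith) (x := 1) ⟨zero_le_one, le_rfl⟩
  simpa [hγ] using key

/-- an infinitesimally Lipschitz function read through a holomorphic immersion -/
theorem lip_pull (hG : KahOn G U) {c : ℝ} (hc : 0 ≤ c) {ρ : M → ℝ} (hρ : LipOn G U c ρ)
    (h : HI A U ψ z) {b : ℝ} (hb : 0 ≤ b) (hq : ∀ v, nq (pull G ψ z) v ≤ b ^ 2 * ‖v‖ ^ 2)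
    {η : ℝ} (hη : 0 < η) :
    ∀ᶠ y in 𝓝 z, |ρ (ψ y) - ρ (ψ z)| ≤ (c * b + η) * ‖y - z‖ := by
  obtain ⟨i, hi⟩ := A.cover (ψ z)
  have hR := rel_pull hG h hi
  obtain ⟨B, hB⟩ := exists_sqrt hR.kah.posDef.posSemidef
  set T := rd A i ψ with hT
  have hTd : HasFDerivAt T (fderiv ℂ T z) z := hR.hol.diff.hasFDerivAt
  have hBL : ∀ v, ‖B (fderiv ℂ T z v)‖ ≤ b * ‖v‖ := by
    intro v
    have h1 := hq v
    rw [hR.nq, hB, ← mul_pow] at h1
    exact (pow_le_pow_iff_left₀ (norm_nonneg _) (by positivity) two_ne_zero).1 h1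
  obtain ⟨ε, hε, hε1⟩ : ∃ ε : ℝ, 0 < ε ∧ (c + ε) * (b + ‖B‖ * ε) ≤ c * b + η := by
    have h1 : Tendsto (fun ε : ℝ => (c + ε) * (b + ‖B‖ * ε)) (𝓝[>] 0)
        (𝓝 ((c + 0) * (b + ‖B‖ * 0))) :=
      ((by fun_prop : Continuous fun ε : ℝ => (c + ε) * (b + ‖B‖ * ε)).tendsto 0).mono_left
        nhdsWithin_le_nhds
    have h2 : ∀ᶠ ε : ℝ in 𝓝[>] 0, (c + ε) * (b + ‖B‖ * ε) ≤ c * b + η :=
      h1.eventually (Iic_mem_nhds (by simp [hη]))
    obtain ⟨ε, k1, k2⟩ := (h2.and self_mem_nhdsWithin).exists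
    exact ⟨ε, k2, k1⟩
  have h1 := hTd.continuousAt.tendsto.eventually (hρ i _ hi h.mem ε hε)
  have h2 := hTd.isLittleO.bound hε
  filter_upwards [h1, h2, h.src hi] with y k1 k2 k3
  have e1 : inC A i ρ (T y) = ρ (ψ y) := by
    simp only [inC, hT, rd, (A.e i).left_inv k3]
  have e2 : nq (G i (A.e i (ψ z))) (T y - A.e i (ψ z)) = ‖B (T y - T z)‖ ^ 2 := hB _
  rw [e1, e2, Real.sqrt_sq (norm_nonneg _)] at k1
  have h3 : ‖B (T y - T z)‖ ≤ (b + ‖B‖ * ε) * ‖y - z‖ := by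
    have e3 : B (T y - T z) = B (fderiv ℂ T z (y - z)) + B (T y - T z - fderiv ℂ T z (y - z)) := by
      rw [← map_add]; congr 1; abel
    rw [e3]
    refine (norm_add_le _ _).trans ?_
    have h4 := hBL (y - z)
    have h5 := (B.le_opNorm (T y - T z - fderiv ℂ T z (y - z))).trans
      (mul_le_mul_of_nonneg_left k2 B.opNorm_nonneg)
    linarith
  calc _ ≤ _ := k1
    _ ≤ (c + ε) * ((b + ‖B‖ * ε) * ‖y - z‖) := by gcongr
    _ = (c + ε) * (b + ‖B‖ * ε) * ‖y - z‖ := by ring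
    _ ≤ _ := by gcongr

/-- the pseudogroup data of `(G / r², ρ)` on `U` -/
def pgOf (hG : KahOn G U) {c r : ℝ} (hc : 0 < c) (hr : 0 < r) {ρ : M → ℝ} (hρ : LipOn G U c ρ) :
    PG (Cn n) M where
  H := HI A U
  Q := fun ψ z v => nq (pull G ψ z) v / r ^ 2
  ρ := ρ
  L := 2 * c * r
  L_nonneg := by positivity
  ev := HI.ev
  cont := HI.cont
  congr := fun h e => ⟨h.congr e, by funext v; rw [pull_congr e]⟩
  comp := fun h hγ hi => ⟨h.comp hγ hi, fun v => by rw [nq_pull_comp h hγ.self_of_nhds]⟩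
  trans := HI.trans
  inj := HI.injOn
  herm := fun h => by
    obtain ⟨B, hB⟩ := exists_sqrt (kahAt_pull hG h).posDef.posSemidef
    refine ⟨((r⁻¹ : ℝ) : ℂ) • B, fun v => ?_⟩
    rw [hB, _root_.smul_apply, norm_smul, Complex.norm_real,
      Real.norm_of_nonneg (inv_nonneg.2 hr.le)]
    field_simp
  lip := fun {ψ D a} ha hD hcv h z hz w hw => by
    have h1 := lip_seg (f := fun y => ρ (ψ y)) (K := c * (2 * a * r)) hcv (fun y hy η hη =>
      lip_pull hG hc.le hρ (h y hy).1 (by positivity) (fun v => by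
        have h2 := (h y hy).2 v
        rw [div_le_iff₀ (by positivity)] at h2
        have : 0 ≤ a ^ 2 * r ^ 2 * ‖v‖ ^ 2 := by positivity
        nlinarith) hη) hz hw
    calc _ ≤ _ := h1
      _ = _ := by ring

end

end Crest.Agent.T223.Qc48
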