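import Crest.Agent.T223.U0Def_15

/-!
# Row 223 (helper61): countable sub-atlases with a partition of unity

`sub A f hf` : the atlas of the charts `A.e (f k)`; `exists_sub` : a countable one with a `Part`;
`subK`, `subL` : restriction of Kaehler metrics and line bundles; `extS` : extension of sections.
-/

set_option autoImplicit false
set_option linter.unusedSectionVars false
set_option linter.style.haveILetI false

open Set Filter Topology Complex
open scoped ContDiff Matrix ComplexConjugate ComplexOrder Manifold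

namespace Crest.Agent.T223.Ref

open Crest.Agent.R275.Geo Crest.Agent.R275.Core144
open Crest.Agent.R273.Defs_333 Crest.Agent.R273.Kah_333 Crest.Agent.R273.Vol_333
open Crest.Agent.R273.RMan_798 Crest.Agent.R273.RMan4_798
open Crest.Agent.T223.Br Crest.Agent.T223.U0

noncomputable section

variable {n : ℕ} {M : Type} [TopologicalSpace M] {A : Atl n M}

/-! ### the real manifold of an atlas -/

/-- the charted space of an atlas -/
@[reducible] def chs (A : Atl n M) : ChartedSpace (Cn n) M where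
  atlas := range A.e
  chartAt x := A.e (A.cover x).choose
  mem_chart_source x := (A.cover x).choose_spec
  chart_mem_atlas _ := ⟨_, rfl⟩

theorem contDiffOn_tr (A : Atl n M) (i j : A.ι) :
    ContDiffOn ℝ ∞ (fun w => A.e j ((A.e i).symm w)) (A.ov i j) :=
  ((Crest.Agent.R266.SCV.contDiffOn_omega_of_differentiableOn (isOpen_ov i j)
    (A.holo i j)).restrict_scalars ℝ).of_le le_top

theorem mfd (A : Atl n M) : letI := chs A; IsManifold 𝓘(ℝ, Cn n) ∞ M := by
  letI := chs A
  refine isManifold_of_contDiffOn 𝓘(ℝ, Cn n) ∞ M ?_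
  rintro e e' ⟨i, rfl⟩ ⟨j, rfl⟩
  refine ((contDiffOn_tr A i j).congr fun y hy => rfl).mono ?_
  rintro y ⟨hy, -⟩
  have h1 : y ∈ (A.e i).target ∧ (A.e i).symm y ∈ (A.e j).source := by
    simpa [OpenPartialHomeomorph.trans_source] using hy
  exact h1

theorem sm_of_contMDiff {W : Type*} [NormedAddCommGroup W] [NormedSpace ℝ W] {f : M → W}
    (hf : letI := chs A; ContMDiff 𝓘(ℝ, Cn n) 𝓘(ℝ, W) ∞ f) : A.Sm f := by
  letI := chs A
  haveI := mfd A
  intro i
  have h1 : ContMDiffOn 𝓘(ℝ, Cn n) 𝓘(ℝ, Cn n) ∞ (A.e i).symm (A.e i).target :=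
    contMDiffOn_symm_of_mem_maximalAtlas (IsManifold.subset_maximalAtlas ⟨i, rfl⟩)
  exact contMDiffOn_iff_contDiffOn.1 (hf.comp_contMDiffOn h1)

theorem locCpt (A : Atl n M) : LocallyCompactSpace M :=
  letI := chs A
  ChartedSpace.locallyCompactSpace (Cn n) M

/-- smoothness at a point does not depend on the chart -/
theorem contDiffAt_chg {W : Type*} [NormedAddCommGroup W] [NormedSpace ℝ W] {φ : M → W}
    {i j : A.ι} {x : M} (hx : x ∈ (A.e i).source ∩ (A.e j).source)
    (h : ContDiffAt ℝ ∞ (fun z => φ ((A.e j).symm z)) (A.e j x)) :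
    ContDiffAt ℝ ∞ (fun z => φ ((A.e i).symm z)) (A.e i x) := by
  have ho := (isOpen_ov (A := A) i j).mem_nhds (mem_ov hx)
  have h1 : ContDiffAt ℝ ∞ (fun z => φ ((A.e j).symm z)) (A.e j ((A.e i).symm (A.e i x))) := by
    rwa [(A.e i).left_inv hx.1]
  refine (h1.comp (A.e i x) ((contDiffOn_tr A i j).contDiffAt ho)).congr_of_eventuallyEq ?_
  filter_upwards [ho] with w hw
  simp only [Function.comp, (A.e j).left_inv hw.2]

/-! ### sub-atlases -/

section sub

variable {κ : Type} {f : κ → A.ι} {hf : ∀ x, ∃ k, x ∈ (A.e (f k)).source}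

/-- the atlas of the charts `A.e (f k)` -/
@[reducible] def sub (A : Atl n M) {κ : Type} (f : κ → A.ι)
    (hf : ∀ x, ∃ k, x ∈ (A.e (f k)).source) : Atl n M where
  ι := κ
  e k := A.e (f k)
  cover := hf
  cube k := A.cube (f k)
  holo k l := A.holo (f k) (f l)

/-- restriction of a Kaehler metric -/
def subK (K : Kah A) (f : κ → A.ι) (hf : ∀ x, ∃ k, x ∈ (A.e (f k)).source) :
    Kah (sub A f hf) where
  g k := K.g (f k)
  sm k := K.sm (f k)
  pos k := K.pos (f k)
  tr k l := K.tr (f k) (f l)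
  closed k := K.closed (f k)
  closed' k := K.closed' (f k)

/-- restriction of a line bundle -/
def subL (L : LB A) (f : κ → A.ι) (hf : ∀ x, ∃ k, x ∈ (A.e (f k)).source) :
    LB (sub A f hf) where
  g k l := L.g (f k) (f l)
  hol k l := L.hol (f k) (f l)
  off k l := L.off (f k) (f l)
  self k := L.self (f k)
  mul k l m := L.mul (f k) (f l) (f m)

theorem KB_sub : KB (sub A f hf) = subL (KB A) f hf := rfl

theorem sm_sub {W : Type*} [NormedAddCommGroup W] [NormedSpace ℝ W] {φ : M → W} (h : A.Sm φ) :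
    (sub A f hf).Sm φ := fun k => h (f k)

theorem sm_of_sub {W : Type*} [NormedAddCommGroup W] [NormedSpace ℝ W] {φ : M → W}
    (h : (sub A f hf).Sm φ) : A.Sm φ := by
  intro i z hz
  obtain ⟨k, hk⟩ := hf ((A.e i).symm z)
  have h1 := contDiffAt_chg (i := i) (j := f k) ⟨(A.e i).map_target hz, hk⟩
    ((h k).contDiffAt ((A.e (f k)).open_target.mem_nhds ((A.e (f k)).map_source hk)))
  rw [(A.e i).right_inv hz] at h1
  exact h1.contDiffWithinAt

theorem exh_sub {K : Kah A} {ρ : M → ℝ} (h : Exh K ρ) : Exh (subK K f hf) ρ :=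
  ⟨sm_sub h.sm, h.cpt, fun k => h.grad (f k)⟩

theorem bkpos_sub {K : Kah A} (h : BKpos K) : BKpos (subK K f hf) := fun k => h (f k)

theorem semipos_sub {K : Kah A} (h : (volK K).Semipos) : (volK (subK K f hf)).Semipos :=
  fun k => h (f k)

theorem chIso_to (K : Kah A) : RAtl.ChIso (ofKah (subK K f hf)) (ofKah K) fun x => x := by
  intro x
  obtain ⟨k, hk⟩ := hf x
  have h1 : x ∈ (cR A (f k)).source := by rwa [cR_source]
  refine ⟨k, f k, h1, ?_, rfl⟩
  filter_upwards [(cR A (f k)).open_source.mem_nhds h1] with y hy using ⟨hy, rfl⟩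

theorem chIso_from (K : Kah A) : RAtl.ChIso (ofKah K) (ofKah (subK K f hf)) fun x => x := by
  intro x
  obtain ⟨k, hk⟩ := hf x
  have h1 : x ∈ (cR A (f k)).source := by rwa [cR_source]
  refine ⟨f k, k, h1, ?_, rfl⟩
  filter_upwards [(cR A (f k)).open_source.mem_nhds h1] with y hy using ⟨hy, rfl⟩

/-- extension of a section from a sub-atlas -/
def extS (L : LB A) (hf : ∀ x, ∃ k, x ∈ (A.e (f k)).source) (s : κ → M → ℂ) (i : A.ι) (x : M) :
    ℂ :=
  open Classical in
  if x ∈ (A.e i).source then L.g i (f (hf x).choose) x * s (hf x).choose x else 0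

theorem extS_eq {L : LB A} {s : κ → M → ℂ} {U : Set M} (hs : IsHS (subL L f hf) U s) {i : A.ι}
    {k : κ} {x : M} (hi : x ∈ (A.e i).source) (hk : x ∈ (A.e (f k)).source) (hU : x ∈ U) :
    extS L hf s i x = L.g i (f k) x * s k x := by
  have h1 := (hf x).choose_spec
  have h2 : s (hf x).choose x = L.g (f (hf x).choose) (f k) x * s k x :=
    hs.tr _ k x ⟨h1, hk⟩ hU
  rw [extS, if_pos hi, h2, ← mul_assoc, L.mul i _ (f k) x ⟨⟨hi, h1⟩, hk⟩]

theorem extS_self {L : LB A} {s : κ → M → ℂ} {U : Set M} (hs : IsHS (subL L f hf) U s)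
    {k : κ} {x : M} (hk : x ∈ (A.e (f k)).source) (hU : x ∈ U) :
    extS L hf s (f k) x = s k x := by
  rw [extS_eq hs hk hk hU, L.self, one_mul]

theorem extS_isHS {L : LB A} {s : κ → M → ℂ} {U : Set M} (hU : IsOpen U)
    (hs : IsHS (subL L f hf) U s) : IsHS L U (extS L hf s) where
  hol i := by
    intro z hz
    obtain ⟨k, hk⟩ := hf ((A.e i).symm z)
    have ho : IsOpen (U ∩ (A.e (f k)).source) := hU.inter (A.e (f k)).open_source
    have h0 : HolAt A (f k) U (s k) := hs.hol k
    have h1 : HolAt A i (U ∩ (A.e (f k)).source) fun x => L.g i (f k) x * s k x :=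
      ((L.hol i (f k)).mono inter_subset_right).mul (h0.chg hU i)
    have h2 : HolAt A i (U ∩ (A.e (f k)).source) (extS L hf s i) :=
      h1.congr fun x hx hx' => (extS_eq hs hx hx'.2 hx'.1).symm
    exact (DifferentiableOn.differentiableAt h2
      ((isOpen_ti ho).mem_nhds ⟨hz.1, hz.2, hk⟩)).differentiableWithinAt
  off i x hx := if_neg hx
  tr i j x hx hxU := by
    obtain ⟨k, hk⟩ := hf x
    rw [extS_eq hs hx.1 hk hxU, extS_eq hs hx.2 hk hxU, ← mul_assoc, L.mul i j (f k) x ⟨hx, hk⟩]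

theorem nsq_extS (K : Kah A) {s : κ → M → ℂ} (hs : IsHS (KB (sub A f hf)) univ s) (x : M) :
    nsq K (extS (KB A) hf s) x = nsq (subK K f hf) s x := by
  obtain ⟨k, hk⟩ := hf x
  rw [nsq_eq K (extS_isHS isOpen_univ hs) hk, nsq_eq (subK K f hf) hs (i := k) hk,
    extS_self (L := KB A) hs hk (mem_univ x)]
  rfl

theorem nf_of_sub {K : Kah A} {d : M → ℝ} (h : NF (subK K f hf) d) : NF K d := by
  intro x
  obtain ⟨s, C, h1, h2, h3⟩ := h x
  exact ⟨extS (KB A) hf s, C, extS_isHS isOpen_univ h1, by rwa [nsq_extS K h1],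
    fun y => by rw [nsq_extS K h1]; exact h3 y⟩

variable [T2Space M] [ConnectedSpace M]

theorem dK_sub (K : Kah A) (x y : M) : dK (subK K f hf) x y = dK K x y :=
  le_antisymm ((chIso_from (hf := hf) K).dist_le continuous_id x y)
    ((chIso_to (hf := hf) K).dist_le continuous_id x y)

theorem proper_sub {K : Kah A} (h : ProperSpace (ofKah K).M) :
    ProperSpace (ofKah (subK K f hf)).M := by
  refine ⟨fun x r => ?_⟩
  have h1 : IsCompact (Metric.closedBall (α := (ofKah K).M) x r) := isCompact_closedBall _ _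
  have h2 : Metric.closedBall x r = Metric.closedBall (α := (ofKah K).M) x r := by
    ext y
    exact Iff.of_eq (congrArg (· ≤ r) (dK_sub K y x))
  rw [h2]
  exact h1

theorem hyp_sub {K : Kah A} (h : Hyp K) : Hyp (subK K f hf) :=
  ⟨proper_sub h.proper, h.exh.imp fun _ => exh_sub, bkpos_sub h.bk⟩

end sub

/-- **a countable sub-atlas with a partition of unity** -/
theorem exists_sub [T2Space M] [SecondCountableTopology M] (A : Atl n M) :
    ∃ (κ : Type) (f : κ → A.ι) (hf : ∀ x, ∃ k, x ∈ (A.e (f k)).source), Countable κ ∧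
      ∃ P : Part (sub A f hf), (∀ k x, P.ψ k x ∈ Icc (0 : ℝ) 1) ∧ ∀ k x, P.χ k x ∈ Icc (0 : ℝ) 1 := by
  letI := chs A
  haveI := mfd A
  haveI := locCpt A
  obtain ⟨κ, b, -⟩ := SmoothBumpCovering.exists_isSubordinate 𝓘(ℝ, Cn n) (s := (univ : Set M))
    (U := fun _ => univ) isClosed_univ fun _ _ => univ_mem
  obtain ⟨ψ, hψ⟩ := SmoothPartitionOfUnity.exists_isSubordinate 𝓘(ℝ, Cn n) (s := (univ : Set M))
    isClosed_univ (fun k => {x | ∀ᶠ y in 𝓝 x, b k y = 1}) (fun _ => isOpen_setOfPred_eventually_nhds)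
    fun x _ => mem_iUnion.2 (b.eventuallyEq_one' x (mem_univ x))
  have hsub : ∀ k, tsupport (b k) ⊆ (A.e (A.cover (b.c k)).choose).source := fun k =>
    (b k).tsupport_subset_chartAt_source
  refine ⟨κ, fun k => (A.cover (b.c k)).choose, fun x => ?_,
    countable_univ_iff.1 (b.locallyFinite.countable_univ fun k => ⟨b.c k, (b k).c_mem_support⟩),
    ⟨fun k x => ψ k x, fun k x => b k x, fun k => sm_sub (sm_of_contMDiff (ψ k).contMDiff),
      fun k => sm_sub (sm_of_contMDiff (b k).contMDiff), fun k => (b k).hasCompactSupport, hsub,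
      fun k x hx => hψ k hx, fun K hK => b.locallyFinite.closure.finite_nonempty_inter_compact hK,
      fun x => ψ.sum_eq_one (mem_univ x)⟩,
    fun k x => ⟨ψ.nonneg k x, ψ.le_one k x⟩, fun k x => (b k).mem_Icc⟩
  obtain ⟨k, hk⟩ := b.eventuallyEq_one' x (mem_univ x)
  refine ⟨k, hsub k (subset_tsupport _ ?_)⟩
  rw [Function.mem_support, hk.self_of_nhds]
  exact one_ne_zero

/-- `NFStmt` for countable atlases with a partition of unity -/
def NFcStmt (n : ℕ) : Prop :=
  ∀ (M : Type) [TopologicalSpace M] [T2Space M] [ConnectedSpace M] [SecondCountableTopology M]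
    [NoncompactSpace M] (A : Atl n M) [Countable A.ι] (_ : Part A) (K0 : Kah A) (p : M),
    Hyp K0 → NF K0 (dK K0 p)

theorem nfStmt_of (h : NFcStmt n) : NFStmt n := by
  intro M _ _ _ _ _ A K p H
  obtain ⟨κ, f, hf, hc, P, -⟩ := exists_sub A
  have h1 := @h M _ _ _ _ _ (sub A f hf) hc P (subK K f hf) p (hyp_sub H)
  rw [show dK (subK K f hf) p = dK K p from funext (dK_sub K p)] at h1
  exact nf_of_sub h1

end

end Crest.Agent.T223.Ref
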