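import Crest.Agent.T223.Rich1_37
import Crest.Agent.T223.TrDef_90

/-!
# Row 223, module RICH (helper37), file 2: Richberg's theorem from strict lower barriers

`rich` : a continuous function `b` on a second countable complex manifold which has at every point
a smooth strictly plurisubharmonic lower barrier is within `1` of a smooth strictly
plurisubharmonic function.
-/

set_option autoImplicit false

noncomputable section

open Set Filter Topology Metric
open scoped ContDiff ComplexConjugate Matrix ComplexOrder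

namespace Crest.Agent.T223.Rich

section calc2

variable {E : Type*} [NormedAddCommGroup E] [NormedSpace ℝ E]

/-- second derivative on the diagonal -/
def D2 (u : E → ℝ) (z v : E) : ℝ := fderiv ℝ (fderiv ℝ u) z v v

lemma ev_diff {u : E → ℝ} {z : E} (hu : ContDiffAt ℝ ∞ u z) :
    ∀ᶠ y in 𝓝 z, DifferentiableAt ℝ u y := by
  have h2 : ContDiffAt ℝ 1 u z := hu.of_le (by norm_cast)
  exact (h2.eventually (by simp)).mono fun y hy => hy.differentiableAt (by norm_num)

lemma diff2 {u : E → ℝ} {z : E} (hu : ContDiffAt ℝ ∞ u z) :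
    DifferentiableAt ℝ (fderiv ℝ u) z := by
  have h2 : ContDiffAt ℝ 2 u z := hu.of_le (by norm_cast)
  exact (h2.fderiv_right (m := 1) (by norm_num)).differentiableAt (by norm_num)

lemma Rx_smooth (η : ℝ) {a c : E → ℝ} {z : E} (ha : ContDiffAt ℝ ∞ a z)
    (hc : ContDiffAt ℝ ∞ c z) : ContDiffAt ℝ ∞ (fun y => Rx η (a y) (c y)) z := by
  unfold Rx
  exact hc.add (contDiffAt_const.mul (SM_contDiff.contDiffAt.comp z ((ha.sub hc).div_const η)))

lemma D2_Rx {η : ℝ} (hη : 0 < η) {a c : E → ℝ} {z : E} (ha : ContDiffAt ℝ ∞ a z)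
    (hc : ContDiffAt ℝ ∞ c z) (v : E) :
    (1 - ss ((a z - c z) / η)) * D2 c z v + ss ((a z - c z) / η) * D2 a z v ≤
      D2 (fun y => Rx η (a y) (c y)) z v := by
  set g : E → ℝ := fun y => (a y - c y) / η with hg
  have hgs : ContDiffAt ℝ ∞ g z := (ha.sub hc).div_const η
  have e1 : fderiv ℝ (fun y => Rx η (a y) (c y)) =ᶠ[𝓝 z] fun y =>
      fderiv ℝ c y + ss (g y) • (fderiv ℝ a y - fderiv ℝ c y) := by
    filter_upwards [ev_diff ha, ev_diff hc] with y hay hcy
    have h0 : HasFDerivAt g (η⁻¹ • (fderiv ℝ a y - fderiv ℝ c y)) y := by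
      have h := (hay.hasFDerivAt.sub hcy.hasFDerivAt).const_smul η⁻¹
      refine h.congr_of_eventuallyEq (Eventually.of_forall fun w => ?_)
      simp [hg, div_eq_inv_mul]
    have h1 : HasFDerivAt (fun y => SM (g y)) (ss (g y) • η⁻¹ • (fderiv ℝ a y - fderiv ℝ c y)) y :=
      (SM_hasDerivAt (g y)).comp_hasFDerivAt y h0
    have h2 := (hcy.hasFDerivAt.add (h1.const_mul η)).fderiv
    rw [smul_comm η (ss (g y)), smul_smul η, mul_inv_cancel₀ hη.ne', one_smul] at h2
    exact h2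
  have hg0 : HasFDerivAt g (η⁻¹ • (fderiv ℝ a z - fderiv ℝ c z)) z := by
    have h := ((ev_diff ha).self_of_nhds.hasFDerivAt.sub
      (ev_diff hc).self_of_nhds.hasFDerivAt).const_smul η⁻¹
    refine h.congr_of_eventuallyEq (Eventually.of_forall fun w => ?_)
    simp [hg, div_eq_inv_mul]
  have hss : HasFDerivAt (fun y => ss (g y))
      (deriv ss (g z) • η⁻¹ • (fderiv ℝ a z - fderiv ℝ c z)) z := by
    have h1 : HasDerivAt ss (deriv ss (g z)) (g z) :=
      (ss_contDiff.differentiable (by simp) (g z)).hasDerivAt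
    exact h1.comp_hasFDerivAt z hg0
  have e2 := (diff2 hc).hasFDerivAt.add
    (hss.smul ((diff2 ha).hasFDerivAt.sub (diff2 hc).hasFDerivAt))
  have e3 : fderiv ℝ (fun y => fderiv ℝ c y + ss (g y) • (fderiv ℝ a y - fderiv ℝ c y)) z = _ :=
    e2.fderiv
  unfold D2
  rw [e1.fderiv_eq, e3]
  simp only [_root_.add_apply, _root_.smul_apply, _root_.sub_apply,
    ContinuousLinearMap.smulRight_apply, smul_eq_mul, Pi.sub_apply]
  have h5 := deriv_ss_nonneg (g z)
  have h6 : 0 ≤ deriv ss (g z) * (η⁻¹ * (fderiv ℝ a z v - fderiv ℝ c z v)) *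
      (fderiv ℝ a z v - fderiv ℝ c z v) := by
    have : deriv ss (g z) * (η⁻¹ * (fderiv ℝ a z v - fderiv ℝ c z v)) *
      (fderiv ℝ a z v - fderiv ℝ c z v) =
      deriv ss (g z) * η⁻¹ * (fderiv ℝ a z v - fderiv ℝ c z v) ^ 2 := by ring
    rw [this]; positivity
  have e4 : ss (g z) = ss ((a z - c z) / η) := rfl
  rw [← e4]
  nlinarith [h6]

/-- the quadratic polynomial -/
def qp (c0 : ℝ) (L : E →L[ℝ] ℝ) (B : E →L[ℝ] E →L[ℝ] ℝ) (x0 w : E) : ℝ :=
  c0 + L (w - x0) + (1 / 2) * B (w - x0) (w - x0)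

lemma qp_smooth (c0 : ℝ) (L : E →L[ℝ] ℝ) (B : E →L[ℝ] E →L[ℝ] ℝ) (x0 : E) :
    ContDiff ℝ ∞ (qp c0 L B x0) := by
  unfold qp
  have h : ContDiff ℝ ∞ fun w : E => w - x0 := contDiff_id.sub contDiff_const
  exact (contDiff_const.add (L.contDiff.comp h)).add
    (contDiff_const.mul ((B.contDiff.comp h).clm_apply h))

lemma qp_hasFDerivAt (c0 : ℝ) (L : E →L[ℝ] ℝ) {B : E →L[ℝ] E →L[ℝ] ℝ}
    (hB : ∀ v w, B v w = B w v) (x0 w : E) :
    HasFDerivAt (qp c0 L B x0) (L + B (w - x0)) w := by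
  have h : HasFDerivAt (fun w : E => w - x0) (ContinuousLinearMap.id ℝ E) w :=
    (hasFDerivAt_id w).sub_const x0
  have h1 := (L.hasFDerivAt.comp w h).const_add c0
  have h2 := ((B.hasFDerivAt.comp w h).clm_apply h).const_mul (1 / 2 : ℝ)
  have h3 := h1.add h2
  refine (h3.congr_fderiv ?_).congr_of_eventuallyEq (Eventually.of_forall fun y => rfl)
  ext v
  simp only [_root_.add_apply, _root_.smul_apply, ContinuousLinearMap.comp_apply,
    ContinuousLinearMap.flip_apply, ContinuousLinearMap.id_apply, smul_eq_mul,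
    Function.comp_apply, hB v (w - x0)]
  ring

lemma D2_qp (c0 : ℝ) (L : E →L[ℝ] ℝ) {B : E →L[ℝ] E →L[ℝ] ℝ}
    (hB : ∀ v w, B v w = B w v) (x0 w v : E) : D2 (qp c0 L B x0) w v = B v v := by
  have h1 : fderiv ℝ (qp c0 L B x0) = fun y => L + B (y - x0) :=
    funext fun y => (qp_hasFDerivAt c0 L hB x0 y).fderiv
  have h : HasFDerivAt (fun w : E => w - x0) (ContinuousLinearMap.id ℝ E) w :=
    (hasFDerivAt_id w).sub_const x0
  have h2 := ((B.hasFDerivAt.comp w h).const_add L).fderiv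
  unfold D2
  rw [h1]
  have h3 : fderiv ℝ (fun y => L + B (y - x0)) w = B.comp (ContinuousLinearMap.id ℝ E) := h2
  rw [h3]
  rfl

/-- Taylor's formula of order two, lower bound -/
lemma taylor_le {φ : E → ℝ} {x0 : E} (hφ : ContDiffAt ℝ ∞ φ x0) {ε : ℝ} (hε : 0 < ε) :
    ∀ᶠ w in 𝓝 x0, qp (φ x0) (fderiv ℝ φ x0) (fderiv ℝ (fderiv ℝ φ) x0) x0 w - ε * ‖w - x0‖ ^ 2
      ≤ φ w := by
  set L := fderiv ℝ φ x0 with hL
  set B := fderiv ℝ (fderiv ℝ φ) x0 with hBd
  have hB : ∀ v w, B v w = B w v := by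
    have h2 : ContDiffAt ℝ 2 φ x0 := hφ.of_le (by norm_cast)
    exact fun v w => (h2.isSymmSndFDerivAt (by simp)).eq v w
  have h1 : ∀ᶠ w in 𝓝 x0, ‖fderiv ℝ φ w - L - B (w - x0)‖ ≤ ε * ‖w - x0‖ :=
    (diff2 hφ).hasFDerivAt.isLittleO.bound hε
  obtain ⟨ρ, hρ, hball⟩ := Metric.eventually_nhds_iff_ball.1 (h1.and (ev_diff hφ))
  filter_upwards [ball_mem_nhds x0 hρ] with w hw
  have hsub : closedBall x0 ‖w - x0‖ ⊆ ball x0 ρ :=
    closedBall_subset_ball (by rwa [mem_ball, dist_eq_norm] at hw)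
  have h2 : ‖(fun y => φ y - qp (φ x0) L B x0 y) w - (fun y => φ y - qp (φ x0) L B x0 y) x0‖ ≤
      ε * ‖w - x0‖ * ‖w - x0‖ := by
    refine Convex.norm_image_sub_le_of_norm_hasFDerivWithin_le (𝕜 := ℝ)
      (f := fun y => φ y - qp (φ x0) L B x0 y) (C := ε * ‖w - x0‖)
      (f' := fun y => fderiv ℝ φ y - (L + B (y - x0))) (s := closedBall x0 ‖w - x0‖)
      (fun y hy => ?_) (fun y hy => ?_) (convex_closedBall _ _)
      (mem_closedBall_self (norm_nonneg _)) (by rw [mem_closedBall, dist_eq_norm])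
    · exact ((hball y (hsub hy)).2.hasFDerivAt.sub
        (qp_hasFDerivAt (φ x0) L hB x0 y)).hasFDerivWithinAt
    · have h3 := (hball y (hsub hy)).1
      rw [sub_sub] at h3
      rw [mem_closedBall, dist_eq_norm] at hy
      exact h3.trans (mul_le_mul_of_nonneg_left hy hε.le)
  have h3 : qp (φ x0) L B x0 x0 = φ x0 := by simp [qp]
  simp only [h3, sub_self, sub_zero, Real.norm_eq_abs] at h2
  have h4 := (abs_le.1 h2).1
  nlinarith

end calc2

open Crest.Agent.R275.Geo Crest.Agent.R275.Core144 Crest.Agent.R275.EDR890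
open Crest.Agent.R273.Defs_333 Crest.Agent.R273.Hess_333 Crest.Agent.R273.HessB_333
open Crest.Agent.R273.Kah_333 Crest.Agent.T223.Tr

variable {n : ℕ}

lemma lev_D2 (u : Cn n → ℝ) (z v : Cn n) : lev u z v = D2 u z v + D2 u z (Complex.I • v) := by
  unfold lev D2
  rw [iteratedFDeriv_two_apply, iteratedFDeriv_two_apply]
  simp

lemma nq_hess {u : Cn n → ℝ} {z : Cn n} (hu : ContDiffAt ℝ ∞ u z) (v : Cn n) :
    nq (hess u z) v = lev u z v / 4 := hq_re hu v

lemma lev_Rx {η : ℝ} (hη : 0 < η) {a c : Cn n → ℝ} {z : Cn n} (ha : ContDiffAt ℝ ∞ a z)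
    (hc : ContDiffAt ℝ ∞ c z) {v : Cn n} (h1 : 0 < lev a z v) (h2 : 0 < lev c z v) :
    0 < lev (fun y => Rx η (a y) (c y)) z v := by
  rw [lev_D2] at h1 h2 ⊢
  have e1 := D2_Rx hη ha hc v
  have e2 := D2_Rx hη ha hc (Complex.I • v)
  have h3 := ss_nonneg ((a z - c z) / η)
  have h4 := ss_le_one ((a z - c z) / η)
  set s := ss ((a z - c z) / η)
  have h5 : 0 < (1 - s) * (D2 c z v + D2 c z (Complex.I • v)) +
      s * (D2 a z v + D2 a z (Complex.I • v)) := by
    rcases eq_or_lt_of_le h3 with h | h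
    · rw [← h]; simpa using h2
    · have := mul_pos h h1
      have := mul_nonneg (sub_nonneg.2 h4) h2.le
      linarith
  linarith

/-- uniform lower bound of a positive Levi form -/
lemma exists_lev_lower {u : Cn n → ℝ} {z : Cn n} (h : ∀ v, v ≠ 0 → 0 < lev u z v) :
    ∃ c : ℝ, 0 < c ∧ ∀ v, c * ‖v‖ ^ 2 ≤ lev u z v := by
  have hc : Continuous fun v : Cn n => lev u z v := by
    simp only [lev_D2, D2]
    have h1 : Continuous fun v : Cn n => Complex.I • v := continuous_const_smul _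
    exact (((fderiv ℝ (fderiv ℝ u) z).continuous.clm_apply continuous_id)).add
      ((((fderiv ℝ (fderiv ℝ u) z).continuous.comp h1).clm_apply h1))
  have hs : ∀ (t : ℝ) (v : Cn n), lev u z (t • v) = t ^ 2 * lev u z v := by
    intro t v
    simp only [lev_D2, D2]
    rw [smul_comm Complex.I t v]
    simp only [map_smul, _root_.smul_apply, smul_eq_mul]
    ring
  obtain ⟨c, hc0, hc1⟩ : ∃ c : ℝ, 0 < c ∧ ∀ v ∈ sphere (0 : Cn n) 1, c ≤ lev u z v := by
    rcases (sphere (0 : Cn n) 1).eq_empty_or_nonempty with he | hne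
    · exact ⟨1, one_pos, fun v hv => by rw [he] at hv; exact hv.elim⟩
    · obtain ⟨v0, hv0, hmin⟩ := (isCompact_sphere (0 : Cn n) 1).exists_isMinOn hne hc.continuousOn
      refine ⟨lev u z v0, h v0 ?_, fun v hv => hmin hv⟩
      rintro rfl
      simp at hv0
  refine ⟨c, hc0, fun v => ?_⟩
  by_cases hv : v = 0
  · subst hv
    have := hs 0 0
    simp only [smul_zero] at this
    rw [this]; simp
  · have hn : 0 < ‖v‖ := norm_pos_iff.2 hv
    have h1 := hc1 (‖v‖⁻¹ • v) (by simp [norm_smul, hn.ne'])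
    rw [hs] at h1
    have h2 := mul_le_mul_of_nonneg_right h1 (sq_nonneg ‖v‖)
    have h3 : ‖v‖⁻¹ ^ 2 * lev u z v * ‖v‖ ^ 2 = lev u z v := by field_simp
    linarith

/-- a global smooth strictly psh function below the barrier -/
lemma exists_quad {φ : Cn n → ℝ} {x0 : Cn n} (hφ : ContDiffAt ℝ ∞ φ x0)
    (h : ∀ v, v ≠ 0 → 0 < lev φ x0 v) :
    ∃ (q : Cn n → ℝ) (a : ℝ), 0 < a ∧ ContDiff ℝ ∞ q ∧ q x0 = φ x0 ∧
      (∀ w v, v ≠ 0 → 0 < lev q w v) ∧ ∀ᶠ w in 𝓝 x0, q w ≤ φ w - a * ‖w - x0‖ ^ 2 := by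
  obtain ⟨c, hc0, hc⟩ := exists_lev_lower h
  set L := fderiv ℝ φ x0 with hL
  set B := fderiv ℝ (fderiv ℝ φ) x0 with hBd
  have hB : ∀ v w, B v w = B w v := by
    have h2 : ContDiffAt ℝ 2 φ x0 := hφ.of_le (by norm_cast)
    exact fun v w => (h2.isSymmSndFDerivAt (by simp)).eq v w
  let IP : Cn n →L[ℝ] Cn n →L[ℝ] ℝ := innerSL ℝ
  have hIP : ∀ v w : Cn n, IP v w = inner ℝ v w := fun v w => rfl
  set B' : Cn n →L[ℝ] Cn n →L[ℝ] ℝ := B - (c / 4) • IP with hB'd
  have hB'a : ∀ v w, B' v w = B v w - c / 4 * inner ℝ v w := fun v w => by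
    simp only [hB'd, _root_.sub_apply, _root_.smul_apply, smul_eq_mul, hIP]
  have hB' : ∀ v w, B' v w = B' w v := fun v w => by
    rw [hB'a, hB'a, hB v w, real_inner_comm]
  refine ⟨qp (φ x0) L B' x0, c / 16, by positivity, qp_smooth _ _ _ _, by simp [qp],
    fun w v hv => ?_, ?_⟩
  · rw [lev_D2, D2_qp _ _ hB', D2_qp _ _ hB', hB'a, hB'a, real_inner_self_eq_norm_sq,
      real_inner_self_eq_norm_sq, norm_smul, Complex.norm_I, one_mul]
    have h1 := hc v
    rw [lev_D2] at h1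
    unfold D2 at h1
    have h2 : 0 < ‖v‖ ^ 2 := pow_pos (norm_pos_iff.2 hv) 2
    nlinarith
  · filter_upwards [taylor_le hφ (show 0 < c / 16 by positivity)] with w hw
    unfold qp at hw ⊢
    rw [hB'a, real_inner_self_eq_norm_sq]
    linarith

variable {M : Type} [TopologicalSpace M] {A : Atl n M}

/-- smooth and strictly psh at `y` -/
def Good (A : Atl n M) (f : M → ℝ) (y : M) : Prop :=
  ∀ i, y ∈ (A.e i).source → ContDiffAt ℝ ∞ (fun z => f ((A.e i).symm z)) (A.e i y) ∧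
    ∀ v, v ≠ 0 → 0 < lev (fun z => f ((A.e i).symm z)) (A.e i y) v

lemma ev_chart {f g : M → ℝ} {y : M} (h : f =ᶠ[𝓝 y] g) {i : A.ι} (hy : y ∈ (A.e i).source) :
    (fun z => f ((A.e i).symm z)) =ᶠ[𝓝 (A.e i y)] fun z => g ((A.e i).symm z) :=
  ((A.e i).tendsto_symm hy).eventually h

lemma good_congr (f g : M → ℝ) (y : M) (h : f =ᶠ[𝓝 y] g) (hf : Good A f y) : Good A g y := by
  intro i hy
  have e := ev_chart h hy
  obtain ⟨h1, h2⟩ := hf i hy
  have h3 := h1.congr_of_eventuallyEq e.symm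
  refine ⟨h3, fun v hv => ?_⟩
  have h4 := posDef_hess h1 h2
  rw [hess_congr e] at h4
  exact lev_pos_of_posDef h3 h4 hv

lemma good_max (η : ℝ) (f g : M → ℝ) (y : M) (hη : 0 < η) (hf : Good A f y) (hg : Good A g y) :
    Good A (fun z => Rx η (f z) (g z)) y := fun i hy =>
  ⟨Rx_smooth η (hf i hy).1 (hg i hy).1, fun v hv =>
    lev_Rx hη (hf i hy).1 (hg i hy).1 ((hf i hy).2 v hv) ((hg i hy).2 v hv)⟩

/-- it suffices to check one chart -/
lemma good_of_chart {F : M → ℝ} {j : A.ι} {p : M} (hj : p ∈ (A.e j).source)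
    (hF : ContDiffAt ℝ ∞ (fun z => F ((A.e j).symm z)) (A.e j p))
    (hpos : ∀ v, v ≠ 0 → 0 < lev (fun z => F ((A.e j).symm z)) (A.e j p) v) : Good A F p := by
  intro i hi
  have hp : p ∈ (A.e i).source ∩ (A.e j).source := ⟨hi, hj⟩
  have ho : IsOpen (A.ov i j) := isOpen_ov i j
  have hm : A.e i p ∈ A.ov i j := mem_ov hp
  have hF' : ContDiffAt ℝ ∞ (fun z => F ((A.e i).symm z)) (A.e i p) := by
    set T : Cn n → Cn n := fun w => A.e j ((A.e i).symm w) with hT
    have hTx : T (A.e i p) = A.e j p := by rw [hT]; simp only [(A.e i).left_inv hp.1]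
    have hTc : ContDiffAt ℝ ∞ T (A.e i p) :=
      (((Crest.Agent.R266.SCV.contDiffOn_omega_of_differentiableOn ho (A.holo i j)).restrict_scalars
        ℝ).of_le le_top).contDiffAt (ho.mem_nhds hm)
    have h1 : ContDiffAt ℝ ∞ (fun w => F ((A.e j).symm (T w))) (A.e i p) := by
      have h2 : ContDiffAt ℝ ∞ (fun z => F ((A.e j).symm z)) (T (A.e i p)) := by rwa [hTx]
      exact h2.comp (A.e i p) hTc
    refine h1.congr_of_eventuallyEq ?_
    filter_upwards [ho.mem_nhds hm] with w hw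
    simp only [hT]
    rw [(A.e j).left_inv hw.2]
  refine ⟨hF', fun v hv => lev_pos_of_posDef hF' ?_ hv⟩
  have h1 : hess (fun z => F ((A.e i).symm z)) (A.e i p) =
      (Jm A i j p)ᵀ * hess (fun z => F ((A.e j).symm z)) (A.e j p) * (Jm A i j p).map conj := by
    refine hess_tr (f := fun _ => (1 : ℂ)) hp hF' hF
      (Eventually.of_forall fun w => differentiableAt_const _) one_ne_zero ?_
    filter_upwards [ho.mem_nhds hm] with w hw
    rw [(A.e j).left_inv hw.2]
    simp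
  have h4 : ((Jm A i j p).map conj)ᴴ = (Jm A i j p)ᵀ := by
    ext a b
    simp [Matrix.conjTranspose_apply]
  rw [h1, ← h4]
  refine (posDef_hess hF hpos).conjTranspose_mul_mul_same ?_
  have h5 : (Jm A j i p).map conj * (Jm A i j p).map conj = 1 := by
    rw [← Matrix.map_mul, J_mul i j i ⟨hp, hi⟩, J_self i hi]
    exact Matrix.map_one _ (map_zero _) (map_one _)
  intro x y hxy
  have h6 := congrArg (fun w => ((Jm A j i p).map conj) *ᵥ w) hxy
  simpa only [Matrix.mulVec_mulVec, h5, Matrix.one_mulVec] using h6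

/-- the local piece -/
lemma exists_pc [T2Space M] {b : M → ℝ} (hb : Continuous b) {x : M} {i : A.ι}
    (hx : x ∈ (A.e i).source) {φ : Cn n → ℝ} (hφ : ContDiffAt ℝ ∞ φ (A.e i x))
    (h0 : φ (A.e i x) = b x) (hle : ∀ᶠ w in 𝓝 (A.e i x), φ w ≤ b ((A.e i).symm w))
    (hpos : ∀ v, v ≠ 0 → 0 < lev φ (A.e i x) v) (N : Set M) (hN : N ∈ 𝓝 x) :
    ∃ p : Pc b (Good A), b x < p.β x ∧ ∀ y, b y - p.δ < p.β y → y ∈ N := by
  classical
  obtain ⟨q, a, ha, hq, hq0, hqp, hqle⟩ := exists_quad hφ hpos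
  set x0 := A.e i x with hx0
  have hN' : ∀ᶠ w in 𝓝 x0, (A.e i).symm w ∈ N := ((A.e i).tendsto_symm hx).eventually hN
  have ht : ∀ᶠ w in 𝓝 x0, w ∈ (A.e i).target :=
    (A.e i).open_target.mem_nhds ((A.e i).map_source hx)
  obtain ⟨r, hr, hball⟩ := Metric.eventually_nhds_iff_ball.1 (hqle.and (hle.and (hN'.and ht)))
  set κ : ℝ := min (1 / 2) (a * r ^ 2 / 16) with hκ
  have hκ0 : 0 < κ := lt_min (by norm_num) (by positivity)
  have hκ1 : κ ≤ 1 / 2 := min_le_left _ _
  have hκ2 : κ ≤ a * r ^ 2 / 16 := min_le_right _ _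
  set O : Set M := (A.e i).source ∩ (A.e i) ⁻¹' ball x0 r with hO
  have hOo : IsOpen O := (A.e i).isOpen_inter_preimage isOpen_ball
  set C : Set M := (A.e i).symm '' closedBall x0 (r / 2) with hC
  have hsub : closedBall x0 (r / 2) ⊆ ball x0 r := closedBall_subset_ball (by linarith)
  have hCc : IsCompact C := (isCompact_closedBall x0 (r / 2)).image_of_continuousOn
    ((A.e i).continuousOn_symm.mono fun w hw => (hball w (hsub hw)).2.2.2)
  have hCO : C ⊆ O := by
    rintro _ ⟨w, hw, rfl⟩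
    have h1 := (hball w (hsub hw)).2.2.2
    refine ⟨(A.e i).map_target h1, ?_⟩
    rw [mem_preimage, (A.e i).right_inv h1]
    exact hsub hw
  have hup : ∀ y ∈ O, q (A.e i y) ≤ b y - a * ‖A.e i y - x0‖ ^ 2 := by
    intro y hy
    obtain ⟨h1, h2, -⟩ := hball _ hy.2
    rw [(A.e i).left_inv hy.1] at h2
    linarith
  set β : M → ℝ := fun y => if y ∈ O then max (q (A.e i y) + κ) (b y - κ) else b y - κ with hβ
  have hβC : ∀ y, y ∉ C → β y = b y - κ := by
    intro y hy
    by_cases hyO : y ∈ O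
    · simp only [hβ, if_pos hyO]
      refine max_eq_right ?_
      have h1 : r / 2 < ‖A.e i y - x0‖ := by
        by_contra h2
        refine hy ⟨A.e i y, ?_, (A.e i).left_inv hyO.1⟩
        rw [mem_closedBall, dist_eq_norm]
        exact not_lt.1 h2
      have h2 : (r / 2) ^ 2 ≤ ‖A.e i y - x0‖ ^ 2 := by gcongr
      have h3 := hup y hyO
      nlinarith
    · simp only [hβ, if_neg hyO]
  have hβO : ∀ y ∈ O, β =ᶠ[𝓝 y] fun y => max (q (A.e i y) + κ) (b y - κ) := by
    intro y hy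
    filter_upwards [hOo.mem_nhds hy] with z hz
    simp only [hβ, if_pos hz]
  have hqc : ∀ y ∈ O, ContinuousAt (fun y => q (A.e i y) + κ) y := fun y hy =>
    (hq.continuous.continuousAt.comp ((A.e i).continuousAt hy.1)).add continuousAt_const
  have hcont : Continuous β := by
    rw [continuous_iff_continuousAt]
    intro y
    by_cases hy : y ∈ O
    · have h1 : ContinuousAt (fun y => max (q (A.e i y) + κ) (b y - κ)) y :=
        (hqc y hy).max (hb.continuousAt.sub continuousAt_const)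
      exact ContinuousAt.congr h1 (hβO y hy).symm
    · have h1 : β =ᶠ[𝓝 y] fun y => b y - κ := by
        filter_upwards [hCc.isClosed.isOpen_compl.mem_nhds fun h => hy (hCO h)] with z hz
        exact hβC z hz
      have h2 : ContinuousAt (fun y => b y - κ) y := hb.continuousAt.sub continuousAt_const
      exact ContinuousAt.congr h2 h1.symm
  have hact : ∀ y, b y - κ < β y → y ∈ O ∧ b y - κ < q (A.e i y) + κ := by
    intro y hy
    have hyO : y ∈ O := by
      by_contra h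
      simp only [hβ, if_neg h] at hy
      exact lt_irrefl _ hy
    simp only [hβ, if_pos hyO] at hy
    exact ⟨hyO, (lt_max_iff.1 hy).resolve_right (lt_irrefl _)⟩
  refine ⟨⟨β, κ, hκ0, hcont, fun y => ?_, fun y hy => ?_⟩, ?_, fun y hy => ?_⟩
  · by_cases hy : y ∈ O
    · simp only [hβ, if_pos hy]
      have h1 := hup y hy
      have h2 : 0 ≤ a * ‖A.e i y - x0‖ ^ 2 := by positivity
      exact max_le (by linarith) (by linarith)
    · simp only [hβ, if_neg hy]
      linarith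
  · obtain ⟨hyO, h1⟩ := hact y hy
    have h2 : (fun y => q (A.e i y) + κ) =ᶠ[𝓝 y] β := by
      filter_upwards [hβO y hyO,
        (hb.continuousAt.sub continuousAt_const).eventually_lt (hqc y hyO) h1] with z hz hz'
      rw [hz]
      exact (max_eq_left hz'.le).symm
    refine good_congr _ _ y h2 ?_
    have h3 : (fun z => q z + κ) =ᶠ[𝓝 (A.e i y)]
        fun z => q (A.e i ((A.e i).symm z)) + κ := by
      filter_upwards [(A.e i).open_target.mem_nhds ((A.e i).map_source hyO.1)] with z hz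
      rw [(A.e i).right_inv hz]
    have h4 : ContDiffAt ℝ ∞ (fun z => q z + κ) (A.e i y) := hq.contDiffAt.add contDiffAt_const
    have h5 := h4.congr_of_eventuallyEq h3.symm
    refine good_of_chart hyO.1 h5 fun v hv => lev_pos_of_posDef h5 ?_ hv
    rw [← hess_congr h3]
    refine posDef_hess h4 fun v hv => ?_
    have h6 : lev (fun z => q z + κ) (A.e i y) v = lev q (A.e i y) v := by
      have h7 : fderiv ℝ (fun z => q z + κ) = fderiv ℝ q := funext fun z => fderiv_add_const κ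
      rw [lev_D2, lev_D2]
      unfold D2
      rw [h7]
    rw [h6]
    exact hqp _ v hv
  · have hxO : x ∈ O := ⟨hx, mem_ball_self hr⟩
    show b x < β x
    simp only [hβ, if_pos hxO]
    refine lt_max_of_lt_left ?_
    rw [← hx0, hq0, h0]
    linarith
  · obtain ⟨hyO, -⟩ := hact y hy
    have h1 := (hball _ hyO.2).2.2.1
    rwa [(A.e i).left_inv hyO.1] at h1

lemma locallyCompact (A : Atl n M) : WeaklyLocallyCompactSpace M := by
  refine ⟨fun x => ?_⟩
  obtain ⟨i, hx⟩ := A.cover x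
  obtain ⟨r, hr, hball⟩ := Metric.nhds_basis_closedBall.mem_iff.1
    ((A.e i).open_target.mem_nhds ((A.e i).map_source hx))
  refine ⟨(A.e i).symm '' closedBall (A.e i x) r, (isCompact_closedBall _ _).image_of_continuousOn
    ((A.e i).continuousOn_symm.mono hball), ?_⟩
  have h1 := (A.e i).symm.image_mem_nhds (x := A.e i x) ((A.e i).map_source hx)
    (closedBall_mem_nhds (A.e i x) hr)
  rwa [(A.e i).left_inv hx] at h1

/-- **Richberg's theorem from strict lower barriers** -/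
theorem rich [T2Space M] [SecondCountableTopology M] (A : Atl n M) {b : M → ℝ}
    (hb : Continuous b)
    (hbar : ∀ x, ∃ i, x ∈ (A.e i).source ∧ ∃ φ : Cn n → ℝ, ContDiffAt ℝ ∞ φ (A.e i x) ∧
      φ (A.e i x) = b x ∧ (∀ᶠ w in 𝓝 (A.e i x), φ w ≤ b ((A.e i).symm w)) ∧
      ∀ v, v ≠ 0 → 0 < nq (hess φ (A.e i x)) v) :
    ∃ ψ : M → ℝ, A.Sm ψ ∧ (∀ x, b x < ψ x ∧ ψ x ≤ b x + 1) ∧
      ∀ i, ∀ x ∈ (A.e i).source, (hsf A ψ i x).PosDef := by
  have := locallyCompact A
  obtain ⟨ψ, h1, h2⟩ := glue (Good := Good A) hb good_congr good_max (fun x N hN => by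
    obtain ⟨i, hx, φ, hφ, h0, hle, hpos⟩ := hbar x
    refine exists_pc hb hx hφ h0 hle (fun v hv => ?_) N hN
    have h := hpos v hv
    rw [nq_hess hφ] at h
    linarith)
  refine ⟨ψ, fun i z hz => ?_, h1, fun i x hx => posDef_hess (h2 x i hx).1 (h2 x i hx).2⟩
  have h3 := (h2 _ i ((A.e i).map_target hz)).1
  rw [(A.e i).right_inv hz] at h3
  exact h3.contDiffWithinAt

end Crest.Agent.T223.Rich
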