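import Crest.Agent.T223.DbAlg_88
import Crest.Agent.T223.TrRic_90
import Crest.Agent.T223.Gr3_44

/-!
# Row 223 (helper44): the Kaehler-Ricci flow as a quasilinear system in real coordinates

`uR G y a b = G ((eR n).symm y) a b`; `krf_ql` :
`∂_t uR = Lop (rm uR) uR + Bq (uR, d1 uR)`.
-/

set_option autoImplicit false

open Set Filter Topology Complex Metric
open scoped ContDiff ComplexConjugate Matrix ComplexOrder

namespace Crest.Agent.T223.Rn

open Crest.Agent.R275.Geo Crest.Agent.R275.EDR890 Crest.Agent.R273.Hess_333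
open Crest.Agent.T223.Br Crest.Agent.T223.Tr Crest.Agent.T223.Db Crest.Agent.N207.P

noncomputable section

variable {n : ℕ}

/-- Wirtinger derivatives in real coordinates -/
def zs (s : WI n) (k : Fin (2 * n)) : ℂ :=
  (1 / 2 : ℂ) * ((eR n (EuclideanSpace.single s.2 1) k : ℝ) +
    cI s.1 * (eR n (EuclideanSpace.single s.2 I) k : ℝ))

theorem zs_false (c : Fin n) (k : Fin (2 * n)) : zs (false, c) k = zm n c k := by
  simp only [zs, zm, Matrix.of_apply, cI_false]; ring

theorem zs_true (c : Fin n) (k : Fin (2 * n)) : zs (true, c) k = conj (zm n c k) := by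
  simp only [zs, zm, Matrix.of_apply, cI_true, map_mul, map_sub, map_div₀, map_one, map_ofNat,
    conj_ofReal, conj_I]
  ring

theorem wd_eR {F : En (2 * n) → ℂ} {z : Cn n} (hF : DifferentiableAt ℝ F (eR n z)) (s : WI n) :
    wd s (fun w => F (eR n w)) z = ∑ k, zs s k * pd k F (eR n z) := by
  have h1 : fderiv ℝ (fun w => F (eR n w)) z =
      (fderiv ℝ F (eR n z)).comp (eR n : Cn n →L[ℝ] En (2 * n)) :=
    (hF.hasFDerivAt.comp z (eR n).hasFDerivAt).fderiv
  rw [wd, h1, wdL]
  simp only [ContinuousLinearMap.comp_apply, ContinuousLinearEquiv.coe_coe]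
  rw [clm_eq_sum (fderiv ℝ F (eR n z)) (eR n (EuclideanSpace.single s.2 1)),
    clm_eq_sum (fderiv ℝ F (eR n z)) (eR n (EuclideanSpace.single s.2 I))]
  simp only [smul_eq_mul, real_smul, Finset.mul_sum, ← Finset.sum_add_distrib, zs, pd]
  exact Finset.sum_congr rfl fun k _ => by ring

theorem wd2_eR {F : En (2 * n) → ℂ} {z : Cn n} (hF : ContDiffAt ℝ ∞ F (eR n z)) (r s : WI n) :
    wd r (wd s fun w => F (eR n w)) z =
      ∑ k, ∑ l, zs r k * zs s l * pd k (pd l F) (eR n z) := by
  have h0 : ∀ᶠ y in 𝓝 (eR n z), DifferentiableAt ℝ F y := by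
    filter_upwards [(hF.of_le (m := 1) (by exact_mod_cast le_top)).eventually (by simp)] with y hy
    exact hy.differentiableAt (by simp)
  have h1 : (wd s fun w => F (eR n w)) =ᶠ[𝓝 z] fun w => ∑ l, zs s l • pd l F (eR n w) := by
    filter_upwards [(eR n).continuous.continuousAt.eventually h0] with w hw
    exact wd_eR hw s
  have h2 : ∀ l, DifferentiableAt ℝ (pd l F) (eR n z) := fun l =>
    (contDiffAt_pd (m := 1) hF two_le_inf l).differentiableAt (by simp)
  have h3 : ∀ l, DifferentiableAt ℝ (fun w => pd l F (eR n w)) z := fun l =>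
    (h2 l).comp z (eR n).differentiableAt
  rw [wd_congr h1, wd_sum _ (f := fun l w => zs s l • pd l F (eR n w))
    (fun l _ => (h3 l).fun_const_smul _), Finset.sum_comm]
  refine Finset.sum_congr rfl fun l _ => ?_
  rw [wd_const_smul _ (h3 l), wd_eR (h2 l), smul_eq_mul, Finset.mul_sum]
  exact Finset.sum_congr rfl fun k _ => by ring

theorem sum_herm {m : ℕ} {H : Matrix (Fin m) (Fin m) ℂ} (hH : H.IsHermitian)
    {S : Fin m → Fin m → ℂ} (hS : ∀ k l, S k l = S l k) :
    ∑ k, ∑ l, H l k * S k l = ∑ k, ∑ l, (H l k).re • S k l := by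
  have h1 : ∑ k, ∑ l, H l k * S k l = ∑ k, ∑ l, conj (H l k) * S k l := by
    rw [Finset.sum_comm]
    refine Finset.sum_congr rfl fun k _ => Finset.sum_congr rfl fun l _ => ?_
    have : conj (H l k) = H k l := hH.apply k l
    rw [this, hS]
  have h2 : (2 : ℂ) * ∑ k, ∑ l, H l k * S k l = 2 * ∑ k, ∑ l, (H l k).re • S k l := by
    rw [two_mul]
    nth_rewrite 2 [h1]
    simp only [← Finset.sum_add_distrib, Finset.mul_sum, real_smul]
    refine Finset.sum_congr rfl fun k _ => Finset.sum_congr rfl fun l _ => ?_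
    rw [← add_mul, Complex.add_conj]
    push_cast; ring
  exact mul_left_cancel₀ two_ne_zero h2

theorem lap_cx {G : Mat n} (hG : G.IsHermitian) {F : En (2 * n) → ℂ} {z : Cn n}
    (hF : ContDiffAt ℝ ∞ F (eR n z)) :
    ∑ p, ∑ q, G⁻¹ p q * wd (false, q) (wd (true, p) fun w => F (eR n w)) z =
      Lop (rm G) F (eR n z) := by
  have hH : ((zm n)ᴴ * G⁻¹ * zm n).IsHermitian :=
    Matrix.isHermitian_conjTranspose_mul_mul _ hG.inv
  have h := sum_herm hH (S := fun k l => pd k (pd l F) (eR n z))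
    fun k l => pd_symm (hF.of_le two_le_inf) k l
  rw [Lop]
  simp only [rm, Matrix.of_apply]
  rw [← h]
  simp only [wd2_eR hF, zs_false, zs_true, Matrix.mul_apply, Matrix.conjTranspose_apply,
    Finset.mul_sum, Finset.sum_mul, star_def]
  calc ∑ p, ∑ q, ∑ k, ∑ l, G⁻¹ p q * (zm n q k * conj (zm n p l) * pd k (pd l F) (eR n z))
      = ∑ p, ∑ k, ∑ l, ∑ q, G⁻¹ p q * (zm n q k * conj (zm n p l) * pd k (pd l F) (eR n z)) := by
        refine Finset.sum_congr rfl fun p _ => ?_
        rw [Finset.sum_comm]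
        exact Finset.sum_congr rfl fun k _ => Finset.sum_comm
    _ = ∑ k, ∑ l, ∑ q, ∑ p, G⁻¹ p q * (zm n q k * conj (zm n p l) * pd k (pd l F) (eR n z)) := by
        rw [Finset.sum_comm]
        refine Finset.sum_congr rfl fun k _ => ?_
        rw [Finset.sum_comm]
        exact Finset.sum_congr rfl fun l _ => Finset.sum_comm
    _ = _ := Finset.sum_congr rfl fun k _ => Finset.sum_congr rfl fun l _ =>
        Finset.sum_congr rfl fun q _ => Finset.sum_congr rfl fun p _ => by ring

/-- Kaehler symmetry of the curvature -/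
theorem Rm_symm {g : Cn n → Mat n} {z : Cn n} (h : KahAt g z) (a b c d : Fin n) :
    Rm g z c d a b = Rm g z a b c d := by
  have h1 : wd (false, c) (wd (true, d) fun y => g y a b) z =
      wd (false, a) (wd (true, b) fun y => g y c d) z := by
    have e1 : (wd (true, d) fun y => g y a b) =ᶠ[𝓝 z] wd (true, b) fun y => g y a d :=
      h.closed'.mono fun w hw => hw a b d
    have e2 : (wd (false, c) fun y => g y a d) =ᶠ[𝓝 z] wd (false, a) fun y => g y c d :=
      h.closed.mono fun w hw => hw a d c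
    rw [wd_congr e1, wd_comm (h.sm a d), wd_congr e2, wd_comm (h.sm c d)]
  have h2 := h.closed.self_of_nhds
  have h3 := h.closed'.self_of_nhds
  simp only [Rm, Matrix.add_apply, Matrix.neg_apply, Matrix.mul_apply, Gr.wdM_apply]
  congr 1
  · exact congrArg Neg.neg h1
  · refine Finset.sum_congr rfl fun l _ => ?_
    rw [h3 l b d]
    congr 1
    exact Finset.sum_congr rfl fun k _ => by rw [h2 a k c]

/-- values of the system -/
abbrev VV (n : ℕ) : Type := Fin n → Fin n → ℂ

/-- a matrix field in real coordinates -/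
def uR (G : Cn n → Mat n) (y : En (2 * n)) : VV n := fun a b => G ((eR n).symm y) a b

/-- a Wirtinger derivative from the real gradient -/
def Dm (s : WI n) (p : Fin (2 * n) → VV n) : Mat n := Matrix.of fun a b => ∑ k, zs s k * p k a b

/-- the lower order term -/
def Bq (x : VV n × (Fin (2 * n) → VV n)) : VV n := fun a b =>
  -∑ p, ∑ q, (Matrix.of x.1)⁻¹ p q * (Dm (false, q) x.2 * (Matrix.of x.1)⁻¹ * Dm (true, p) x.2) a b

/-- invertible matrices -/
def OO (n : ℕ) : Set (VV n) := {q | (Matrix.of q).det ≠ 0}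

theorem isOpen_OO : IsOpen (OO n) := by
  have : Continuous fun q : VV n => (Matrix.of q).det :=
    Continuous.matrix_det (A := fun q : VV n => Matrix.of q) (by
      exact continuous_pi fun a => continuous_pi fun b => by simp only [Matrix.of_apply]; fun_prop)
  exact isOpen_ne_fun this continuous_const

theorem cd_rmV (k l : Fin (2 * n)) :
    ContDiffOn ℝ ∞ (fun q : VV n => rm (Matrix.of q) k l) (OO n) := fun q hq =>
  cd_rm (G := fun q : VV n => Matrix.of q) (fun a b =>
    (show ContDiffAt ℝ ∞ (fun q : VV n => q a b) q by fun_prop).contDiffWithinAt) hq k l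

theorem cd_Bq : ContDiffOn ℝ ∞ (Bq (n := n)) (OO n ×ˢ univ) := by
  intro x hx
  have hi : ∀ a b, ContDiffWithinAt ℝ ∞
      (fun x : VV n × (Fin (2 * n) → VV n) => (Matrix.of x.1)⁻¹ a b) (OO n ×ˢ univ) x :=
    cd_inv (G := fun x : VV n × (Fin (2 * n) → VV n) => Matrix.of x.1) (fun a b => by
      simp only [Matrix.of_apply]; fun_prop) hx.1
  have hD : ∀ s a b, ContDiffWithinAt ℝ ∞
      (fun x : VV n × (Fin (2 * n) → VV n) => Dm s x.2 a b) (OO n ×ˢ univ) x := fun s a b => by
    simp only [Dm, Matrix.of_apply]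
    exact ContDiffWithinAt.sum fun k _ => contDiffWithinAt_const.mul (by fun_prop)
  refine contDiffWithinAt_pi.2 fun a => contDiffWithinAt_pi.2 fun b => ?_
  simp only [Bq, Matrix.mul_apply]
  exact (ContDiffWithinAt.sum fun p _ => ContDiffWithinAt.sum fun q _ => (hi p q).mul
    (ContDiffWithinAt.sum fun k _ => (ContDiffWithinAt.sum fun l _ => (hD _ a l).mul (hi l k)).mul
      (hD _ k b))).neg

/-- evaluation of an entry -/
def evE (a b : Fin n) : VV n →L[ℝ] ℂ :=
  (ContinuousLinearMap.proj (R := ℝ) (φ := fun _ : Fin n => ℂ) b).comp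
    (ContinuousLinearMap.proj (R := ℝ) (φ := fun _ : Fin n => Fin n → ℂ) a)

theorem evE_apply (a b : Fin n) (q : VV n) : evE a b q = q a b := rfl

theorem pd_ent {u : En (2 * n) → VV n} {y : En (2 * n)} (hu : DifferentiableAt ℝ u y)
    (k : Fin (2 * n)) (a b : Fin n) : pd k u y a b = pd k (fun x => u x a b) y := by
  have h : fderiv ℝ (fun x => u x a b) y = (evE a b).comp (fderiv ℝ u y) :=
    ((evE a b).hasFDerivAt.comp y hu.hasFDerivAt).fderiv
  rw [pd, pd, h]; rfl

theorem lop_ent {u : En (2 * n) → VV n} {y : En (2 * n)} (hu : ContDiffAt ℝ ∞ u y)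
    (A : Matrix (Fin (2 * n)) (Fin (2 * n)) ℝ) (a b : Fin n) :
    Lop A u y a b = Lop A (fun x => u x a b) y := by
  have h0 : ∀ᶠ x in 𝓝 y, DifferentiableAt ℝ u x := by
    filter_upwards [(hu.of_le (m := 1) (by exact_mod_cast le_top)).eventually (by simp)] with x hx
    exact hx.differentiableAt (by simp)
  simp only [Lop, Finset.sum_apply, Pi.smul_apply]
  refine Finset.sum_congr rfl fun k _ => Finset.sum_congr rfl fun l _ => ?_
  rw [pd_ent ((contDiffAt_pd (m := 1) hu two_le_inf l).differentiableAt (by simp))]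
  have h1 : (fun x => pd l u x a b) =ᶠ[𝓝 y] pd l fun x => u x a b :=
    h0.mono fun x hx => pd_ent hx l a b
  simp only [pd] at h1 ⊢
  rw [h1.fderiv_eq]

theorem cd_uR {G : Cn n → Mat n} {y : En (2 * n)}
    (h : ∀ a b, ContDiffAt ℝ ∞ (fun w => G w a b) ((eR n).symm y)) : ContDiffAt ℝ ∞ (uR G) y :=
  contDiffAt_pi.2 fun a => contDiffAt_pi.2 fun b =>
    (h a b).comp y (eR n).symm.contDiff.contDiffAt

theorem Dm_d1 {G : Cn n → Mat n} {y : En (2 * n)}
    (h : ∀ a b, ContDiffAt ℝ ∞ (fun w => G w a b) ((eR n).symm y)) (s : WI n) :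
    Dm s (d1 (uR G) y) = wdM s G ((eR n).symm y) := by
  ext a b
  have h1 := (cd_uR h).differentiableAt (by simp)
  have h2 : DifferentiableAt ℝ (fun x => uR G x a b) (eR n ((eR n).symm y)) := by
    rw [(eR n).apply_symm_apply]
    exact (evE a b).differentiableAt.comp y h1
  have h3 := wd_eR h2 s
  simp only [uR, ContinuousLinearEquiv.symm_apply_apply, ContinuousLinearEquiv.apply_symm_apply]
    at h3
  rw [Gr.wdM_apply, h3]
  simp only [Dm, Matrix.of_apply, d1, pd_ent h1, uR]

/-- the right hand side of the flow -/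
theorem hess_ldet_eq {G : Cn n → Mat n} {y : En (2 * n)} (h : KahAt G ((eR n).symm y))
    (a b : Fin n) : hess (ldet G) ((eR n).symm y) a b =
      (Lop (rm (Matrix.of (uR G y))) (uR G) y + Bq (uR G y, d1 (uR G) y)) a b := by
  set z := (eR n).symm y with hz
  have hy : eR n z = y := (eR n).apply_symm_apply y
  have h1 : hess (ldet G) z a b = -ric G z a b := by simp [ric]
  have hu := cd_uR h.sm
  have h2 : ContDiffAt ℝ ∞ (fun x => uR G x a b) (eR n z) := by
    rw [hy]; exact (evE a b).contDiff.contDiffAt.comp y hu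
  have h3 := lap_cx (h.pos.self_of_nhds.isHermitian) h2
  simp only [uR, ContinuousLinearEquiv.symm_apply_apply, hy] at h3
  have h4 : Matrix.of (uR G y) = G z := rfl
  rw [h1, ric_eq_trace h.smE h.pos, Pi.add_apply, Pi.add_apply, lop_ent hu]
  simp only [Bq, h4, Dm_d1 h.sm, uR, ← h3, Matrix.trace, Matrix.diag_apply,
    Matrix.mul_apply (M := (G z)⁻¹), ← hz]
  rw [← sub_eq_add_neg, ← Finset.sum_sub_distrib, ← Finset.sum_neg_distrib]
  refine Finset.sum_congr rfl fun p _ => ?_
  rw [← Finset.sum_sub_distrib, ← Finset.sum_neg_distrib]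
  refine Finset.sum_congr rfl fun q _ => ?_
  rw [Rm_symm h q p a b, Rm, Matrix.add_apply, Matrix.neg_apply]
  have : wdM (false, q) (wdM (true, p) G) z a b =
    wd (false, q) (wd (true, p) fun w => G w a b) z := rfl
  rw [this]; ring

/-- **KRF as a quasilinear system** -/
theorem krf_ql {G : ℝ → Cn n → Mat n} {t : ℝ} {y : En (2 * n)} (h : KRFat G t ((eR n).symm y)) :
    HasDerivAt (fun s => uR (G s) y)
      (Lop (rm (Matrix.of (uR (G t) y))) (uR (G t)) y + Bq (uR (G t) y, d1 (uR (G t)) y)) t := by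
  refine hasDerivAt_pi.2 fun a => hasDerivAt_pi.2 fun b => ?_
  rw [← hess_ldet_eq h.kahAt]
  exact h.flow.self_of_nhds a b

theorem cd_uRt {G : ℝ → Cn n → Mat n} {t : ℝ} {y : En (2 * n)} (h : KRFat G t ((eR n).symm y)) :
    ContDiffAt ℝ ∞ (fun q : ℝ × En (2 * n) => uR (G q.1) q.2) (t, y) :=
  contDiffAt_pi.2 fun a => contDiffAt_pi.2 fun b =>
    ContDiffAt.comp (g := fun q : ℝ × Cn n => G q.1 q.2 a b)
      (f := fun q : ℝ × En (2 * n) => (q.1, (eR n).symm q.2)) (t, y) (h.sm a b) (by fun_prop)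

end

end Crest.Agent.T223.Rn
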