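import Crest.Agent.T223.FrB_38
import Crest.Agent.T223.TrPb_90

/-!
# Row 223, RENEW / WRAP (helper17), part A: the scaling kit

* constant multiples `cs c g` of a metric: `kahAt_cs`, `bkge_cs`, `bkle_cs`, `gsq_cs`, `lap_cs`
* parabolic rescaling `ps a t1 g s = a⁻¹ g (t1 + a s)`: `krf_ps`, `box_ps`
* dilation of a chart `dil c ψ w = ψ (c w)`: `imm_dil`, `pull_dil`
-/

set_option autoImplicit false
set_option linter.unusedVariables false

open Set Filter Topology Metric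
open scoped ContDiff ComplexConjugate Matrix ComplexOrder

namespace Crest.Agent.T223.Rn17

open Crest.Agent.R275.Geo Crest.Agent.R275.EDR890 Crest.Agent.R273.Kah_333
open Crest.Agent.R273.Hess_333 Crest.Agent.R273.HessB_333
open Crest.Agent.T223.Br Crest.Agent.T223.Tr

noncomputable section

variable {n : ℕ}

/-- constant multiple of a matrix field -/
def cs (c : ℝ) (g : Cn n → Mat n) : Cn n → Mat n := fun w => (c : ℂ) • g w

section static

variable {g : Cn n → Mat n} {z : Cn n} {c : ℝ}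

theorem cs_apply (c : ℝ) (g : Cn n → Mat n) (w : Cn n) : cs c g w = (c : ℂ) • g w := rfl

theorem nq_cs (c : ℝ) (g : Cn n → Mat n) (w v : Cn n) : nq (cs c g w) v = c * nq (g w) v :=
  nq_smul _ _ _

theorem posDef_smul {G : Mat n} (h : G.PosDef) (hc : 0 < c) : ((c : ℂ) • G).PosDef :=
  h.smul (Complex.zero_lt_real.2 hc)

theorem wd_cs (hg : SmM g z) (c : ℝ) (s : WI n) (a b : Fin n) :
    wd s (fun w => cs c g w a b) z = (c : ℂ) * wd s (fun w => g w a b) z :=
  congrFun (congrFun (wdM_const_smul (c : ℂ) hg s) a) b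

theorem kahAt_cs (hg : KahAt g z) (hc : 0 < c) : KahAt (cs c g) z := by
  refine ⟨?_, ?_, ?_, ?_⟩
  · filter_upwards [hg.smE] with w hw a b
    exact contDiffAt_const.mul (hw a b)
  · filter_upwards [hg.pos] with w hw
    exact posDef_smul hw hc
  · filter_upwards [hg.smE, hg.closed] with w h1 h2 a b d
    rw [wd_cs h1, wd_cs h1, h2]
  · filter_upwards [hg.smE, hg.closed'] with w h1 h2 a b d
    rw [wd_cs h1, wd_cs h1, h2]

theorem inv_smul' {G : Mat n} (h : G.det ≠ 0) (hc : c ≠ 0) :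
    ((c : ℂ) • G)⁻¹ = ((c⁻¹ : ℝ) : ℂ) • G⁻¹ := by
  have hc' : (c : ℂ) ≠ 0 := Complex.ofReal_ne_zero.2 hc
  have : Invertible (c : ℂ) := invertibleOfNonzero hc'
  rw [Matrix.inv_smul _ (c : ℂ) (isUnit_iff_ne_zero.2 h), invOf_eq_inv, Complex.ofReal_inv]

theorem Rm_cs (hg : KahAt g z) (hc : c ≠ 0) (a b : Fin n) :
    Rm (cs c g) z a b = (c : ℂ) • Rm g z a b := by
  have h1 : wdM (true, b) (fun w => (c : ℂ) • g w) =ᶠ[𝓝 z] fun w => (c : ℂ) • wdM (true, b) g w :=
    hg.smE.mono fun w hw => wdM_const_smul _ hw _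
  have hs : SmM g z := hg.sm
  have hc' : (c : ℂ) ≠ 0 := Complex.ofReal_ne_zero.2 hc
  unfold Rm cs
  rw [wdM_congr h1, wdM_const_smul _ (hs.wdM _), wdM_const_smul _ hs, wdM_const_smul _ hs,
    inv_smul' hg.det_ne hc]
  simp only [Matrix.smul_mul, Matrix.mul_smul, smul_smul, smul_add, smul_neg, Complex.ofReal_inv]
  congr 2
  field_simp

theorem bis_cs (hg : KahAt g z) (hc : c ≠ 0) (v w : Cn n) :
    bis (cs c g) z v w = c * bis g z v w := by
  rw [bis_eq, bis_eq, ← Complex.re_ofReal_mul]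
  congr 1
  simp only [Rm_cs hg hc, hC_smul, Finset.mul_sum, mul_assoc]

theorem bkge_cs (hg : KahAt g z) (hc : 0 < c) {l l' : ℝ} (h : BKge g z l) (hl : l ≤ l' * c) :
    BKge (cs c g) z l' := by
  intro v w
  rw [bis_cs hg hc.ne', nq_cs, nq_cs]
  have h1 := nq_nonneg hg.posDef.posSemidef v
  have h2 := nq_nonneg hg.posDef.posSemidef w
  have h3 : l * nq (g z) v * nq (g z) w ≤ l' * c * nq (g z) v * nq (g z) w := by gcongr
  have h4 := mul_le_mul_of_nonneg_left ((neg_le_neg h3).trans (h v w)) hc.le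
  refine le_trans (le_of_eq ?_) h4
  ring

theorem bkle_cs (hg : KahAt g z) (hc : 0 < c) {l l' : ℝ} (h : BKle g z l) (hl : l ≤ l' * c) :
    BKle (cs c g) z l' := by
  intro v w
  rw [bis_cs hg hc.ne', nq_cs, nq_cs]
  have h1 := nq_nonneg hg.posDef.posSemidef v
  have h2 := nq_nonneg hg.posDef.posSemidef w
  have h3 : l * nq (g z) v * nq (g z) w ≤ l' * c * nq (g z) v * nq (g z) w := by gcongr
  have h4 := mul_le_mul_of_nonneg_left ((h v w).trans h3) hc.le
  refine h4.trans (le_of_eq ?_)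
  ring

theorem trg_smul_left {G : Mat n} (h : G.det ≠ 0) (hc : c ≠ 0) (H : Mat n) :
    trg ((c : ℂ) • G) H = c⁻¹ * trg G H := by
  unfold trg
  rw [inv_smul' h hc, Matrix.smul_mul, Matrix.trace_smul, smul_eq_mul, Complex.re_ofReal_mul]

theorem gsq_cs (h : (g z).det ≠ 0) (hc : c ≠ 0) (φ : Cn n → ℝ) :
    gsq (cs c g) φ z = c⁻¹ * gsq g φ z := by
  unfold gsq
  rw [nqi_eq_trg, nqi_eq_trg, cs_apply, trg_smul_left h hc]

theorem lap_cs (h : (g z).det ≠ 0) (hc : c ≠ 0) (φ : Cn n → ℝ) :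
    lap (cs c g) φ z = c⁻¹ * lap g φ z := trg_smul_left h hc _

theorem hess_const (k : ℝ) (z : Cn n) : hess (fun _ : Cn n => k) z = 0 := by
  ext a b
  rw [hess_apply]
  have e : wd (true, b) (cu fun _ : Cn n => k) = fun _ => 0 := funext fun w => wd_const _ _ _
  rw [e, wd_const]
  rfl

theorem hess_ldet_cs (hg : KahAt g z) (hc : 0 < c) :
    hess (ldet (cs c g)) z = hess (ldet g) z := by
  have e : ldet (cs c g) =ᶠ[𝓝 z] fun w => Real.log (c ^ n) + ldet g w := by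
    filter_upwards [hg.pos] with w hw
    unfold ldet
    rw [cs_apply, Matrix.det_smul, Fintype.card_fin, ← Complex.ofReal_pow, Complex.re_ofReal_mul,
      Real.log_mul (by positivity) (det_re_pos hw).ne']
  rw [hess_congr e, hess_add contDiffAt_const hg.cd_ldet, hess_const, zero_add]

end static

/-- parabolic rescaling of a flow -/
def ps (a t1 : ℝ) (g : ℝ → Cn n → Mat n) : ℝ → Cn n → Mat n := fun s => cs a⁻¹ (g (t1 + a * s))

theorem hasDerivAt_aff (a t1 s : ℝ) : HasDerivAt (fun s : ℝ => t1 + a * s) a s := by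
  simpa using ((hasDerivAt_id s).const_mul a).const_add t1

theorem cd_aff (a t1 : ℝ) :
    ContDiff ℝ ∞ fun q : ℝ × Cn n => ((t1 + a * q.1, q.2) : ℝ × Cn n) :=
  (contDiff_const.add (contDiff_const.mul contDiff_fst)).prodMk contDiff_snd

theorem krf_ps {g : ℝ → Cn n → Mat n} {a t1 s : ℝ} {z : Cn n} (ha : 0 < a)
    (h : KRFat g (t1 + a * s) z) : KRFat (ps a t1 g) s z := by
  have hc : Tendsto (fun q : ℝ × Cn n => ((t1 + a * q.1, q.2) : ℝ × Cn n)) (𝓝 (s, z))
      (𝓝 (t1 + a * s, z)) := (cd_aff a t1).continuous.continuousAt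
  have h1 : ∀ᶠ q : ℝ × Cn n in 𝓝 (s, z), KRFat g (t1 + a * q.1) q.2 :=
    hc.eventually h.eventually
  have ha' : 0 < a⁻¹ := inv_pos.2 ha
  have e2 : ∀ᶠ q : ℝ × Cn n in 𝓝 (s, z), KahAt (ps a t1 g q.1) q.2 :=
    h1.mono fun q hq => kahAt_cs hq.kahAt ha'
  refine ⟨?_, e2.mono fun q hq => hq.posDef, e2.mono fun q hq => hq.closed.self_of_nhds,
    e2.mono fun q hq => hq.closed'.self_of_nhds, ?_⟩
  · filter_upwards [h1] with q hq k l
    exact contDiffAt_const.mul (ContDiffAt.comp q (g := fun r : ℝ × Cn n => g r.1 r.2 k l)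
      (f := fun q : ℝ × Cn n => ((t1 + a * q.1, q.2) : ℝ × Cn n)) (hq.sm k l)
      (cd_aff a t1).contDiffAt)
  · filter_upwards [h1] with q hq k l
    have h2 := (hq.flow.self_of_nhds k l).scomp q.1 (hasDerivAt_aff a t1 q.1)
    have h3 := h2.const_mul ((a⁻¹ : ℝ) : ℂ)
    unfold ps
    rw [hess_ldet_cs hq.kahAt ha']
    refine h3.congr_deriv ?_
    have ha2 : (a : ℂ) ≠ 0 := Complex.ofReal_ne_zero.2 ha.ne'
    simp only [Complex.real_smul, Complex.ofReal_inv]
    field_simp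

theorem box_ps {g : ℝ → Cn n → Mat n} {φ : ℝ → Cn n → ℝ} {a t1 s : ℝ} {z : Cn n} (ha : 0 < a)
    (h : (g (t1 + a * s) z).det ≠ 0) (hφ : DifferentiableAt ℝ (fun s => φ s z) (t1 + a * s)) :
    box (ps a t1 g) (fun s => φ (t1 + a * s)) s z = a * box g φ (t1 + a * s) z := by
  have h1 : deriv (fun s => φ (t1 + a * s) z) s = a * deriv (fun s => φ s z) (t1 + a * s) :=
    (HasDerivAt.scomp (g₁ := fun s => φ s z) (h := fun s => t1 + a * s) s hφ.hasDerivAt
      (hasDerivAt_aff a t1 s)).deriv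
  unfold box ps
  rw [lap_cs h (inv_pos.2 ha).ne', inv_inv, h1]
  ring

/-! ### dilation of a chart -/

variable {M : Type} [TopologicalSpace M] {A : Atl n M}

/-- `ψ (c w)` -/
def dil (c : ℝ) (ψ : Cn n → M) : Cn n → M := fun w => ψ ((c : ℂ) • w)

theorem fderiv_rd_dil (c : ℝ) (ψ : Cn n → M) (i : A.ι) (w : Cn n) :
    fderiv ℂ (rd A i (dil c ψ)) w = (c : ℂ) • fderiv ℂ (rd A i ψ) ((c : ℂ) • w) :=
  fderiv_comp_smul (f := rd A i ψ) (c : ℂ)

theorem dil_mem {R : ℝ} (hR : 0 < R) {w : Cn n} (hw : w ∈ ball (0 : Cn n) R) :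
    ((R⁻¹ : ℝ) : ℂ) • w ∈ ball (0 : Cn n) 1 := by
  rw [mem_ball_zero_iff] at hw ⊢
  rw [norm_smul, Complex.norm_real, Real.norm_eq_abs, abs_of_pos (inv_pos.2 hR), inv_mul_lt_one₀ hR]
  exact hw

theorem imm_dil {ψ : Cn n → M} (h : Imm A ψ (ball 0 1)) {R : ℝ} (hR : 0 < R) :
    Imm A (dil R⁻¹ ψ) (ball 0 R) := by
  have hd : ∀ w : Cn n, DifferentiableAt ℂ (fun w : Cn n => ((R⁻¹ : ℝ) : ℂ) • w) w := fun w =>
    differentiableAt_id.fun_const_smul _
  refine ⟨fun w hw => ⟨?_, fun i hi => ?_⟩, fun w hw i hi => ?_⟩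
  · exact ContinuousAt.comp (g := ψ) (h.1 _ (dil_mem hR hw)).1 (hd w).continuousAt
  · exact DifferentiableAt.comp (g := rd A i ψ) w ((h.1 _ (dil_mem hR hw)).2 i hi) (hd w)
  · rw [fderiv_rd_dil]
    intro v v' hv
    have hc : ((R⁻¹ : ℝ) : ℂ) ≠ 0 := Complex.ofReal_ne_zero.2 (inv_pos.2 hR).ne'
    exact h.2 _ (dil_mem hR hw) i hi (smul_right_injective _ hc hv)

theorem pull_dil (G : MF A) (c : ℝ) (ψ : Cn n → M) (w : Cn n) :
    pull G (dil c ψ) w = ((c ^ 2 : ℝ) : ℂ) • pull G ψ ((c : ℂ) • w) := by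
  have e : ∀ i, jac (rd A i (dil c ψ)) w = (c : ℂ) • jac (rd A i ψ) ((c : ℂ) • w) := by
    intro i
    ext b a
    simp only [jac, fderiv_rd_dil, Matrix.of_apply, Matrix.smul_apply,
      _root_.smul_apply, PiLp.smul_apply]
  have e2 : ∀ J : Mat n, ((c : ℂ) • J).map conj = (c : ℂ) • J.map conj := by
    intro J
    ext a b
    simp
  unfold pull pbF
  rw [e, e2, Matrix.transpose_smul]
  simp only [Matrix.smul_mul, Matrix.mul_smul, smul_smul, sq, Complex.ofReal_mul]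
  rfl

end

end Crest.Agent.T223.Rn17
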