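import Crest.Agent.T223.RnSc_17
import Crest.Agent.T223.RnDef_44
import Crest.Agent.T223.OsKitA_61
import Crest.Agent.T223.LoSt_18

/-!
# Row 223, RENEW / WRAP (helper17), part B: the rescaled flow in a quasi-chart
-/

set_option autoImplicit false
set_option linter.unusedVariables false

open Set Filter Topology Metric
open scoped ContDiff ComplexConjugate Matrix ComplexOrder

namespace Crest.Agent.T223.Rn17

open Crest.Agent.R275.Geo Crest.Agent.T223.Br Crest.Agent.T223.Tr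
open Crest.Agent.T223.Os Crest.Agent.T223.Rn
open Crest.Agent.T223.Db (dom SmST)

noncomputable section

variable {n : ℕ} {M : Type} [TopologicalSpace M] {A : Atl n M}

/-- a quasi-chart on the ball of radius `R` -/
structure QR (G : MF A) (V : Set M) (x : M) (R r ε : ℝ) (ψ : Cn n → M) : Prop where
  imm : Imm A ψ (ball 0 R)
  maps : MapsTo ψ (ball 0 R) V
  zero : ψ 0 = x
  ctr : pull G ψ 0 = ((r ^ 2 : ℝ) : ℂ) • (1 : Mat n)
  lo : ∀ w ∈ ball (0 : Cn n) R, ∀ v, (1 - ε) * r ^ 2 * ‖v‖ ^ 2 ≤ nq (pull G ψ w) v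
  hi : ∀ w ∈ ball (0 : Cn n) R, ∀ v, nq (pull G ψ w) v ≤ (1 + ε) * r ^ 2 * ‖v‖ ^ 2

theorem qr_of_qc {G : MF A} {V : Set M} {x : M} {R r ε : ℝ} {ψ : Cn n → M} (hR : 0 < R)
    (h : QC G V x (R * r) ε ψ) : QR G V x R r ε (dil R⁻¹ ψ) := by
  have hR2 : 0 < R⁻¹ ^ 2 := by positivity
  refine ⟨imm_dil h.imm hR, fun w hw => h.maps (dil_mem hR hw), ?_, ?_, fun w hw v => ?_,
    fun w hw v => ?_⟩
  · simp only [dil, smul_zero, h.zero]
  · rw [pull_dil, smul_zero, h.ctr, smul_smul, ← Complex.ofReal_mul]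
    congr 2
    field_simp
  · rw [pull_dil, nq_smul]
    refine le_trans (le_of_eq ?_) (mul_le_mul_of_nonneg_left (h.lo _ (dil_mem hR hw) v) hR2.le)
    field_simp
  · rw [pull_dil, nq_smul]
    refine (mul_le_mul_of_nonneg_left (h.hi _ (dil_mem hR hw) v) hR2.le).trans (le_of_eq ?_)
    field_simp

theorem QR.qc {G : MF A} {V W : Set M} {x : M} {R r ε ε' : ℝ} {ψ : Cn n → M}
    (h : QR G V x R r ε ψ) (hR : 1 ≤ R) (hW : V ⊆ W) (hε : ε ≤ ε') : QC G W x r ε' ψ := by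
  have hs : ball (0 : Cn n) 1 ⊆ ball 0 R := ball_subset_ball hR
  refine ⟨⟨fun w hw => h.imm.1 w (hs hw), fun w hw => h.imm.2 w (hs hw)⟩,
    fun w hw => hW (h.maps (hs hw)), h.zero, h.ctr, fun w hw v => ?_, fun w hw v => ?_⟩
  · refine le_trans ?_ (h.lo w (hs hw) v)
    gcongr
  · refine (h.hi w (hs hw) v).trans ?_
    gcongr

section flow

variable {U : Set M} {g : ℝ → MF A} {f : ℝ → M → ℝ} {t b τ : ℝ} {ψ : Cn n → M} {D : Set (Cn n)}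
  {w : Cn n}

theorem relT_flow (hU : IsOpen U) (hg : FlowOn t b U g) (hτ : τ ∈ Ioo t b) (hψ : Imm A ψ D)
    (hD : IsOpen D) (hw : w ∈ D) (hx : ψ w ∈ U) :
    RelT (rd A (ch A (ψ w)) ψ) τ w (fun s => pull (g s) ψ) (fun s => g s (ch A (ψ w))) := by
  refine relT_pull hψ hD hw ?_ (ch_mem A _) (hg.krf τ hτ _ _ (ch_mem A _) hx)
  filter_upwards [prod_mem_nhds (Icc_mem_nhds hτ.1 hτ.2) (hU.mem_nhds hx)] with q hq
  exact (hg.kah q.1 hq.1).tr.mono (singleton_subset_iff.2 hq.2)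

theorem cd_chart (hU : IsOpen U) (hf : SmST A (Icc t b) U f) (hτ : τ ∈ Ioo t b) {i : A.ι} {x : M}
    (hi : x ∈ (A.e i).source) (hx : x ∈ U) :
    ContDiffAt ℝ ∞ (fun q : ℝ × Cn n => inC A i (f q.1) q.2) (τ, A.e i x) :=
  (hf i).contDiffAt (prod_mem_nhds (Icc_mem_nhds hτ.1 hτ.2) (dom_nhds hU hi hx))

theorem ev_pull (hc : ContinuousAt ψ w) {i : A.ι} (hi : ψ w ∈ (A.e i).source) (f : ℝ → M → ℝ)
    (τ : ℝ) : ∀ᶠ q : ℝ × Cn n in 𝓝 (τ, w), f q.1 (ψ q.2) = inC A i (f q.1) (rd A i ψ q.2) := by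
  have hs : Tendsto (fun q : ℝ × Cn n => q.2) (𝓝 (τ, w)) (𝓝 w) := continuousAt_snd
  filter_upwards [hs.eventually (hc ((A.e i).open_source.mem_nhds hi))] with q hq
  exact (inC_apply hq (f q.1)).symm

theorem cd_pull (hU : IsOpen U) (hf : SmST A (Icc t b) U f) (hτ : τ ∈ Ioo t b) (hψ : Imm A ψ D)
    (hD : IsOpen D) (hw : w ∈ D) (hx : ψ w ∈ U) :
    ContDiffAt ℝ ∞ (fun q : ℝ × Cn n => f q.1 (ψ q.2)) (τ, w) :=
  (ContDiffAt.comp (τ, w) (g := fun q : ℝ × Cn n => inC A (ch A (ψ w)) (f q.1) q.2)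
    (f := fun q : ℝ × Cn n => (q.1, rd A (ch A (ψ w)) ψ q.2))
    (cd_chart hU hf hτ (ch_mem A _) hx)
    (contDiffAt_fst.prodMk (cd_static τ (holAt_rd hψ.1 hD hw (ch_mem A _)).cd))).congr_of_eventuallyEq
    (ev_pull (hψ.1 w hw).1 (ch_mem A _) f τ)

theorem box_pull (hU : IsOpen U) (hg : FlowOn t b U g) (hf : HeatOn t b U g f) (hτ : τ ∈ Ioo t b)
    (hψ : Imm A ψ D) (hD : IsOpen D) (hw : w ∈ D) (hx : ψ w ∈ U) :
    box (fun s => pull (g s) ψ) (fun s y => f s (ψ y)) τ w = 0 := by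
  rw [(relT_flow hU hg hτ hψ hD hw hx).box (φ2 := fun s => inC A (ch A (ψ w)) (f s))
    (cd_slice (F := fun s => inC A (ch A (ψ w)) (f s)) (cd_chart hU hf.sm hτ (ch_mem A _) hx))
    (ev_pull (hψ.1 w hw).1 (ch_mem A _) f τ)]
  exact hf.eq τ hτ _ _ (ch_mem A _) hx

variable {V : Set M} {x : M} {R r ε ε' θ t1 l κ : ℝ}

theorem cf_pull (hU : IsOpen U) (hg : FlowOn t b U g) (hV : V ⊆ U) (hr : 0 < r)
    (hq : QR (g t1) V x R r ε ψ) (hε : ε ≤ ε') (hI : ∀ s ∈ Icc (-θ) 0, t1 + r ^ 2 * s ∈ Ioo t b)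
    (hb : ∀ s ∈ Icc (-θ) 0, ∀ y ∈ V, BkAbs (g (t1 + r ^ 2 * s)) l y) (hl : l * r ^ 2 ≤ ε') :
    CF R θ ε' (ps (r ^ 2) t1 fun s => pull (g s) ψ) := by
  have hr2 : 0 < r ^ 2 := by positivity
  have hl' : l ≤ ε' * (r ^ 2)⁻¹ := by rwa [← div_eq_mul_inv, le_div_iff₀ hr2]
  have e0 : ∀ w v, nq (ps (r ^ 2) t1 (fun s => pull (g s) ψ) 0 w) v =
      (r ^ 2)⁻¹ * nq (pull (g t1) ψ w) v := fun w v => by
    simp only [ps, mul_zero, add_zero, nq_cs]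
  refine ⟨fun s hs w hw => ?_, fun s hs w hw => ?_, fun w hw v => ?_, fun w hw v => ?_⟩
  · exact krf_ps hr2 (relT_flow hU hg (hI s hs) hq.imm isOpen_ball hw (hV (hq.maps hw))).krfAt
  · have h1 := (relT_flow hU hg (hI s hs) hq.imm isOpen_ball hw (hV (hq.maps hw))).rel
    have h2 := hb s hs _ (hq.maps hw) _ (ch_mem A _)
    exact ⟨bkge_cs h1.kahAt (inv_pos.2 hr2) ((h1.bkge l).2 h2.1) hl',
      bkle_cs h1.kahAt (inv_pos.2 hr2) ((h1.bkle l).2 h2.2) hl'⟩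
  · rw [e0, inv_mul_eq_div, le_div_iff₀ hr2]
    refine le_trans ?_ (hq.lo w hw v)
    rw [mul_right_comm]
    gcongr
  · rw [e0, inv_mul_eq_div, div_le_iff₀ hr2]
    refine (hq.hi w hw v).trans ?_
    rw [mul_right_comm]
    gcongr

theorem gsq_ps (hU : IsOpen U) (hg : FlowOn t b U g) (hf : SmST A (Icc t b) U f) {a s : ℝ}
    (ha : 0 < a) (hτ : t1 + a * s ∈ Ioo t b) (hψ : Imm A ψ D) (hD : IsOpen D) (hw : w ∈ D)
    (hx : ψ w ∈ U) :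
    gsq (ps a t1 (fun s => pull (g s) ψ) s) (fun y => f (t1 + a * s) (ψ y)) w =
      a * Gr (g (t1 + a * s)) (f (t1 + a * s)) (ψ w) := by
  have hI := Ioo_subset_Icc_self hτ
  rw [Gr_pull (hg.kah _ hI) hU hψ hD hw hx (smOn_of_SmST hf hI), ps,
    gsq_cs (relT_flow hU hg hτ hψ hD hw hx).krfAt.det_ne (inv_pos.2 ha).ne', inv_inv]

theorem hf_pull (hU : IsOpen U) (hg : FlowOn t b U g) (hf : HeatOn t b U g f) (hV : V ⊆ U)
    (hr : 0 < r) (hq : QR (g t1) V x R r ε ψ)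
    (hI : ∀ s ∈ Icc (-θ) 0, t1 + r ^ 2 * s ∈ Ioo t b)
    (hb : ∀ s ∈ Icc (-θ) 0, ∀ y ∈ V, Gr (g (t1 + r ^ 2 * s)) (f (t1 + r ^ 2 * s)) y ≤ l)
    (hl : l * r ^ 2 ≤ κ ^ 2) :
    HF R θ κ (ps (r ^ 2) t1 fun s => pull (g s) ψ) fun s y => f (t1 + r ^ 2 * s) (ψ y) := by
  have hr2 : 0 < r ^ 2 := by positivity
  refine ⟨fun s hs w hw => ?_, fun s hs w hw => ?_, fun s hs w hw => ?_⟩
  · exact ContDiffAt.comp (s, w) (g := fun q : ℝ × Cn n => f q.1 (ψ q.2))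
      (f := fun q : ℝ × Cn n => ((t1 + r ^ 2 * q.1, q.2) : ℝ × Cn n))
      (cd_pull hU hf.sm (hI s hs) hq.imm isOpen_ball hw (hV (hq.maps hw))) (cd_aff _ _).contDiffAt
  · have h1 := box_ps (g := fun s => pull (g s) ψ) (φ := fun s y => f s (ψ y)) (t1 := t1) (s := s)
      (z := w) hr2 (relT_flow hU hg (hI s hs) hq.imm isOpen_ball hw (hV (hq.maps hw))).krfAt.det_ne
      ((cd_line (F := fun s y => f s (ψ y)) (cd_pull hU hf.sm (hI s hs) hq.imm isOpen_ball hw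
        (hV (hq.maps hw)))).differentiableAt (by simp))
    rw [box_pull hU hg hf (hI s hs) hq.imm isOpen_ball hw (hV (hq.maps hw)), mul_zero] at h1
    exact h1
  · rw [gsq_ps hU hg hf.sm hr2 (hI s hs) hq.imm isOpen_ball hw (hV (hq.maps hw))]
    refine le_trans ?_ hl
    rw [mul_comm l]
    exact mul_le_mul_of_nonneg_left (hb s hs _ (hq.maps hw)) hr2.le

end flow

/-- undo the scaling in the derivative bounds of the metric -/
theorem dG_unscale {g : Cn n → Mat n} {w : Cn n} (hg : SmM g w) {a : ℝ} (ha : 0 < a) {j : ℕ}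
    {k l : Fin n} (h : ‖iteratedFDeriv ℝ j (fun y => cs a⁻¹ g y k l) w‖ ≤ 1) :
    ‖iteratedFDeriv ℝ j (fun y => g y k l) w‖ ≤ a := by
  have e : (fun y => cs a⁻¹ g y k l) = fun y => (a⁻¹ : ℝ) • g y k l := rfl
  rw [e, iteratedFDeriv_const_smul_apply' ((hg k l).of_le (by exact_mod_cast le_top)), norm_smul,
    Real.norm_eq_abs, abs_of_pos (inv_pos.2 ha), inv_mul_le_iff₀ ha, mul_one] at h
  exact h

/-- the first derivative from the gradient bound -/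
theorem d1_bound {G : Mat n} (hG : G.PosDef) {f : Cn n → ℝ} {w : Cn n}
    (hf : DifferentiableAt ℝ f w) {r : ℝ} (hr : 0 < r) (h1 : nqi G (dz f w) ≤ 2)
    (h2 : ∀ v, nq G v ≤ (1 + 1 / 10) * r ^ 2 * ‖v‖ ^ 2) : ‖fderiv ℝ f w‖ ≤ 4 * r := by
  refine ContinuousLinearMap.opNorm_le_bound _ (by positivity) fun v => ?_
  rw [Real.norm_eq_abs]
  refine abs_le_of_sq_le_sq' ?_ (by positivity) |> abs_le.2
  have h3 := Lo.fderiv_sq_le hf hG v
  have h4 := nq_nonneg hG.posSemidef v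
  have h5 : 0 ≤ r ^ 2 * ‖v‖ ^ 2 := by positivity
  have h6 := h2 v
  have h7 : 4 * nqi G (dz f w) * nq G v ≤ 4 * 2 * nq G v := by gcongr
  nlinarith

/-- the Lipschitz bound at the end of the window (`Rn48.lipEnd`) -/
def LipEnd (n : ℕ) (cL : ℝ) : Prop :=
  ∀ (M : Type) [TopologicalSpace M] (A : Atl n M) (U V : Set M) (g : ℝ → MF A) (ρ : ℝ → M → ℝ)
    (t b t1 l : ℝ), IsOpen U → t ≤ t1 → t1 < b → FlowOn t b U g → SmST A (Icc t b) U ρ → V ⊆ U →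
    0 ≤ l → l * (t1 - t) ≤ 1 → (∀ s ∈ Icc t t1, ∀ x ∈ V, BkAbs (g s) l x) →
    (∀ x ∈ V, Gr (g t) (ρ t) x ≤ 2) → LipOn (g t1) V cL (ρ t)

theorem wrap_of {cL : ℝ} (hcL : 0 < cL) (hL : LipEnd n cL) : WrapStmt n := by
  intro hQ hC δ hδ hδ1
  obtain ⟨R, ε, C, hR, hε, hC0, hC⟩ := hC (δ / 8) (by positivity) (by linarith)
  obtain ⟨εQ, NQ, hεQ, hNQ, hQ⟩ := hQ (min ε (1 / 10)) (lt_min hε (by norm_num))
  have hR0 : 0 < R := by linarith
  obtain ⟨ε0, hε0, k1, k2, k3, k4⟩ : ∃ ε0 : ℝ, 0 < ε0 ∧ ε0 * (4 * R ^ 2) ≤ εQ ∧ 4 * ε0 ≤ ε ∧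
      4 * ε0 ≤ C⁻¹ ^ 2 ∧ ε0 ≤ 1 := by
    refine ⟨min (min (εQ / (4 * R ^ 2)) (ε / 4)) (min (C⁻¹ ^ 2 / 4) 1), by positivity, ?_, ?_, ?_,
      (min_le_right _ _).trans (min_le_right _ _)⟩
    · rw [← le_div_iff₀ (by positivity)]
      exact (min_le_left _ _).trans (min_le_left _ _)
    · rw [← le_div_iff₀' (by positivity)]
      exact (min_le_left _ _).trans (min_le_right _ _)
    · rw [← le_div_iff₀' (by positivity)]
      exact (min_le_right _ _).trans (min_le_left _ _)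
  refine ⟨ε0, 1 + NQ * cL * (2 * R), max 4 (2 * C), hε0, by positivity, le_max_left _ _, ?_⟩
  intro M _ _ A U g u ρ t b r c hU hr hb hg hu hρ hK hB r' hr' x hx hxρ
  have hr2 : 0 < r ^ 2 := by positivity
  have hr'0 : 0 < r' := hr.trans_le hr'.1
  have hr'2 : 0 < r' ^ 2 := by positivity
  have hrr : r' ^ 2 ≤ 4 * r ^ 2 := by nlinarith [hr'.2]
  have hδr : 0 < δ * r ^ 2 := by positivity
  set t1 := t + δ * r ^ 2 with ht1
  have htt : t < t1 := by linarith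
  have hρc : ContinuousOn (ρ t) U :=
    (smOn_of_SmST hρ.sm ⟨le_rfl, (htt.trans hb).le⟩).continuousOn
  set U1 : Set M := {y | y ∈ U ∧ ρ t y < c} with hU1
  have hU1o : IsOpen U1 := hρc.isOpen_inter_preimage hU isOpen_Iio
  have hU1U : U1 ⊆ U := fun y hy => hy.1
  set V : Set M := {y | y ∈ U1 ∧ ρ t y ≤ c - r} with hV
  have hVK : V ⊆ {y | y ∈ U ∧ ρ t y ≤ c} := fun y hy => ⟨hy.1.1, hy.1.2.le⟩
  have hVU : V ⊆ U := fun y hy => hy.1.1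
  have hVc : IsCompact V := by
    have e : V = {y | y ∈ U ∧ ρ t y ≤ c} ∩ ρ t ⁻¹' Iic (c - r) := by
      ext y
      exact ⟨fun hy => ⟨hVK hy, hy.2⟩, fun hy => ⟨⟨hy.1.1, by
        have := hy.2; simp only [mem_preimage, mem_Iic] at this; linarith⟩, hy.2⟩⟩
    rw [e]
    exact hK.of_isClosed_subset ((hρc.mono fun y hy => hy.1).preimage_isClosed_of_isClosed
      hK.isClosed isClosed_Iic) inter_subset_left
  have hlip : LipOn (g t1) U1 cL (ρ t) := by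
    refine hL M A U U1 g ρ t b t1 (ε0 / r ^ 2) hU htt.le hb hg hρ.sm hU1U (by positivity) ?_
      (fun s hs y hy => (hB s hs y hy.1 hy.2.le).1)
      (fun y hy => (hB t ⟨le_rfl, htt.le⟩ y hy.1 hy.2.le).2.2)
    have : ε0 / r ^ 2 * (t1 - t) = ε0 * δ := by rw [ht1]; field_simp; ring
    rw [this]
    exact mul_le_one₀ k4 hδ.le hδ1
  have hk1 : KahOn (g t1) U := hg.kah t1 ⟨htt.le, hb.le⟩
  have hNr : 0 < NQ * cL * R := by positivity
  obtain ⟨ψ0, hψ0⟩ := hQ M A (g t1) U1 (ρ t) cL (R * r') (c - r) hU1o (hk1.mono hU1U) hcL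
    (by positivity) hlip hVc (fun i y hi hy hy' => by
      refine BkAbs.mono hk1 hy.1 (hB t1 ⟨htt.le, le_rfl⟩ y hy.1 hy.2.le).1 ?_ i hi
      rw [div_le_div_iff₀ hr2 (by positivity)]
      calc ε0 * (R * r') ^ 2 = ε0 * R ^ 2 * r' ^ 2 := by ring
        _ ≤ ε0 * R ^ 2 * (4 * r ^ 2) := by gcongr
        _ = ε0 * (4 * R ^ 2) * r ^ 2 := by ring
        _ ≤ εQ * r ^ 2 := by gcongr) x
    ⟨hx, by nlinarith [mul_pos hNr hr]⟩ (by nlinarith [mul_le_mul_of_nonneg_left hr'.2 hNr.le])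
  have hq := qr_of_qc hR0 hψ0
  set ψ := dil R⁻¹ ψ0 with hψ
  have hI' : ∀ s ∈ Icc (-(δ / 8)) 0, t < t1 + r' ^ 2 * s ∧ t1 + r' ^ 2 * s ≤ t1 := by
    intro s hs
    have h1 : r' ^ 2 * s ≤ 0 := mul_nonpos_of_nonneg_of_nonpos hr'2.le hs.2
    have h2 : r' ^ 2 * (-(δ / 8)) ≤ r' ^ 2 * s := mul_le_mul_of_nonneg_left hs.1 hr'2.le
    have h3 : δ * r' ^ 2 ≤ δ * (4 * r ^ 2) := by gcongr
    constructor <;> linarith
  have hI : ∀ s ∈ Icc (-(δ / 8)) 0, t1 + r' ^ 2 * s ∈ Ioo t b := fun s hs =>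
    ⟨(hI' s hs).1, (hI' s hs).2.trans_lt hb⟩
  have hB' : ∀ s ∈ Icc (-(δ / 8)) 0, ∀ y ∈ V, _ := fun s hs y hy =>
    hB (t1 + r' ^ 2 * s) ⟨(hI' s hs).1.le, (hI' s hs).2⟩ y (hVK hy).1 (hVK hy).2
  have h4 : ε0 / r ^ 2 * r' ^ 2 ≤ 4 * ε0 := by
    rw [div_mul_eq_mul_div, div_le_iff₀ hr2]
    nlinarith
  obtain ⟨c1, c2⟩ := hC _ (cf_pull hU hg hVU hr'0 hq (min_le_left _ _) hI
    (fun s hs y hy => (hB' s hs y hy).1) (h4.trans k2))
  have c3 := c2 C⁻¹ _ (inv_pos.2 hC0) (hf_pull hU hg hu hVU hr'0 hq hI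
    (fun s hs y hy => (hB' s hs y hy).2.1) (h4.trans k3))
  have c4 := c2 (2 * r') _ (by positivity) (hf_pull hU hg hρ hVU hr'0 hq hI
    (fun s hs y hy => (hB' s hs y hy).2.2) (by nlinarith))
  simp only [ps, mul_zero, add_zero] at c1 c3 c4
  have hs : ball (0 : Cn n) 1 ⊆ ball 0 R := ball_subset_ball hR
  have hqc := hq.qc hR hVK (min_le_right _ _)
  have hka : ∀ w ∈ ball (0 : Cn n) 1, KahAt (pull (g t1) ψ) w := fun w hw =>
    kahAt_pull hk1 hq.imm isOpen_ball (hs hw) (hU.mem_nhds (hVU (hq.maps (hs hw))))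
  refine ⟨ψ, hqc, fun j h1 h2 w hw k l => dG_unscale (hka w hw).sm hr'2 (c1 j h1 h2 w hw k l),
    fun j h1 h2 w hw => (c3 j h1 h2 w hw).trans (mul_inv_cancel₀ hC0.ne').le, fun w hw => ?_,
    fun j h1 h2 w hw => (c4 j h1 h2 w hw).trans ?_⟩
  · have hy := hq.maps (hs hw)
    have hsm := smOn_of_SmST hρ.sm (s := t1) ⟨htt.le, hb.le⟩
    refine d1_bound (hka w hw).posDef ((hsm.cda_pull hU hq.imm.1 isOpen_ball (hs hw)
      (hVU hy)).differentiableAt (by simp)) hr'0 ?_ (hqc.hi w hw)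
    have h5 := (hB t1 ⟨htt.le, le_rfl⟩ _ (hVK hy).1 (hVK hy).2).2.2
    rw [Gr_pull hk1 hU hq.imm isOpen_ball (hs hw) (hVU hy) hsm] at h5
    exact h5
  · rw [← mul_assoc, mul_comm C]
    exact mul_le_mul_of_nonneg_right (le_max_right _ _) hr'0.le

end

end Crest.Agent.T223.Rn17
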