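import Crest.Agent.T223.StChH_88
import Crest.Agent.T223.OsKitB_61

/-!
# Row 223, STEP (helper88): the assembly of `Step1Stmt`
-/

set_option autoImplicit false
set_option linter.unusedVariables false

open Set Filter Topology Metric
open scoped ContDiff ComplexConjugate Matrix ComplexOrder

namespace Crest.Agent.T223.St.A88

open Crest.Agent.R275.Geo Crest.Agent.R275.EDR890 Crest.Agent.R273.Hess_333
open Crest.Agent.T223.Tr Crest.Agent.T223.Os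
open Crest.Agent.T223.Db (eR zm rm dom SmST)
open Crest.Agent.N207.P (En d1 pd Lop Yl)
open Crest.Agent.T223.Lx

variable {n : ℕ}

theorem cb_congr {E V : Type*} [NormedAddCommGroup E] [NormedSpace ℝ E] [NormedAddCommGroup V]
    [NormedSpace ℝ V] {r K : ℝ} {m : ℕ} {f g : E → V} (h : CB r m K f)
    (e : ∀ y ∈ ball (0 : E) r, g y = f y) : CB r m K g := fun j hj y hy => by
  have h1 : g =ᶠ[𝓝 y] f := mem_of_superset (isOpen_ball.mem_nhds hy) e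
  rw [(h1.iteratedFDeriv ℝ j).self_of_nhds]
  exact h j hj y hy

theorem exists_ric {η0 : ℝ} (h0 : ∀ G : Mat n, (∀ a b, ‖G a b - (1 : Mat n) a b‖ ≤ η0) →
    1 / 2 ≤ G.det.re) : ∃ B : ℝ, 0 ≤ B ∧ ∀ G : Cn n → Mat n, FlG (η0 / RR n) G →
    ∀ a b, ‖ric G 0 a b‖ ≤ B := by
  have hR : 0 < RR n := one_pos.trans_le (one_le_RR n)
  obtain ⟨B, hB0, hB⟩ := UE.bdd (UM.ric (m := 5)
    (um_flG (G := fun i : {G : Cn n → Mat n // FlG (η0 / RR n) G} => i.1) fun i => i.2)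
    (by norm_num : (0 : ℝ) < 1 / 2) fun i y hy => h0 _ fun a b =>
      (i.2.near (symm_mem hy) a b).trans_eq (div_mul_cancel₀ _ hR.ne'))
  refine ⟨B, hB0, fun G hG a b => ?_⟩
  have h := hB ⟨G, hG⟩ 0 (mem_ball_self two_pos) a b
  rwa [rr_zero] at h

theorem exists_hess (n : ℕ) (Q : ℝ) : ∃ B : ℝ, 0 ≤ B ∧ ∀ F : Cn n → ℝ,
    ContDiffOn ℝ ∞ F (ball 0 (RR n)) → (∀ j, 1 ≤ j → j ≤ 4 → ∀ w ∈ ball (0 : Cn n) (RR n),
      ‖iteratedFDeriv ℝ j F w‖ ≤ Q) → ∀ a b, ‖hess F 0 a b‖ ≤ B := by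
  obtain ⟨B, hB0, hB⟩ := UE.bdd (UC.hess (m := 0) (uc_sub_zero
    (F := fun i : {F : Cn n → ℝ // ContDiffOn ℝ ∞ F (ball 0 (RR n)) ∧ ∀ j, 1 ≤ j → j ≤ 4 →
      ∀ w ∈ ball (0 : Cn n) (RR n), ‖iteratedFDeriv ℝ j F w‖ ≤ Q} => i.1) (fun i => i.2.1)
    fun i j a1 a2 => i.2.2 j a1 (by omega)))
  refine ⟨B, hB0, fun F h1 h2 a b => ?_⟩
  have h := hB ⟨F, h1, h2⟩ 0 (mem_ball_self two_pos) a b
  simp only [rr_zero, hess_apply, H88.wd_sub_const] at h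
  exact h

variable {M : Type} [TopologicalSpace M] {A : Atl n M}

theorem pull_sub (G H : MF A) (ψ : Cn n → M) (w : Cn n) :
    pull (fun i z => G i z - H i z) ψ w = pull G ψ w - pull H ψ w := by
  simp only [pull, pbF, Matrix.mul_sub, Matrix.sub_mul]

theorem trOn_sub {G H : MF A} {U : Set M} (hG : TrOn G U) (hH : TrOn H U) :
    TrOn (fun i z => G i z - H i z) U := fun i j x hx hU => by
  simp only [hG i j x hx hU, hH i j x hx hU, Matrix.mul_sub, Matrix.sub_mul]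

theorem asm : AsmStmt n := by
  rintro hT hF hH hM ⟨ηK, hηK, hK⟩ ⟨ηH, hηH, hC⟩ hR
  obtain ⟨η0, hη0, h0⟩ := exists_η0 n
  obtain ⟨B, hB0, hB⟩ := exists_ric fun G hG => (h0 G hG).1
  have hRR := one_le_RR n
  obtain ⟨E, hE⟩ : ∃ E : ℝ, E = RR n + (2 * n ^ 2 + 1) * (B + 1) := ⟨_, rfl⟩
  have hn : (0 : ℝ) ≤ 2 * n ^ 2 := by positivity
  have hE1 : 1 ≤ E := by nlinarith
  obtain ⟨η, hη, e1, e2, e3, e4⟩ : ∃ η : ℝ, 0 < η ∧ η * E ≤ 1 ∧ η * E ≤ ηK ∧ η * E ≤ ηH ∧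
      η * E ≤ η0 := by
    refine ⟨min (min 1 ηK) (min ηH η0) / E, by positivity, ?_⟩
    rw [div_mul_cancel₀ _ (by positivity)]
    simp
  have f0 : η ≤ η * E := le_mul_of_one_le_right hη.le hE1
  have f1 : η * RR n + 2 * n ^ 2 * (η * B + η) ≤ η * E := by rw [hE]; nlinarith [mul_nonneg hη.le hB0]
  have f2 : η * B + η ≤ η * E := by
    rw [hE]; nlinarith [mul_nonneg hη.le hB0, mul_nonneg hn (mul_nonneg hη.le hB0), mul_nonneg hn hη.le]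
  have f3 : 0 ≤ 2 * (n : ℝ) ^ 2 * (η * B) := by positivity
  have f4 : 0 ≤ 2 * (n : ℝ) ^ 2 * η := by positivity
  have f5 : 0 ≤ η * RR n := by positivity
  obtain ⟨ε, β, N, C1, hε, hεη, hβ, hβη, hC1, hM⟩ := hM η hη
  obtain ⟨Ck, hK⟩ := hK N
  have hβ1 : β ≤ 1 := by linarith
  refine ⟨ε, β, C1 + 2 + 4 * RR n, hε, hβ, hβ1, by positivity, fun Kρ => ?_⟩
  obtain ⟨Bh, hBh0, hBh⟩ := exists_hess n (max 1 Kρ)
  obtain ⟨Ch, hCh⟩ : ∃ Ch : ℝ, Ch = n * (2 * (n ^ 2 * Bh)) := ⟨_, rfl⟩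
  have hCh0 : 0 ≤ Ch := by rw [hCh]; positivity
  obtain ⟨C', hC⟩ := hC (max Ck (max (max 1 Kρ) Ch))
  obtain ⟨K0, hK0, hR⟩ := hR (max Ck C')
  refine ⟨K0 + Ch, by linarith, ?_⟩
  intro M _ _ _ A G u0 ρ0 W c hW hG hu0 hρ0 hcp hψ
  choose! Ψ hΨ using hψ
  obtain ⟨φ, hφ, hb⟩ := hM M A G u0 ρ0 W c Kρ Ψ hW hG hρ0 hcp hΨ
  have hV := isOpen_sub hW hρ0 (c - C1)
  set V := {x | x ∈ W ∧ ρ0 x < c - C1} with hVd
  have hGV : KahOn G V := hG.mono fun _ h => h.1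
  obtain ⟨hfl, hph, heq, hch⟩ := hF M A G V β φ hβ hV hGV hφ
  have fl : ∀ p ∈ V, Fl G u0 ρ0 W ε Kρ p (Ψ p) := fun p hp => hΨ p hp.1 (by linarith [hp.2])
  have flG : ∀ p ∈ V, FlG η (pull G (Ψ p)) := fun p hp => ((fl p hp).flG hW hG).mono hεη
  have z0 : ∀ p ∈ V, Ψ p 0 ∈ V := fun p hp => by rwa [(fl p hp).zero]
  have ctr : ∀ s ∈ Icc 0 β, ∀ p ∈ V, ∀ a b,
      ‖pull (fun i z => gM G φ s i z - G i z) (Ψ p) 0 a b‖ ≤ η * B + η := fun s hs p hp a b => by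
    have h1 := ((hch (Ψ p) (ball 0 (RR n) ∩ Ψ p ⁻¹' V)
      ((fl p hp).imm.1.continuousOn.isOpen_inter_preimage isOpen_ball hV)
      ((fl p hp).imm.mono inter_subset_left) fun w hw => hw.2).2 s hs 0 ⟨zero_mem_RR, z0 p hp⟩).1
    rw [pull_sub, h1, gs, add_sub_right_comm, sub_sub_cancel_left, Matrix.add_apply,
      Matrix.neg_apply, Matrix.smul_apply]
    refine (norm_add_le _ _).trans (add_le_add ?_ ((hb p hp.1 hp.2 s hs).1 a b))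
    rw [norm_neg, norm_smul, Complex.norm_real, Real.norm_of_nonneg hs.1]
    exact mul_le_mul (hs.2.trans hβη) (hB _ ((flG p hp).mono ((le_div_iff₀ (by linarith)).2
      (by linarith))) a b) (norm_nonneg _) hη.le
  have hlap : ∀ f : M → ℝ, SmOn A W f → ∀ p ∈ V, (∀ j, 1 ≤ j → j ≤ 4 → ∀ w ∈ ball (0 : Cn n) (RR n),
      ‖iteratedFDeriv ℝ j (fun y => f (Ψ p y)) w‖ ≤ max 1 Kρ) → ∀ s ∈ Icc 0 β,
      |lap (gM G φ s (ch A p)) (inC A (ch A p) f) (A.e (ch A p) p)| ≤ Ch := by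
    intro f hf p hp hd s hs
    have hF := fl p hp
    have h1 := lap_pull (hfl.kah s hs) hV hF.imm isOpen_ball zero_mem_RR (z0 p hp) (i := ch A p)
      (by rw [hF.zero]; exact ch_mem A p) (hf.mono fun _ h => h.1)
    have h2 : ∀ w ∈ ball (0 : Cn n) (RR n), ContDiffAt ℝ ∞ (fun y => f (Ψ p y)) w := fun w hw =>
      hf.cda_pull hW hF.imm.1 isOpen_ball hw (hF.maps hw)
    have h3 := (h0 (pull (gM G φ s) (Ψ p) 0) fun a b => by
      have h4 := ctr s hs p hp a b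
      rw [pull_sub, hF.ctr] at h4
      exact h4.trans (by linarith)).2.1
    rw [hF.zero] at h1
    rw [h1, hCh]
    refine abs_trg_le (kahAt_pull (hfl.kah s hs) hF.imm isOpen_ball zero_mem_RR
      (hV.mem_nhds (z0 p hp))).posDef (hess_herm (h2 0 zero_mem_RR)) fun v => ?_
    refine (abs_nq_le _ v (hBh _ (fun w hw => (h2 w hw).contDiffWithinAt) hd)).trans ?_
    have h5 : (0 : ℝ) ≤ n ^ 2 * Bh := by positivity
    nlinarith [(h3 v).1]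
  have hcp' : IsCompact {x | x ∈ V ∧ ρ0 x ≤ c - C1 - 1} := by
    have e : {x | x ∈ V ∧ ρ0 x ≤ c - C1 - 1} = {x | x ∈ W ∧ ρ0 x ≤ c - C1 - 1} :=
      Set.ext fun x => ⟨fun h => ⟨h.1.1, h.2⟩, fun h => ⟨⟨h.1, by linarith [h.2]⟩, h.2⟩⟩
    rw [e]
    exact isCompact_sub hρ0 hcp (by linarith)
  have du : ∀ p ∈ V, ∀ j, 1 ≤ j → j ≤ 4 → ∀ w ∈ ball (0 : Cn n) (RR n),
      ‖iteratedFDeriv ℝ j (fun y => u0 (Ψ p y)) w‖ ≤ max 1 Kρ :=
    fun p hp j a1 a2 w hw => ((fl p hp).du j a1 a2 w hw).trans (le_max_left _ _)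
  have dρ : ∀ p ∈ V, ∀ j, 1 ≤ j → j ≤ 4 → ∀ w ∈ ball (0 : Cn n) (RR n),
      ‖iteratedFDeriv ℝ j (fun y => ρ0 (Ψ p y)) w‖ ≤ max 1 Kρ :=
    fun p hp j a1 a2 w hw => ((fl p hp).dρ j a1 a2 w hw).trans (le_max_right _ _)
  have hρV : SmOn A V ρ0 := hρ0.mono fun _ h => h.1
  obtain ⟨u, hu, hu'⟩ := hH M A (gM G φ) V u0 ρ0 β (c - C1 - 1) Ch hβ hCh0 hV hfl
    (hu0.mono fun _ h => h.1) hρV hcp' fun s hs p hp _ => hlap u0 hu0 p hp (du p hp) s hs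
  obtain ⟨ρ, hρ, hρ'⟩ := hH M A (gM G φ) V ρ0 ρ0 β (c - C1 - 1) Ch hβ hCh0 hV hfl
    hρV hρV hcp' fun s hs p hp _ => hlap ρ0 hρ0 p hp (dρ p hp) s hs
  have hV2 := isOpen_sub hV hρV (c - C1 - 1 - 1)
  set V2 := {x | x ∈ V ∧ ρ0 x < c - C1 - 1 - 1} with hV2d
  have s2 : {x | x ∈ W ∧ ρ0 x < c - (C1 + 2 + 4 * RR n)} ⊆ V2 := fun x hx =>
    ⟨⟨hx.1, by linarith [hx.2]⟩, by linarith [hx.2]⟩
  have s1 : {x | x ∈ W ∧ ρ0 x < c - (C1 + 2 + 4 * RR n)} ⊆ V := fun x hx => (s2 hx).1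
  refine ⟨gM G φ, u, ρ, φ, hfl.mono le_rfl le_rfl s1, hu.mono le_rfl le_rfl s2,
    hρ.mono le_rfl le_rfl s2, hph.mono le_rfl s1, heq.mono s1, fun x hx hx' => ?_⟩
  have hx2 := s2 ⟨hx, hx'⟩
  have hxV := hx2.1
  have hF := fl x hxV
  have m2 : MapsTo (Ψ x) (ball 0 (RR n)) V2 := fun w hw => by
    have h1 := (abs_le.1 (hF.osc hW hρ0 hw)).2
    exact ⟨⟨hF.maps hw, by linarith⟩, by linarith⟩
  have m1 : MapsTo (Ψ x) (ball 0 (RR n)) V := fun w hw => (m2 hw).1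
  obtain ⟨hsm, hch⟩ := hch (Ψ x) _ isOpen_ball hF.imm m1
  have diag : ∀ w ∈ ball (0 : Cn n) (RR n), ∀ a, ‖pull G (Ψ x) w a a‖ ≤ 2 := fun w hw a => by
    have h2 := (flG x hxV).near hw a a
    rw [Matrix.one_apply_eq] at h2
    have h3 := norm_sub_norm_le (pull G (Ψ x) w a a) 1
    rw [norm_one] at h3
    linarith
  have cl : ∀ s ∈ Icc 0 β, ∀ w ∈ ball (0 : Cn n) (RR n), ∀ a b,
      ‖pull (gM G φ s) (Ψ x) w a b - (1 : Mat n) a b‖ ≤ η * E := fun s hs w hw a b => by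
    have h1 := cmp_pull hGV.tr (trOn_sub (hfl.kah s hs).tr hGV.tr) hF.imm.1 (fl _ (m1 hw)).imm.1 hw
      zero_mem_RR (fl _ (m1 hw)).zero (m1 hw) (fl _ (m1 hw)).ctr (diag w hw) (ctr s hs _ (m1 hw)) a b
    rw [pull_sub, Matrix.sub_apply] at h1
    exact (norm_sub_le_norm_sub_add_norm_sub _ _ _).trans
      (by linarith [(flG x hxV).near hw a b])
  have cb : ∀ s ∈ Icc 0 β, ∀ a b, CB (1 / 4) 5 Ck (rr fun w => pull (gM G φ s) (Ψ x) w a b) := by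
    intro s hs a b
    refine cb_congr (hK β (pull G (Ψ x)) (fun s w => φ s (Ψ x w)) hβ (by linarith)
      ((flG x hxV).mono (by linarith)) ((hT M A _ φ).1 V _ _ hV isOpen_ball hF.imm m1 hφ.sm)
      (fun w hw => hφ.zero _ (m1 hw)) (fun s hs w hw => (hch s hs w hw).2) (fun s hs w hw a b => ?_)
      (fun s hs => (hb x hx hxV.2 s hs).2) s hs a b) fun y hy => ?_
    · have hs' := smOn_of_SmST hφ.sm hs
      have hp := fl _ (m1 hw)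
      rw [← pull_hess hV hs' hF.imm.1 isOpen_ball hw (m1 hw)]
      refine (cmp_pull hGV.tr (trOn_hess hV hs') hF.imm.1 hp.imm.1 hw zero_mem_RR hp.zero (m1 hw)
        hp.ctr (diag w hw) (B := η) (fun a b => ?_) a b).trans (by linarith)
      rw [pull_hess hV hs' hp.imm.1 isOpen_ball zero_mem_RR (z0 _ (m1 hw))]
      exact (hb _ (m1 hw).1 (m1 hw).2 s hs).1 a b
    · simp only [rr, (hch s hs _ (symm_mem (ball_subset_ball (by norm_num) hy))).1]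
  have heat : ∀ (f : ℝ → M → ℝ) (f0 : M → ℝ), HeatOn 0 β V2 (gM G φ) f →
      (∀ x ∈ V, ρ0 x < c - C1 - 1 - 1 → f 0 x = f0 x ∧ ∀ s ∈ Icc 0 β, |f s x - f0 x| ≤ β * Ch ∧
        HasDerivWithinAt (fun s => f s x)
          (lap (gM G φ s (ch A x)) (inC A (ch A x) (f s)) (A.e (ch A x) x)) (Icc 0 β) s) →
      (∀ j, 1 ≤ j → j ≤ 4 → ∀ w ∈ ball (0 : Cn n) (RR n),
        ‖iteratedFDeriv ℝ j (fun y => f0 (Ψ x y)) w‖ ≤ max 1 Kρ) → ∀ s ∈ Icc 0 β,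
      (∀ a b, ‖hess (fun w => f s (Ψ x w)) 0 a b‖ ≤ C') ∧ ‖dz (fun w => f s (Ψ x w)) 0‖ ≤ C' := by
    intro f f0 hf hf' hd
    refine hC β (fun s => pull (gM G φ s) (Ψ x)) (fun s w => f s (Ψ x w)) hβ hβ1
      (fun a b => (hsm a b).congr fun q hq => by rw [(hch _ hq.1 _ hq.2).1])
      (fun s hs w hw a b => (cl s hs w hw a b).trans e3)
      (fun s hs a b => (cb s hs a b).mono le_rfl le_rfl (le_max_left _ _))
      ((hT M A _ f).1 V2 _ _ hV2 isOpen_ball hF.imm m2 hf.sm) (fun s hs w hw => ?_)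
      (fun j a1 a2 w hw => ?_) fun s hs w hw => ?_
    · rw [← lap_pull ((hfl.kah s hs).mono fun _ h => h.1) hV2 hF.imm isOpen_ball hw (m2 hw)
        (ch_mem A _) (smOn_of_SmST hf.sm hs)]
      exact ((hf' _ (m1 hw) (m2 hw).2).2 s hs).2
    · have h1 : (fun w => f 0 (Ψ x w)) =ᶠ[𝓝 w] fun y => f0 (Ψ x y) :=
        mem_of_superset (isOpen_ball.mem_nhds hw) fun y hy => (hf' _ (m1 hy) (m2 hy).2).1
      rw [(h1.iteratedFDeriv ℝ j).self_of_nhds]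
      exact (hd j a1 a2 w hw).trans ((le_max_left _ _).trans (le_max_right _ _))
    · rw [(hf' _ (m1 hw) (m2 hw).2).1]
      exact ((hf' _ (m1 hw) (m2 hw).2).2 s hs).1.trans ((mul_le_of_le_one_left hCh0 hβ1).trans
        ((le_max_right _ _).trans (le_max_right _ _)))
  refine ⟨(hu' x hxV hx2.2).1, (hρ' x hxV hx2.2).1, fun s hs => ?_⟩
  have hg : KahOn (gM G φ s) V2 := (hfl.kah s hs).mono fun _ h => h.1
  obtain ⟨r1, r2, r3, r4, r5⟩ := hR (pull (gM G φ s) (Ψ x))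
    (fun w hw => kahAt_pull hg hF.imm isOpen_ball hw (hV2.mem_nhds (m2 hw)))
    (fun w hw v => ((h0 _ fun a b => (cl s hs w hw a b).trans e4).2.1 v).1)
    fun a b => (cb s hs a b).mono le_rfl le_rfl (le_max_left _ _)
  have x0 := m2 zero_mem_RR
  have hz := hF.zero
  have b1 := heat u u0 hu hu' (du x hxV) s hs
  have b2 := heat ρ ρ0 hρ hρ' (dρ x hxV) s hs
  have kk : K0 ≤ (K0 + Ch) / 1 ^ 2 := by rw [one_pow, div_one]; linarith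
  have gr : ∀ f : ℝ → M → ℝ, HeatOn 0 β V2 (gM G φ) f → ‖dz (fun w => f s (Ψ x w)) 0‖ ≤ C' →
      Gr (gM G φ s) (f s) x ≤ K0 := fun f hf h => by
    rw [← hz, Gr_pull hg hV2 hF.imm isOpen_ball zero_mem_RR x0 (smOn_of_SmST hf.sm hs)]
    exact r5 _ (h.trans (le_max_right _ _))
  have os : ∀ (f : ℝ → M → ℝ) (f0 : M → ℝ), f 0 x = f0 x → |f s x - f0 x| ≤ β * Ch →
      |f s x - f 0 x| ≤ K0 + Ch := fun f f0 h1 h2 => by
    rw [h1]; linarith [mul_le_of_le_one_left hCh0 hβ1]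
  refine ⟨fun τ hτ => ?_, ?_, ?_, (gr u hu b1.2).trans kk, (gr ρ hρ b2.2).trans (by linarith), ?_,
    os u u0 (hu' x hxV hx2.2).1 ((hu' x hxV hx2.2).2 s hs).1⟩
  · have h1 := (lyhAbs_pull hg hV2 hF.imm isOpen_ball zero_mem_RR x0 τ 1 K0).2
      (r1 τ (by rwa [one_pow] at hτ))
    rw [hz] at h1
    exact h1.mono hg hx2 (by linarith) zero_le_one kk (by norm_num)
  · have h1 := (bkAbs_pull hg hV2 hF.imm isOpen_ball zero_mem_RR x0 K0).2 ⟨r2, r3⟩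
    rw [hz] at h1
    exact h1.mono hg hx2 kk
  · have h1 := (hesAbs_pull hg hV2 hF.imm isOpen_ball zero_mem_RR x0 (smOn_of_SmST hu.sm hs) K0).2
      (r4 _ fun a b => (b1.1 a b).trans (le_max_right _ _))
    rw [hz] at h1
    exact h1.mono hg hx2 kk
  · rw [mul_one]
    exact os ρ ρ0 (hρ' x hxV hx2.2).1 ((hρ' x hxV hx2.2).2 s hs).1

end Crest.Agent.T223.St.A88
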