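import Crest.Agent.T223.StUC_88
import Crest.Agent.T223.DbAlg_88

/-!
# Row 223, STEP (helper88): the pieces of `Step1Stmt`

`Pm` : real Hessian to complex Hessian; `Ph` : the nonlinearity of the Monge-Ampere flow;
`gM` : the metric of a potential on the manifold.
Leaves `NemStmt`, `RegStmt` (chart level), `TrfStmt` (immersions and atlas charts), `FlowStmt`,
`HeatStmt`, `MAStmt`, `AsmStmt`.
-/

set_option autoImplicit false
set_option linter.unusedVariables false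

open Set Filter Topology Metric
open scoped ContDiff ComplexConjugate Matrix ComplexOrder

namespace Crest.Agent.T223.St

open Crest.Agent.R275.Geo Crest.Agent.R273.Hess_333 Crest.Agent.T223.Tr Crest.Agent.T223.Os
open Crest.Agent.T223.Db (eR zm rm dom SmST)
open Crest.Agent.N207.P (En d1 pd Lop Yl)
open Crest.Agent.T223.Lx (d2 WH WS CB)

noncomputable section

variable {n : ℕ}

/-- complex matrices with the sup norm -/
abbrev ZZ (n : ℕ) : Type := Fin n → Fin n → ℂ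

/-- `H ↦ zm H zmᴴ` -/
def Pm (n : ℕ) : (Fin (2 * n) → Fin (2 * n) → ℝ) →L[ℝ] ZZ n :=
  LinearMap.toContinuousLinearMap
    { toFun := fun H a b => (zm n * (Matrix.of fun k l => ((H k l : ℝ) : ℂ)) * (zm n)ᴴ) a b
      map_add' := fun H H' => by
        ext a b
        simp only [Matrix.mul_apply, Matrix.of_apply, Pi.add_apply, Complex.ofReal_add, mul_add,
          add_mul, Finset.sum_add_distrib]
      map_smul' := fun c H => by
        ext a b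
        simp only [Matrix.mul_apply, Matrix.of_apply, Pi.smul_apply, smul_eq_mul,
          Complex.ofReal_mul, RingHom.id_apply, Complex.real_smul, Finset.mul_sum, Finset.sum_mul]
        exact Finset.sum_congr rfl fun _ _ => Finset.sum_congr rfl fun _ _ => by ring }

theorem of_Pm (H : Fin (2 * n) → Fin (2 * n) → ℝ) :
    Matrix.of (Pm n H) = zm n * (Matrix.of fun k l => ((H k l : ℝ) : ℂ)) * (zm n)ᴴ := rfl

/-- the complex Hessian in real coordinates -/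
theorem of_Pm_d2 {F : Cn n → ℝ} {y : En (2 * n)} (h : ContDiffAt ℝ ∞ F ((eR n).symm y)) :
    Matrix.of (Pm n (d2 (rr F) y)) = hess F ((eR n).symm y) := by
  have h1 := Db.hess_eR (u := rr F) (z := (eR n).symm y)
    (by rw [ContinuousLinearEquiv.apply_symm_apply]; exact cda_rr h)
  simp only [rr_eR, ContinuousLinearEquiv.apply_symm_apply] at h1
  rw [of_Pm]
  exact h1.symm

/-- the linear part, purely algebraic -/
theorem lop_rm (G : Mat n) (v : En (2 * n) → ℝ) (y : En (2 * n)) :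
    Lop (rm G) v y = trg G (Matrix.of (Pm n (d2 v y))) := by
  rw [trg, of_Pm, ← Matrix.mul_assoc, Matrix.trace_mul_comm, ← Matrix.mul_assoc,
    ← Matrix.mul_assoc]
  simp only [Matrix.trace, Matrix.diag_apply, Matrix.mul_apply (M := (zm n)ᴴ * G⁻¹ * zm n),
    Complex.re_sum, Matrix.of_apply, Complex.re_mul_ofReal, Lop, rm, smul_eq_mul, d2]
  exact Finset.sum_comm

/-- `log (det (G - t R + H) / det G) - tr_G H` -/
def Ph0 (G R : Mat n) (t : ℝ) (H : Mat n) : ℝ :=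
  Real.log ((G - (t : ℂ) • R + H).det.re / G.det.re) - trg G H

/-- the nonlinearity in real coordinates -/
def Ph (G : Cn n → Mat n) (t : ℝ) (y : En (2 * n)) (z : ZZ n) : ℝ :=
  Ph0 (rr G y) (rr (ric G) y) t (Matrix.of z)

variable {M : Type} [TopologicalSpace M] {A : Atl n M}

/-- the metric of the potential `φ` -/
def gM (G : MF A) (φ : ℝ → M → ℝ) (t : ℝ) : MF A := fun i => gs (G i) (fun s => inC A i (φ s)) t

/-- the Monge-Ampere flow on `[0,β] × V` -/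
structure MAOn (β : ℝ) (V : Set M) (G : MF A) (φ : ℝ → M → ℝ) : Prop where
  sm : SmST A (Icc 0 β) V φ
  zero : ∀ x ∈ V, φ 0 x = 0
  pos : ∀ t ∈ Icc 0 β, ∀ i, ∀ z ∈ dom A i V, (gM G φ t i z).PosDef
  dt : ∀ t ∈ Icc 0 β, ∀ i, ∀ z ∈ dom A i V,
    HasDerivWithinAt (fun s => inC A i (φ s) z) (ldet (gM G φ t i) z - ldet (G i) z) (Icc 0 β) t

end

/-- NEM: the pointwise estimates of the Picard data (fields `cl ah p0 p0h lip sec` of `Lx.PicD`) -/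
def NemStmt (n : ℕ) : Prop :=
  ∀ δ : ℝ, 0 < δ → ∃ K : ℝ, 1 ≤ K ∧ ∀ ε : ℝ, 0 < ε → ∃ η : ℝ, 0 < η ∧
    ∀ G : Cn n → Mat n, FlG η G →
    (∀ y ∈ ball (0 : En (2 * n)) 1, ∀ k l, |rm (rr G y) k l - rm (1 : Mat n) k l| ≤ δ) ∧
    (∀ y ∈ ball (0 : En (2 * n)) 1, ∀ y' ∈ ball (0 : En (2 * n)) 1, ∀ k l,
      |rm (rr G y) k l - rm (rr G y') k l| ≤ K * √(dist y y')) ∧
    (∀ y ∈ ball (0 : En (2 * n)) 1, ∀ a b, ‖rr (ric G) y a b‖ ≤ K) ∧
    ∀ t ∈ Icc (0 : ℝ) η, ∀ y ∈ ball (0 : En (2 * n)) 1,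
      |Ph G t y 0| ≤ K ∧ (∀ y' ∈ ball (0 : En (2 * n)) 1, |Ph G t y 0 - Ph G t y' 0| ≤ K * √(dist y y')) ∧
      (∀ z z' : ZZ n, ‖z‖ ≤ η → ‖z'‖ ≤ η → |Ph G t y z - Ph G t y z'| ≤ K * ‖z - z'‖) ∧
      ∀ y' ∈ ball (0 : En (2 * n)) 1, ∀ z z' e e' : ZZ n, ‖z‖ ≤ η → ‖z'‖ ≤ η → ‖e‖ ≤ η → ‖e'‖ ≤ η →
        |(Ph G t y z - Ph G t y z') - (Ph G t y' e - Ph G t y' e')| ≤ ε * ‖(z - z') - (e - e')‖ +
          K * (√(dist y y') + ‖z - e‖ + ‖z' - e'‖) * ‖e - e'‖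

/-- REG: a `C^{2,1/2}` solution of the Monge-Ampere flow is smooth (from `Lx.FnReg (2 n)`) -/
def RegStmt (n : ℕ) : Prop :=
  ∃ η : ℝ, 0 < η ∧ ∀ (β : ℝ) (G : Cn n → Mat n) (U : Set (En (2 * n))) (v : ℝ → En (2 * n) → ℝ),
    0 < β → β ≤ η → FlG η G → IsOpen U → U ⊆ ball 0 1 → Yl (Icc 0 β) U 2 v →
    (∀ y ∈ U, v 0 y = 0) → (∀ t ∈ Icc 0 β, ∀ y ∈ U, ‖Pm n (d2 (v t) y)‖ ≤ η) →
    N207.X.Ev (Icc 0 β) U v
      (fun t y => Lop (rm (rr G y)) (v t) y + Ph G t y (Pm n (d2 (v t) y))) →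
    ContDiffOn ℝ ∞ (fun q : ℝ × En (2 * n) => v q.1 q.2) (Icc 0 β ×ˢ U)

/-- TRF: joint smoothness read through an immersion or through the charts of the atlas -/
def TrfStmt (n : ℕ) : Prop :=
  ∀ (M : Type) [TopologicalSpace M] (A : Atl n M) (I : Set ℝ) (f : ℝ → M → ℝ),
    (∀ (V : Set M) (ψ : Cn n → M) (D : Set (Cn n)), IsOpen V → IsOpen D → Imm A ψ D →
      MapsTo ψ D V → SmST A I V f → ContDiffOn ℝ ∞ (fun q : ℝ × Cn n => f q.1 (ψ q.2)) (I ×ˢ D)) ∧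
    ∀ V : Set M, (∀ x ∈ V, ∃ (ψ : Cn n → M) (D : Set (Cn n)), IsOpen D ∧ Imm A ψ D ∧
      (∃ w ∈ D, ψ w = x) ∧ ContDiffOn ℝ ∞ (fun q : ℝ × Cn n => f q.1 (ψ q.2)) (I ×ˢ D)) →
      SmST A I V f

/-- FLOW: the Monge-Ampere flow gives a Kaehler-Ricci flow, also in every immersed chart -/
def FlowStmt (n : ℕ) : Prop :=
  ∀ (M : Type) [TopologicalSpace M] (A : Atl n M) (G : MF A) (V : Set M) (β : ℝ) (φ : ℝ → M → ℝ),
    0 < β → IsOpen V → KahOn G V → MAOn β V G φ →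
    FlowOn 0 β V (gM G φ) ∧ PhiOn 0 β V (gM G φ) φ ∧ EqF (gM G φ 0) G V ∧
    ∀ (ψ : Cn n → M) (D : Set (Cn n)), IsOpen D → Imm A ψ D → MapsTo ψ D V →
      (∀ a b, ContDiffOn ℝ ∞ (fun q : ℝ × Cn n =>
        gs (pull G ψ) (fun s w => φ s (ψ w)) q.1 q.2 a b) (Icc 0 β ×ˢ D)) ∧
      ∀ t ∈ Icc 0 β, ∀ w ∈ D,
        pull (gM G φ t) ψ w = gs (pull G ψ) (fun s w => φ s (ψ w)) t w ∧
        HasDerivWithinAt (fun s => φ s (ψ w))
          (ldet (gs (pull G ψ) (fun s w => φ s (ψ w)) t) w - ldet (pull G ψ) w) (Icc 0 β) t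

/-- HEAT: the heat equation along a flow (from `Db.LinSolStmt n`; `u = u0 + S (ζ Δ u0)`) -/
def HeatStmt (n : ℕ) : Prop :=
  ∀ (M : Type) [TopologicalSpace M] [T2Space M] [SecondCountableTopology M] (A : Atl n M)
    (g : ℝ → MF A) (V : Set M) (u0 ρ0 : M → ℝ) (β c C : ℝ), 0 < β → 0 ≤ C → IsOpen V →
    FlowOn 0 β V g → SmOn A V u0 → SmOn A V ρ0 → IsCompact {x | x ∈ V ∧ ρ0 x ≤ c} →
    (∀ s ∈ Icc 0 β, ∀ x ∈ V, ρ0 x ≤ c →
      |lap (g s (ch A x)) (inC A (ch A x) u0) (A.e (ch A x) x)| ≤ C) →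
    ∃ u : ℝ → M → ℝ, HeatOn 0 β {x | x ∈ V ∧ ρ0 x < c - 1} g u ∧
      ∀ x ∈ V, ρ0 x < c - 1 → u 0 x = u0 x ∧ ∀ s ∈ Icc 0 β, |u s x - u0 x| ≤ β * C ∧
        HasDerivWithinAt (fun s => u s x)
          (lap (g s (ch A x)) (inC A (ch A x) (u s)) (A.e (ch A x) x)) (Icc 0 β) s

/-- MA: existence of the potential with the bounds of the Picard iteration -/
def MAStmt (n : ℕ) : Prop :=
  ∀ η : ℝ, 0 < η → ∃ ε β N C1 : ℝ, 0 < ε ∧ ε ≤ η ∧ 0 < β ∧ β ≤ η ∧ 0 ≤ C1 ∧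
    ∀ (M : Type) [TopologicalSpace M] [T2Space M] [SecondCountableTopology M] (A : Atl n M)
      (G : MF A) (u0 ρ0 : M → ℝ) (W : Set M) (c Kρ : ℝ) (Ψ : M → Cn n → M), IsOpen W → KahOn G W →
      SmOn A W ρ0 → IsCompact {x | x ∈ W ∧ ρ0 x ≤ c} →
      (∀ x ∈ W, ρ0 x ≤ c → Fl G u0 ρ0 W ε Kρ x (Ψ x)) →
      ∃ φ : ℝ → M → ℝ, MAOn β {x | x ∈ W ∧ ρ0 x < c - C1} G φ ∧
        ∀ x ∈ W, ρ0 x < c - C1 → ∀ s ∈ Icc 0 β,
          (∀ a b, ‖hess (fun w => φ s (Ψ x w)) 0 a b‖ ≤ η) ∧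
          (∀ y ∈ ball (0 : En (2 * n)) 1, |rr (fun w => φ s (Ψ x w)) y| ≤ N) ∧
          WH (ball 0 1) N (d2 (rr fun w => φ s (Ψ x w))) ∧
          WS (ball 0 1) N (d2 (rr fun w => φ s (Ψ x w))) ∧
          WS (ball 0 1) N (d1 (rr fun w => φ s (Ψ x w)))

/-- ASM: the assembly -/
def AsmStmt (n : ℕ) : Prop :=
  TrfStmt n → FlowStmt n → HeatStmt n → MAStmt n → ChKStmt n → ChHStmt n → CruStmt n → Step1Stmt n

/-- comparison of a tensor in two frames, one orthonormal and one nearly orthonormal -/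
theorem cmp_mat {n : ℕ} {J1 J2 G H : Mat n} {B : ℝ} (h2 : J2ᵀ * G * J2.map conj = 1)
    (h1 : ∀ a, ‖(J1ᵀ * G * J1.map conj) a a‖ ≤ 2)
    (hH : ∀ a b, ‖(J2ᵀ * H * J2.map conj) a b‖ ≤ B) (a b : Fin n) :
    ‖(J1ᵀ * H * J1.map conj) a b‖ ≤ 2 * n ^ 2 * B := by
  have hd : IsUnit J2.det := by
    have h := congrArg Matrix.det h2
    rw [Matrix.det_mul, Matrix.det_mul, Matrix.det_transpose, Matrix.det_one, mul_assoc] at h
    exact IsUnit.of_mul_eq_one _ h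
  obtain ⟨T, rfl⟩ : ∃ T, J1 = J2 * T := ⟨J2⁻¹ * J1, (Matrix.mul_nonsing_inv_cancel_left _ _ hd).symm⟩
  have key : ∀ X : Mat n, (J2 * T)ᵀ * X * (J2 * T).map conj =
      Tᵀ * (J2ᵀ * X * J2.map conj) * T.map conj := fun X => by
    rw [Matrix.transpose_mul, Matrix.map_mul]
    simp only [Matrix.mul_assoc]
  have hT : ∀ c a, ‖T c a‖ ^ 2 ≤ 2 := fun c a => by
    have h := h1 a
    rw [key, h2, Matrix.mul_one, Matrix.mul_apply] at h
    simp only [Matrix.transpose_apply, Matrix.map_apply, Complex.mul_conj'] at h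
    rw [show (∑ j, ((‖T j a‖ : ℝ) : ℂ) ^ 2) = ((∑ j, ‖T j a‖ ^ 2 : ℝ) : ℂ) by push_cast; rfl,
      Complex.norm_real, Real.norm_of_nonneg (by positivity)] at h
    exact (Finset.single_le_sum (f := fun j => ‖T j a‖ ^ 2) (fun _ _ => by positivity)
      (Finset.mem_univ c)).trans h
  have hB : 0 ≤ B := (norm_nonneg _).trans (hH a b)
  rw [key]
  generalize J2ᵀ * H * J2.map conj = X at hH
  simp only [Matrix.mul_apply, Matrix.transpose_apply, Matrix.map_apply, Finset.sum_mul]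
  refine (norm_sum_le _ _).trans ((Finset.sum_le_card_nsmul _ _ (n * (2 * B)) fun d _ =>
    (norm_sum_le _ _).trans ((Finset.sum_le_card_nsmul _ _ (2 * B) fun c _ => ?_).trans_eq
      (by simp))).trans_eq (by simp; ring))
  rw [norm_mul, norm_mul, Complex.norm_conj]
  have h3 : ‖T c a‖ * ‖T d b‖ ≤ 2 := by nlinarith [hT c a, hT d b, sq_nonneg (‖T c a‖ - ‖T d b‖)]
  calc ‖T c a‖ * ‖X c d‖ * ‖T d b‖ = ‖T c a‖ * ‖T d b‖ * ‖X c d‖ := by ring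
    _ ≤ 2 * B := mul_le_mul h3 (hH c d) (norm_nonneg _) (by norm_num)

/-- comparison of a tensor field in two immersed charts through the same point -/
theorem cmp_pull {n : ℕ} {M : Type} [TopologicalSpace M] {A : Atl n M} {G H : MF A} {U : Set M}
    (hG : TrOn G U) (hH : TrOn H U) {ψ ψ' : Cn n → M} {D D' : Set (Cn n)} (h : Hol A ψ D)
    (h' : Hol A ψ' D') {w w' : Cn n} (hw : w ∈ D) (hw' : w' ∈ D') (e : ψ' w' = ψ w) (hU : ψ w ∈ U)
    (h2 : pull G ψ' w' = 1) (h1 : ∀ a, ‖pull G ψ w a a‖ ≤ 2) {B : ℝ}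
    (hB : ∀ a b, ‖pull H ψ' w' a b‖ ≤ B) (a b : Fin n) : ‖pull H ψ w a b‖ ≤ 2 * n ^ 2 * B := by
  have hi := ch_mem A (ψ w)
  rw [pull_eq hG h' hw' (e ▸ hU) (e ▸ hi), pbF, e] at h2
  rw [pull_eq hG h hw hU hi] at h1
  rw [pull_eq hH h' hw' (e ▸ hU) (e ▸ hi), pbF, e] at hB
  rw [pull_eq hH h hw hU hi]
  exact cmp_mat h2 h1 hB a b

end Crest.Agent.T223.St
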