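import Crest.Agent.T223.OsDef_21
import Crest.Agent.T223.LxDef_83
import Crest.Agent.T223.DbDbl_88

/-!
# Row 223, STEP (helper88): the pieces of `Os.StepStmt`

* `rr F` : a function on `ℂⁿ` in the real coordinates `Db.eR n`; `RR n` : `rr` maps `ball 0 2` into
  `ball 0 (RR n)`;
* `Fl`, `Step1Stmt` : the step at unit scale for very flat charts; `ScaleStmt` : rescaling;
* chart level leaves `ChKStmt` (higher bounds for the Monge-Ampere flow), `ChHStmt` (heat equation),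
  `CruStmt` (from `C^5` bounds to curvature bounds).
-/

set_option autoImplicit false
set_option linter.unusedVariables false

open Set Filter Topology Metric
open scoped ContDiff ComplexConjugate Matrix ComplexOrder

namespace Crest.Agent.T223.St

open Crest.Agent.R275.Geo Crest.Agent.R273.Hess_333 Crest.Agent.T223.Tr Crest.Agent.T223.Os
open Crest.Agent.T223.Db (eR)
open Crest.Agent.N207.P (En d1)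
open Crest.Agent.T223.Lx (d2 WH WS CB)

noncomputable section

variable {n : ℕ}

/-- a function on `ℂⁿ` in real coordinates -/
def rr {V : Type*} (F : Cn n → V) (y : En (2 * n)) : V := F ((eR n).symm y)

/-- radius of the charts at unit scale -/
def RR (n : ℕ) : ℝ := 2 * ‖((eR n).symm : En (2 * n) →L[ℝ] Cn n)‖ + 1

theorem one_le_RR (n : ℕ) : 1 ≤ RR n := le_add_of_nonneg_left (by positivity)

theorem symm_mem {y : En (2 * n)} (hy : y ∈ ball (0 : En (2 * n)) 2) :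
    (eR n).symm y ∈ ball (0 : Cn n) (RR n) := by
  rw [mem_ball_zero_iff] at *
  have h := ((eR n).symm : En (2 * n) →L[ℝ] Cn n).le_opNorm y
  have h0 := norm_nonneg ((eR n).symm : En (2 * n) →L[ℝ] Cn n)
  have h1 : ‖(eR n).symm y‖ ≤ ‖((eR n).symm : En (2 * n) →L[ℝ] Cn n)‖ * ‖y‖ := h
  unfold RR
  nlinarith

/-- an `ε`-flat Kaehler metric on `ball 0 (RR n)` -/
structure FlG (ε : ℝ) (G : Cn n → Mat n) : Prop where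
  kah : ∀ w ∈ ball (0 : Cn n) (RR n), KahAt G w
  ctr : G 0 = 1
  dG : ∀ j, 1 ≤ j → j ≤ 8 → ∀ w ∈ ball (0 : Cn n) (RR n), ∀ a b,
    ‖iteratedFDeriv ℝ j (fun y => G y a b) w‖ ≤ ε

/-- the metric of the potential `φ` -/
def gs (G : Cn n → Mat n) (φ : ℝ → Cn n → ℝ) (s : ℝ) (w : Cn n) : Mat n :=
  G w - (s : ℂ) • ric G w + hess (φ s) w

variable {M : Type} [TopologicalSpace M] {A : Atl n M}

/-- a very flat chart at unit scale -/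
structure Fl (G : MF A) (u ρ : M → ℝ) (W : Set M) (ε Kρ : ℝ) (x : M) (ψ : Cn n → M) : Prop where
  imm : Imm A ψ (ball 0 (RR n))
  maps : MapsTo ψ (ball 0 (RR n)) W
  zero : ψ 0 = x
  ctr : pull G ψ 0 = 1
  dG : ∀ j, 1 ≤ j → j ≤ 8 → ∀ w ∈ ball (0 : Cn n) (RR n), ∀ a b,
    ‖iteratedFDeriv ℝ j (fun y => pull G ψ y a b) w‖ ≤ ε
  du : ∀ j, 1 ≤ j → j ≤ 4 → ∀ w ∈ ball (0 : Cn n) (RR n),
    ‖iteratedFDeriv ℝ j (fun y => u (ψ y)) w‖ ≤ 1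
  dρ1 : ∀ w ∈ ball (0 : Cn n) (RR n), ‖fderiv ℝ (fun y => ρ (ψ y)) w‖ ≤ 4
  dρ : ∀ j, 1 ≤ j → j ≤ 4 → ∀ w ∈ ball (0 : Cn n) (RR n),
    ‖iteratedFDeriv ℝ j (fun y => ρ (ψ y)) w‖ ≤ Kρ

end

/-- the step at unit scale -/
def Step1Stmt (n : ℕ) : Prop :=
  ∃ ε δ0 C0 : ℝ, 0 < ε ∧ 0 < δ0 ∧ δ0 ≤ 1 ∧ 0 ≤ C0 ∧ ∀ Kρ : ℝ, ∃ K : ℝ, 1 ≤ K ∧
    ∀ (M : Type) [TopologicalSpace M] [T2Space M] [SecondCountableTopology M] (A : Atl n M)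
      (G : MF A) (u0 ρ0 : M → ℝ) (W : Set M) (c : ℝ), IsOpen W → KahOn G W → SmOn A W u0 →
      SmOn A W ρ0 → IsCompact {x | x ∈ W ∧ ρ0 x ≤ c} →
      (∀ x ∈ W, ρ0 x ≤ c → ∃ ψ, Fl G u0 ρ0 W ε Kρ x ψ) →
      ∃ (g : ℝ → MF A) (u ρ φ : ℝ → M → ℝ),
        FlowOn 0 δ0 {x | x ∈ W ∧ ρ0 x < c - C0} g ∧
        HeatOn 0 δ0 {x | x ∈ W ∧ ρ0 x < c - C0} g u ∧
        HeatOn 0 δ0 {x | x ∈ W ∧ ρ0 x < c - C0} g ρ ∧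
        PhiOn 0 δ0 {x | x ∈ W ∧ ρ0 x < c - C0} g φ ∧
        EqF (g 0) G {x | x ∈ W ∧ ρ0 x < c - C0} ∧
        ∀ x ∈ W, ρ0 x < c - C0 → u 0 x = u0 x ∧ ρ 0 x = ρ0 x ∧
          ∀ s ∈ Icc 0 δ0, Crude K 1 0 g u ρ s x

/-- SCALE: scale `r' = λ r`, `λ = min ε (1 / RR n)` (and `≤ 1`), metric `G / r'²`, charts
`ψ (λ ·)`, `ρ0 / r'`, time `(s - t) / r'²` -/
def ScaleStmt (n : ℕ) : Prop := Step1Stmt n → StepStmt n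

/-- higher bounds for the Monge-Ampere flow in a chart (from `Lx.FnHB (2 n)`, `Lx.UbCb`) -/
def ChKStmt (n : ℕ) : Prop :=
  ∃ η : ℝ, 0 < η ∧ ∀ N : ℝ, ∃ C : ℝ, ∀ (β : ℝ) (G : Cn n → Mat n) (φ : ℝ → Cn n → ℝ),
    0 < β → β ≤ η → FlG η G →
    ContDiffOn ℝ ∞ (fun q : ℝ × Cn n => φ q.1 q.2) (Icc 0 β ×ˢ ball 0 (RR n)) →
    (∀ w ∈ ball (0 : Cn n) (RR n), φ 0 w = 0) →
    (∀ s ∈ Icc 0 β, ∀ w ∈ ball (0 : Cn n) (RR n),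
      HasDerivWithinAt (fun s => φ s w) (ldet (gs G φ s) w - ldet G w) (Icc 0 β) s) →
    (∀ s ∈ Icc 0 β, ∀ w ∈ ball (0 : Cn n) (RR n), ∀ a b, ‖hess (φ s) w a b‖ ≤ η) →
    (∀ s ∈ Icc 0 β, (∀ y ∈ ball (0 : En (2 * n)) 1, |rr (φ s) y| ≤ N) ∧
      WH (ball 0 1) N (d2 (rr (φ s))) ∧ WS (ball 0 1) N (d2 (rr (φ s))) ∧
      WS (ball 0 1) N (d1 (rr (φ s)))) →
    ∀ s ∈ Icc 0 β, ∀ a b, CB (1 / 4) 5 C (rr fun w => gs G φ s w a b)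

/-- crude bounds for the heat equation in a chart (from `Lx.LinHB (2 n) ℝ`, `Lx.UbCb`) -/
def ChHStmt (n : ℕ) : Prop :=
  ∃ η : ℝ, 0 < η ∧ ∀ C : ℝ, ∃ C' : ℝ, ∀ (β : ℝ) (g : ℝ → Cn n → Mat n) (u : ℝ → Cn n → ℝ),
    0 < β → β ≤ 1 →
    (∀ a b, ContDiffOn ℝ ∞ (fun q : ℝ × Cn n => g q.1 q.2 a b) (Icc 0 β ×ˢ ball 0 (RR n))) →
    (∀ s ∈ Icc 0 β, ∀ w ∈ ball (0 : Cn n) (RR n), ∀ a b, ‖g s w a b - (1 : Mat n) a b‖ ≤ η) →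
    (∀ s ∈ Icc 0 β, ∀ a b, CB (1 / 4) 5 C (rr fun w => g s w a b)) →
    ContDiffOn ℝ ∞ (fun q : ℝ × Cn n => u q.1 q.2) (Icc 0 β ×ˢ ball 0 (RR n)) →
    (∀ s ∈ Icc 0 β, ∀ w ∈ ball (0 : Cn n) (RR n),
      HasDerivWithinAt (fun s => u s w) (lap (g s) (u s) w) (Icc 0 β) s) →
    (∀ j, 1 ≤ j → j ≤ 4 → ∀ w ∈ ball (0 : Cn n) (RR n), ‖iteratedFDeriv ℝ j (u 0) w‖ ≤ C) →
    (∀ s ∈ Icc 0 β, ∀ w ∈ ball (0 : Cn n) (RR n), |u s w - u 0 w| ≤ C) →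
    ∀ s ∈ Icc 0 β, (∀ a b, ‖hess (u s) 0 a b‖ ≤ C') ∧ ‖dz (u s) 0‖ ≤ C'

/-- from `C^5` bounds to the curvature bounds -/
def CruStmt (n : ℕ) : Prop :=
  ∀ C : ℝ, ∃ K : ℝ, 1 ≤ K ∧ ∀ g : Cn n → Mat n, (∀ w ∈ ball (0 : Cn n) (RR n), KahAt g w) →
    (∀ w ∈ ball (0 : Cn n) (RR n), ∀ v, ‖v‖ ^ 2 / 2 ≤ nq (g w) v) →
    (∀ a b, CB (1 / 4) 5 C (rr fun w => g w a b)) →
    (∀ τ : ℝ, 1 ≤ τ → ∀ (c : ℂ) (a v : Cn n),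
      |lyhS g τ 0 c a v| ≤ K * (nq (g 0) a + 1 * ‖c‖ ^ 2) * nq (g 0) v) ∧
    BKge g 0 K ∧ BKle g 0 K ∧
    (∀ H : Mat n, (∀ a b, ‖H a b‖ ≤ C) → ∀ v, |nq H v| ≤ K * nq (g 0) v) ∧
    ∀ ξ : Cn n, ‖ξ‖ ≤ C → nqi (g 0) ξ ≤ K

end Crest.Agent.T223.St
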