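import Crest.Agent.T223.StDefB_88

/-!
# Row 223, STEP (helper33): the Monge-Ampere flow gives a Kaehler-Ricci flow (`FlowStmt`)
-/

set_option autoImplicit false

open Set Filter Topology Metric
open scoped ContDiff ComplexConjugate Matrix ComplexOrder

namespace Crest.Agent.T223.St

open Crest.Agent.R275.Geo Crest.Agent.R275.EDR890 Crest.Agent.R273.Hess_333
open Crest.Agent.R273.HessB_333 Crest.Agent.T223.Tr Crest.Agent.T223.Os
open Crest.Agent.T223.Db (dom SmST)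

namespace F33

variable {n : ℕ}

theorem cdOn_fderiv {E W : Type} [NormedAddCommGroup E] [NormedSpace ℝ E]
    [NormedAddCommGroup W] [NormedSpace ℝ W] {a b : ℝ} (hab : a < b) {D : Set E} (hD : IsOpen D)
    {f : ℝ → E → W} (hf : ContDiffOn ℝ ∞ (fun q : ℝ × E => f q.1 q.2) (Icc a b ×ˢ D)) :
    ContDiffOn ℝ ∞ (fun q : ℝ × E => fderiv ℝ (f q.1) q.2) (Icc a b ×ˢ D) := by
  have h1 := (hf.fderivWithin (m := ∞) ((uniqueDiffOn_Icc hab).prod hD.uniqueDiffOn)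
    (by simp)).clm_comp (contDiffOn_const (c := ContinuousLinearMap.inr ℝ ℝ E))
  refine h1.congr fun q hq => ?_
  have h6 : MapsTo (fun w : E => ((q.1, w) : ℝ × E)) D (Icc a b ×ˢ D) := fun w hw => ⟨hq.1, hw⟩
  exact (((hf.differentiableOn (by simp) q hq).hasFDerivWithinAt.comp q.2
    ((hasFDerivAt_prodMk_right q.1 q.2).hasFDerivWithinAt (s := D)) h6).hasFDerivAt
      (hD.mem_nhds hq.2)).fderiv

theorem cdOn_wd {a b : ℝ} (hab : a < b) {D : Set (Cn n)} (hD : IsOpen D) {f : ℝ → Cn n → ℂ}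
    (hf : ContDiffOn ℝ ∞ (fun q : ℝ × Cn n => f q.1 q.2) (Icc a b ×ˢ D)) (s : WI n) :
    ContDiffOn ℝ ∞ (fun q : ℝ × Cn n => wd s (f q.1) q.2) (Icc a b ×ˢ D) := by
  have h3 : ContDiff ℝ ∞ fun L : Cn n →L[ℝ] ℂ => wdL s L := by
    unfold wdL
    fun_prop
  exact h3.comp_contDiffOn (cdOn_fderiv hab hD hf)

theorem cdOn_hess {a b : ℝ} (hab : a < b) {D : Set (Cn n)} (hD : IsOpen D) {f : ℝ → Cn n → ℝ}
    (hf : ContDiffOn ℝ ∞ (fun q : ℝ × Cn n => f q.1 q.2) (Icc a b ×ˢ D)) (k l : Fin n) :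
    ContDiffOn ℝ ∞ (fun q : ℝ × Cn n => hess (f q.1) q.2 k l) (Icc a b ×ˢ D) :=
  cdOn_wd hab hD (f := fun t => wd (true, l) (cu (f t))) (cdOn_wd hab hD (f := fun t => cu (f t))
    (Complex.ofRealCLM.contDiff.comp_contDiffOn hf) _) _

theorem cdOn_gs {a b : ℝ} (hab : a < b) {D : Set (Cn n)} (hD : IsOpen D) {G : Cn n → Mat n}
    (hG : ∀ w ∈ D, KahAt G w) {f : ℝ → Cn n → ℝ}
    (hf : ContDiffOn ℝ ∞ (fun q : ℝ × Cn n => f q.1 q.2) (Icc a b ×ˢ D)) (k l : Fin n) :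
    ContDiffOn ℝ ∞ (fun q : ℝ × Cn n => gs G f q.1 q.2 k l) (Icc a b ×ˢ D) :=
  ContDiffOn.add (fun q hq => ((cd_static q.1 ((hG _ hq.2).sm k l)).sub (ContDiffAt.mul
    (Complex.ofRealCLM.contDiff.contDiffAt.comp q contDiffAt_fst)
    (cd_static q.1 ((hG _ hq.2).smM_ric k l)))).contDiffWithinAt) (cdOn_hess hab hD hf k l)

theorem cda_slice {I : Set ℝ} {D : Set (Cn n)} (hD : IsOpen D) {f : ℝ → Cn n → ℝ}
    (hf : ContDiffOn ℝ ∞ (fun q : ℝ × Cn n => f q.1 q.2) (I ×ˢ D)) {t : ℝ} (ht : t ∈ I)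
    {w : Cn n} (hw : w ∈ D) : ContDiffAt ℝ ∞ (f t) w :=
  (hf.comp (f := fun w : Cn n => ((t, w) : ℝ × Cn n)) (contDiffOn_const.prodMk contDiffOn_id)
    fun _ h => ⟨ht, h⟩).contDiffAt (hD.mem_nhds hw)

theorem hess_zero {u : Cn n → ℝ} {z : Cn n} (h : u =ᶠ[𝓝 z] fun _ => 0) : hess u z = 0 := by
  have h1 := hess_const_mul (u := fun _ : Cn n => (0 : ℝ)) (z := z) 0 contDiffAt_const
  simp only [mul_zero, Complex.ofReal_zero, zero_smul] at h1
  rw [hess_congr h, h1]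

variable {M : Type} [TopologicalSpace M] {A : Atl n M}

theorem opn (i : A.ι) {U : Set M} (hU : IsOpen U) : IsOpen (dom A i U) :=
  (A.e i).isOpen_inter_preimage_symm hU

theorem mem {i : A.ι} {U : Set M} {x : M} (hi : x ∈ (A.e i).source) (hx : x ∈ U) :
    A.e i x ∈ dom A i U := ⟨(A.e i).map_source hi, by rwa [(A.e i).left_inv hi]⟩

theorem kah_dom {G : MF A} {U : Set M} (h : KahOn G U) {i : A.ι} {z : Cn n}
    (hz : z ∈ dom A i U) : KahAt (G i) z := by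
  have h1 := h.kah i _ ((A.e i).map_target hz.1) hz.2
  rwa [(A.e i).right_inv hz.1] at h1

theorem cdOn_comp {I : Set ℝ} {f : ℝ → M → ℝ} {V : Set M} {ψ : Cn n → M} {D : Set (Cn n)}
    (hD : IsOpen D) (hψ : Hol A ψ D) (hm : MapsTo ψ D V) (hf : SmST A I V f) :
    ContDiffOn ℝ ∞ (fun q : ℝ × Cn n => f q.1 (ψ q.2)) (I ×ˢ D) := by
  intro q hq
  have hi := ch_mem A (ψ q.2)
  generalize ch A (ψ q.2) = i at hi
  have h0 : {r : ℝ × Cn n | ψ r.2 ∈ (A.e i).source} ∈ 𝓝 q :=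
    ((hψ _ hq.2).1.comp continuousAt_snd) ((A.e i).open_source.mem_nhds hi)
  refine (contDiffWithinAt_inter h0).1 ?_
  have h1 : ContDiffAt ℝ ∞ (fun r : ℝ × Cn n => ((r.1, rd A i ψ r.2) : ℝ × Cn n)) q :=
    contDiffAt_fst.prodMk (cd_static q.1 (holAt_rd hψ hD hq.2 hi).cd)
  have h2 : MapsTo (fun r : ℝ × Cn n => ((r.1, rd A i ψ r.2) : ℝ × Cn n))
      ((I ×ˢ D) ∩ {r : ℝ × Cn n | ψ r.2 ∈ (A.e i).source}) (I ×ˢ dom A i V) :=
    fun r hr => ⟨hr.1.1, mem hr.2 (hm hr.1.2)⟩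
  refine ((hf i (q.1, rd A i ψ q.2) ⟨hq.1, mem hi (hm hq.2)⟩).comp q h1.contDiffWithinAt
    h2).congr (fun r hr => ?_) ?_
  · exact congrArg (f r.1) ((A.e i).left_inv hr.2).symm
  · exact congrArg (f q.1) ((A.e i).left_inv hi).symm

end F33

open F33 in
theorem flowStmt (n : ℕ) : FlowStmt n := by
  intro M _ A G V β φ hβ hV hG h
  have sl : ∀ t ∈ Icc 0 β, ∀ i, ∀ z ∈ dom A i V, ContDiffAt ℝ ∞ (inC A i (φ t)) z :=
    fun t ht i z hz => cda_slice (f := fun s => inC A i (φ s)) (opn i hV) (h.sm i) ht hz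
  have kah : ∀ t ∈ Icc 0 β, KahOn (gM G φ t) V := fun t ht =>
    ⟨fun i x hi hx => by
      have h1 := (opn i hV).mem_nhds (mem hi hx)
      exact kahAt_pot (hG.kah i x hi hx) (mem_of_superset h1 fun z hz => sl t ht i z hz) t
        (mem_of_superset h1 fun z hz => h.pos t ht i z hz), fun i j x hx hxU => by
      have h1 : ric (G i) (A.e i x) = (R275.Core144.Jm A i j x)ᵀ * ric (G j) (A.e j x) *
        (R275.Core144.Jm A i j x).map conj := hG.trOn_ric hV i j x hx hxU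
      simp only [gM, gs]
      rw [hG.tr i j x hx hxU, h1, hess_inC_tm hx.1 hx.2 (sl t ht j _ (mem hx.2 hxU))]
      simp only [Matrix.mul_add, Matrix.add_mul, Matrix.mul_sub, Matrix.sub_mul, Matrix.mul_smul,
        Matrix.smul_mul]⟩
  have e0 : ∀ i, ∀ z ∈ dom A i V, gM G φ 0 i z = G i z := fun i z hz => by
    simp only [gM, gs]
    rw [hess_zero (u := inC A i (φ 0)) (mem_of_superset ((opn i hV).mem_nhds hz) fun w hw => h.zero _ hw.2)]
    simp
  have e1 : ∀ i, ∀ z ∈ dom A i V, gM G φ 0 i =ᶠ[𝓝 z] G i := fun i z hz =>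
    mem_of_superset ((opn i hV).mem_nhds hz) fun w hw => e0 i w hw
  refine ⟨⟨fun i k l => cdOn_gs hβ (opn i hV) (fun w hw => kah_dom hG hw) (h.sm i) k l, kah,
    fun s hs i x hi hx => ?_⟩, ⟨h.sm, h.zero, fun s hs i x hi hx => ?_, fun s hs i x hi hx => ?_⟩,
    fun i x hi hx => e0 i _ (mem hi hx), fun ψ D hD hψ hm => ?_⟩
  · have h1 : Ioo 0 β ×ˢ dom A i V ∈ 𝓝 ((s, A.e i x) : ℝ × Cn n) :=
      (isOpen_Ioo.prod (opn i hV)).mem_nhds ⟨hs, mem hi hx⟩
    have h2 := krfAt_pot (φ := fun s => inC A i (φ s)) (t := s) 0 (hG.kah i x hi hx)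
      (mem_of_superset h1 fun q hq => (h.sm i).contDiffAt (prod_mem_nhds
        (Icc_mem_nhds hq.1.1 hq.1.2) ((opn i hV).mem_nhds hq.2)))
      (mem_of_superset h1 fun q hq => by
        simp only [sub_zero]; exact h.pos _ (Ioo_subset_Icc_self hq.1) i _ hq.2)
      (mem_of_superset h1 fun q hq => by
        simp only [sub_zero]
        exact (h.dt _ (Ioo_subset_Icc_self hq.1) i _ hq.2).hasDerivAt (Icc_mem_nhds hq.1.1 hq.1.2))
    simp only [sub_zero] at h2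
    exact h2
  · rw [e0 i _ (mem hi hx), ric_congr (e1 i _ (mem hi hx)), sub_zero]
    rfl
  · have h1 := (h.dt s (Ioo_subset_Icc_self hs) i _ (mem hi hx)).hasDerivAt (Icc_mem_nhds hs.1 hs.2)
    simp only [inC_apply hi] at h1
    rwa [(ldet_congr (e1 i _ (mem hi hx))).self_of_nhds]
  · have hk : ∀ w ∈ D, KahAt (pull G ψ) w := fun w hw =>
      kahAt_pull hG hψ hD hw (hV.mem_nhds (hm hw))
    refine ⟨cdOn_gs hβ hD hk (cdOn_comp hD hψ.1 hm h.sm), fun t ht w hw => ?_⟩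
    have hi := ch_mem A (ψ w)
    generalize ch A (ψ w) = i at hi
    have hr := rel_pull hG hψ hD hw (hV.mem_nhds (hm hw)) hi
    have e2 : gs (pull G ψ) (fun s w => φ s (ψ w)) t w = pbk (rd A i ψ) (gM G φ t i) w := by
      simp only [gs, gM]
      rw [hr.eq.self_of_nhds, hr.ric, hess_congr (comp_rd (hψ.1 w hw).1 hi (φ t)),
        hess_pbk (sl t ht i _ (mem hi (hm hw))) hr.hol]
      simp only [pbk, gs, Matrix.mul_add, Matrix.add_mul, Matrix.mul_sub, Matrix.sub_mul,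
        Matrix.mul_smul, Matrix.smul_mul]
    refine ⟨(pull_eq (kah t ht).tr hψ.1 hw (hm hw) hi).trans e2.symm, ?_⟩
    have h1 := h.dt t ht i _ (mem hi (hm hw))
    simp only [inC_apply hi] at h1
    refine h1.congr_deriv ?_
    have h2 := ldet_pbk (g := gM G φ t i) (h.pos t ht i _ (mem hi (hm hw))) hr.det
    have h3 := ldet_pbk hr.kah.posDef hr.det
    unfold ldet at h2 h3 ⊢
    rw [e2, hr.eq.self_of_nhds, h2, h3]
    simp only [rd]
    ring

end Crest.Agent.T223.St
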