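import Crest.Agent.T223.StDefB_88
import Crest.Agent.T223.OsKitA_61
import Crest.Agent.T223.OsTch_24

/-!
# Row 223, STEP (helper88): tools for the Picard data (invariance and smoothness of the nonlinearity)
-/

set_option autoImplicit false
set_option linter.unusedVariables false
set_option linter.unusedSectionVars false

open Set Filter Topology Metric
open scoped ContDiff ComplexConjugate Matrix ComplexOrder

namespace Crest.Agent.T223.St

open Crest.Agent.R275.Geo Crest.Agent.R275.EDR890 Crest.Agent.R273.Hess_333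
open Crest.Agent.R273.HessB_333
open Crest.Agent.T223.Tr Crest.Agent.T223.Os
open Crest.Agent.T223.Db (eR zm rm dom SmST)
open Crest.Agent.N207.P (En d1 pd Lop Yl)
open Crest.Agent.T223.Lx (d2 WH WS CB)

noncomputable section

variable {n : ℕ}

theorem lip_sT : ∃ L : ℝ, 0 ≤ L ∧ ∀ a b : ℝ,
    |Real.smoothTransition a - Real.smoothTransition b| ≤ L * |a - b| := by
  obtain ⟨L, hL⟩ := LocallyLipschitzOn.exists_lipschitzOnWith_of_compact
    (f := Real.smoothTransition) (isCompact_Icc (a := (0 : ℝ)) (b := 1)) fun x hx => by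
      obtain ⟨L, t, ht, hL⟩ := (Real.smoothTransition.contDiffAt (n := 1) (x := x)
        ).exists_lipschitzOnWith
      exact ⟨L, t, mem_nhdsWithin_of_mem_nhds ht, hL⟩
  refine ⟨L, L.2, fun a b => ?_⟩
  rw [← Real.smoothTransition.projIcc (x := a), ← Real.smoothTransition.projIcc (x := b)]
  exact (hL.norm_sub_le (projIcc (0 : ℝ) 1 zero_le_one a).2 (projIcc (0 : ℝ) 1 zero_le_one b).2).trans
    (mul_le_mul_of_nonneg_left (abs_projIcc_sub_projIcc _) L.2)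

theorem cdo_wd {a b : ℝ} (hab : a < b) {D : Set (Cn n)} (hD : IsOpen D) {f : ℝ → Cn n → ℂ}
    (hf : ContDiffOn ℝ ∞ (fun q : ℝ × Cn n => f q.1 q.2) (Icc a b ×ˢ D)) (s : WI n) :
    ContDiffOn ℝ ∞ (fun q : ℝ × Cn n => wd s (f q.1) q.2) (Icc a b ×ˢ D) :=
  (wdLc s : (Cn n →L[ℝ] ℂ) →L[ℝ] ℂ).contDiff.comp_contDiffOn (T24.cdOn_fderiv_slice hab hD hf)

theorem cdo_hess {a b : ℝ} (hab : a < b) {D : Set (Cn n)} (hD : IsOpen D) {f : ℝ → Cn n → ℝ}
    (hf : ContDiffOn ℝ ∞ (fun q : ℝ × Cn n => f q.1 q.2) (Icc a b ×ˢ D)) (k l : Fin n) :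
    ContDiffOn ℝ ∞ (fun q : ℝ × Cn n => hess (f q.1) q.2 k l) (Icc a b ×ˢ D) :=
  cdo_wd hab hD (f := fun s => wd (true, l) (cu (f s)))
    (cdo_wd hab hD (f := fun s => cu (f s)) (Complex.ofRealCLM.contDiff.comp_contDiffOn hf) _) _

theorem cdo_rr2 {V : Type*} [NormedAddCommGroup V] [NormedSpace ℝ V] {I : Set ℝ}
    {F : ℝ → Cn n → V} (h : ContDiffOn ℝ ∞ (fun q : ℝ × Cn n => F q.1 q.2) (I ×ˢ ball 0 (RR n))) :
    ContDiffOn ℝ ∞ (fun q : ℝ × En (2 * n) => rr (F q.1) q.2) (I ×ˢ ball 0 2) :=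
  h.comp (contDiff_fst.prodMk ((eR n).symm.contDiff.comp contDiff_snd)).contDiffOn
    fun _ hq => ⟨hq.1, symm_mem hq.2⟩

theorem posDef_of_pull {J g : Mat n} (hJ : J.det ≠ 0) (h : (Jᵀ * g * J.map conj).PosDef) :
    g.PosDef := by
  have hu : IsUnit J.det := hJ.isUnit
  have h1 := posDef_pull (J := J⁻¹) (Matrix.isUnit_nonsing_inv_det J hu).ne_zero h
  have h2 : (J⁻¹)ᵀ * (Jᵀ * g * J.map conj) * (J⁻¹).map conj =
      (J * J⁻¹)ᵀ * g * (J * J⁻¹).map conj := by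
    rw [Matrix.transpose_mul, Matrix.map_mul]
    simp only [Matrix.mul_assoc]
  rwa [h2, Matrix.mul_nonsing_inv J hu, Matrix.transpose_one, Matrix.map_one _ (map_zero _) (map_one _),
    Matrix.one_mul, Matrix.mul_one] at h1

theorem pull_lin (J G R H : Mat n) (t : ℝ) :
    Jᵀ * G * J.map conj - (t : ℂ) • (Jᵀ * R * J.map conj) + Jᵀ * H * J.map conj =
      Jᵀ * (G - (t : ℂ) • R + H) * J.map conj := by
  simp only [Matrix.mul_add, Matrix.add_mul, Matrix.mul_sub, Matrix.sub_mul, Matrix.mul_smul,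
    Matrix.smul_mul]

theorem Ph0_pull {J : Mat n} (hJ : J.det ≠ 0) (G R H : Mat n) (t : ℝ) :
    Ph0 (Jᵀ * G * J.map conj) (Jᵀ * R * J.map conj) t (Jᵀ * H * J.map conj) = Ph0 G R t H := by
  rw [Ph0, Ph0, pull_lin, det_pull, det_pull, trg_pull hJ,
    mul_div_mul_left _ _ (pow_ne_zero _ (norm_ne_zero_iff.2 hJ))]

section rel

variable {T : Cn n → Cn n} {z : Cn n} {g1 g2 : Cn n → Mat n} {u1 u2 : Cn n → ℝ}

theorem Ph0_rel (h : Rel T z g1 g2) (hu : ContDiffAt ℝ ∞ u2 (T z))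
    (e : u1 =ᶠ[𝓝 z] fun w => u2 (T w)) (t : ℝ) :
    Ph0 (g1 z) (ric g1 z) t (hess u1 z) = Ph0 (g2 (T z)) (ric g2 (T z)) t (hess u2 (T z)) := by
  rw [h.eq0, h.ric, hess_congr e, hess_pbk hu h.hol]
  exact Ph0_pull h.det _ _ _ _

theorem pos_rel (h : Rel T z g1 g2) (hu : ContDiffAt ℝ ∞ u2 (T z))
    (e : u1 =ᶠ[𝓝 z] fun w => u2 (T w)) (t : ℝ)
    (hp : (g1 z - (t : ℂ) • ric g1 z + hess u1 z).PosDef) :
    (g2 (T z) - (t : ℂ) • ric g2 (T z) + hess u2 (T z)).PosDef := by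
  rw [h.eq0, h.ric, hess_congr e, hess_pbk hu h.hol, pbk, pbk, pbk, pull_lin] at hp
  exact posDef_of_pull h.det hp

end rel

variable {M : Type} [TopologicalSpace M] {A : Atl n M} {G : MF A} {U : Set M} {u : M → ℝ}

/-- the nonlinearity on the manifold -/
def N0 (G : MF A) (u : M → ℝ) (t : ℝ) (p : M) : ℝ :=
  Ph0 (G (ch A p) (A.e (ch A p) p)) (ric (G (ch A p)) (A.e (ch A p) p)) t
    (hess (inC A (ch A p) u) (A.e (ch A p) p))

theorem N0_chart (hG : KahOn G U) (hU : IsOpen U) (hu : SmOn A U u) (t : ℝ) {i : A.ι} {z : Cn n}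
    (hz : z ∈ dom A i U) :
    N0 G u t ((A.e i).symm z) = Ph0 (G i z) (ric (G i) z) t (hess (inC A i u) z) := by
  have hi := dom_src hz
  have hc := ch_mem A ((A.e i).symm z)
  have h := Ph0_rel (hG.rel hc hi (hU.mem_nhds hz.2)) (u2 := inC A i u)
    (by rw [tm_apply _ hc]; exact hu.contDiffAt hU hi hz.2) (inC_tm hc hi u) t
  rwa [tm_apply _ hc, dom_inv hz] at h

theorem N0_pull (hG : KahOn G U) (hU : IsOpen U) (hu : SmOn A U u) (t : ℝ) {ψ : Cn n → M}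
    {D : Set (Cn n)} (hψ : Imm A ψ D) (hD : IsOpen D) {w : Cn n} (hw : w ∈ D) (hx : ψ w ∈ U) :
    N0 G u t (ψ w) = Ph0 (pull G ψ w) (ric (pull G ψ) w) t (hess (fun y => u (ψ y)) w) :=
  (Ph0_rel (rel_pull hG hψ hD hw (hU.mem_nhds hx) (ch_mem A _))
    (hu.contDiffAt hU (ch_mem A _) hx) (comp_rd (hψ.1 w hw).1 (ch_mem A _) u) t).symm

theorem trOn_hess (hU : IsOpen U) (hu : SmOn A U u) : TrOn (fun i => hess (inC A i u)) U :=
  fun i j x hx hxU => hess_inC_tm hx.1 hx.2 (hu.contDiffAt hU hx.2 hxU)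

theorem pull_hess (hU : IsOpen U) (hu : SmOn A U u) {ψ : Cn n → M} {D : Set (Cn n)}
    (hψ : Hol A ψ D) (hD : IsOpen D) {w : Cn n} (hw : w ∈ D) (hx : ψ w ∈ U) :
    pull (fun i => hess (inC A i u)) ψ w = hess (fun y => u (ψ y)) w := by
  have hi := ch_mem A (ψ w)
  rw [pull_eq (trOn_hess hU hu) hψ hw hx hi, hess_congr (comp_rd (hψ w hw).1 hi u),
    hess_pbk (hu.contDiffAt hU hi hx) (holAt_rd hψ hD hw hi)]
  rfl

/-- smoothness of the nonlinearity in a chart -/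
theorem cdw_Ph0 {X : Type*} [NormedAddCommGroup X] [NormedSpace ℝ X] {s : Set X} {x : X}
    {g R H : X → Mat n} {t : X → ℝ} (hg : ∀ a b, ContDiffWithinAt ℝ ∞ (fun q => g q a b) s x)
    (hR : ∀ a b, ContDiffWithinAt ℝ ∞ (fun q => R q a b) s x) (ht : ContDiffWithinAt ℝ ∞ t s x)
    (hH : ∀ a b, ContDiffWithinAt ℝ ∞ (fun q => H q a b) s x) (h0 : (g x).det.re ≠ 0)
    (h1 : (g x - (t x : ℂ) • R x + H x).det.re ≠ 0) :
    ContDiffWithinAt ℝ ∞ (fun q => Ph0 (g q) (R q) (t q) (H q)) s x := by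
  have h2 : ContDiffWithinAt ℝ ∞ (fun q => (g q - (t q : ℂ) • R q + H q).det.re) s x :=
    Complex.reCLM.contDiff.comp_contDiffWithinAt (Db.cd_det fun a b =>
      ((hg a b).sub ((Complex.ofRealCLM.contDiff.comp_contDiffWithinAt ht).mul (hR a b))).add (hH a b))
  have h3 : ContDiffWithinAt ℝ ∞ (fun q => (g q).det.re) s x :=
    Complex.reCLM.contDiff.comp_contDiffWithinAt (Db.cd_det hg)
  have h4 : (g x).det ≠ 0 := fun h => h0 (by rw [h, Complex.zero_re])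
  refine ((h2.div h3 h0).log (div_ne_zero h1 h0)).sub ?_
  simp only [trg, Matrix.trace, Matrix.diag_apply, Matrix.mul_apply]
  exact Complex.reCLM.contDiff.comp_contDiffWithinAt (ContDiffWithinAt.sum fun a _ =>
    ContDiffWithinAt.sum fun b _ => (Db.cd_inv hg h4 a b).mul (hH b a))

namespace Fl

variable {u0 ρ0 : M → ℝ} {W : Set M} {ε Kρ : ℝ} {x : M} {ψ : Cn n → M}

theorem flG (h : Fl G u0 ρ0 W ε Kρ x ψ) (hW : IsOpen W) (hG : KahOn G W) : FlG ε (pull G ψ) :=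
  ⟨fun w hw => kahAt_pull hG h.imm isOpen_ball hw (hW.mem_nhds (h.maps hw)), h.ctr, h.dG⟩

theorem lip (h : Fl G u0 ρ0 W ε Kρ x ψ) (hW : IsOpen W) (hρ : SmOn A W ρ0) {w w' : Cn n}
    (hw : w ∈ ball (0 : Cn n) (RR n)) (hw' : w' ∈ ball (0 : Cn n) (RR n)) :
    |ρ0 (ψ w) - ρ0 (ψ w')| ≤ 4 * ‖w - w'‖ :=
  (convex_ball (0 : Cn n) (RR n)).norm_image_sub_le_of_norm_fderiv_le (f := fun y => ρ0 (ψ y))
    (fun w hw => (hρ.cda_pull hW h.imm.1 isOpen_ball hw (h.maps hw)).differentiableAt (by simp))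
    h.dρ1 hw' hw

theorem osc (h : Fl G u0 ρ0 W ε Kρ x ψ) (hW : IsOpen W) (hρ : SmOn A W ρ0) {w : Cn n}
    (hw : w ∈ ball (0 : Cn n) (RR n)) : |ρ0 (ψ w) - ρ0 x| ≤ 4 * RR n := by
  have h1 := h.lip hW hρ hw (mem_ball_self (pos_of_mem_ball hw))
  rw [h.zero, sub_zero] at h1
  linarith [mem_ball_zero_iff.1 hw]

end Fl

theorem zero_mem_RR : (0 : Cn n) ∈ ball (0 : Cn n) (RR n) :=
  mem_ball_self (one_pos.trans_le (one_le_RR n))

theorem symm_mem1 {y : En (2 * n)} (hy : y ∈ ball (0 : En (2 * n)) 1) :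
    (eR n).symm y ∈ ball (0 : Cn n) (RR n) := symm_mem (ball_subset_ball one_le_two hy)

theorem norm_symm_le (y : En (2 * n)) : ‖(eR n).symm y‖ ≤ RR n * ‖y‖ := by
  have h : ‖(eR n).symm y‖ ≤ ‖((eR n).symm : En (2 * n) →L[ℝ] Cn n)‖ * ‖y‖ :=
    ((eR n).symm : En (2 * n) →L[ℝ] Cn n).le_opNorm y
  have h0 := norm_nonneg ((eR n).symm : En (2 * n) →L[ℝ] Cn n)
  refine h.trans (mul_le_mul_of_nonneg_right ?_ (norm_nonneg _))
  unfold RR
  linarith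

theorem isCompact_sub {W : Set M} {ρ0 : M → ℝ} (hρ : SmOn A W ρ0) {c c' : ℝ}
    (hK : IsCompact {x | x ∈ W ∧ ρ0 x ≤ c}) (hc : c' ≤ c) : IsCompact {x | x ∈ W ∧ ρ0 x ≤ c'} := by
  have h := (hρ.continuousOn.mono (fun x hx => hx.1 : {x | x ∈ W ∧ ρ0 x ≤ c} ⊆ W))
  have e : {x | x ∈ W ∧ ρ0 x ≤ c'} = Subtype.val '' {x : {x | x ∈ W ∧ ρ0 x ≤ c} | ρ0 x ≤ c'} := by
    ext x
    exact ⟨fun hx => ⟨⟨x, hx.1, hx.2.trans hc⟩, hx.2, rfl⟩, fun ⟨y, hy, e⟩ => e ▸ ⟨y.2.1, hy⟩⟩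
  rw [e]
  have := isCompact_iff_compactSpace.1 hK
  exact (isClosed_le h.domRestrict continuous_const).isCompact.image continuous_subtype_val

theorem isOpen_sub {W : Set M} {ρ0 : M → ℝ} (hW : IsOpen W) (hρ : SmOn A W ρ0) (c : ℝ) :
    IsOpen {x | x ∈ W ∧ ρ0 x < c} := hρ.continuousOn.isOpen_inter_preimage hW isOpen_Iio

end

end Crest.Agent.T223.St
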