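import Crest.Agent.T223.StDef_88
import Crest.Agent.T223.LxCB_60
import Crest.Agent.T223.FrB_38

/-!
# Row 223, STEP (helper88): the calculus of uniform families `UB` for functions on `ℂⁿ`

`UC r m F` : the family `rr (F i)` is uniformly bounded in `C^{m,1/2} (ball 0 r)`; `UM` : the same for
all entries of a family of matrix fields.
-/

set_option autoImplicit false
set_option linter.unusedVariables false
set_option linter.unusedSectionVars false

open Set Filter Topology Metric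
open scoped ContDiff ComplexConjugate Matrix ComplexOrder

namespace Crest.Agent.T223.St

open Crest.Agent.R275.Geo Crest.Agent.R275.EDR890 Crest.Agent.R273.Hess_333
open Crest.Agent.T223.Tr Crest.Agent.T223.Br
open Crest.Agent.T223.Db (eR)
open Crest.Agent.N207.P (En d1 pd)
open Crest.Agent.T223.Lx

noncomputable section

variable {n : ℕ} {ι : Type*} {r : ℝ} {m : ℕ}

section gen

variable {k : ℕ}

theorem ub_cmul {f g : ι → En k → ℂ} (h : UB r m f) (h' : UB r m g) :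
    UB r m (fun i y => f i y * g i y) := UB.bilin (ContinuousLinearMap.mul ℝ ℂ) h h'

theorem ub_cprod {κ : Type*} (s : Finset κ) {f : κ → ι → En k → ℂ}
    (h : ∀ j ∈ s, UB r m (f j)) : UB r m (fun i y => ∏ j ∈ s, f j i y) := by
  classical
  induction s using Finset.induction_on with
  | empty => simpa using ub_const' (n := k) (ι := ι) (r := r) (m := m) (1 : ℂ)
  | insert j s hj ih =>
    simp only [Finset.prod_insert hj]
    exact ub_cmul (h j (Finset.mem_insert_self _ _))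
      (ih fun j hj => h j (Finset.mem_insert_of_mem hj))

theorem ub_re {f : ι → En k → ℂ} (h : UB r m f) : UB r m (fun i y => (f i y).re) :=
  h.clm Complex.reCLM

theorem ub_ofReal {f : ι → En k → ℝ} (h : UB r m f) : UB r m (fun i y => (f i y : ℂ)) :=
  h.clm Complex.ofRealCLM

theorem ub_conj {f : ι → En k → ℂ} (h : UB r m f) : UB r m (fun i y => conj (f i y)) :=
  h.clm (Complex.conjCLE : ℂ →L[ℝ] ℂ)

theorem ub_cinv {f : ι → En k → ℂ} (h : UB r m f) {c : ℝ} (hc : 0 < c)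
    (h0 : ∀ i, ∀ y ∈ ball (0 : En k) r, c ≤ ‖f i y‖) : UB r m (fun i y => (f i y)⁻¹) := by
  obtain ⟨K, hK⟩ := h.bdd
  refine UB.comp (O := {0}ᶜ) (K0 := closedBall 0 K ∩ {z : ℂ | c ≤ ‖z‖}) isOpen_compl_singleton
    ((isCompact_closedBall _ _).inter_right (isClosed_le continuous_const continuous_norm))
    (fun z hz h => ?_) (fun i y hy => ⟨mem_closedBall_zero_iff.2 (hK i y hy), h0 i y hy⟩)
    (F := fun z : ℂ => z⁻¹) (fun z hz => (contDiffAt_inv ℝ hz).contDiffWithinAt) h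
  have h1 : c ≤ ‖z‖ := hz.2
  rw [mem_singleton_iff.1 h, norm_zero] at h1
  exact absurd hc (not_lt.2 h1)

theorem ub_log {f : ι → En k → ℝ} (h : UB r m f) {c : ℝ} (hc : 0 < c)
    (h0 : ∀ i, ∀ y ∈ ball (0 : En k) r, c ≤ f i y) : UB r m (fun i y => Real.log (f i y)) := by
  obtain ⟨K, hK⟩ := h.bdd
  exact UB.comp (O := {0}ᶜ) (K0 := Icc c K) isOpen_compl_singleton isCompact_Icc
    (fun z hz => (hc.trans_le hz.1).ne') (fun i y hy => ⟨h0 i y hy, (le_abs_self _).trans (hK i y hy)⟩)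
    Real.contDiffOn_log h

/-- all entries of a family of matrix valued functions -/
def UE (r : ℝ) (m : ℕ) (G : ι → En k → Mat n) : Prop := ∀ a b, UB r m fun i y => G i y a b

namespace UE

variable {G H : ι → En k → Mat n}

theorem of_le {m' : ℕ} (hm : m ≤ m') (h : UE r m' G) : UE r m G := fun a b => (h a b).of_le hm

theorem mono {r' : ℝ} (hr : r' ≤ r) (h : UE r m G) : UE r' m G := fun a b => (h a b).mono hr

theorem reindex {ι' : Type*} (σ : ι' → ι) (h : UE r m G) : UE r m fun j => G (σ j) :=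
  fun a b => (h a b).reindex σ

theorem add (h : UE r m G) (h' : UE r m H) : UE r m fun i y => G i y + H i y :=
  fun a b => (h a b).add (h' a b)

theorem sub (h : UE r m G) (h' : UE r m H) : UE r m fun i y => G i y - H i y :=
  fun a b => (h a b).sub (h' a b)

theorem neg (h : UE r m G) : UE r m fun i y => -G i y := fun a b => (h a b).neg

theorem smul {c : ι → En k → ℂ} (hc : UB r m c) (h : UE r m G) :
    UE r m fun i y => c i y • G i y := fun a b => ub_cmul hc (h a b)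

theorem const (c : Mat n) : UE r m fun (_ : ι) (_ : En k) => c := fun a b => ub_const' (c a b)

theorem mul (h : UE r m G) (h' : UE r m H) : UE r m fun i y => G i y * H i y := fun a b => by
  simp only [Matrix.mul_apply]
  exact UB.sum _ fun c _ => ub_cmul (h a c) (h' c b)

theorem det (h : UE r m G) : UB r m fun i y => (G i y).det := by
  simp only [Matrix.det_apply']
  exact UB.sum _ fun σ _ => ub_cmul (ub_const' _) (ub_cprod _ fun a _ => h _ _)

theorem inv (h : UE r m G) {c : ℝ} (hc : 0 < c)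
    (h0 : ∀ i, ∀ y ∈ ball (0 : En k) r, c ≤ (G i y).det.re) : UE r m fun i y => (G i y)⁻¹ := by
  intro a b
  simp only [Matrix.inv_def, Ring.inverse_eq_inv', Matrix.smul_apply, smul_eq_mul,
    Matrix.adjugate_apply]
  refine ub_cmul (ub_cinv h.det hc fun i y hy => (h0 i y hy).trans (Complex.re_le_norm _))
    (det (G := fun i y => (G i y).updateRow b (Pi.single a 1)) fun c d => ?_)
  by_cases hc : c = b
  · subst hc; simp only [Matrix.updateRow_self]; exact ub_const' _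
  · simp only [Matrix.updateRow_ne hc]; exact h c d

theorem trace (h : UE r m G) : UB r m fun i y => (G i y).trace := by
  simp only [Matrix.trace, Matrix.diag_apply]
  exact UB.sum _ fun a _ => h a a

theorem trg (h : UE r m G) {c : ℝ} (hc : 0 < c)
    (h0 : ∀ i, ∀ y ∈ ball (0 : En k) r, c ≤ (G i y).det.re) (h' : UE r m H) :
    UB r m fun i y => trg (G i y) (H i y) := ub_re ((h.inv hc h0).mul h').trace

theorem logdet (h : UE r m G) {c : ℝ} (hc : 0 < c)
    (h0 : ∀ i, ∀ y ∈ ball (0 : En k) r, c ≤ (G i y).det.re) :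
    UB r m fun i y => Real.log (G i y).det.re := ub_log (ub_re h.det) hc h0

theorem bdd (h : UE r m G) : ∃ K : ℝ, 0 ≤ K ∧ ∀ i, ∀ y ∈ ball (0 : En k) r, ∀ a b,
    ‖G i y a b‖ ≤ K := by
  obtain ⟨K, h0, hK⟩ := (UB.of_pi (f := fun i y a b => G i y a b) fun a => UB.of_pi (h a)).bdd'
  exact ⟨K, h0, fun i y hy a b =>
    ((norm_le_pi_norm _ b).trans (norm_le_pi_norm (fun a b => G i y a b) a)).trans (hK i y hy)⟩

end UE

end gen

variable {V : Type*} [NormedAddCommGroup V] [NormedSpace ℝ V]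

omit [NormedAddCommGroup V] [NormedSpace ℝ V] in
@[simp] theorem rr_eR (F : Cn n → V) (w : Cn n) : rr F (eR n w) = F w := by
  rw [rr, ContinuousLinearEquiv.symm_apply_apply]

omit [NormedAddCommGroup V] [NormedSpace ℝ V] in
theorem rr_zero (F : Cn n → V) : rr F 0 = F 0 := by rw [rr, map_zero]

theorem rr_fderiv (F : Cn n → V) (y : En (2 * n)) :
    rr (fderiv ℝ F) y = (fderiv ℝ (rr F) y).comp (eR n : Cn n →L[ℝ] En (2 * n)) := by
  have h := (eR n).comp_right_fderiv (f := rr F) (x := (eR n).symm y)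
  rw [ContinuousLinearEquiv.apply_symm_apply] at h
  rw [← h, rr]
  congr 1
  funext w
  exact (rr_eR F w).symm

theorem fderiv_rr (F : Cn n → V) (y : En (2 * n)) :
    fderiv ℝ (rr F) y = (rr (fderiv ℝ F) y).comp ((eR n).symm : En (2 * n) →L[ℝ] Cn n) :=
  (eR n).symm.comp_right_fderiv

theorem cda_rr {F : Cn n → V} {y : En (2 * n)} {k : WithTop ℕ∞}
    (h : ContDiffAt ℝ k F ((eR n).symm y)) : ContDiffAt ℝ k (rr F) y :=
  h.comp y (eR n).symm.contDiff.contDiffAt

theorem cdo_rr {F : Cn n → V} {k : WithTop ℕ∞} (h : ContDiffOn ℝ k F (ball 0 (RR n))) :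
    ContDiffOn ℝ k (rr F) (ball 0 2) :=
  h.comp (eR n).symm.contDiff.contDiffOn fun _ hy => symm_mem hy

/-- the family `F` read in real coordinates is bounded in `C^{m,1/2} (ball 0 r)` -/
def UC (r : ℝ) (m : ℕ) (F : ι → Cn n → V) : Prop := UB r m fun i => rr (F i)

/-- the same for matrix fields -/
def UM (r : ℝ) (m : ℕ) (G : ι → Cn n → Mat n) : Prop := UE r m fun i => rr (G i)

theorem UC.fderiv {F : ι → Cn n → V} (h : UC r (m + 1) F) : UC r m fun i => fderiv ℝ (F i) :=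
  ((UB.fderiv h).clm ((ContinuousLinearMap.compL ℝ (Cn n) (En (2 * n)) V).flip
    (eR n : Cn n →L[ℝ] En (2 * n)))).congr fun i y _ => rr_fderiv _ y

theorem UC.wd {F : ι → Cn n → ℂ} (h : UC r (m + 1) F) (s : WI n) :
    UC r m fun i => wd s (F i) :=
  (UB.clm (wdLc s : (Cn n →L[ℝ] ℂ) →L[ℝ] ℂ) h.fderiv).congr fun _ _ _ => rfl

theorem UC.cu {u : ι → Cn n → ℝ} (h : UC r m u) : UC r m fun i => cu (u i) := ub_ofReal h

theorem UC.hess {u : ι → Cn n → ℝ} (h : UC r (m + 2) u) : UM r m fun i => hess (u i) :=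
  fun a b => (h.cu.wd (true, b)).wd (false, a)

theorem UC.dz {u : ι → Cn n → ℝ} (h : UC r (m + 1) u) (a : Fin n) :
    UC r m fun i w => dz (u i) w a := h.cu.wd (false, a)

namespace UM

variable {G H : ι → Cn n → Mat n} {c : ℝ}

theorem wdM (h : UM r (m + 1) G) (s : WI n) : UM r m fun i => wdM s (G i) :=
  fun a b => UC.wd (F := fun i w => G i w a b) (h a b) s

theorem ldet (h : UM r m G) (hc : 0 < c)
    (h0 : ∀ i, ∀ y ∈ ball (0 : En (2 * n)) r, c ≤ (rr (G i) y).det.re) :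
    UC r m fun i => ldet (G i) := UE.logdet h hc h0

theorem ric (h : UM r (m + 2) G) (hc : 0 < c)
    (h0 : ∀ i, ∀ y ∈ ball (0 : En (2 * n)) r, c ≤ (rr (G i) y).det.re) :
    UM r m fun i => ric (G i) := UE.neg (h.ldet hc h0).hess

theorem scal (h : UM r (m + 2) G) (hc : 0 < c)
    (h0 : ∀ i, ∀ y ∈ ball (0 : En (2 * n)) r, c ≤ (rr (G i) y).det.re) :
    UC r m fun i => scal (G i) := UE.trg (UE.of_le (Nat.le_add_right m 2) h) hc h0 (h.ric hc h0)

theorem lap (h : UM r m G) (hc : 0 < c)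
    (h0 : ∀ i, ∀ y ∈ ball (0 : En (2 * n)) r, c ≤ (rr (G i) y).det.re) {u : ι → Cn n → ℝ}
    (hu : UC r (m + 2) u) : UC r m fun i => lap (G i) (u i) := UE.trg h hc h0 hu.hess

theorem nabRic (h : UM r (m + 3) G) (hc : 0 < c)
    (h0 : ∀ i, ∀ y ∈ ball (0 : En (2 * n)) r, c ≤ (rr (G i) y).det.re) (k : Fin n) :
    UM r m fun i w => nabRic (G i) w k :=
  UE.sub (UM.wdM (UM.ric (m := m + 1) h hc h0) _)
    (((UE.of_le (Nat.le_add_right m 2) (h.wdM _)).mul
      ((UE.of_le (Nat.le_add_right m 3) h).inv hc h0)).mul (UE.of_le (Nat.le_succ m) (h.ric hc h0)))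

theorem Rm (h : UM r (m + 2) G) (hc : 0 < c)
    (h0 : ∀ i, ∀ y ∈ ball (0 : En (2 * n)) r, c ≤ (rr (G i) y).det.re) (k l : Fin n) :
    UM r m fun i w => Rm (G i) w k l :=
  UE.add (UE.neg ((h.wdM _).wdM _)) (((UE.of_le (Nat.le_succ m) (h.wdM _)).mul
    ((UE.of_le (Nat.le_add_right m 2) h).inv hc h0)).mul (UE.of_le (Nat.le_succ m) (h.wdM _)))

end UM

/-- bounds for the iterated derivatives on `ball 0 (RR n) ⊆ ℂⁿ` give `UC 2` -/
theorem uc_of_cb : ∀ {m : ℕ} {V : Type} [NormedAddCommGroup V] [NormedSpace ℝ V]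
    {F : ι → Cn n → V} {K : ℝ}, (∀ i, ContDiffOn ℝ ∞ (F i) (ball 0 (RR n))) →
    (∀ i, CB (RR n) (m + 1) K (F i)) → UC 2 m F := by
  have hd : ∀ {V : Type} [NormedAddCommGroup V] [NormedSpace ℝ V] {F : ι → Cn n → V},
      (∀ i, ContDiffOn ℝ ∞ (F i) (ball 0 (RR n))) → ∀ i, ∀ y ∈ ball (0 : En (2 * n)) 2,
      DifferentiableAt ℝ (rr (F i)) y := fun h i y hy =>
    ((cdo_rr (h i)).contDiffAt (isOpen_ball.mem_nhds hy)).differentiableAt (by simp)
  intro m
  induction m with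
  | zero =>
    intro V _ _ F K h hK
    refine ub_zero_of_fderiv (A := K) (c := K * ‖((eR n).symm : En (2 * n) →L[ℝ] Cn n)‖)
      (fun i y hy => (hK i).bdd _ (symm_mem hy)) (hd h) fun i y hy => ?_
    rw [fderiv_rr]
    exact (ContinuousLinearMap.opNorm_comp_le _ _).trans (mul_le_mul_of_nonneg_right
      ((cb_succ.1 (hK i)).2.bdd _ (symm_mem hy)) (norm_nonneg _))
  | succ m ih =>
    intro V _ _ F K h hK
    refine ub_of_fderiv ⟨K, fun i y hy => (hK i).bdd _ (symm_mem hy)⟩ (hd h) ?_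
    exact (UB.clm ((ContinuousLinearMap.compL ℝ (En (2 * n)) (Cn n) V).flip
      ((eR n).symm : En (2 * n) →L[ℝ] Cn n))
      (ih (fun i => (h i).fderiv_of_isOpen isOpen_ball (by simp))
        fun i => (cb_succ.1 (hK i)).2)).congr fun i y _ => fderiv_rr _ y

/-- mean value inequality from the centre -/
theorem norm_sub_zero_le {F : Cn n → V} {R c : ℝ}
    (h : ∀ w ∈ ball (0 : Cn n) R, DifferentiableAt ℝ F w)
    (hc : ∀ w ∈ ball (0 : Cn n) R, ‖fderiv ℝ F w‖ ≤ c) {w : Cn n} (hw : w ∈ ball (0 : Cn n) R) :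
    ‖F w - F 0‖ ≤ c * R := by
  have h0 : (0 : Cn n) ∈ ball (0 : Cn n) R := mem_ball_self (pos_of_mem_ball hw)
  refine ((convex_ball (0 : Cn n) R).norm_image_sub_le_of_norm_fderiv_le h hc h0 hw).trans ?_
  rw [sub_zero]
  exact mul_le_mul_of_nonneg_left (mem_ball_zero_iff.1 hw).le ((norm_nonneg _).trans (hc 0 h0))

/-- a function whose derivatives of order `1, …, m + 1` are bounded, minus its value at `0` -/
theorem uc_sub_zero {V : Type} [NormedAddCommGroup V] [NormedSpace ℝ V] {F : ι → Cn n → V} {K : ℝ}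
    (h : ∀ i, ContDiffOn ℝ ∞ (F i) (ball 0 (RR n)))
    (hK : ∀ i j, 1 ≤ j → j ≤ m + 1 → ∀ w ∈ ball (0 : Cn n) (RR n),
      ‖iteratedFDeriv ℝ j (F i) w‖ ≤ K) : UC 2 m fun i w => F i w - F i 0 := by
  refine uc_of_cb (K := K * RR n) (fun i => (h i).sub contDiffOn_const) fun i j hj w hw => ?_
  have h1 : ∀ w ∈ ball (0 : Cn n) (RR n), ‖fderiv ℝ (F i) w‖ ≤ K := fun w hw => by
    rw [← norm_iteratedFDeriv_one]; exact hK i 1 le_rfl (by omega) w hw
  rcases Nat.eq_zero_or_pos j with rfl | hj0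
  · rw [norm_iteratedFDeriv_zero]
    exact norm_sub_zero_le (fun w hw =>
      ((h i).contDiffAt (isOpen_ball.mem_nhds hw)).differentiableAt (by simp)) h1 hw
  · obtain ⟨j, rfl⟩ := Nat.exists_eq_succ_of_ne_zero hj0.ne'
    have h2 : fderiv ℝ (fun w => F i w - F i 0) = fderiv ℝ (F i) := funext fun _ => fderiv_sub_const _
    rw [← norm_iteratedFDeriv_fderiv, h2, norm_iteratedFDeriv_fderiv]
    exact (hK i _ hj0 hj w hw).trans (le_mul_of_one_le_right ((norm_nonneg _).trans (h1 w hw))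
      (one_le_RR n))

/-- a property near the unit matrix -/
theorem exists_near {P : Mat n → Prop} (hP : ∀ᶠ G in 𝓝 (1 : Mat n), P G) :
    ∃ η : ℝ, 0 < η ∧ ∀ G : Mat n, (∀ a b, ‖G a b - (1 : Mat n) a b‖ ≤ η) → P G := by
  obtain ⟨η, h0, h⟩ := (Metric.nhds_basis_closedBall (α := Fin n → Fin n → ℂ)
    (x := (1 : Mat n))).eventually_iff.1 hP
  exact ⟨η, h0, fun G hG => h (mem_closedBall.2 ((dist_pi_le_iff h0.le).2 fun a =>
    (dist_pi_le_iff h0.le).2 fun b => (dist_eq_norm _ _).trans_le (hG a b)))⟩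

theorem near_det : ∀ᶠ G in 𝓝 (1 : Mat n), 1 / 2 ≤ G.det.re := by
  have h : Continuous fun G : Mat n => G.det.re :=
    Complex.continuous_re.comp (continuous_id.matrix_det)
  exact h.continuousAt.eventually_const_le (by simp; norm_num)

theorem abs_nq_le (g : Mat n) (v : Cn n) {ε : ℝ} (h : ∀ a b, ‖g a b‖ ≤ ε) :
    |nq g v| ≤ (n : ℝ) ^ 2 * ε * ‖v‖ ^ 2 := by
  unfold nq
  refine (Complex.abs_re_le_norm _).trans ?_
  refine (norm_sum_le _ _).trans ?_
  have h1 : ∀ a, ‖∑ b, g a b * v a * conj (v b)‖ ≤ n * (ε * ‖v‖ ^ 2) := by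
    intro a
    refine (norm_sum_le _ _).trans ?_
    have h2 : ∀ b, ‖g a b * v a * conj (v b)‖ ≤ ε * ‖v‖ ^ 2 := by
      intro b
      rw [norm_mul, norm_mul, Complex.norm_conj]
      have ha := PiLp.norm_apply_le v a
      have hb := PiLp.norm_apply_le v b
      have h0 : 0 ≤ ε := (norm_nonneg _).trans (h a b)
      calc ‖g a b‖ * ‖v a‖ * ‖v b‖ ≤ ε * ‖v‖ * ‖v‖ := by gcongr; exact h a b
        _ = ε * ‖v‖ ^ 2 := by ring
    calc ∑ b, ‖g a b * v a * conj (v b)‖ ≤ ∑ _b : Fin n, ε * ‖v‖ ^ 2 :=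
          Finset.sum_le_sum fun b _ => h2 b
      _ = n * (ε * ‖v‖ ^ 2) := by simp
  calc ∑ a, ‖∑ b, g a b * v a * conj (v b)‖ ≤ ∑ _a : Fin n, n * (ε * ‖v‖ ^ 2) :=
        Finset.sum_le_sum fun a _ => h1 a
    _ = (n : ℝ) ^ 2 * ε * ‖v‖ ^ 2 := by simp; ring

theorem posDef_of_nq {g : Mat n} (hg : g.IsHermitian) {c : ℝ} (hc : 0 < c)
    (h : ∀ v : Cn n, c * ‖v‖ ^ 2 ≤ nq g v) : g.PosDef := by
  refine Matrix.PosDef.of_dotProduct_mulVec_pos hg fun x hx => ?_
  have h1 := h (WithLp.toLp 2 fun a => conj (x a))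
  rw [nq_eq_dot] at h1
  simp only [Complex.conj_conj] at h1
  have h2 : (WithLp.toLp 2 fun a => conj (x a) : Cn n) ≠ 0 := by
    intro h0
    apply hx
    funext a
    have := congrArg (fun w : Cn n => w a) h0
    simpa using this
  have h3 : 0 < c * ‖(WithLp.toLp 2 fun a => conj (x a) : Cn n)‖ ^ 2 := by
    have := norm_pos_iff.2 h2
    positivity
  refine Complex.lt_def.2 ⟨by simpa using h3.trans_le h1, ?_⟩
  have := hg.im_star_dotProduct_mulVec_self x
  simpa using this.symm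

/-- the standard smallness threshold: a matrix `η0 n`-close to `1` is comparable with `1` -/
theorem exists_η0 (n : ℕ) : ∃ η : ℝ, 0 < η ∧ ∀ G : Mat n, (∀ a b, ‖G a b - (1 : Mat n) a b‖ ≤ η) →
    1 / 2 ≤ G.det.re ∧ (∀ v, ‖v‖ ^ 2 / 2 ≤ nq G v ∧ nq G v ≤ 2 * ‖v‖ ^ 2) ∧
    (G.IsHermitian → G.PosDef) := by
  obtain ⟨η, h0, h⟩ := exists_near (near_det (n := n))
  have h1 : (0 : ℝ) < 1 / (2 * (n ^ 2 + 1)) := by positivity
  refine ⟨min η (1 / (2 * (n ^ 2 + 1))), lt_min h0 h1, fun G hG => ?_⟩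
  have h2 : ∀ v, ‖v‖ ^ 2 / 2 ≤ nq G v ∧ nq G v ≤ 2 * ‖v‖ ^ 2 := fun v => by
    have h3 := abs_nq_le (G - 1) v fun a b => (hG a b).trans (min_le_right _ _)
    have h4 : (n : ℝ) ^ 2 * (1 / (2 * (n ^ 2 + 1))) ≤ 1 / 2 := by
      rw [mul_one_div, div_le_div_iff₀ (by positivity) (by norm_num)]; linarith
    have h5 := abs_le.1 (h3.trans (mul_le_mul_of_nonneg_right h4 (sq_nonneg _)))
    rw [Tr.nq_sub, Tr.nq_one] at h5
    constructor <;> nlinarith [h5.1, h5.2, sq_nonneg ‖v‖]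
  exact ⟨h G fun a b => (hG a b).trans (min_le_left _ _), h2, fun hH =>
    posDef_of_nq hH (c := 1 / 2) (by norm_num) fun v => by linarith [(h2 v).1]⟩

namespace FlG

variable {ε : ℝ} {G : Cn n → Mat n}

theorem cdo (h : FlG ε G) (a b : Fin n) : ContDiffOn ℝ ∞ (fun w => G w a b) (ball 0 (RR n)) :=
  fun w hw => ((h.kah w hw).sm a b).contDiffWithinAt

theorem near (h : FlG ε G) {w : Cn n} (hw : w ∈ ball (0 : Cn n) (RR n)) (a b : Fin n) :
    ‖G w a b - (1 : Mat n) a b‖ ≤ ε * RR n := by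
  rw [← h.ctr]
  exact norm_sub_zero_le (F := fun w => G w a b)
    (fun w hw => ((h.kah w hw).sm a b).differentiableAt (by simp))
    (fun w hw => by rw [← norm_iteratedFDeriv_one]; exact h.dG 1 le_rfl (by norm_num) w hw a b) hw

theorem mono (h : FlG ε G) {ε' : ℝ} (hε : ε ≤ ε') : FlG ε' G :=
  ⟨h.kah, h.ctr, fun j h1 h2 w hw a b => (h.dG j h1 h2 w hw a b).trans hε⟩

end FlG

/-- a family of flat metrics is bounded in `C^{7,1/2}` -/
theorem um_flG {ε : ℝ} {G : ι → Cn n → Mat n} (h : ∀ i, FlG ε (G i)) : UM 2 7 G := fun a b =>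
  (UB.add (uc_sub_zero (F := fun i w => G i w a b) (fun i => (h i).cdo a b)
    fun i j h1 h2 w hw => (h i).dG j h1 h2 w hw a b) (ub_const' ((1 : Mat n) a b))).congr
    fun i y _ => by simp only [rr, (h i).ctr, sub_add_cancel]

end

end Crest.Agent.T223.St
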