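import Crest.Agent.T223.StInt_88
import Crest.Agent.T223.StNem_16
import Crest.Agent.T223.StAsm_88

/-!
# Row 223, STEP (helper88): one step of the local Kaehler-Ricci flow
-/

set_option autoImplicit false

namespace Crest.Agent.T223.St

theorem stepStmt (n : ℕ) : Os.StepStmt n := stepStmt_of2 (nemStmt n) A88.asm

end Crest.Agent.T223.St
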