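import Crest.Agent.T223.Fr_38
import Crest.Agent.T223.TrPb_90
import Crest.Agent.R273.Levi_145

/-!
# Row 223 (S0345), module U0 (helper15): the start function `u_0`

`nsq K s x`  : the squared length `|s|²_K` of a holomorphic `n`-form,
`NF K d`     : at every point there is a non-vanishing `n`-form of exponential growth,
`exists_u0`  : a potential `θ` on `{ρ < a}` with `log |s|² ≤ θ ≤ log (|s|² + 1)`.
-/

set_option autoImplicit false
set_option linter.unusedSectionVars false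

open Set Filter Topology Complex
open scoped ContDiff Matrix ComplexConjugate ComplexOrder

namespace Crest.Agent.T223.U0

open Crest.Agent.R275.Geo Crest.Agent.R275.Core144 Crest.Agent.R275.EDR890
open Crest.Agent.R273 Crest.Agent.R273.Defs_333 Crest.Agent.R273.Hess_333
open Crest.Agent.R273.HessB_333 Crest.Agent.R273.Kah_333 Crest.Agent.R273.Vol_333
open Crest.Agent.T223.Br Crest.Agent.T223.Tr

noncomputable section

variable {n : ℕ} {M : Type} [TopologicalSpace M] {A : Atl n M}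

/-- a function which is smooth in the charts is continuous -/
theorem sm_continuous {W : Type*} [NormedAddCommGroup W] [NormedSpace ℝ W] {f : M → W}
    (hf : A.Sm f) : Continuous f := by
  refine continuous_iff_continuousAt.2 fun x => ?_
  obtain ⟨i, hi⟩ := A.cover x
  have h1 : ContinuousAt (fun z => f ((A.e i).symm z)) (A.e i x) :=
    ((hf i).contDiffAt ((A.e i).open_target.mem_nhds ((A.e i).map_source hi))).continuousAt
  have h2 := ContinuousAt.comp (f := A.e i) h1 ((A.e i).continuousAt hi)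
  refine h2.congr ?_
  filter_upwards [(A.e i).open_source.mem_nhds hi] with y hy
  simp [Function.comp, (A.e i).left_inv hy]

theorem det_gc_pos (K : Kah A) {i : A.ι} {z : Cn n} (hz : z ∈ (A.e i).target) :
    0 < (gc K i z).det.re := Vol_333.det_re_pos (K.pos i _ ((A.e i).map_target hz))

theorem det_gc_smooth (K : Kah A) (i : A.ι) :
    ContDiffOn ℝ ∞ (fun z => (gc K i z).det.re) (A.e i).target := (volK K).sm i

theorem ld_smooth (K : Kah A) (i : A.ι) : ContDiffOn ℝ ∞ (ldet (gc K i)) (A.e i).target :=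
  (det_gc_smooth K i).log fun _ hz => (det_gc_pos K hz).ne'

theorem ld_contDiffAt (K : Kah A) {i : A.ι} {z : Cn n} (hz : z ∈ (A.e i).target) :
    ContDiffAt ℝ ∞ (ldet (gc K i)) z := (ld_smooth K i).contDiffAt ((A.e i).open_target.mem_nhds hz)

/-- the Ricci form is the curvature of `volK K` -/
theorem cur_volK (K : Kah A) {i : A.ι} {z : Cn n} (hz : z ∈ (A.e i).target) :
    cur (volK K) i ((A.e i).symm z) = ric (gc K i) z := by
  rw [cur_read _ _ hz, ric, ← hess_neg (ld_contDiffAt K hz)]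
  rfl

/-- the squared length of an `n`-form -/
def nsq (K : Kah A) (s : A.ι → M → ℂ) (x : M) : ℝ :=
  ‖s (A.cover x).choose x‖ ^ 2 / (K.g (A.cover x).choose x).det.re

theorem nsq_nonneg (K : Kah A) (s : A.ι → M → ℂ) (x : M) : 0 ≤ nsq K s x :=
  div_nonneg (by positivity) (Vol_333.det_re_pos (K.pos _ _ (A.cover x).choose_spec)).le

/-- only the transformation law is needed -/
theorem nsq_eq' (K : Kah A) {s : A.ι → M → ℂ}
    (hs : ∀ i j, ∀ x ∈ (A.e i).source ∩ (A.e j).source, s i x = (KB A).g i j x * s j x)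
    {i : A.ι} {x : M} (hx : x ∈ (A.e i).source) :
    nsq K s x = ‖s i x‖ ^ 2 / (K.g i x).det.re := by
  unfold nsq
  set j := (A.cover x).choose with hj
  have hxj : x ∈ (A.e j).source := (A.cover x).choose_spec
  have h1 : (K.g j x).det.re = ‖((KB A).g i j x)⁻¹‖ ^ 2 * (K.g i x).det.re :=
    (volK K).tr i j x ⟨hx, hxj⟩
  have h2 := (KB A).ne_zero i j x
  have h3 : 0 < (K.g i x).det.re := Vol_333.det_re_pos (K.pos i x hx)
  have h4 : 0 < ‖(KB A).g i j x‖ := norm_pos_iff.2 h2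
  rw [h1, hs i j x ⟨hx, hxj⟩, norm_mul, norm_inv]
  field_simp

theorem nsq_eq (K : Kah A) {s : A.ι → M → ℂ} (hs : IsHS (KB A) univ s) {i : A.ι} {x : M}
    (hx : x ∈ (A.e i).source) : nsq K s x = ‖s i x‖ ^ 2 / (K.g i x).det.re :=
  nsq_eq' K (fun i j x hx => hs.tr i j x hx (mem_univ x)) hx

theorem nsq_read (K : Kah A) {s : A.ι → M → ℂ} (hs : IsHS (KB A) univ s) {i : A.ι} {z : Cn n}
    (hz : z ∈ (A.e i).target) :
    nsq K s ((A.e i).symm z) = ‖s i ((A.e i).symm z)‖ ^ 2 / (gc K i z).det.re :=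
  nsq_eq K hs ((A.e i).map_target hz)

theorem nsq_pos_iff (K : Kah A) {s : A.ι → M → ℂ} (hs : IsHS (KB A) univ s) {i : A.ι} {x : M}
    (hx : x ∈ (A.e i).source) : 0 < nsq K s x ↔ s i x ≠ 0 := by
  rw [nsq_eq K hs hx, div_pos_iff_of_pos_right (Vol_333.det_re_pos (K.pos i x hx))]
  simp [sq_pos_iff]

theorem sec_anal {L : LB A} {s : A.ι → M → ℂ} (hs : IsHS L univ s) {i : A.ι} {z : Cn n}
    (hz : z ∈ (A.e i).target) : AnalyticAt ℂ (fun w => s i ((A.e i).symm w)) z := by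
  have h1 : DifferentiableOn ℂ (fun w => s i ((A.e i).symm w)) (A.e i).target :=
    DifferentiableOn.mono (hs.hol i) fun w hw => ⟨hw, mem_univ _⟩
  exact Crest.Agent.R266.SCV.analyticOnNhd_of_differentiableOn (A.e i).open_target h1 z hz

theorem nsq_sm (K : Kah A) {s : A.ι → M → ℂ} (hs : IsHS (KB A) univ s) : A.Sm (nsq K s) := by
  intro i
  have h1 : ContDiffOn ℝ ∞ (fun z => ‖s i ((A.e i).symm z)‖ ^ 2 / (gc K i z).det.re)
      (A.e i).target := by
    refine ContDiffOn.div (fun z hz => ?_) (det_gc_smooth K i) fun z hz => (det_gc_pos K hz).ne'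
    exact (Levi_145.c2_normSq (sec_anal hs hz) ∞).contDiffWithinAt
  exact h1.congr fun z hz => nsq_read K hs hz

theorem nsq_continuous (K : Kah A) {s : A.ι → M → ℂ} (hs : IsHS (KB A) univ s) :
    Continuous (nsq K s) := sm_continuous (nsq_sm K hs)

theorem nsq_smul (K : Kah A) (c : ℂ) (s : A.ι → M → ℂ) (x : M) :
    nsq K (c • s) x = ‖c‖ ^ 2 * nsq K s x := by
  unfold nsq
  simp only [Pi.smul_apply, smul_eq_mul, norm_mul]
  ring

/-- at every point there is a non-vanishing holomorphic `n`-form of exponential growth -/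
def NF (K : Kah A) (d : M → ℝ) : Prop :=
  ∀ x, ∃ (s : A.ι → M → ℂ) (C : ℝ), IsHS (KB A) univ s ∧ 0 < nsq K s x ∧
    ∀ y, nsq K s y ≤ Real.exp (C * (1 + d y))

theorem pot_mono {K : Kah A} {U V : Set M} {θ : M → ℝ} (h : Pot K U θ) (hV : V ⊆ U) :
    Pot K V θ := ⟨h.sm, fun i x hx hU => h.ge i x hx (hV hU)⟩

theorem pot_of_psd {K : Kah A} {U : Set M} {θ : M → ℝ} (hs : A.Sm θ)
    (h : ∀ i, ∀ z ∈ (A.e i).target, (A.e i).symm z ∈ U →
      (hess (fun w => θ ((A.e i).symm w) + ldet (gc K i) w) z).PosSemidef) : Pot K U θ := by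
  refine ⟨hs, fun i x hx hU v => ?_⟩
  have hz := (A.e i).map_source hx
  have h1 := h i _ hz (by rwa [(A.e i).left_inv hx])
  rw [hess_add (sm_contDiffAt hs i hz) (ld_contDiffAt K hz)] at h1
  have h2 := nq_nonneg h1 v
  have h3 : hess (fun z => θ ((A.e i).symm z)) (A.e i x) + hess (ldet (gc K i)) (A.e i x) =
      hess (inC A i θ) (A.e i x) - ric (gc K i) (A.e i x) := by
    rw [ric, sub_neg_eq_add]; rfl
  rw [h3, nq_sub] at h2
  linarith

/-- `i∂∂̄θ - Ric ≥ 0` as a positive semidefinite matrix -/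
theorem psd_of_pot {K : Kah A} {U : Set M} {θ : M → ℝ} (h : Pot K U θ) {i : A.ι} {x : M}
    (hx : x ∈ (A.e i).source) (hU : x ∈ U) :
    (hess (inC A i θ) (A.e i x) + hess (ldet (gc K i)) (A.e i x)).PosSemidef := by
  have hz := (A.e i).map_source hx
  refine posSemidef_of_nq ((hess_herm (sm_contDiffAt h.sm i hz)).add
    (hess_herm (ld_contDiffAt K hz))) fun v => ?_
  have h3 : hess (inC A i θ) (A.e i x) + hess (ldet (gc K i)) (A.e i x) =
      hess (inC A i θ) (A.e i x) - ric (gc K i) (A.e i x) := by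
    rw [ric, sub_neg_eq_add]
  rw [h3, nq_sub]
  linarith [h.ge i x hx hU v]

theorem lev_eq_four (u : Cn n → ℝ) (z v : Cn n) : lev u z v = 4 * Levi_145.lev u z v := by
  simp only [lev, Levi_145.lev, iteratedFDeriv_two_apply]
  change fderiv ℝ (fderiv ℝ u) z v v + fderiv ℝ (fderiv ℝ u) z (I • v) (I • v) = _
  ring

/-- `log ∑ |F_j|²` is plurisubharmonic -/
theorem psd_log_sumSq {ι : Type*} [Fintype ι] {F : ι → Cn n → ℂ} {z : Cn n}
    (hF : ∀ j, AnalyticAt ℂ (F j) z) (h0 : ∃ j, F j z ≠ 0) :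
    (hess (fun w => Real.log (∑ j, ‖F j w‖ ^ 2)) z).PosSemidef := by
  have h1 : ContDiffAt ℝ ∞ (fun w => Real.log (Levi_145.sumSq F w)) z :=
    (Levi_145.c2_sumSq hF ∞).log (Levi_145.sumSq_pos h0).ne'
  refine posSemidef_hess h1 fun v => ?_
  rw [lev_eq_four]
  have := Levi_145.lev_log_sumSq_nonneg hF h0 v
  exact mul_nonneg (by norm_num) this

/-- `log ∑ |σ_j|²_K` is a potential where it is finite -/
theorem psd_log_nsq (K : Kah A) {ι : Type*} [Fintype ι] {σ : ι → A.ι → M → ℂ}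
    (hσ : ∀ j, IsHS (KB A) univ (σ j)) {θ : M → ℝ} {i : A.ι} {z : Cn n} (hz : z ∈ (A.e i).target)
    (hpos : 0 < ∑ j, nsq K (σ j) ((A.e i).symm z))
    (hθ : ∀ᶠ w in 𝓝 z, θ ((A.e i).symm w) = Real.log (∑ j, nsq K (σ j) ((A.e i).symm w))) :
    (hess (fun w => θ ((A.e i).symm w) + ldet (gc K i) w) z).PosSemidef := by
  have hF : ∀ j, AnalyticAt ℂ (fun w => σ j i ((A.e i).symm w)) z := fun j => sec_anal (hσ j) hz
  have h0 : ∃ j, σ j i ((A.e i).symm z) ≠ 0 := by
    by_contra hc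
    push Not at hc
    have : ∑ j, nsq K (σ j) ((A.e i).symm z) = 0 :=
      Finset.sum_eq_zero fun j _ => by rw [nsq_read K (hσ j) hz, hc j]; simp
    exact hpos.ne' this
  have hp : ∀ᶠ w in 𝓝 z, 0 < ∑ j, ‖σ j i ((A.e i).symm w)‖ ^ 2 := by
    have hc : ContinuousAt (fun w => ∑ j, ‖σ j i ((A.e i).symm w)‖ ^ 2) z :=
      (Levi_145.c2_sumSq hF 0).continuousAt
    exact hc.eventually (lt_mem_nhds (Levi_145.sumSq_pos (F := fun j w => σ j i ((A.e i).symm w)) h0))
  have he : (fun w => θ ((A.e i).symm w) + ldet (gc K i) w) =ᶠ[𝓝 z]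
      fun w => Real.log (∑ j, ‖σ j i ((A.e i).symm w)‖ ^ 2) := by
    filter_upwards [hθ, hp, (A.e i).open_target.mem_nhds hz] with w hw hw' hwt
    rw [hw, Finset.sum_congr rfl fun j _ => nsq_read K (hσ j) hwt, ← Finset.sum_div,
      Real.log_div hw'.ne' (det_gc_pos K hwt).ne', ldet]
    ring
  rw [hess_congr he]
  exact psd_log_sumSq hF h0

/-- **the start function**: `ρ` smooth with `{ρ ≤ a}` compact, `n`-forms without common zero,
`s` any `n`-form. -/
theorem exists_u0 (K : Kah A) {ρ : M → ℝ} (hρ : A.Sm ρ) {a : ℝ} (hc : IsCompact {x | ρ x ≤ a})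
    (hNF : ∀ x, ∃ σ, IsHS (KB A) univ σ ∧ 0 < nsq K σ x) {s : A.ι → M → ℂ}
    (hs : IsHS (KB A) univ s) :
    ∃ θ : M → ℝ, Pot K {x | ρ x < a} θ ∧ (∀ x, nsq K s x ≤ Real.exp (θ x)) ∧
      ∀ x, ρ x ≤ a → Real.exp (θ x) ≤ nsq K s x + 1 := by
  classical
  choose σ hσ hσ0 using hNF
  obtain ⟨t, ht⟩ := hc.elim_finite_subcover (fun x => {y | 0 < nsq K (σ x) y})
    (fun x => isOpen_lt continuous_const (nsq_continuous K (hσ x)))
    (fun x _ => mem_iUnion.2 ⟨x, hσ0 x⟩)
  set S : M → ℝ := fun y => ∑ x : t, nsq K (σ x) y with hS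
  have hSsm : A.Sm S := fun i => ContDiffOn.sum fun x _ => nsq_sm K (hσ x) i
  have hS0 : ∀ y, 0 ≤ S y := fun y => Finset.sum_nonneg fun x _ => nsq_nonneg K _ y
  have hSp : ∀ y, ρ y ≤ a → 0 < S y := by
    intro y hy
    obtain ⟨x, hx, hxy⟩ := mem_iUnion₂.1 (ht hy)
    exact Finset.sum_pos' (fun x _ => nsq_nonneg K _ y) ⟨⟨x, hx⟩, Finset.mem_univ _, hxy⟩
  obtain ⟨B, hB⟩ := hc.bddAbove_image (sm_continuous hSsm).continuousOn
  set c : ℝ := (|B| + 1)⁻¹ with hcdef
  have hcp : 0 < c := by positivity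
  have hcS : ∀ y, ρ y ≤ a → c * S y ≤ 1 := by
    intro y hy
    have h1 : S y ≤ |B| + 1 := (hB ⟨y, hy, rfl⟩).trans ((le_abs_self B).trans (by linarith))
    rw [hcdef, inv_mul_le_iff₀ (by positivity)]
    linarith
  set F : M → ℝ := fun y => nsq K s y + c * S y + expNegInvGlue (ρ y - a) with hF
  have hFp : ∀ y, 0 < F y := by
    intro y
    have h1 := nsq_nonneg K s y
    have h2 := mul_nonneg hcp.le (hS0 y)
    have h3 := expNegInvGlue.nonneg (ρ y - a)
    rcases le_or_gt (ρ y) a with hy | hy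
    · have := mul_pos hcp (hSp y hy)
      simp only [hF]; linarith
    · have := expNegInvGlue.pos_of_pos (sub_pos.2 hy)
      simp only [hF]; linarith
  have hFsm : A.Sm F := fun i =>
    ((nsq_sm K hs i).add (contDiffOn_const.mul (hSsm i))).add
      (expNegInvGlue.contDiff.comp_contDiffOn ((hρ i).sub contDiffOn_const))
  have hFin : ∀ y, ρ y ≤ a → F y = nsq K s y + c * S y := by
    intro y hy
    simp only [hF]
    rw [expNegInvGlue.zero_of_nonpos (sub_nonpos.2 hy), add_zero]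
  refine ⟨fun y => Real.log (F y),
    pot_of_psd (fun i => (hFsm i).log fun z _ => (hFp _).ne') ?_, ?_, ?_⟩
  · intro i z hz hza
    set τ : Option t → A.ι → M → ℂ := fun j =>
      Option.casesOn j s fun x => ((Real.sqrt c : ℝ) : ℂ) • σ x with hτ
    have hτs : ∀ j, IsHS (KB A) univ (τ j) := by
      rintro (_ | x)
      · exact hs
      · exact (hσ x).smul _
    have hsum : ∀ y, ∑ j, nsq K (τ j) y = nsq K s y + c * S y := by
      intro y
      rw [Fintype.sum_option, hS, Finset.mul_sum]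
      congr 1
      refine Finset.sum_congr rfl fun x _ => ?_
      change nsq K (((Real.sqrt c : ℝ) : ℂ) • σ x) y = _
      rw [nsq_smul, Complex.norm_real, Real.norm_eq_abs, sq_abs, Real.sq_sqrt hcp.le]
    have hev : ∀ᶠ w in 𝓝 z, ρ ((A.e i).symm w) < a :=
      (sm_contDiffAt hρ i hz).continuousAt.eventually (gt_mem_nhds hza)
    refine psd_log_nsq K hτs (θ := fun y => Real.log (F y)) hz ?_ ?_
    · rw [hsum, ← hFin _ (le_of_lt hza)]
      exact hFp _
    · filter_upwards [hev] with w hw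
      rw [hsum, hFin _ hw.le]
  · intro x
    rw [Real.exp_log (hFp x)]
    have h2 := mul_nonneg hcp.le (hS0 x)
    have h3 := expNegInvGlue.nonneg (ρ x - a)
    simp only [hF]; linarith
  · intro x hx
    rw [Real.exp_log (hFp x), hFin x hx]
    linarith [hcS x hx]

/-- the form used in the induction: `log |s|² ≤ θ ≤ C (1 + d) + 1` -/
theorem exists_u0' (K : Kah A) {ρ d : M → ℝ} (hρ : A.Sm ρ) {a : ℝ} (hc : IsCompact {x | ρ x ≤ a})
    (hNF : NF K d) {s : A.ι → M → ℂ} (hs : IsHS (KB A) univ s) {b : M → ℝ} (hb0 : ∀ y, 0 ≤ b y)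
    (hb : ∀ y, nsq K s y ≤ Real.exp (b y)) :
    ∃ θ : M → ℝ, Pot K {x | ρ x < a} θ ∧ (∀ x, nsq K s x ≤ Real.exp (θ x)) ∧
      ∀ x, ρ x ≤ a → θ x ≤ b x + 1 := by
  obtain ⟨θ, h1, h2, h3⟩ := exists_u0 K hρ hc
    (fun x => by obtain ⟨σ, C, h, h', -⟩ := hNF x; exact ⟨σ, h, h'⟩) hs
  refine ⟨θ, h1, h2, fun x hx => ?_⟩
  have h4 : 1 ≤ Real.exp (b x) := Real.one_le_exp (hb0 x)
  have h5 : (2 : ℝ) ≤ Real.exp 1 := by linarith [Real.add_one_le_exp (1 : ℝ)]
  have h6 : Real.exp (θ x) ≤ Real.exp (b x + 1) := by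
    rw [Real.exp_add]
    have := h3 x hx
    have := hb x
    nlinarith
  exact Real.exp_le_exp.1 h6

end

end Crest.Agent.T223.U0
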