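import Crest.Agent.T223.U0A_15

/-!
# Row 223 (S0345), module U0 (helper15): the input `NFStmt` of `InitStmt`
-/

set_option autoImplicit false

namespace Crest.Agent.T223.U0

open Crest.Agent.R275.Geo Crest.Agent.R273.Kah_333

/-- NF (79): non-vanishing holomorphic `n`-forms of exponential growth at every point -/
def NFStmt (n : ℕ) : Prop :=
  ∀ (M : Type) [TopologicalSpace M] [T2Space M] [ConnectedSpace M] [SecondCountableTopology M]
    [NoncompactSpace M] (A : Atl n M) (K0 : Kah A) (p : M), Hyp K0 → NF K0 (dK K0 p)

end Crest.Agent.T223.U0
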